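import Mathlib
import Crest.Agent.R105.IsoAF

/-!
Row 131: weighted area formula with multiplicity and comparison through fibrewise injections.
-/

open MeasureTheory Set Function
open scoped ENNReal NNReal

namespace Crest.Agent.R131.Area

variable {E : Type*} [NormedAddCommGroup E] [NormedSpace ℝ E] [FiniteDimensional ℝ E]
  [MeasurableSpace E] [BorelSpace E] [Nontrivial E]

variable (μ : Measure E) [μ.IsAddHaarMeasure]

omit [Nontrivial E] in
/-- Injective case, with the fibre sum written as a sum over the whole space. -/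
theorem lintegral_mult_inj {s : Set E} (hs : MeasurableSet s) {f : E → E} {f' : E → E →L[ℝ] E}
    (hf' : ∀ x ∈ s, HasFDerivWithinAt f (f' x) s x) (hi : InjOn f s)
    {g : E → ℝ≥0∞} (hg : Measurable g) :
    Measurable (fun y => ∑' x, (s ∩ f ⁻¹' {y}).indicator g x) ∧
    ∫⁻ x in s, ENNReal.ofReal |(f' x).det| * g x ∂μ
      = ∫⁻ y, ∑' x, (s ∩ f ⁻¹' {y}).indicator g x ∂μ := by
  classical
  have hemb : MeasurableEmbedding (s.domRestrict f) := measurableEmbedding_of_fderivWithin hs hf' hi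
  set a : E → ℝ≥0∞ := Function.extend (s.domRestrict f) (fun x : s => g x) (fun _ => 0) with ha
  have ham : Measurable a :=
    hemb.measurable_extend (hg.comp measurable_subtype_coe) measurable_const
  have h1 : ∀ x ∈ s, a (f x) = g x := fun x hx =>
    hemb.injective.extend_apply (fun x : s => g x) (fun _ => 0) ⟨x, hx⟩
  have h0 : ∀ y, y ∉ f '' s → a y = 0 := fun y hy => by
    rw [ha, Function.extend_apply']
    rintro ⟨⟨x, hx⟩, rfl⟩
    exact hy ⟨x, hx, rfl⟩
  have hE : (fun y => ∑' x, (s ∩ f ⁻¹' {y}).indicator g x) = a := by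
    funext y
    by_cases hy : y ∈ f '' s
    · obtain ⟨x, hx, rfl⟩ := hy
      rw [h1 x hx, tsum_eq_single x]
      · exact indicator_of_mem (show x ∈ s ∩ f ⁻¹' {f x} from ⟨hx, rfl⟩) g
      · intro x' hx'
        refine indicator_of_notMem (fun h => hx' (hi h.1 hx h.2)) g
    · rw [h0 y hy, ENNReal.tsum_eq_zero]
      intro x
      exact indicator_of_notMem (fun h => hy ⟨x, h.1, h.2⟩) g
  rw [hE]
  refine ⟨ham, ?_⟩
  have hm : MeasurableSet (f '' s) := measurable_image_of_fderivWithin hs hf' hi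
  have h2 : ∫⁻ y, a y ∂μ = ∫⁻ y in f '' s, a y ∂μ := by
    rw [← lintegral_indicator hm]
    congr 1
    funext y
    by_cases hy : y ∈ f '' s
    · rw [indicator_of_mem hy]
    · rw [indicator_of_notMem hy, h0 y hy]
  rw [h2, lintegral_image_eq_lintegral_abs_det_fderiv_mul μ hs hf' hi]
  exact setLIntegral_congr_fun hs fun x hx => by simp only [h1 x hx]

/-- Weighted area formula with multiplicity (fibre sum over the whole space). -/
theorem lintegral_mult' {s : Set E} (hs : MeasurableSet s) {f : E → E} {f' : E → E →L[ℝ] E}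
    (hf' : ∀ x ∈ s, HasFDerivWithinAt f (f' x) s x) (hd : ∀ x ∈ s, (f' x).det ≠ 0)
    {g : E → ℝ≥0∞} (hg : Measurable g) :
    Measurable (fun y => ∑' x, (s ∩ f ⁻¹' {y}).indicator g x) ∧
    ∫⁻ x in s, ENNReal.ofReal |(f' x).det| * g x ∂μ
      = ∫⁻ y, ∑' x, (s ∩ f ⁻¹' {y}).indicator g x ∂μ := by
  classical
  obtain ⟨t, h1, h2, h3, h4⟩ := Crest.Agent.R105.Iso.exists_injOn_partition hf' hd
  have hd' : ∀ n, ∀ x ∈ s ∩ t n, HasFDerivWithinAt f (f' x) (s ∩ t n) x :=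
    fun n x hx => (hf' x hx.1).mono inter_subset_left
  have key := fun n => lintegral_mult_inj μ (hs.inter (h2 n)) (hd' n) (h4 n) hg
  have hE : (fun y => ∑' x, (s ∩ f ⁻¹' {y}).indicator g x)
      = fun y => ∑' n, ∑' x, (s ∩ t n ∩ f ⁻¹' {y}).indicator g x := by
    funext y
    rw [ENNReal.tsum_comm]
    congr 1
    funext x
    by_cases hx : x ∈ s ∩ f ⁻¹' {y}
    · obtain ⟨n, hn⟩ := mem_iUnion.1 (h3 hx.1)
      rw [indicator_of_mem hx, tsum_eq_single n]
      · exact (indicator_of_mem (show x ∈ s ∩ t n ∩ f ⁻¹' {y} from ⟨⟨hx.1, hn⟩, hx.2⟩) g).symm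
      · intro m hm
        exact indicator_of_notMem (fun h => Set.disjoint_left.1 (h1 hm) h.1.2 hn) g
    · rw [indicator_of_notMem hx, eq_comm, ENNReal.tsum_eq_zero]
      intro n
      exact indicator_of_notMem (fun h => hx ⟨h.1.1, h.2⟩) g
  rw [hE]
  refine ⟨Measurable.tsum fun n => (key n).1, ?_⟩
  have hs' : s = ⋃ n, s ∩ t n := by rw [← inter_iUnion, inter_eq_left.2 h3]
  conv_lhs => rw [hs']
  rw [lintegral_iUnion (fun n => hs.inter (h2 n))
    (fun i j hij => (h1 hij).mono inter_subset_right inter_subset_right),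
    lintegral_tsum fun n => (key n).1.aemeasurable]
  congr 1
  funext n
  exact (key n).2

/-- Weighted area formula with multiplicity. -/
theorem lintegral_mult {s : Set E} (hs : MeasurableSet s) {f : E → E} {f' : E → E →L[ℝ] E}
    (hf' : ∀ x ∈ s, HasFDerivWithinAt f (f' x) s x) (hd : ∀ x ∈ s, (f' x).det ≠ 0)
    {g : E → ℝ≥0∞} (hg : Measurable g) :
    ∫⁻ x in s, ENNReal.ofReal |(f' x).det| * g x ∂μ
      = ∫⁻ y, ∑' x : (s ∩ f ⁻¹' {y} : Set E), g x ∂μ := by
  rw [(lintegral_mult' μ hs hf' hd hg).2]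
  congr 1
  funext y
  exact (tsum_subtype _ g).symm

/-- Area formula with the cardinality of the fibres. -/
theorem lintegral_encard {s : Set E} (hs : MeasurableSet s) {f : E → E} {f' : E → E →L[ℝ] E}
    (hf' : ∀ x ∈ s, HasFDerivWithinAt f (f' x) s x) (hd : ∀ x ∈ s, (f' x).det ≠ 0) :
    ∫⁻ x in s, ENNReal.ofReal |(f' x).det| ∂μ
      = ∫⁻ y, ((s ∩ f ⁻¹' {y}).encard : ℝ≥0∞) ∂μ := by
  have := lintegral_mult μ hs hf' hd (g := fun _ => 1) measurable_const
  simp only [mul_one] at this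
  rw [this]
  congr 1
  funext y
  exact ENNReal.tsum_set_one _

/-- Comparison of weighted areas from a comparison of the fibre sums. -/
theorem lintegral_le_of_tsum {s t : Set E} (hs : MeasurableSet s) (ht : MeasurableSet t)
    {f : E → E} {f' : E → E →L[ℝ] E}
    (hfs : ∀ x ∈ s, HasFDerivWithinAt f (f' x) s x) (hds : ∀ x ∈ s, (f' x).det ≠ 0)
    (hft : ∀ x ∈ t, HasFDerivWithinAt f (f' x) t x) (hdt : ∀ x ∈ t, (f' x).det ≠ 0)
    {g h : E → ℝ≥0∞} (hg : Measurable g) (hh : Measurable h)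
    (H : ∀ᵐ y ∂μ, ∑' x : (s ∩ f ⁻¹' {y} : Set E), g x ≤ ∑' x : (t ∩ f ⁻¹' {y} : Set E), h x) :
    ∫⁻ x in s, ENNReal.ofReal |(f' x).det| * g x ∂μ
      ≤ ∫⁻ x in t, ENNReal.ofReal |(f' x).det| * h x ∂μ := by
  rw [lintegral_mult μ hs hfs hds hg, lintegral_mult μ ht hft hdt hh]
  exact lintegral_mono_ae H

/-- Comparison of weighted areas through fibrewise injections. -/
theorem lintegral_le_of_inj {s t : Set E} (hs : MeasurableSet s) (ht : MeasurableSet t)
    {f : E → E} {f' : E → E →L[ℝ] E}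
    (hfs : ∀ x ∈ s, HasFDerivWithinAt f (f' x) s x) (hds : ∀ x ∈ s, (f' x).det ≠ 0)
    (hft : ∀ x ∈ t, HasFDerivWithinAt f (f' x) t x) (hdt : ∀ x ∈ t, (f' x).det ≠ 0)
    {g h : E → ℝ≥0∞} (hg : Measurable g) (hh : Measurable h)
    (H : ∀ᵐ y ∂μ, ∃ io : E → E, InjOn io (s ∩ f ⁻¹' {y}) ∧
      MapsTo io (s ∩ f ⁻¹' {y}) (t ∩ f ⁻¹' {y}) ∧ ∀ x ∈ s ∩ f ⁻¹' {y}, g x ≤ h (io x)) :
    ∫⁻ x in s, ENNReal.ofReal |(f' x).det| * g x ∂μ
      ≤ ∫⁻ x in t, ENNReal.ofReal |(f' x).det| * h x ∂μ := by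
  refine lintegral_le_of_tsum μ hs ht hfs hds hft hdt hg hh ?_
  filter_upwards [H] with y ⟨io, h1, h2, h3⟩
  calc ∑' x : (s ∩ f ⁻¹' {y} : Set E), g x
      ≤ ∑' x : (s ∩ f ⁻¹' {y} : Set E), h (io x) := ENNReal.tsum_le_tsum fun x => h3 x x.2
    _ ≤ _ := ENNReal.tsum_comp_le_tsum_of_injective (f := h2.restrict io _ _)
        ((h2.restrict_inj).2 h1) (fun x : (t ∩ f ⁻¹' {y} : Set E) => h x)

/-- Comparison of areas from a comparison of fibre cardinalities. -/
theorem lintegral_le_of_encard {s t : Set E} (hs : MeasurableSet s) (ht : MeasurableSet t)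
    {f : E → E} {f' : E → E →L[ℝ] E}
    (hfs : ∀ x ∈ s, HasFDerivWithinAt f (f' x) s x) (hds : ∀ x ∈ s, (f' x).det ≠ 0)
    (hft : ∀ x ∈ t, HasFDerivWithinAt f (f' x) t x) (hdt : ∀ x ∈ t, (f' x).det ≠ 0)
    (H : ∀ᵐ y ∂μ, (s ∩ f ⁻¹' {y}).encard ≤ (t ∩ f ⁻¹' {y}).encard) :
    ∫⁻ x in s, ENNReal.ofReal |(f' x).det| ∂μ ≤ ∫⁻ x in t, ENNReal.ofReal |(f' x).det| ∂μ := by
  rw [lintegral_encard μ hs hfs hds, lintegral_encard μ ht hft hdt]
  refine lintegral_mono_ae ?_
  filter_upwards [H] with y hy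
  exact ENat.toENNReal_le.2 hy

omit [Nontrivial E] in
/-- Sard: almost every value has no preimage in `s` with vanishing determinant. -/
theorem ae_det_ne_zero {s : Set E} {f : E → E} {f' : E → E →L[ℝ] E}
    (hf' : ∀ x ∈ s, HasFDerivWithinAt f (f' x) s x) :
    ∀ᵐ y ∂μ, ∀ x ∈ s, f x = y → (f' x).det ≠ 0 := by
  have h := addHaar_image_eq_zero_of_det_fderivWithin_eq_zero μ
    (s := s ∩ {x | (f' x).det = 0}) (f := f) (f' := f')
    (fun x hx => (hf' x hx.1).mono inter_subset_left) (fun x hx => hx.2)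
  filter_upwards [compl_mem_ae_iff.2 h] with y hy x hx hxy h0
  exact hy ⟨x, ⟨hx, h0⟩, hxy⟩

end Crest.Agent.R131.Area
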