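import Mathlib
import Crest.Agent.Lib.RMT.Basic

/-! Row 131: from weighted area bounds to integral means. -/

open Set Metric MeasureTheory Filter
open scoped ENNReal Topology

namespace Crest.Agent.R131

/-- Uniform weighted area bound on the class `S`. -/
def AreaBound (s b : ℝ) : Prop :=
  ∃ C : ℝ, ∀ f : ℂ → ℂ, DifferentiableOn ℂ f (ball 0 1) → InjOn f (ball 0 1) → f 0 = 0 →
    deriv f 0 = 1 →
    ∫⁻ z in ball (0 : ℂ) 1, ENNReal.ofReal (‖deriv f z‖ ^ (-s) * (1 - ‖z‖ ^ 2) ^ (b - 1)) ≤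
      ENNReal.ofReal C

/-- The same bound, only for maps univalent on a larger disc. -/
def AreaBoundR (s b : ℝ) : Prop :=
  ∃ C : ℝ, ∀ (R : ℝ) (f : ℂ → ℂ), 1 < R → DifferentiableOn ℂ f (ball 0 R) → InjOn f (ball 0 R) →
    f 0 = 0 → deriv f 0 = 1 →
    ∫⁻ z in ball (0 : ℂ) 1, ENNReal.ofReal (‖deriv f z‖ ^ (-s) * (1 - ‖z‖ ^ 2) ^ (b - 1)) ≤
      ENNReal.ofReal C

/-- Weak bound for the pre-Schwarzian derivative. -/
def PreSchw : Prop :=
  ∃ K : ℝ, ∀ f : ℂ → ℂ, DifferentiableOn ℂ f (ball 0 1) → InjOn f (ball 0 1) →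
    ∀ z ∈ ball (0 : ℂ) 1, (1 - ‖z‖) * ‖deriv (deriv f) z‖ ≤ K * ‖deriv f z‖

theorem asm_deriv_ne {f : ℂ → ℂ} (hf : DifferentiableOn ℂ f (ball 0 1))
    (hi : InjOn f (ball 0 1)) {z : ℂ} (hz : z ∈ ball (0 : ℂ) 1) : deriv f z ≠ 0 :=
  Crest.Agent.Lib.RMT.deriv_ne_zero_of_injOn isOpen_ball hf hi hz

theorem asm_meas (f : ℂ → ℂ) (s b : ℝ) :
    Measurable fun z : ℂ => ENNReal.ofReal (‖deriv f z‖ ^ (-s) * (1 - ‖z‖ ^ 2) ^ (b - 1)) := by
  have h1 : Measurable (deriv f) := measurable_deriv f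
  refine Measurable.ennreal_ofReal ?_
  exact (h1.norm.pow_const _).mul ((measurable_const.sub (measurable_norm.pow_const 2)).pow_const _)

/-- Dilation step. -/
theorem areaBound_of_R {s b : ℝ} (h : AreaBoundR s b) : AreaBound s b := by
  obtain ⟨C, hC⟩ := h
  refine ⟨C, fun f hf hi h0 h1 => ?_⟩
  set r : ℕ → ℝ := fun n => 1 - 1 / ((n : ℝ) + 2) with hr
  have hr0 : ∀ n, 0 < r n := fun n => by
    have h2 : (0 : ℝ) ≤ n := Nat.cast_nonneg n
    have : 1 / ((n : ℝ) + 2) < 1 := by rw [div_lt_one (by linarith)]; linarith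
    simp only [hr]; linarith
  have hr1 : ∀ n, r n < 1 := fun n => by
    have h2 : (0 : ℝ) ≤ n := Nat.cast_nonneg n
    have : 0 < 1 / ((n : ℝ) + 2) := by positivity
    simp only [hr]; linarith
  have hrt : Tendsto r atTop (𝓝 1) := by
    have h3 : Tendsto (fun n : ℕ => 1 / ((n : ℝ) + 2)) atTop (𝓝 0) := by
      have := (tendsto_natCast_atTop_atTop (R := ℝ)).atTop_add (tendsto_const_nhds (x := (2 : ℝ)))
      exact (this.inv_tendsto_atTop).congr fun n => by simp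
    have h4 := (tendsto_const_nhds (x := (1 : ℝ))).sub h3
    rw [sub_zero] at h4
    exact h4
  set g : ℕ → ℂ → ℂ := fun n z => f ((r n : ℂ) * z) / (r n : ℂ) with hg
  have hmem : ∀ n, ∀ z ∈ ball (0 : ℂ) (1 / r n), (r n : ℂ) * z ∈ ball (0 : ℂ) 1 := by
    intro n z hz
    rw [mem_ball_zero_iff] at hz ⊢
    rw [norm_mul, Complex.norm_real, Real.norm_eq_abs, abs_of_pos (hr0 n)]
    rw [lt_div_iff₀ (hr0 n)] at hz
    linarith
  have hrc : ∀ n, (r n : ℂ) ≠ 0 := fun n => by exact_mod_cast (hr0 n).ne'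
  have hder : ∀ n, ∀ z ∈ ball (0 : ℂ) (1 / r n),
      HasDerivAt (g n) (deriv f ((r n : ℂ) * z)) z := by
    intro n z hz
    have h2 : HasDerivAt f (deriv f ((r n : ℂ) * z)) ((r n : ℂ) * z) :=
      (hf.differentiableAt (isOpen_ball.mem_nhds (hmem n z hz))).hasDerivAt
    have h3 : HasDerivAt (fun z : ℂ => (r n : ℂ) * z) (r n : ℂ) z := by
      simpa using (hasDerivAt_id z).const_mul (r n : ℂ)
    have h4 := (h2.comp z h3).div_const (r n : ℂ)
    have h5 : deriv f ((r n : ℂ) * z) * (r n : ℂ) / (r n : ℂ) = deriv f ((r n : ℂ) * z) := by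
      field_simp [hrc n]
    rw [h5] at h4
    exact h4
  have hR : ∀ n, 1 < 1 / r n := fun n => by
    rw [lt_div_iff₀ (hr0 n)]; linarith [hr1 n]
  have hb : ∀ n, ∫⁻ z in ball (0 : ℂ) 1,
      ENNReal.ofReal (‖deriv (g n) z‖ ^ (-s) * (1 - ‖z‖ ^ 2) ^ (b - 1)) ≤ ENNReal.ofReal C := by
    intro n
    refine hC (1 / r n) (g n) (hR n) (fun z hz => (hder n z hz).differentiableAt.differentiableWithinAt)
      ?_ ?_ ?_
    · intro z hz w hw hzw
      have h2 : f ((r n : ℂ) * z) = f ((r n : ℂ) * w) := by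
        simp only [hg] at hzw
        rwa [div_left_inj' (hrc n)] at hzw
      exact mul_left_cancel₀ (hrc n) (hi (hmem n z hz) (hmem n w hw) h2)
    · simp [hg, h0]
    · rw [(hder n 0 (mem_ball_self (by have := hR n; linarith))).deriv]; simpa using h1
  have hlim : ∀ z ∈ ball (0 : ℂ) 1, Tendsto (fun n =>
      ENNReal.ofReal (‖deriv (g n) z‖ ^ (-s) * (1 - ‖z‖ ^ 2) ^ (b - 1))) atTop
      (𝓝 (ENNReal.ofReal (‖deriv f z‖ ^ (-s) * (1 - ‖z‖ ^ 2) ^ (b - 1)))) := by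
    intro z hz
    have e : ∀ n, deriv (g n) z = deriv f ((r n : ℂ) * z) := fun n =>
      (hder n z (ball_subset_ball (hR n).le hz)).deriv
    simp only [e]
    refine (ENNReal.continuous_ofReal.tendsto _).comp ?_
    refine Tendsto.mul_const _ ?_
    have hc : ContinuousAt (deriv f) z :=
      (hf.deriv isOpen_ball).continuousOn.continuousAt (isOpen_ball.mem_nhds hz)
    have h2 : Tendsto (fun n => (r n : ℂ) * z) atTop (𝓝 z) := by
      have := ((Complex.continuous_ofReal.tendsto 1).comp hrt).mul_const z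
      simpa using this
    have h3 := (hc.tendsto.comp h2).norm
    exact h3.rpow_const (Or.inl (norm_ne_zero_iff.2 (asm_deriv_ne hf hi hz)))
  calc ∫⁻ z in ball (0 : ℂ) 1, ENNReal.ofReal (‖deriv f z‖ ^ (-s) * (1 - ‖z‖ ^ 2) ^ (b - 1))
      = ∫⁻ z in ball (0 : ℂ) 1, liminf (fun n =>
          ENNReal.ofReal (‖deriv (g n) z‖ ^ (-s) * (1 - ‖z‖ ^ 2) ^ (b - 1))) atTop := by
        refine setLIntegral_congr_fun measurableSet_ball fun z hz => ?_
        exact ((hlim z hz).liminf_eq).symm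
    _ ≤ liminf (fun n => ∫⁻ z in ball (0 : ℂ) 1,
          ENNReal.ofReal (‖deriv (g n) z‖ ^ (-s) * (1 - ‖z‖ ^ 2) ^ (b - 1))) atTop :=
        lintegral_liminf_le fun n => asm_meas (g n) s b
    _ ≤ ENNReal.ofReal C := liminf_le_of_frequently_le' (Frequently.of_forall hb)

/-- Radial comparison of the derivative. -/
theorem asm_radial {K : ℝ} (hK : 0 ≤ K) {f : ℂ → ℂ} (hf : DifferentiableOn ℂ f (ball 0 1))
    (hp : ∀ z ∈ ball (0 : ℂ) 1, (1 - ‖z‖) * ‖deriv (deriv f) z‖ ≤ K * ‖deriv f z‖)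
    {e : ℂ} (he : ‖e‖ = 1) {r t : ℝ} (hr0 : 0 ≤ r) (hr1 : r < 1) (hrt : r ≤ t)
    (ht : t ≤ (1 + r) / 2) :
    ‖deriv f ((t : ℂ) * e)‖ ≤ Real.exp K * ‖deriv f ((r : ℂ) * e)‖ := by
  have hf' : DifferentiableOn ℂ (deriv f) (ball 0 1) := hf.deriv isOpen_ball
  have hn : ∀ x : ℝ, 0 ≤ x → ‖(x : ℂ) * e‖ = x := fun x hx => by
    rw [norm_mul, he, mul_one, Complex.norm_real, Real.norm_eq_abs, abs_of_nonneg hx]
  have hd : ∀ x ∈ Icc r ((1 + r) / 2), HasDerivAt (fun x : ℝ => deriv f ((x : ℂ) * e))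
      (deriv (deriv f) ((x : ℂ) * e) * e) x := by
    intro x hx
    have hm : (x : ℂ) * e ∈ ball (0 : ℂ) 1 := by
      rw [mem_ball_zero_iff, hn x (hr0.trans hx.1)]; linarith [hx.2]
    have h2 : HasDerivAt (deriv f) (deriv (deriv f) ((x : ℂ) * e)) ((x : ℂ) * e) :=
      (hf'.differentiableAt (isOpen_ball.mem_nhds hm)).hasDerivAt
    have h3 : HasDerivAt (fun z : ℂ => z * e) e (x : ℂ) := by
      simpa using (hasDerivAt_id (x : ℂ)).mul_const e
    exact (h2.comp (x : ℂ) h3).comp_ofReal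
  have hL : 0 < 1 - r := by linarith
  have key := norm_le_gronwallBound_of_norm_deriv_right_le
    (f := fun x : ℝ => deriv f ((x : ℂ) * e))
    (f' := fun x : ℝ => deriv (deriv f) ((x : ℂ) * e) * e)
    (δ := ‖deriv f ((r : ℂ) * e)‖) (K := 2 * K / (1 - r)) (ε := 0) (a := r) (b := (1 + r) / 2)
    (fun x hx => (hd x hx).continuousAt.continuousWithinAt)
    (fun x hx => (hd x ⟨hx.1, hx.2.le⟩).hasDerivWithinAt) le_rfl
    (fun x hx => by
      have hm : (x : ℂ) * e ∈ ball (0 : ℂ) 1 := by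
        rw [mem_ball_zero_iff, hn x (hr0.trans hx.1)]; linarith [hx.2]
      have h2 := hp _ hm
      rw [hn x (hr0.trans hx.1)] at h2
      rw [norm_mul, he, mul_one, add_zero, div_mul_eq_mul_div, le_div_iff₀ hL]
      have h3 : (1 - r) ≤ 2 * (1 - x) := by linarith [hx.2]
      have h4 := norm_nonneg (deriv (deriv f) ((x : ℂ) * e))
      nlinarith) t ⟨hrt, ht⟩
  rw [gronwallBound_ε0] at key
  refine key.trans ?_
  rw [mul_comm]
  refine mul_le_mul_of_nonneg_right (Real.exp_le_exp.2 ?_) (norm_nonneg _)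
  rw [div_mul_eq_mul_div, div_le_iff₀ hL]
  nlinarith

theorem asm_wt {r t b : ℝ} (hr0 : 0 ≤ r) (hr1 : r < 1) (hrt : r ≤ t) (ht : t ≤ (1 + r) / 2) :
    (2 : ℝ) ^ (-|b - 1|) * (1 - r) ^ (b - 1) ≤ (1 - t ^ 2) ^ (b - 1) := by
  have hL : 0 < 1 - r := by linarith
  have h1 : (1 - r) / 2 ≤ 1 - t ^ 2 := by nlinarith
  have h2 : 1 - t ^ 2 ≤ 2 * (1 - r) := by nlinarith
  rcases le_total 0 (b - 1) with hb | hb
  · rw [abs_of_nonneg hb]
    have h3 := Real.rpow_le_rpow (by positivity) h1 hb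
    rw [Real.div_rpow hL.le (by norm_num)] at h3
    rw [Real.rpow_neg (by norm_num)]
    rwa [div_eq_mul_inv, mul_comm] at h3
  · rw [abs_of_nonpos hb, neg_neg]
    have h3 := Real.rpow_le_rpow_of_nonpos (by linarith) h2 hb
    rwa [Real.mul_rpow (by norm_num) hL.le] at h3

/-- From the area bound to the integral means. -/
theorem means_of_area (hP : PreSchw) {s b : ℝ} (hs : 0 ≤ s) (hA : AreaBound s b) :
    ∃ C : ℝ, ∀ f : ℂ → ℂ, DifferentiableOn ℂ f (ball 0 1) → InjOn f (ball 0 1) → f 0 = 0 →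
      deriv f 0 = 1 → ∀ r : ℝ, 1 / 2 ≤ r → r < 1 →
      ∫⁻ θ in Ioc (-Real.pi) Real.pi,
          ENNReal.ofReal (‖deriv f ((r : ℂ) * Complex.exp ((θ : ℂ) * Complex.I))‖ ^ (-s)) ≤
        ENNReal.ofReal (2 * Real.pi * C * (1 - r) ^ (-b)) := by
  obtain ⟨K0, hK0⟩ := hP
  obtain ⟨C0, hC0⟩ := hA
  set K := max K0 0 with hKdef
  set C := max C0 0 with hCdef
  have hK : 0 ≤ K := le_max_right _ _
  have hC : 0 ≤ C := le_max_right _ _
  set A : ℝ := (2 : ℝ) ^ (-|b - 1|) * Real.exp K ^ (-s) / 4 with hAdef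
  have hA0 : 0 < A := by positivity
  refine ⟨C / A / (2 * Real.pi), fun f hf hi h0 h1 r hr0 hr1 => ?_⟩
  have hp : ∀ z ∈ ball (0 : ℂ) 1, (1 - ‖z‖) * ‖deriv (deriv f) z‖ ≤ K * ‖deriv f z‖ :=
    fun z hz => (hK0 f hf hi z hz).trans
      (mul_le_mul_of_nonneg_right (le_max_left _ _) (norm_nonneg _))
  have hL : 0 < 1 - r := by linarith
  set G : ℝ → ℝ≥0∞ := fun θ =>
    ENNReal.ofReal (‖deriv f ((r : ℂ) * Complex.exp ((θ : ℂ) * Complex.I))‖ ^ (-s)) with hG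
  have hGm : Measurable G := by
    refine Measurable.ennreal_ofReal ?_
    refine Measurable.pow_const (Measurable.norm ((measurable_deriv f).comp ?_)) _
    exact (by fun_prop : Continuous fun θ : ℝ =>
      (r : ℂ) * Complex.exp ((θ : ℂ) * Complex.I)).measurable
  set F : ℂ → ℝ≥0∞ := fun z =>
    ENNReal.ofReal (‖deriv f z‖ ^ (-s) * (1 - ‖z‖ ^ 2) ^ (b - 1)) with hF
  set a : ℝ := 2 * A * (1 - r) ^ (b - 1) with ha
  have ha0 : 0 < a := by positivity
  have hsub : Ioo r ((1 + r) / 2) ×ˢ Ioo (-Real.pi) Real.pi ⊆ polarCoord.target := by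
    rintro ⟨x, y⟩ ⟨hx, hy⟩
    exact ⟨show 0 < x by linarith [hx.1], hy⟩
  have h2 : ∫⁻ p in Ioo r ((1 + r) / 2) ×ˢ Ioo (-Real.pi) Real.pi, ENNReal.ofReal a * G p.2 ≤
      ∫⁻ z in ball (0 : ℂ) 1, F z := by
    rw [← lintegral_indicator measurableSet_ball, ← Complex.lintegral_comp_polarCoord_symm]
    refine le_trans ?_ (lintegral_mono_set hsub)
    refine setLIntegral_mono' (measurableSet_Ioo.prod measurableSet_Ioo) ?_
    rintro ⟨t, θ⟩ ⟨ht, -⟩
    simp only [mem_Ioo] at ht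
    have ht0 : 0 < t := by linarith [ht.1]
    have he : ‖Complex.exp ((θ : ℂ) * Complex.I)‖ = 1 := Complex.norm_exp_ofReal_mul_I θ
    have hz : Complex.polarCoord.symm (t, θ) = (t : ℂ) * Complex.exp ((θ : ℂ) * Complex.I) := by
      rw [Complex.polarCoord_symm_apply, Complex.exp_mul_I]; simp
    have hn : ‖(t : ℂ) * Complex.exp ((θ : ℂ) * Complex.I)‖ = t := by
      rw [norm_mul, he, mul_one, Complex.norm_real, Real.norm_eq_abs, abs_of_pos ht0]
    have hm : (t : ℂ) * Complex.exp ((θ : ℂ) * Complex.I) ∈ ball (0 : ℂ) 1 := by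
      rw [mem_ball_zero_iff, hn]; linarith [ht.2]
    rw [hz, indicator_of_mem hm]
    simp only [hF, hG, hn, smul_eq_mul]
    rw [← ENNReal.ofReal_mul ha0.le, ← ENNReal.ofReal_mul ht0.le]
    refine ENNReal.ofReal_le_ofReal ?_
    have h3 := asm_radial hK hf hp he (by linarith) hr1 ht.1.le ht.2.le
    have h4 := asm_wt (b := b) (by linarith : (0 : ℝ) ≤ r) hr1 ht.1.le ht.2.le
    have hpos : 0 < ‖deriv f ((t : ℂ) * Complex.exp ((θ : ℂ) * Complex.I))‖ :=
      norm_pos_iff.2 (asm_deriv_ne hf hi hm)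
    have h5 := Real.rpow_le_rpow_of_nonpos hpos h3 (by linarith : -s ≤ 0)
    rw [Real.mul_rpow (Real.exp_pos K).le (norm_nonneg _)] at h5
    set u := ‖deriv f ((r : ℂ) * Complex.exp ((θ : ℂ) * Complex.I))‖ ^ (-s) with hu
    set v := ‖deriv f ((t : ℂ) * Complex.exp ((θ : ℂ) * Complex.I))‖ ^ (-s) with hv
    have hu0 : 0 ≤ u := by positivity
    have hv0 : 0 ≤ v := by positivity
    have h6 : a * u = 1 / 2 * ((Real.exp K ^ (-s) * u) *
        ((2 : ℝ) ^ (-|b - 1|) * (1 - r) ^ (b - 1))) := by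
      simp only [ha, hAdef]; ring
    rw [h6]
    refine mul_le_mul (by linarith [ht.1]) (mul_le_mul h5 h4 (by positivity) hv0) (by positivity)
      ht0.le
  have h3 : ∫⁻ p in Ioo r ((1 + r) / 2) ×ˢ Ioo (-Real.pi) Real.pi, ENNReal.ofReal a * G p.2 =
      ENNReal.ofReal (a * ((1 - r) / 2)) * ∫⁻ θ in Ioc (-Real.pi) Real.pi, G θ := by
    rw [Measure.volume_eq_prod, ← Measure.prod_restrict,
      lintegral_prod_mul (f := fun _ => ENNReal.ofReal a) (g := G) aemeasurable_const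
        hGm.aemeasurable]
    rw [setLIntegral_const, Real.volume_Ioo, ← ENNReal.ofReal_mul ha0.le,
      setLIntegral_congr (Ioo_ae_eq_Ioc (μ := volume))]
    congr 2
    ring
  have h4 : ENNReal.ofReal (a * ((1 - r) / 2)) * ∫⁻ θ in Ioc (-Real.pi) Real.pi, G θ ≤
      ENNReal.ofReal C := by
    rw [← h3]
    exact h2.trans ((hC0 f hf hi h0 h1).trans (ENNReal.ofReal_le_ofReal (le_max_left _ _)))
  have hq : 0 < a * ((1 - r) / 2) := by positivity
  have h5 : 2 * Real.pi * (C / A / (2 * Real.pi)) * (1 - r) ^ (-b) = C / (a * ((1 - r) / 2)) := by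
    have e1 : (1 - r) ^ (b - 1) * (1 - r) = (1 - r) ^ b := by
      rw [Real.rpow_sub_one hL.ne']; field_simp
    have e2 : a * ((1 - r) / 2) = A * (1 - r) ^ b := by
      rw [← e1, ha]; ring
    have e3 : 0 < (1 - r) ^ b := by positivity
    rw [e2, Real.rpow_neg hL.le]
    have := Real.pi_pos
    field_simp
  rw [h5, ENNReal.ofReal_div_of_pos hq, ENNReal.le_div_iff_mul_le
    (Or.inl (by simpa using hq)) (Or.inl ENNReal.ofReal_ne_top), mul_comm]
  exact h4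

end Crest.Agent.R131
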