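import Crest.Agent.R131.Asm

/-! Row 131: the three statements from the area bounds. -/

open Set Metric MeasureTheory Filter
open scoped ENNReal Topology

namespace Crest.Agent.R131

theorem asm_mem {r : ℝ} (hr0 : 1 / 2 ≤ r) (hr1 : r < 1) (θ : ℝ) :
    (r : ℂ) * Complex.exp ((θ : ℂ) * Complex.I) ∈ ball (0 : ℂ) 1 := by
  rw [mem_ball_zero_iff, norm_mul, Complex.norm_exp_ofReal_mul_I, mul_one, Complex.norm_real,
    Real.norm_eq_abs, abs_of_pos (by linarith)]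
  exact hr1

theorem asm_enorm_rpow {w : ℂ} (hw : w ≠ 0) (t : ℝ) :
    ‖w‖ₑ ^ t = ENNReal.ofReal (‖w‖ ^ t) := by
  rw [← ofReal_norm_eq_enorm, ENNReal.ofReal_rpow_of_pos (norm_pos_iff.2 hw)]

theorem s0178_of (hP : PreSchw) (hA : ∀ e : ℝ, 0 < e → AreaBound 2 (1 + e)) (ε : ℝ)
    (hε : 0 < ε) :
    ∃ C : ℝ, ∀ f : ℂ → ℂ,
      DifferentiableOn ℂ f (Metric.ball 0 1) → Set.InjOn f (Metric.ball 0 1) → f 0 = 0 →
      deriv f 0 = 1 → ∀ r : ℝ, 1 / 2 ≤ r → r < 1 →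
        ∫⁻ θ in Set.Ioc (-Real.pi) Real.pi,
            (‖deriv f ((r : ℂ) * Complex.exp ((θ : ℂ) * Complex.I))‖ₑ)⁻¹ ^ 2 ≤
          ENNReal.ofReal (2 * Real.pi * C * (1 - r) ^ (-1 - ε)) := by
  obtain ⟨C, hC⟩ := means_of_area hP (by norm_num) (hA ε hε)
  refine ⟨C, fun f hf hi h0 h1 r hr0 hr1 => ?_⟩
  have h := hC f hf hi h0 h1 r hr0 hr1
  have e1 : -(1 + ε) = -1 - ε := by ring
  rw [e1] at h
  refine le_trans (le_of_eq (lintegral_congr fun θ => ?_)) h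
  rw [← asm_enorm_rpow (asm_deriv_ne hf hi (asm_mem hr0 hr1 θ)), ENNReal.rpow_neg,
    ← ENNReal.inv_rpow, ← ENNReal.rpow_natCast]
  norm_num

theorem s0177_of (hP : PreSchw) (hA : ∃ b : ℝ, 0 < b ∧ b < 1 / 4 ∧ AreaBound 1 b) :
    ∃ ε : ℝ, 0 < ε ∧ ε < 1 / 4 ∧ ∃ C : ℝ, ∀ f : ℂ → ℂ,
      DifferentiableOn ℂ f (Metric.ball 0 1) → Set.InjOn f (Metric.ball 0 1) → f 0 = 0 →
      deriv f 0 = 1 → ∀ r : ℝ, 1 / 2 ≤ r → r < 1 →
        ∫⁻ θ in Set.Ioc (-Real.pi) Real.pi,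
            (‖deriv f ((r : ℂ) * Complex.exp ((θ : ℂ) * Complex.I))‖ₑ)⁻¹ ≤
          ENNReal.ofReal (2 * Real.pi * C * (1 - r) ^ (-(1 / 4 : ℝ) + ε)) := by
  obtain ⟨b, hb0, hb1, hA⟩ := hA
  obtain ⟨C, hC⟩ := means_of_area hP (by norm_num) hA
  refine ⟨1 / 4 - b, by linarith, by linarith, C, fun f hf hi h0 h1 r hr0 hr1 => ?_⟩
  have h := hC f hf hi h0 h1 r hr0 hr1
  have e1 : -b = -(1 / 4 : ℝ) + (1 / 4 - b) := by ring
  rw [e1] at h
  refine le_trans (le_of_eq (lintegral_congr fun θ => ?_)) h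
  rw [← asm_enorm_rpow (asm_deriv_ne hf hi (asm_mem hr0 hr1 θ)), ENNReal.rpow_neg,
    ENNReal.rpow_one]

/-- The weight `(1 - |z|^2)^(-θ)` is integrable on the disc for `θ < 1`. -/
theorem asm_weight_fin {θ : ℝ} (hθ0 : 0 ≤ θ) (hθ : θ < 1) :
    ∫⁻ z in ball (0 : ℂ) 1, ENNReal.ofReal ((1 - ‖z‖ ^ 2) ^ (-θ)) < ⊤ := by
  rw [← lintegral_indicator measurableSet_ball, ← Complex.lintegral_comp_polarCoord_symm]
  set G : ℝ → ℝ≥0∞ := (Ioo (0 : ℝ) 1).indicator fun t => ENNReal.ofReal ((1 - t) ^ (-θ)) with hG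
  have hGm : Measurable G := by
    refine Measurable.indicator ?_ measurableSet_Ioo
    exact ((measurable_const.sub measurable_id).pow_const _).ennreal_ofReal
  have h1 : ∫⁻ p in polarCoord.target, ENNReal.ofReal p.1 •
      (ball (0 : ℂ) 1).indicator (fun z => ENNReal.ofReal ((1 - ‖z‖ ^ 2) ^ (-θ)))
        (Complex.polarCoord.symm p) ≤ ∫⁻ p in polarCoord.target, G p.1 * 1 := by
    refine setLIntegral_mono' polarCoord.open_target.measurableSet ?_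
    rintro ⟨t, y⟩ ⟨ht, -⟩
    have ht0 : 0 < t := ht
    have hn : ‖Complex.polarCoord.symm (t, y)‖ = t := by
      rw [Complex.norm_polarCoord_symm, abs_of_pos ht0]
    by_cases h : t < 1
    · have hm : Complex.polarCoord.symm (t, y) ∈ ball (0 : ℂ) 1 := by
        rw [mem_ball_zero_iff, hn]; exact h
      rw [indicator_of_mem hm, hn, mul_one, hG, indicator_of_mem (show t ∈ Ioo (0 : ℝ) 1 from ⟨ht0, h⟩),
        smul_eq_mul, ← ENNReal.ofReal_mul ht0.le]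
      refine ENNReal.ofReal_le_ofReal ?_
      have h2 : (1 - t ^ 2) ^ (-θ) ≤ (1 - t) ^ (-θ) :=
        Real.rpow_le_rpow_of_nonpos (by linarith) (by nlinarith) (by linarith)
      have h3 : 0 ≤ (1 - t ^ 2) ^ (-θ) := Real.rpow_nonneg (by nlinarith) _
      nlinarith
    · have hm : Complex.polarCoord.symm (t, y) ∉ ball (0 : ℂ) 1 := by
        rw [mem_ball_zero_iff, hn]; exact h
      rw [indicator_of_notMem hm]; simp
  refine h1.trans_lt ?_
  have h2 : polarCoord.target = Ioi (0 : ℝ) ×ˢ Ioo (-Real.pi) Real.pi := rfl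
  rw [h2, Measure.volume_eq_prod, ← Measure.prod_restrict,
    lintegral_prod_mul (f := G) (g := fun _ => 1) hGm.aemeasurable aemeasurable_const]
  refine ENNReal.mul_lt_top ?_ ?_
  · refine (setLIntegral_le_lintegral _ _).trans_lt ?_
    rw [hG, lintegral_indicator measurableSet_Ioo]
    have h3 : IntervalIntegrable (fun t : ℝ => t ^ (-θ)) volume 0 1 :=
      intervalIntegral.intervalIntegrable_rpow' (by linarith)
    have h4 := (h3.comp_sub_left 1).symm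
    simp only [sub_self, sub_zero] at h4
    rw [intervalIntegrable_iff_integrableOn_Ioo_of_le (by norm_num)] at h4
    exact h4.lintegral_lt_top
  · rw [setLIntegral_const, one_mul, Real.volume_Ioo]
    exact ENNReal.ofReal_lt_top

theorem s0176_neg (hA : ∀ e : ℝ, 0 < e → AreaBound 2 (1 + e)) (f : ℂ → ℂ)
    (hf : DifferentiableOn ℂ f (Metric.ball 0 1)) (hinj : Set.InjOn f (Metric.ball 0 1))
    (t : ℝ) (ht₁ : -2 < t) (ht₂ : t ≤ 0) :
    ∫⁻ w in Metric.ball (0 : ℂ) 1, ‖deriv f w‖ₑ ^ t < ⊤ := by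
  set θ : ℝ := -t / 2 with hθ
  have hθ0 : 0 ≤ θ := by rw [hθ]; linarith
  have hθ1 : θ < 1 := by rw [hθ]; linarith
  obtain ⟨C, hC⟩ := hA (1 - θ) (by linarith)
  have h0 : (0 : ℂ) ∈ ball (0 : ℂ) 1 := mem_ball_self one_pos
  set c := deriv f 0 with hc
  have hc0 : c ≠ 0 := asm_deriv_ne hf hinj h0
  set g : ℂ → ℂ := fun z => (f z - f 0) / c with hg
  have hder : ∀ z ∈ ball (0 : ℂ) 1, HasDerivAt g (deriv f z / c) z := fun z hz =>
    (((hf.differentiableAt (isOpen_ball.mem_nhds hz)).hasDerivAt).sub_const (f 0)).div_const c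
  have hgi : InjOn g (ball 0 1) := by
    intro z hz w hw hzw
    simp only [hg] at hzw
    rw [div_left_inj' hc0, sub_left_inj] at hzw
    exact hinj hz hw hzw
  have hgd : DifferentiableOn ℂ g (ball 0 1) := fun z hz =>
    (hder z hz).differentiableAt.differentiableWithinAt
  have hb := hC g hgd hgi (by simp [hg]) (by rw [(hder 0 h0).deriv]; exact div_self hc0)
  have hpt : ∀ z ∈ ball (0 : ℂ) 1, ‖deriv f z‖ₑ ^ t ≤ ENNReal.ofReal (‖c‖ ^ t) *
      (ENNReal.ofReal (‖deriv g z‖ ^ (-(2 : ℝ)) * (1 - ‖z‖ ^ 2) ^ (1 + (1 - θ) - 1)) +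
        ENNReal.ofReal ((1 - ‖z‖ ^ 2) ^ (-θ))) := by
    intro z hz
    have hz1 : ‖z‖ < 1 := mem_ball_zero_iff.1 hz
    have hρ : 0 < 1 - ‖z‖ ^ 2 := by nlinarith [norm_nonneg z]
    have hd : deriv f z = c * deriv g z := by rw [(hder z hz).deriv]; field_simp
    have hgz : 0 < ‖deriv g z‖ := norm_pos_iff.2 (asm_deriv_ne hgd hgi hz)
    rw [asm_enorm_rpow (asm_deriv_ne hf hinj hz), ← ENNReal.ofReal_add (by positivity) (by positivity),
      ← ENNReal.ofReal_mul (by positivity)]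
    refine ENNReal.ofReal_le_ofReal ?_
    rw [hd, norm_mul, Real.mul_rpow (norm_nonneg _) (norm_nonneg _)]
    refine mul_le_mul_of_nonneg_left ?_ (by positivity)
    set x := ‖deriv g z‖ ^ (-(2 : ℝ)) * (1 - ‖z‖ ^ 2) ^ (1 + (1 - θ) - 1) with hx
    set y := (1 - ‖z‖ ^ 2) ^ (-θ) with hy
    have hx0 : 0 ≤ x := by positivity
    have hy0 : 0 ≤ y := by positivity
    have h1 := Real.geom_mean_le_arith_mean2_weighted hθ0 (by linarith : 0 ≤ 1 - θ) hx0 hy0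
      (by ring)
    have h2 : x ^ θ * y ^ (1 - θ) = ‖deriv g z‖ ^ t := by
      rw [hx, hy, Real.mul_rpow (by positivity) (by positivity), ← Real.rpow_mul hgz.le,
        ← Real.rpow_mul hρ.le, ← Real.rpow_mul hρ.le, mul_assoc, ← Real.rpow_add hρ]
      have e1 : (1 + (1 - θ) - 1) * θ + -θ * (1 - θ) = 0 := by ring
      have e2 : -(2 : ℝ) * θ = t := by rw [hθ]; ring
      rw [e1, e2, Real.rpow_zero, mul_one]
    rw [← h2]
    nlinarith
  refine (setLIntegral_mono' measurableSet_ball hpt).trans_lt ?_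
  rw [lintegral_const_mul' _ _ ENNReal.ofReal_ne_top, lintegral_add_left (asm_meas g 2 _)]
  refine ENNReal.mul_lt_top ENNReal.ofReal_lt_top (ENNReal.add_lt_top.2 ⟨?_, ?_⟩)
  · exact hb.trans_lt ENNReal.ofReal_lt_top
  · exact asm_weight_fin hθ0 hθ1

/-- The positive range of exponents. -/
def PosPart : Prop :=
  ∀ f : ℂ → ℂ, DifferentiableOn ℂ f (Metric.ball 0 1) → Set.InjOn f (Metric.ball 0 1) →
    ∀ t : ℝ, 0 < t → t < 2 / 3 → ∫⁻ w in Metric.ball (0 : ℂ) 1, ‖deriv f w‖ₑ ^ t < ⊤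

theorem s0176_of (hA : ∀ e : ℝ, 0 < e → AreaBound 2 (1 + e)) (hQ : PosPart) (f : ℂ → ℂ)
    (hf : DifferentiableOn ℂ f (Metric.ball 0 1)) (hinj : Set.InjOn f (Metric.ball 0 1))
    (t : ℝ) (ht₁ : -2 < t) (ht₂ : t < 2 / 3) :
    ∫⁻ w in Metric.ball (0 : ℂ) 1, ‖deriv f w‖ₑ ^ t < ⊤ := by
  rcases le_or_gt t 0 with h | h
  · exact s0176_neg hA f hf hinj t ht₁ h
  · exact hQ f hf hinj t h ht₂

end Crest.Agent.R131
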