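import Crest.Agent.R131.Asm2

/-! Row 131: absorption lemma (from a signed integral inequality to the area bound). -/

open Set Metric MeasureTheory Filter
open scoped ENNReal Topology

namespace Crest.Agent.R131

/-- Uniform lower bound for the derivative on smaller discs. -/
theorem asm_lower {K : ℝ} (hK : 0 ≤ K) {f : ℂ → ℂ} (hf : DifferentiableOn ℂ f (ball 0 1))
    (hp : ∀ z ∈ ball (0 : ℂ) 1, (1 - ‖z‖) * ‖deriv (deriv f) z‖ ≤ K * ‖deriv f z‖)
    {r0 : ℝ} (hr1 : r0 < 1) {z : ℂ} (hz : ‖z‖ ≤ r0) :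
    ‖deriv f 0‖ ≤ Real.exp (K / (1 - r0)) * ‖deriv f z‖ := by
  have hf' : DifferentiableOn ℂ (deriv f) (ball 0 1) := hf.deriv isOpen_ball
  have hn : ∀ x ∈ Icc (0 : ℝ) 1, ‖(1 - (x : ℂ)) * z‖ ≤ r0 := fun x hx => by
    have e : (1 - (x : ℂ)) = ((1 - x : ℝ) : ℂ) := by push_cast; ring
    rw [norm_mul, e, Complex.norm_real, Real.norm_eq_abs, abs_of_nonneg (by linarith [hx.2])]
    nlinarith [hx.1, hx.2, norm_nonneg z]
  have hd : ∀ x ∈ Icc (0 : ℝ) 1, HasDerivAt (fun x : ℝ => deriv f ((1 - (x : ℂ)) * z))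
      (deriv (deriv f) ((1 - (x : ℂ)) * z) * (-z)) x := by
    intro x hx
    have hm : (1 - (x : ℂ)) * z ∈ ball (0 : ℂ) 1 := by
      rw [mem_ball_zero_iff]; exact (hn x hx).trans_lt hr1
    have h2 : HasDerivAt (deriv f) (deriv (deriv f) ((1 - (x : ℂ)) * z)) ((1 - (x : ℂ)) * z) :=
      (hf'.differentiableAt (isOpen_ball.mem_nhds hm)).hasDerivAt
    have h3 : HasDerivAt (fun w : ℂ => (1 - w) * z) (-z) (x : ℂ) := by
      simpa using ((hasDerivAt_id (x : ℂ)).const_sub 1).mul_const z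
    exact (h2.comp (x : ℂ) h3).comp_ofReal
  have hL : 0 < 1 - r0 := by linarith
  have key := norm_le_gronwallBound_of_norm_deriv_right_le
    (f := fun x : ℝ => deriv f ((1 - (x : ℂ)) * z))
    (f' := fun x : ℝ => deriv (deriv f) ((1 - (x : ℂ)) * z) * (-z))
    (δ := ‖deriv f z‖) (K := K / (1 - r0)) (ε := 0) (a := 0) (b := 1)
    (fun x hx => (hd x hx).continuousAt.continuousWithinAt)
    (fun x hx => (hd x ⟨hx.1, hx.2.le⟩).hasDerivWithinAt) (by simp)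
    (fun x hx => by
      have h1 := hn x ⟨hx.1, hx.2.le⟩
      have hm : (1 - (x : ℂ)) * z ∈ ball (0 : ℂ) 1 := by
        rw [mem_ball_zero_iff]; exact h1.trans_lt hr1
      have h2 := hp _ hm
      rw [norm_mul, norm_neg, add_zero, div_mul_eq_mul_div, le_div_iff₀ hL]
      have h4 := norm_nonneg (deriv (deriv f) ((1 - (x : ℂ)) * z))
      have h5 : ‖z‖ * (1 - r0) ≤ 1 - ‖(1 - (x : ℂ)) * z‖ := by nlinarith [norm_nonneg z]
      calc ‖deriv (deriv f) ((1 - (x : ℂ)) * z)‖ * ‖z‖ * (1 - r0)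
          = (‖z‖ * (1 - r0)) * ‖deriv (deriv f) ((1 - (x : ℂ)) * z)‖ := by ring
        _ ≤ (1 - ‖(1 - (x : ℂ)) * z‖) * ‖deriv (deriv f) ((1 - (x : ℂ)) * z)‖ :=
            mul_le_mul_of_nonneg_right h5 h4
        _ ≤ _ := h2) 1 ⟨zero_le_one, le_rfl⟩
  rw [gronwallBound_ε0] at key
  simpa [mul_comm] using key

theorem asm_weight_int {b : ℝ} (hb : 0 < b) :
    IntegrableOn (fun z : ℂ => (1 - ‖z‖ ^ 2) ^ (b - 1)) (ball 0 1) := by
  have hm : Measurable fun z : ℂ => (1 - ‖z‖ ^ 2) ^ (b - 1) :=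
    (measurable_const.sub (measurable_norm.pow_const 2)).pow_const _
  refine ⟨hm.aestronglyMeasurable, ?_⟩
  have hnn : ∀ z ∈ ball (0 : ℂ) 1, 0 < 1 - ‖z‖ ^ 2 := fun z hz => by
    have hz1 : ‖z‖ < 1 := mem_ball_zero_iff.1 hz
    nlinarith [norm_nonneg z]
  rw [hasFiniteIntegral_iff_ofReal ((ae_restrict_iff' measurableSet_ball).2
    (Eventually.of_forall fun z hz => Real.rpow_nonneg (hnn z hz).le _))]
  set θ := max (1 - b) 0 with hθ
  refine lt_of_le_of_lt (setLIntegral_mono' measurableSet_ball fun z hz => ?_)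
    (asm_weight_fin (θ := θ) (le_max_right _ _) (max_lt (by linarith) one_pos))
  refine ENNReal.ofReal_le_ofReal ?_
  refine Real.rpow_le_rpow_of_exponent_ge (hnn z hz) (by nlinarith [norm_nonneg z]) ?_
  linarith [le_max_left (1 - b) 0]

/-- For a map univalent on a larger disc the weight is integrable. -/
theorem asm_g_int {s b R : ℝ} (hb : 0 < b) (hR : 1 < R) {f : ℂ → ℂ}
    (hf : DifferentiableOn ℂ f (ball 0 R)) (hi : InjOn f (ball 0 R)) :
    IntegrableOn (fun z : ℂ => ‖deriv f z‖ ^ (-s) * (1 - ‖z‖ ^ 2) ^ (b - 1)) (ball 0 1) := by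
  have hsub : closedBall (0 : ℂ) 1 ⊆ ball 0 R := closedBall_subset_ball hR
  have hc : ContinuousOn (fun z => ‖deriv f z‖ ^ (-s)) (closedBall (0 : ℂ) 1) := by
    refine ContinuousOn.rpow_const ((hf.deriv isOpen_ball).continuousOn.mono hsub).norm ?_
    intro z hz
    exact Or.inl (norm_ne_zero_iff.2
      (Crest.Agent.Lib.RMT.deriv_ne_zero_of_injOn isOpen_ball hf hi (hsub hz)))
  obtain ⟨B, hB⟩ := (isCompact_closedBall (0 : ℂ) 1).exists_bound_of_continuousOn hc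
  refine Integrable.bdd_mul (c := B) (asm_weight_int hb)
    ((measurable_deriv f).norm.pow_const _).aestronglyMeasurable ?_
  exact (ae_restrict_iff' measurableSet_ball).2
    (Eventually.of_forall fun z hz => hB z (ball_subset_closedBall hz))

/-- Absorption: a signed inequality with a multiplier that is positive near the circle. -/
theorem areaBoundR_of_ineq (hP : PreSchw) {s b δ A r0 C0 : ℝ} (hs : 0 ≤ s) (hb : 0 < b)
    (hδ : 0 < δ) (hr0 : r0 < 1) (φ : ℂ → ℝ) (hφm : Measurable φ)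
    (hφA : ∀ z ∈ ball (0 : ℂ) 1, |φ z| ≤ A)
    (hφδ : ∀ z ∈ ball (0 : ℂ) 1, r0 ≤ ‖z‖ → δ ≤ φ z)
    (h : ∀ (R : ℝ) (f : ℂ → ℂ), 1 < R → DifferentiableOn ℂ f (ball 0 R) → InjOn f (ball 0 R) →
      f 0 = 0 → deriv f 0 = 1 →
      ∫ z in ball (0 : ℂ) 1, φ z * (‖deriv f z‖ ^ (-s) * (1 - ‖z‖ ^ 2) ^ (b - 1)) ≤ C0) :
    AreaBoundR s b := by
  obtain ⟨K0, hK0⟩ := hP
  set K := max K0 0 with hKdef
  have hK : 0 ≤ K := le_max_right _ _
  have hA : 0 ≤ A := (abs_nonneg _).trans (hφA 0 (mem_ball_self one_pos))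
  set E := Real.exp (K / (1 - r0)) ^ s with hE
  have hE0 : 0 < E := by positivity
  set I := ∫ z in ball (0 : ℂ) 1, (1 - ‖z‖ ^ 2) ^ (b - 1) with hI
  refine ⟨(C0 + (A + δ) * E * I) / δ, fun R f hR hf hi h0 h1 => ?_⟩
  have hf1 : DifferentiableOn ℂ f (ball 0 1) := hf.mono (ball_subset_ball hR.le)
  have hi1 : InjOn f (ball 0 1) := hi.mono (ball_subset_ball hR.le)
  have hp : ∀ z ∈ ball (0 : ℂ) 1, (1 - ‖z‖) * ‖deriv (deriv f) z‖ ≤ K * ‖deriv f z‖ :=
    fun z hz => (hK0 f hf1 hi1 z hz).trans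
      (mul_le_mul_of_nonneg_right (le_max_left _ _) (norm_nonneg _))
  have hg := asm_g_int (s := s) hb hR hf hi
  have hw := asm_weight_int hb
  have hnn : ∀ z ∈ ball (0 : ℂ) 1, 0 < 1 - ‖z‖ ^ 2 := fun z hz => by
    have hz1 : ‖z‖ < 1 := mem_ball_zero_iff.1 hz
    nlinarith [norm_nonneg z]
  have hφg : IntegrableOn (fun z : ℂ =>
      φ z * (‖deriv f z‖ ^ (-s) * (1 - ‖z‖ ^ 2) ^ (b - 1))) (ball 0 1) := by
    refine Integrable.bdd_mul (c := A) hg hφm.aestronglyMeasurable ?_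
    exact (ae_restrict_iff' measurableSet_ball).2 (Eventually.of_forall fun z hz => hφA z hz)
  rw [← ofReal_integral_eq_lintegral_ofReal hg ((ae_restrict_iff' measurableSet_ball).2
    (Eventually.of_forall fun z hz => mul_nonneg (by positivity)
      (Real.rpow_nonneg (hnn z hz).le _)))]
  refine ENNReal.ofReal_le_ofReal ?_
  rw [le_div_iff₀ hδ, mul_comm, ← integral_const_mul]
  have h2 : ∫ z in ball (0 : ℂ) 1, δ * (‖deriv f z‖ ^ (-s) * (1 - ‖z‖ ^ 2) ^ (b - 1)) ≤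
      ∫ z in ball (0 : ℂ) 1, (φ z * (‖deriv f z‖ ^ (-s) * (1 - ‖z‖ ^ 2) ^ (b - 1)) +
        (A + δ) * E * (1 - ‖z‖ ^ 2) ^ (b - 1)) := by
    refine setIntegral_mono_on (hg.const_mul δ) (hφg.add (hw.const_mul _)) measurableSet_ball ?_
    intro z hz
    have hw0 : 0 ≤ (1 - ‖z‖ ^ 2) ^ (b - 1) := Real.rpow_nonneg (hnn z hz).le _
    have hu0 : 0 ≤ ‖deriv f z‖ ^ (-s) := by positivity
    have hg0 := mul_nonneg hu0 hw0
    rcases le_total r0 ‖z‖ with hz0 | hz0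
    · have h3 := mul_le_mul_of_nonneg_right (hφδ z hz hz0) hg0
      have h4 : 0 ≤ (A + δ) * E * (1 - ‖z‖ ^ 2) ^ (b - 1) := by positivity
      linarith
    · have h3 := asm_lower hK hf1 hp hr0 hz0
      rw [h1, norm_one] at h3
      have hpos : 0 < ‖deriv f z‖ := norm_pos_iff.2 (asm_deriv_ne hf1 hi1 hz)
      have h4 : ‖deriv f z‖ ^ (-s) ≤ E := by
        have h5 := Real.one_le_rpow h3 hs
        rw [Real.mul_rpow (Real.exp_pos _).le hpos.le] at h5
        rw [Real.rpow_neg hpos.le, inv_le_iff_one_le_mul₀ (by positivity)]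
        exact h5
      have h5 : -A ≤ φ z := (abs_le.1 (hφA z hz)).1
      have h6 := mul_le_mul_of_nonneg_right h5 hg0
      have h7 : (A + δ) * (‖deriv f z‖ ^ (-s) * (1 - ‖z‖ ^ 2) ^ (b - 1)) ≤
          (A + δ) * (E * (1 - ‖z‖ ^ 2) ^ (b - 1)) :=
        mul_le_mul_of_nonneg_left (mul_le_mul_of_nonneg_right h4 hw0) (by positivity)
      nlinarith
  refine h2.trans ?_
  rw [integral_add hφg (hw.const_mul _), integral_const_mul]
  have := h R f hR hf hi h0 h1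
  linarith

/-- The case of the closed form inequality `∫ |z|^s ρ^(b-1) (4c|z|^2 - α) |f'|^(-s) ≤ C0`. -/
theorem areaBoundR_of_closed (hP : PreSchw) {s b c α C0 : ℝ} (hs : 0 ≤ s) (hb : 0 < b)
    (hα : 0 < α) (hc : α < 4 * c)
    (h : ∀ (R : ℝ) (f : ℂ → ℂ), 1 < R → DifferentiableOn ℂ f (ball 0 R) → InjOn f (ball 0 R) →
      f 0 = 0 → deriv f 0 = 1 →
      ∫ z in ball (0 : ℂ) 1, (‖z‖ ^ s * (4 * c * ‖z‖ ^ 2 - α)) *
        (‖deriv f z‖ ^ (-s) * (1 - ‖z‖ ^ 2) ^ (b - 1)) ≤ C0) :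
    AreaBoundR s b := by
  have hc0 : 0 < c := by linarith
  set x : ℝ := (α + 4 * c) / (8 * c) with hx
  have hx0 : 0 < x := by positivity
  have hx1 : x < 1 := by rw [hx, div_lt_one (by positivity)]; linarith
  set r0 := Real.sqrt x with hr0
  have hr00 : 0 < r0 := Real.sqrt_pos.2 hx0
  have hr01 : r0 < 1 := by rw [hr0, Real.sqrt_lt' one_pos]; simpa using hx1
  have hsq : r0 ^ 2 = x := Real.sq_sqrt hx0.le
  refine areaBoundR_of_ineq hP (δ := r0 ^ s * ((4 * c - α) / 2)) (A := 4 * c + α) (r0 := r0) hs hb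
    (mul_pos (by positivity) (by linarith)) hr01 (fun z => ‖z‖ ^ s * (4 * c * ‖z‖ ^ 2 - α))
    ((measurable_norm.pow_const s).mul
      (((measurable_norm.pow_const 2).const_mul _).sub measurable_const)) ?_ ?_ h
  · intro z hz
    have hz1 : ‖z‖ < 1 := mem_ball_zero_iff.1 hz
    have h1 : ‖z‖ ^ s ≤ 1 := Real.rpow_le_one (norm_nonneg _) hz1.le hs
    have h2 : 0 ≤ ‖z‖ ^ s := by positivity
    have h3 : ‖z‖ ^ 2 ≤ 1 := by nlinarith [norm_nonneg z]
    have h4 : 0 ≤ ‖z‖ ^ 2 := by positivity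
    have h5 : |4 * c * ‖z‖ ^ 2 - α| ≤ 4 * c + α := by
      rw [abs_le]; constructor <;> nlinarith
    rw [abs_mul, abs_of_nonneg h2]
    nlinarith [abs_nonneg (4 * c * ‖z‖ ^ 2 - α)]
  · intro z _ hz
    have h1 : r0 ^ s ≤ ‖z‖ ^ s := Real.rpow_le_rpow hr00.le hz hs
    have h2 : x ≤ ‖z‖ ^ 2 := by rw [← hsq]; nlinarith
    have h3 : 4 * c * x = (α + 4 * c) / 2 := by rw [hx]; field_simp; ring
    have h4 : (4 * c - α) / 2 ≤ 4 * c * ‖z‖ ^ 2 - α := by nlinarith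
    exact mul_le_mul h1 h4 (by linarith) (by positivity)

end Crest.Agent.R131
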