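import Mathlib

/-! Row 131: definitions and block statements (disc model). -/

open Set Metric MeasureTheory
open scoped ENNReal

namespace Crest.Agent.R131

/-- The map whose fibres are the critical points of `Fw f c w`. -/
noncomputable def Mm (f : ℂ → ℂ) (c : ℝ) (z : ℂ) : ℂ :=
  f z + deriv f z * ((1 - ‖z‖ ^ 2 : ℝ) : ℂ) / (2 * (c : ℂ) * (starRingEnd ℂ) z)

/-- Normalised Jacobian of `Mm`. -/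
noncomputable def Jd (f : ℂ → ℂ) (c : ℝ) (z : ℂ) : ℝ :=
  ‖(((2 * c - 1) * ‖z‖ ^ 2 : ℝ) : ℂ) +
      ((1 - ‖z‖ ^ 2 : ℝ) : ℂ) * z * (deriv (deriv f) z / deriv f z)‖ ^ 2 - 1

/-- The function whose critical points are counted. -/
noncomputable def Fw (f : ℂ → ℂ) (c : ℝ) (w z : ℂ) : ℝ := ‖f z - w‖ / (1 - ‖z‖ ^ 2) ^ c

/-- The critical value. -/
noncomputable def qv (f : ℂ → ℂ) (c : ℝ) (z : ℂ) : ℝ :=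
  ‖deriv f z‖ * (1 - ‖z‖ ^ 2) ^ (1 - c) / (2 * c * ‖z‖)

/-- The weight. -/
noncomputable def Wt (f : ℂ → ℂ) (s b : ℝ) (z : ℂ) : ℝ :=
  ‖z‖ ^ (s - 2) * ‖deriv f z‖ ^ (-s) * (1 - ‖z‖ ^ 2) ^ (b - 1)

/-- Block DEG, flexible form. -/
def DegFlex : Prop :=
  ∀ (R : ℝ) (f : ℂ → ℂ) (c : ℝ), 1 < R → DifferentiableOn ℂ f (ball 0 R) → InjOn f (ball 0 R) →
    0 < c → ∀ g h : ℂ → ℝ≥0∞, Measurable g → Measurable h →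
    (∀ p ∈ ball (0 : ℂ) 1, ∀ m ∈ ball (0 : ℂ) 1, p ≠ 0 → m ≠ 0 → 0 < Jd f c p → Jd f c m < 0 →
      Mm f c m = Mm f c p → qv f c m < qv f c p →
      JoinedIn {z | z ∈ ball (0 : ℂ) 1 ∧ Fw f c (Mm f c p) z ≤ Fw f c (Mm f c p) p} p m →
      g p ≤ h m) →
    ∫⁻ z in {z | z ∈ ball (0 : ℂ) 1 ∧ z ≠ 0 ∧ 0 < Jd f c z},
        ENNReal.ofReal (‖deriv f z‖ ^ 2 * |Jd f c z| / (4 * c ^ 2 * ‖z‖ ^ 4)) * g z ≤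
      ∫⁻ z in {z | z ∈ ball (0 : ℂ) 1 ∧ z ≠ 0 ∧ Jd f c z < 0},
        ENNReal.ofReal (‖deriv f z‖ ^ 2 * |Jd f c z| / (4 * c ^ 2 * ‖z‖ ^ 4)) * h z

/-- Block IDENT: the exact identity. -/
def Ident : Prop :=
  ∀ (R : ℝ) (f : ℂ → ℂ) (s b c : ℝ), 1 < R → DifferentiableOn ℂ f (ball 0 R) →
    (∀ z ∈ ball (0 : ℂ) R, deriv f z ≠ 0) → 0 < s → 0 < b → b - 1 = (s + 2) * (c - 1) →
    IntegrableOn (fun z => Wt f s b z * Jd f c z) (ball 0 1) ∧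
    IntegrableOn (fun z : ℂ => ‖z‖ ^ s * (1 - ‖z‖ ^ 2) ^ (b - 1) * (4 * c * ‖z‖ ^ 2 - (s + 2)) *
      ‖deriv f z‖ ^ (-s)) (ball 0 1) ∧
    ∫ z in ball (0 : ℂ) 1, Wt f s b z * Jd f c z =
      (4 * c / s ^ 2) * ∫ z in ball (0 : ℂ) 1,
        ‖z‖ ^ s * (1 - ‖z‖ ^ 2) ^ (b - 1) * (4 * c * ‖z‖ ^ 2 - (s + 2)) * ‖deriv f z‖ ^ (-s)

/-- Block COVER: the set where the pre-Schwarzian is small has positive relative density. -/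
def Dens : Prop :=
  ∀ K th : ℝ, 0 < K → 0 < th → ∃ C : ℝ, 0 < C ∧ ∀ (R : ℝ) (f : ℂ → ℂ) (b : ℝ), 1 < R →
    DifferentiableOn ℂ f (ball 0 R) → (∀ z ∈ ball (0 : ℂ) R, deriv f z ≠ 0) →
    (∀ z ∈ ball (0 : ℂ) 1, (1 - ‖z‖ ^ 2) * ‖deriv (deriv f) z‖ ≤ K * ‖deriv f z‖) →
    0 < b → b ≤ 1 →
    ∫⁻ z in ball (0 : ℂ) 1, ENNReal.ofReal (‖deriv f z‖ ^ (-(1 : ℝ)) * (1 - ‖z‖ ^ 2) ^ (b - 1)) ≤
      ENNReal.ofReal C *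
        ∫⁻ z in {z | z ∈ ball (0 : ℂ) 1 ∧ (1 - ‖z‖ ^ 2) * ‖deriv (deriv f) z‖ < th * ‖deriv f z‖},
          ENNReal.ofReal (‖deriv f z‖ ^ (-(1 : ℝ)) * (1 - ‖z‖ ^ 2) ^ (b - 1))

/-- Block PERSIST: a point with small pre-Schwarzian is a robust minimum. -/
def Persist : Prop :=
  ∀ K : ℝ, 0 < K → ∃ th kap : ℝ, 0 < th ∧ 0 < kap ∧ ∀ (f : ℂ → ℂ) (c : ℝ),
    DifferentiableOn ℂ f (ball 0 1) → (∀ z ∈ ball (0 : ℂ) 1, deriv f z ≠ 0) →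
    (∀ z ∈ ball (0 : ℂ) 1, (1 - ‖z‖ ^ 2) * ‖deriv (deriv f) z‖ ≤ K * ‖deriv f z‖) →
    7 / 10 ≤ c → c ≤ 3 / 4 →
    ∀ m ∈ ball (0 : ℂ) 1, m ≠ 0 → (1 - ‖m‖ ^ 2) * ‖deriv (deriv f) m‖ < th * ‖deriv f m‖ →
      Jd f c m ≤ -(1 / 2) ∧
      ∀ p ∈ ball (0 : ℂ) 1, p ≠ 0 → 0 < Jd f c p → Mm f c m = Mm f c p →
        JoinedIn {z | z ∈ ball (0 : ℂ) 1 ∧ Fw f c (Mm f c p) z ≤ Fw f c (Mm f c p) p} p m →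
        Real.exp kap * qv f c m ≤ qv f c p

end Crest.Agent.R131
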