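import Mathlib

/-! Stokes / integration by parts on the unit disc, by slices (helper69).
The origin may be a singular point, the function has to vanish on the unit circle, and only the
integrability of the derivative is needed. -/

open MeasureTheory Set Metric Complex

namespace Crest.Agent.R131.Stokes

variable {E : Type*} [NormedAddCommGroup E] [NormedSpace ℝ E] [CompleteSpace E]

theorem stokes_aux (G G' : ℂ → E) (v w : ℂ) (e : ℝ × ℝ ≃ᵐ ℂ) (he : MeasurePreserving e)
    (hev : ∀ x y : ℝ, e (x, y) = (y : ℂ) * w + x • v)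
    (hn : ∀ x y : ℝ, ‖e (x, y)‖ ^ 2 = x ^ 2 + y ^ 2)
    (hc : ContinuousOn G (closedBall 0 1 \ {0}))
    (hd : ∀ z ∈ ball (0 : ℂ) 1 \ {0}, HasLineDerivAt ℝ G (G' z) z v)
    (h0 : ∀ z ∈ sphere (0 : ℂ) 1, G z = 0) (hi : IntegrableOn G' (ball 0 1)) :
    ∫ z in ball (0 : ℂ) 1, G' z = 0 := by
  have hi1 : Integrable ((ball (0 : ℂ) 1).indicator G') :=
    (integrable_indicator_iff measurableSet_ball).2 hi
  have hi2 : Integrable (fun p : ℝ × ℝ => (ball (0 : ℂ) 1).indicator G' (e p))
      ((volume : Measure ℝ).prod volume) :=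
    (he.integrable_comp_emb e.measurableEmbedding).2 hi1
  rw [← integral_indicator measurableSet_ball,
    ← he.integral_comp e.measurableEmbedding]
  have : (volume : Measure (ℝ × ℝ)) = (volume : Measure ℝ).prod volume := rfl
  rw [this, integral_prod_symm _ hi2]
  apply integral_eq_zero_of_ae
  have hy0 : ∀ᵐ y : ℝ, y ≠ 0 := by
    simp [ae_iff]
  filter_upwards [hi2.prod_left_ae, hy0] with y hy hy0
  show ∫ x : ℝ, (ball (0 : ℂ) 1).indicator G' (e (x, y)) = 0
  have hmem : ∀ x : ℝ, e (x, y) ∈ ball (0 : ℂ) 1 ↔ x ^ 2 + y ^ 2 < 1 := by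
    intro x
    rw [mem_ball_zero_iff, ← hn, sq_lt_one_iff₀ (norm_nonneg _)]
  by_cases hy1 : y ^ 2 < 1
  · set a := Real.sqrt (1 - y ^ 2) with ha
    have ha0 : 0 < a := Real.sqrt_pos.2 (by linarith)
    have ha2 : a ^ 2 = 1 - y ^ 2 := Real.sq_sqrt (by linarith)
    have hmem2 : ∀ x : ℝ, e (x, y) ∈ ball (0 : ℂ) 1 ↔ x ∈ Ioo (-a) a := by
      intro x
      rw [hmem, mem_Ioo, ← abs_lt, ← sq_lt_sq₀ (abs_nonneg _) ha0.le, sq_abs, ha2]
      constructor <;> intro h <;> linarith
    have hfun : (fun x : ℝ => (ball (0 : ℂ) 1).indicator G' (e (x, y))) =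
        (Ioo (-a) a).indicator (fun x : ℝ => G' (e (x, y))) := by
      funext x
      by_cases hx : x ∈ Ioo (-a) a
      · rw [indicator_of_mem hx, indicator_of_mem ((hmem2 x).2 hx)]
      · rw [indicator_of_notMem hx, indicator_of_notMem (fun h => hx ((hmem2 x).1 h))]
    have hne : ∀ x : ℝ, e (x, y) ≠ 0 := by
      intro x h
      have h1 := hn x y
      rw [h, norm_zero] at h1
      have : 0 < y ^ 2 := by positivity
      nlinarith [sq_nonneg x]
    rw [hfun] at hy ⊢
    rw [integrable_indicator_iff measurableSet_Ioo] at hy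
    rw [integral_indicator measurableSet_Ioo, ← integral_Ioc_eq_integral_Ioo,
      ← intervalIntegral.integral_of_le (by linarith)]
    have hcont : ContinuousOn (fun x : ℝ => G (e (x, y))) (Icc (-a) a) := by
      have hc1 : Continuous (fun x : ℝ => e (x, y)) := by
        simp_rw [hev]; fun_prop
      refine hc.comp hc1.continuousOn ?_
      intro x hx
      refine ⟨?_, hne x⟩
      rw [mem_closedBall_zero_iff, ← sq_le_one_iff₀ (norm_nonneg _), hn]
      have : x ^ 2 ≤ a ^ 2 := sq_le_sq' hx.1 hx.2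
      linarith
    have hder : ∀ x ∈ Ioo (-a) a, HasDerivAt (fun x : ℝ => G (e (x, y))) (G' (e (x, y))) x := by
      intro x hx
      have h1 := hd (e (x, y)) ⟨(hmem2 x).2 hx, hne x⟩
      unfold HasLineDerivAt at h1
      have h2 : HasDerivAt (fun t : ℝ => t - x) 1 x := (hasDerivAt_id x).sub_const x
      have h3 : HasDerivAt (fun t : ℝ => G (e (x, y) + t • v)) (G' (e (x, y))) (x - x) := by
        rw [sub_self]; exact h1
      have h4 := HasDerivAt.scomp (h := fun t : ℝ => t - x) x h3 h2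
      rw [one_smul] at h4
      convert h4 using 1
      funext t
      simp only [Function.comp, hev]
      congr 1
      rw [sub_smul]; ring
    have hint : IntervalIntegrable (fun x : ℝ => G' (e (x, y))) volume (-a) a := by
      rw [intervalIntegrable_iff_integrableOn_Ioo_of_le (by linarith)]
      exact hy
    rw [intervalIntegral.integral_eq_sub_of_hasDerivAt_of_le (by linarith) hcont hder hint]
    have hs : ∀ x : ℝ, x ^ 2 = a ^ 2 → G (e (x, y)) = 0 := by
      intro x hx
      apply h0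
      rw [mem_sphere_zero_iff_norm, ← sq_eq_sq₀ (norm_nonneg _) zero_le_one, hn]
      linarith
    rw [hs a rfl, hs (-a) (by ring), sub_zero]
  · have : (fun x : ℝ => (ball (0 : ℂ) 1).indicator G' (e (x, y))) = fun _ => 0 := by
      funext x
      apply indicator_of_notMem
      rw [hmem]
      nlinarith [sq_nonneg x]
    rw [this, integral_zero]

/-- `∫_D ∂_x G = 0`. -/
theorem stokes_one (G G' : ℂ → E)
    (hc : ContinuousOn G (closedBall 0 1 \ {0}))
    (hd : ∀ z ∈ ball (0 : ℂ) 1 \ {0}, HasLineDerivAt ℝ G (G' z) z 1)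
    (h0 : ∀ z ∈ sphere (0 : ℂ) 1, G z = 0) (hi : IntegrableOn G' (ball 0 1)) :
    ∫ z in ball (0 : ℂ) 1, G' z = 0 := by
  refine stokes_aux G G' 1 I measurableEquivRealProd.symm
    volume_preserving_equiv_real_prod.symm ?_ ?_ hc hd h0 hi
  · intro x y
    apply Complex.ext <;> simp
  · intro x y
    rw [Complex.sq_norm, Complex.normSq_apply]
    simp [sq]

/-- `∫_D ∂_y G = 0`. -/
theorem stokes_I (G G' : ℂ → E)
    (hc : ContinuousOn G (closedBall 0 1 \ {0}))
    (hd : ∀ z ∈ ball (0 : ℂ) 1 \ {0}, HasLineDerivAt ℝ G (G' z) z I)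
    (h0 : ∀ z ∈ sphere (0 : ℂ) 1, G z = 0) (hi : IntegrableOn G' (ball 0 1)) :
    ∫ z in ball (0 : ℂ) 1, G' z = 0 := by
  refine stokes_aux G G' I 1 (MeasurableEquiv.prodComm.trans measurableEquivRealProd.symm)
    (volume_preserving_equiv_real_prod.symm.comp (Measure.measurePreserving_swap)) ?_ ?_ hc hd h0 hi
  · intro x y
    apply Complex.ext <;> simp [MeasurableEquiv.prodComm]
  · intro x y
    rw [Complex.sq_norm, Complex.normSq_apply]
    simp [sq, MeasurableEquiv.prodComm, add_comm]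

/-- `fderiv` form. -/
theorem stokes_ball (G : ℂ → E) (v : ℂ) (hv : v = 1 ∨ v = I)
    (hc : ContinuousOn G (closedBall 0 1 \ {0}))
    (hd : ∀ z ∈ ball (0 : ℂ) 1 \ {0}, DifferentiableAt ℝ G z)
    (h0 : ∀ z ∈ sphere (0 : ℂ) 1, G z = 0)
    (hi : IntegrableOn (fun z => fderiv ℝ G z v) (ball 0 1)) :
    ∫ z in ball (0 : ℂ) 1, fderiv ℝ G z v = 0 := by
  rcases hv with rfl | rfl
  · exact stokes_one G _ hc (fun z hz => (hd z hz).hasFDerivAt.hasLineDerivAt 1) h0 hi
  · exact stokes_I G _ hc (fun z hz => (hd z hz).hasFDerivAt.hasLineDerivAt I) h0 hi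

/-- Wirtinger form: if the real derivative of `G` at `z` is `v ↦ A z * v + B z * conj v`
(`A = ∂G`, `B = ∂̄G`), then `∫ A = 0` and `∫ B = 0`. -/
theorem stokes_wirtinger (G A B : ℂ → ℂ)
    (hc : ContinuousOn G (closedBall 0 1 \ {0}))
    (hd : ∀ z ∈ ball (0 : ℂ) 1 \ {0}, ∀ v : ℂ,
      HasLineDerivAt ℝ G (A z * v + B z * (starRingEnd ℂ) v) z v)
    (h0 : ∀ z ∈ sphere (0 : ℂ) 1, G z = 0)
    (hA : IntegrableOn A (ball 0 1)) (hB : IntegrableOn B (ball 0 1)) :
    ∫ z in ball (0 : ℂ) 1, A z = 0 ∧ ∫ z in ball (0 : ℂ) 1, B z = 0 := by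
  have h1 := stokes_one G (fun z => A z + B z) hc
    (fun z hz => by simpa using hd z hz 1) h0 (hA.add hB)
  have h2 := stokes_I G (fun z => I * (A z - B z)) hc
    (fun z hz => by
      have := hd z hz I
      rw [Complex.conj_I] at this
      convert this using 1; ring) h0 ((hA.sub hB).const_mul I)
  rw [integral_add hA hB] at h1
  rw [integral_const_mul, integral_sub hA hB] at h2
  have h3 := (mul_eq_zero.1 h2).resolve_left I_ne_zero
  constructor
  · linear_combination (h1 + h3) / 2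
  · linear_combination (h1 - h3) / 2

end Crest.Agent.R131.Stokes
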