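import Mathlib
import Crest.Agent.R131.Stokes
import Crest.Agent.R131.Defs

/-!
Row 131 (backup by helper38): the exact integration-by-parts identity in the disc.
-/

open MeasureTheory Set Metric Complex
open scoped ComplexConjugate

namespace Crest.Agent.R131.B38

theorem hd_rpow {u : ℝ → ℂ} {u' : ℂ} (hu : HasDerivAt u u' 0) (h0 : u 0 ≠ 0) (p : ℝ) :
    HasDerivAt (fun t => ‖u t‖ ^ p) (‖u 0‖ ^ p * p * (u' / u 0).re) 0 := by
  have hn : 0 < ‖u 0‖ := norm_pos_iff.2 h0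
  have h1 := hu.norm_sq
  have h2 := h1.rpow_const (p := p / 2) (Or.inl (by positivity))
  have e : (fun t => ‖u t‖ ^ p) = fun t => (‖u t‖ ^ 2) ^ (p / 2) := by
    funext t
    rw [← Real.rpow_natCast, ← Real.rpow_mul (norm_nonneg _)]
    congr 1; push_cast; ring
  rw [e]
  convert h2 using 1
  have e2 : (‖u 0‖ ^ 2) ^ (p / 2 - 1) = ‖u 0‖ ^ p / ‖u 0‖ ^ 2 := by
    rw [Real.rpow_sub (by positivity), Real.rpow_one, ← Real.rpow_natCast,
      ← Real.rpow_mul (norm_nonneg _)]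
    congr 2; push_cast; ring
  rw [e2, Complex.inner, Complex.div_re, Complex.normSq_eq_norm_sq]
  simp only [mul_re, conj_re, conj_im]
  field_simp
  ring

theorem hd_hol {F : ℂ → ℂ} {F' z : ℂ} (hF : HasDerivAt F F' z) (v : ℂ) :
    HasDerivAt (fun t : ℝ => F (z + t • v)) (F' * v) 0 := by
  have h1 : HasDerivAt (fun t : ℝ => z + t • v) v 0 := by
    simpa using ((hasDerivAt_id (0 : ℝ)).smul_const v).const_add z
  have h2 : HasDerivAt F F' (z + (0 : ℝ) • v) := by simpa using hF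
  have := (h2.hasFDerivAt.restrictScalars ℝ).comp_hasDerivAt (0 : ℝ) h1
  simpa [mul_comm, Function.comp_def] using this

theorem w0_int {s b : ℝ} (hs : 0 < s) (hb : 0 < b) :
    IntegrableOn (fun z : ℂ => ‖z‖ ^ (s - 2) * (1 - ‖z‖ ^ 2) ^ (b - 1)) (ball 0 1) := by
  have := (integrableOn_fun_norm_addHaar (volume : Measure ℂ)
    (f := fun y : ℝ => y ^ (s - 2) * (1 - y ^ 2) ^ (b - 1)) (r := 1)).2
  apply this
  have hB := (Complex.betaIntegral_convergent (u := (s : ℂ)) (v := (b : ℂ)) (by simpa using hs)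
    (by simpa using hb)).norm
  have hc : ContinuousOn (fun y : ℝ => (1 + y) ^ (b - 1)) (uIcc 0 1) := by
    refine ContinuousOn.rpow_const (by fun_prop) fun y hy => Or.inl ?_
    rw [uIcc_of_le zero_le_one] at hy
    linarith [hy.1]
  have h3 := (intervalIntegrable_iff_integrableOn_Ioo_of_le zero_le_one).1 (hB.mul_continuousOn hc)
  refine h3.congr_fun (fun y hy => ?_) measurableSet_Ioo
  have hy0 : 0 < y := hy.1
  have hy1 : 0 < 1 - y := by linarith [hy.2]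
  have e1 : ‖(y : ℂ) ^ ((s : ℂ) - 1)‖ = y ^ (s - 1) := by
    rw [Complex.norm_cpow_eq_rpow_re_of_pos hy0]; simp
  have e2 : ‖(1 - (y : ℂ)) ^ ((b : ℂ) - 1)‖ = (1 - y) ^ (b - 1) := by
    have : (1 - (y : ℂ)) = ((1 - y : ℝ) : ℂ) := by push_cast; ring
    rw [this, Complex.norm_cpow_eq_rpow_re_of_pos hy1]; simp
  simp only [norm_mul, e1, e2, Complex.finrank_real_complex, smul_eq_mul]
  have e3 : (1 - y ^ 2) ^ (b - 1) = (1 - y) ^ (b - 1) * (1 + y) ^ (b - 1) := by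
    rw [← Real.mul_rpow hy1.le (by linarith)]; congr 1; ring
  have e4 : y ^ (s - 1) = y * y ^ (s - 2) := by
    rw [show s - 1 = 1 + (s - 2) by ring, Real.rpow_add hy0, Real.rpow_one]
  rw [e3, e4]; norm_num; ring

theorem w0_mul_int {s b : ℝ} (hs : 0 < s) (hb : 0 < b) {E : Type*} [NormedAddCommGroup E]
    [NormedSpace ℝ E] {F : ℂ → E} (hF : ContinuousOn F (closedBall 0 1)) :
    IntegrableOn (fun z : ℂ => (‖z‖ ^ (s - 2) * (1 - ‖z‖ ^ 2) ^ (b - 1)) • F z) (ball 0 1) := by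
  obtain ⟨C, hC⟩ := (isCompact_closedBall (0 : ℂ) 1).exists_bound_of_continuousOn hF
  refine Integrable.smul_bdd (w0_int hs hb) ?_ (C := C) ?_
  · exact (hF.mono ball_subset_closedBall).aestronglyMeasurable measurableSet_ball
  · exact (ae_restrict_iff' measurableSet_ball).2 (.of_forall fun z hz =>
      hC z (ball_subset_closedBall hz))

theorem line_deriv {f1 h : ℂ → ℂ} {z f2 h1 : ℂ} (s b β : ℝ) (hz0 : z ≠ 0) (hz1 : ‖z‖ < 1)
    (hf1 : HasDerivAt f1 f2 z) (hne : f1 z ≠ 0) (hh : HasDerivAt h h1 z) (hq : h z = f2 / f1 z)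
    (v : ℂ) :
    HasLineDerivAt ℝ (fun z : ℂ => ((‖z‖ ^ (s - 2) * (1 - ‖z‖ ^ 2) ^ b * ‖f1 z‖ ^ (-s) : ℝ) : ℂ) *
        (z * (1 + β * (z * conj z)) + (z * conj z) * (1 - z * conj z) * conj (h z)))
      ((‖z‖ ^ (s - 2) * (1 - ‖z‖ ^ 2) ^ (b - 1)) • (((‖f1 z‖ ^ (-s) : ℝ) : ℂ) *
          (((s / 2 - 1) * (1 - z * conj z) - b * (z * conj z) - s / 2 * (1 - z * conj z) * z * h z) *
            (1 + β * (z * conj z) + conj z * (1 - z * conj z) * conj (h z)) +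
          (1 - z * conj z) * (1 + 2 * β * (z * conj z) +
            conj z * (1 - 2 * (z * conj z)) * conj (h z)))) * v +
        (z / conj z * ((‖z‖ ^ (s - 2) * (1 - ‖z‖ ^ 2) ^ (b - 1)) • (((‖f1 z‖ ^ (-s) : ℝ) : ℂ) *
          ((s / 2 - 1) * (1 - z * conj z) *
            (1 + β * (z * conj z) + conj z * (1 - z * conj z) * conj (h z))))) +
        (‖z‖ ^ (s - 2) * (1 - ‖z‖ ^ 2) ^ (b - 1)) • (((‖f1 z‖ ^ (-s) : ℝ) : ℂ) *
          ((-b * z ^ 2 - s / 2 * (1 - z * conj z) * z * conj (h z)) *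
            (1 + β * (z * conj z) + conj z * (1 - z * conj z) * conj (h z)) +
          (1 - z * conj z) * (β * z ^ 2 + z * (1 - 2 * (z * conj z)) * conj (h z) +
            (z * conj z) * (1 - z * conj z) * conj h1)))) * conj v) z v := by
  have hz : HasDerivAt (fun t : ℝ => z + t • v) v 0 := by
    simpa using hd_hol (hasDerivAt_id z) v
  have hzc : HasDerivAt (fun t : ℝ => conj (z + t • v)) (conj v) 0 := hz.star
  have hhc : HasDerivAt (fun t : ℝ => conj (h (z + t • v))) (conj (h1 * v)) 0 :=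
    (hd_hol hh v).star
  have hρ : 0 < 1 - ‖z‖ ^ 2 := by nlinarith [norm_nonneg z]
  have a1 := hd_rpow hz (by simpa using hz0) (s - 2)
  have a2 := ((hz.norm_sq).const_sub 1).rpow_const (p := b) (Or.inl (by simpa using hρ.ne'))
  have a3 := hd_rpow (hd_hol hf1 v) (by simpa using hne) (-s)
  have a4 := ((a1.mul a2).mul a3).ofReal_comp
  have a5 := (hz.mul (((hz.mul hzc).const_mul (β : ℂ)).const_add 1)).add
    (((hz.mul hzc).mul ((hz.mul hzc).const_sub 1)).mul hhc)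
  have a6 := a4.mul a5
  unfold HasLineDerivAt
  refine HasDerivAt.congr_deriv a6 ?_
  simp only [zero_smul, add_zero, Pi.mul_apply, Pi.add_apply, real_smul, ofReal_zero, zero_mul]
  have e1 : (1 - ‖z‖ ^ 2) ^ b = (1 - ‖z‖ ^ 2) ^ (b - 1) * (1 - ‖z‖ ^ 2) := by
    rw [Real.rpow_sub_one hρ.ne']; field_simp
  have e2 : ((‖z‖ : ℝ) : ℂ) ^ 2 = z * conj z := (Complex.mul_conj' z).symm
  rw [e1, Complex.inner]
  generalize (1 - ‖z‖ ^ 2) ^ (b - 1) = r1
  generalize ‖z‖ ^ (s - 2) = r2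
  generalize ‖f1 z‖ ^ (-s) = r3
  push_cast
  simp only [Complex.re_eq_add_conj, e2, map_mul, map_div₀, conj_conj, hq]
  have hzc0 : conj z ≠ 0 := by simpa using hz0
  have hfc : conj (f1 z) ≠ 0 := by simpa using hne
  field_simp
  ring

theorem ident (f : ℂ → ℂ) {R s b c : ℝ} (hR : 1 < R) (hf : DifferentiableOn ℂ f (ball 0 R))
    (hne : ∀ z ∈ ball (0 : ℂ) R, deriv f z ≠ 0) (hs : 0 < s) (hb : 0 < b)
    (hc : b - 1 = (s + 2) * (c - 1)) :
    IntegrableOn (fun z : ℂ => ‖z‖ ^ (s - 2) * ‖deriv f z‖ ^ (-s) * (1 - ‖z‖ ^ 2) ^ (b - 1) *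
      (‖(((2 * c - 1) * ‖z‖ ^ 2 : ℝ) : ℂ) + ((1 - ‖z‖ ^ 2 : ℝ) : ℂ) * z *
        (deriv (deriv f) z / deriv f z)‖ ^ 2 - 1)) (ball 0 1) ∧
    IntegrableOn (fun z : ℂ => ‖z‖ ^ (s - 2) * ‖deriv f z‖ ^ (-s) * (1 - ‖z‖ ^ 2) ^ (b - 1) *
      (‖z‖ ^ 2 * (4 * c * ‖z‖ ^ 2 - (s + 2)))) (ball 0 1) ∧
    ∫ z in ball (0 : ℂ) 1, ‖z‖ ^ (s - 2) * ‖deriv f z‖ ^ (-s) * (1 - ‖z‖ ^ 2) ^ (b - 1) *
      (‖(((2 * c - 1) * ‖z‖ ^ 2 : ℝ) : ℂ) + ((1 - ‖z‖ ^ 2 : ℝ) : ℂ) * z *
        (deriv (deriv f) z / deriv f z)‖ ^ 2 - 1) =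
      4 * c / s ^ 2 * ∫ z in ball (0 : ℂ) 1,
        ‖z‖ ^ (s - 2) * ‖deriv f z‖ ^ (-s) * (1 - ‖z‖ ^ 2) ^ (b - 1) *
          (‖z‖ ^ 2 * (4 * c * ‖z‖ ^ 2 - (s + 2))) := by
  set h : ℂ → ℂ := fun z => deriv (deriv f) z / deriv f z with hh
  have hsub : closedBall (0 : ℂ) 1 ⊆ ball 0 R := closedBall_subset_ball hR
  have d1 : DifferentiableOn ℂ (deriv f) (ball 0 R) := hf.deriv isOpen_ball
  have d2 : DifferentiableOn ℂ (deriv (deriv f)) (ball 0 R) := d1.deriv isOpen_ball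
  have dh : DifferentiableOn ℂ h (ball 0 R) := d2.div d1 hne
  have dh1 : DifferentiableOn ℂ (deriv h) (ball 0 R) := dh.deriv isOpen_ball
  have ch : ContinuousOn h (closedBall 0 1) := dh.continuousOn.mono hsub
  have ch1 : ContinuousOn (deriv h) (closedBall 0 1) := dh1.continuousOn.mono hsub
  have cg : ContinuousOn (fun z => ‖deriv f z‖ ^ (-s)) (closedBall (0 : ℂ) 1) :=
    (d1.continuousOn.mono hsub).norm.rpow_const fun z hz =>
      Or.inl (norm_ne_zero_iff.2 (hne z (hsub hz)))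
  have cgc : ContinuousOn (fun z => ((‖deriv f z‖ ^ (-s) : ℝ) : ℂ)) (closedBall (0 : ℂ) 1) :=
    continuous_ofReal.comp_continuousOn cg
  have chc : ContinuousOn (fun z => conj (h z)) (closedBall (0 : ℂ) 1) :=
    continuous_conj.comp_continuousOn ch
  have ch1c : ContinuousOn (fun z => conj (deriv h z)) (closedBall (0 : ℂ) 1) :=
    continuous_conj.comp_continuousOn ch1
  have cc : Continuous (fun z : ℂ => conj z) := continuous_conj
  set β : ℝ := 2 * (2 * c - 1) - 1 - 2 * (b + 1) / s with hβ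
  have iA := w0_mul_int hs hb (F := fun z : ℂ => ((‖deriv f z‖ ^ (-s) : ℝ) : ℂ) *
          (((s / 2 - 1) * (1 - z * conj z) - b * (z * conj z) - s / 2 * (1 - z * conj z) * z * h z) *
            (1 + β * (z * conj z) + conj z * (1 - z * conj z) * conj (h z)) +
          (1 - z * conj z) * (1 + 2 * β * (z * conj z) +
            conj z * (1 - 2 * (z * conj z)) * conj (h z)))) (by fun_prop)
  have iB1 := w0_mul_int hs hb (F := fun z : ℂ => ((‖deriv f z‖ ^ (-s) : ℝ) : ℂ) *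
          ((s / 2 - 1) * (1 - z * conj z) *
            (1 + β * (z * conj z) + conj z * (1 - z * conj z) * conj (h z)))) (by fun_prop)
  have iB1' := Integrable.bdd_mul (f := fun z : ℂ => z / conj z) (c := 1) iB1
    ((measurable_id.div cc.measurable).aestronglyMeasurable) (.of_forall fun z => by
      rw [norm_div, Complex.norm_conj]; exact div_self_le_one _)
  have iB2 := w0_mul_int hs hb (F := fun z : ℂ => ((‖deriv f z‖ ^ (-s) : ℝ) : ℂ) *
          ((-b * z ^ 2 - s / 2 * (1 - z * conj z) * z * conj (h z)) *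
            (1 + β * (z * conj z) + conj z * (1 - z * conj z) * conj (h z)) +
          (1 - z * conj z) * (β * z ^ 2 + z * (1 - 2 * (z * conj z)) * conj (h z) +
            (z * conj z) * (1 - z * conj z) * conj (deriv h z)))) (by fun_prop)
  have key := (Stokes.stokes_wirtinger
    (fun z : ℂ => ((‖z‖ ^ (s - 2) * (1 - ‖z‖ ^ 2) ^ b * ‖deriv f z‖ ^ (-s) : ℝ) : ℂ) *
        (z * (1 + β * (z * conj z)) + (z * conj z) * (1 - z * conj z) * conj (h z))) _ _ ?_ ?_ ?_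
    iA (iB1'.add iB2)).1
  rotate_left
  · refine ContinuousOn.mul (continuous_ofReal.comp_continuousOn ?_) ?_
    · refine (ContinuousOn.mul ?_ ?_).mul (cg.mono sdiff_subset)
      · exact continuous_norm.continuousOn.rpow_const fun z hz =>
          Or.inl (norm_ne_zero_iff.2 hz.2)
      · exact ContinuousOn.rpow_const (by fun_prop) fun z _ => Or.inr hb.le
    · have := chc.mono (sdiff_subset (t := {0}))
      fun_prop
  · intro z hz v
    have hzR : ball (0 : ℂ) R ∈ nhds z := isOpen_ball.mem_nhds (hsub (ball_subset_closedBall hz.1))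
    exact line_deriv s b β hz.2 (by simpa using hz.1) (d1.differentiableAt hzR).hasDerivAt
      (hne z (mem_of_mem_nhds hzR)) (dh.differentiableAt hzR).hasDerivAt rfl v
  · intro z hz
    have : ‖z‖ = 1 := by simpa using hz
    simp [this, Real.zero_rpow hb.ne']
  have i1 : IntegrableOn (fun z : ℂ => ‖z‖ ^ (s - 2) * ‖deriv f z‖ ^ (-s) *
      (1 - ‖z‖ ^ 2) ^ (b - 1) * (‖(((2 * c - 1) * ‖z‖ ^ 2 : ℝ) : ℂ) + ((1 - ‖z‖ ^ 2 : ℝ) : ℂ) * z *
        h z‖ ^ 2 - 1)) (ball 0 1) := by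
    have := w0_mul_int hs hb (F := fun z : ℂ => ‖deriv f z‖ ^ (-s) *
      (‖(((2 * c - 1) * ‖z‖ ^ 2 : ℝ) : ℂ) + ((1 - ‖z‖ ^ 2 : ℝ) : ℂ) * z * h z‖ ^ 2 - 1))
      (by fun_prop)
    refine this.congr_fun (fun z _ => ?_) measurableSet_ball
    simp only [smul_eq_mul]; ring
  have i2 : IntegrableOn (fun z : ℂ => ‖z‖ ^ (s - 2) * ‖deriv f z‖ ^ (-s) *
      (1 - ‖z‖ ^ 2) ^ (b - 1) * (‖z‖ ^ 2 * (4 * c * ‖z‖ ^ 2 - (s + 2)))) (ball 0 1) := by
    have := w0_mul_int hs hb (F := fun z : ℂ => ‖deriv f z‖ ^ (-s) *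
      (‖z‖ ^ 2 * (4 * c * ‖z‖ ^ 2 - (s + 2)))) (by fun_prop)
    refine this.congr_fun (fun z _ => ?_) measurableSet_ball
    simp only [smul_eq_mul]; ring
  refine ⟨i1, i2, ?_⟩
  have k2 := congrArg Complex.re key
  rw [← RCLike.re_to_complex, ← integral_re iA] at k2
  rw [← integral_const_mul, ← sub_eq_zero, ← integral_sub i1 (i2.const_mul _)]
  have hb' : b = (s + 2) * (c - 1) + 1 := by linarith
  rw [← mul_eq_zero_iff_left (show -(s / 2) ≠ 0 by linarith), ← integral_const_mul]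
  rw [zero_re] at k2
  rw [← k2]
  refine integral_congr_ae (.of_forall fun z => ?_)
  simp only [RCLike.re_to_complex]
  generalize (1 - ‖z‖ ^ 2) ^ (b - 1) = r1
  generalize ‖z‖ ^ (s - 2) = r2
  generalize ‖deriv f z‖ ^ (-s) = r3
  generalize h z = y
  rw [Complex.sq_norm, Complex.sq_norm, Complex.normSq_apply, Complex.normSq_apply]
  have hs2 : ((s : ℂ) / 2) = ((s / 2 : ℝ) : ℂ) := by push_cast; ring
  simp only [hs2, real_smul, mul_re, mul_im, add_re, add_im, sub_re, sub_im, ofReal_re, ofReal_im,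
    conj_re, conj_im, one_re, one_im, re_ofNat, im_ofNat]
  rw [hβ, hb']
  field_simp
  ring

/-- Block IDENT of `Defs.lean`. -/
theorem ident38 : Ident := by
  intro R f s b c hR hf hne hs hb hc
  obtain ⟨h1, h2, h3⟩ := ident f hR hf hne hs hb hc
  have e : (fun z : ℂ => ‖z‖ ^ (s - 2) * ‖deriv f z‖ ^ (-s) * (1 - ‖z‖ ^ 2) ^ (b - 1) *
      (‖z‖ ^ 2 * (4 * c * ‖z‖ ^ 2 - (s + 2)))) = fun z : ℂ => ‖z‖ ^ s * (1 - ‖z‖ ^ 2) ^ (b - 1) *
      (4 * c * ‖z‖ ^ 2 - (s + 2)) * ‖deriv f z‖ ^ (-s) := by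
    funext z
    have : ‖z‖ ^ s = ‖z‖ ^ (s - 2) * ‖z‖ ^ 2 := by
      rw [← Real.rpow_natCast, ← Real.rpow_add' (norm_nonneg z) (by push_cast; linarith)]
      congr 1; push_cast; ring
    rw [this]; ring
  rw [e] at h2 h3
  exact ⟨h1, h2, h3⟩

end Crest.Agent.R131.B38
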