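import Crest.Agent.R131.Asm

/-! Row 131, block IDENT: from the integrated Jacobian inequality to the uniform area bound. -/

open Set Metric MeasureTheory Filter
open scoped ENNReal Topology

namespace Crest.Agent.R131.Close

/-- Lower distortion bound on compact subdiscs. -/
theorem lowDist (h : PreSchw) {r : ℝ} (hr : r < 1) :
    ∃ m : ℝ, 0 < m ∧ ∀ f : ℂ → ℂ, DifferentiableOn ℂ f (ball 0 1) → InjOn f (ball 0 1) →
      deriv f 0 = 1 → ∀ z : ℂ, ‖z‖ ≤ r → m ≤ ‖deriv f z‖ := by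
  obtain ⟨K, hK⟩ := h
  set K' : ℝ := |K| / (1 - r) with hK'
  have h1r : 0 < 1 - r := by linarith
  refine ⟨Real.exp (-K'), Real.exp_pos _, fun f hf hi h1 z hz => ?_⟩
  have hd : DifferentiableOn ℂ (deriv f) (ball 0 1) := hf.deriv isOpen_ball
  have hmem : ∀ τ : ℝ, τ ∈ Icc (0 : ℝ) 1 → ‖((1 - τ : ℝ) : ℂ) * z‖ ≤ r := by
    intro τ hτ
    rw [norm_mul, Complex.norm_real, Real.norm_eq_abs, abs_of_nonneg (by linarith [hτ.2])]
    nlinarith [hτ.1, hτ.2, norm_nonneg z]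
  have hder : ∀ τ : ℝ, τ ∈ Icc (0 : ℝ) 1 → HasDerivAt (fun τ : ℝ => deriv f (((1 - τ : ℝ) : ℂ) * z))
      (deriv (deriv f) (((1 - τ : ℝ) : ℂ) * z) * (-z)) τ := by
    intro τ hτ
    have hb : ((1 - τ : ℝ) : ℂ) * z ∈ ball (0 : ℂ) 1 := by
      rw [mem_ball_zero_iff]; linarith [hmem τ hτ]
    have h2 := (hd.differentiableAt (isOpen_ball.mem_nhds hb)).hasDerivAt
    have h3 : HasDerivAt (fun w : ℂ => (1 - w) * z) (-z) (τ : ℂ) := by
      simpa using ((hasDerivAt_id (τ : ℂ)).const_sub 1).mul_const z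
    have h4 : HasDerivAt (fun w : ℂ => deriv f ((1 - w) * z))
        (deriv (deriv f) (((1 - τ : ℝ) : ℂ) * z) * (-z)) (τ : ℂ) := by
      have h5 : ((1 - τ : ℝ) : ℂ) * z = (1 - (τ : ℂ)) * z := by push_cast; ring
      rw [h5] at h2 ⊢
      exact h2.comp (τ : ℂ) h3
    have h6 := h4.comp_ofReal
    refine h6.congr_of_eventuallyEq (Eventually.of_forall fun t => ?_)
    simp
  have hg := norm_le_gronwallBound_of_norm_deriv_right_le (δ := ‖deriv f z‖) (K := K') (ε := 0)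
    (a := 0) (b := 1) (f := fun τ : ℝ => deriv f (((1 - τ : ℝ) : ℂ) * z))
    (f' := fun τ => deriv (deriv f) (((1 - τ : ℝ) : ℂ) * z) * (-z))
    (fun τ hτ => (hder τ hτ).continuousAt.continuousWithinAt)
    (fun τ hτ => (hder τ (Ico_subset_Icc_self hτ)).hasDerivWithinAt) (by simp)
    (fun τ hτ => by
      have hτ' := Ico_subset_Icc_self hτ
      have hb : ((1 - τ : ℝ) : ℂ) * z ∈ ball (0 : ℂ) 1 := by
        rw [mem_ball_zero_iff]; linarith [hmem τ hτ']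
      have h2 := hK f hf hi _ hb
      set p := ((1 - τ : ℝ) : ℂ) * z
      have h3 : ‖p‖ ≤ r := hmem τ hτ'
      have h4 : (1 - r) * ‖deriv (deriv f) p‖ ≤ |K| * ‖deriv f p‖ := by
        have := le_abs_self K
        nlinarith [norm_nonneg (deriv (deriv f) p), norm_nonneg (deriv f p)]
      rw [norm_mul, norm_neg, add_zero, hK', div_mul_eq_mul_div, le_div_iff₀ h1r]
      have h5 : ‖z‖ ≤ 1 := by linarith
      nlinarith [norm_nonneg (deriv (deriv f) p), norm_nonneg z,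
        mul_nonneg (norm_nonneg (deriv (deriv f) p)) h1r.le]) 1 ⟨zero_le_one, le_rfl⟩
  rw [gronwallBound_ε0] at hg
  simp only [sub_self, Complex.ofReal_zero, zero_mul, h1, norm_one, sub_zero, mul_one] at hg
  rw [Real.exp_neg, inv_le_iff_one_le_mul₀ (Real.exp_pos _)]
  exact hg

/-- `ρ^(b-1)` is integrable on the disc for `b > 0`. -/
theorem integrableOn_rho {b : ℝ} (hb : 0 < b) :
    IntegrableOn (fun z : ℂ => (1 - ‖z‖ ^ 2) ^ (b - 1)) (ball 0 1) := by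
  have key : IntegrableOn (fun y : ℝ => y ^ (Module.finrank ℝ ℂ - 1) • (1 - y ^ 2) ^ (b - 1))
      (Ioo 0 1) := by
    have h1 : IntervalIntegrable (fun y : ℝ => y ^ (b - 1)) volume 0 1 :=
      intervalIntegral.intervalIntegrable_rpow' (by linarith)
    have h2 : IntervalIntegrable (fun y : ℝ => (1 - y) ^ (b - 1)) volume 0 1 := by
      have := (h1.comp_sub_left 1).symm
      simpa using this
    have h3 : ContinuousOn (fun y : ℝ => y * (1 + y) ^ (b - 1)) (uIcc 0 1) := by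
      refine continuousOn_id.mul (ContinuousOn.rpow_const (by fun_prop) fun y hy => Or.inl ?_)
      rw [uIcc_of_le zero_le_one] at hy
      linarith [hy.1]
    have h4 := (h2.mul_continuousOn h3)
    rw [intervalIntegrable_iff_integrableOn_Ioo_of_le zero_le_one] at h4
    refine h4.congr_fun (fun y hy => ?_) measurableSet_Ioo
    have e : (1 - y ^ 2) = (1 - y) * (1 + y) := by ring
    simp only [Complex.finrank_real_complex, smul_eq_mul]
    rw [e, Real.mul_rpow (by linarith [hy.2]) (by linarith [hy.1])]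
    norm_num
    ring
  exact (integrableOn_fun_norm_addHaar volume (f := fun y : ℝ => (1 - y ^ 2) ^ (b - 1))).2 key

/-- `μ Φ` is integrable for `Φ` continuous on the closed disc. -/
theorem integrableOn_mul {b : ℝ} (hb : 0 < b) {Φ : ℂ → ℝ} (hΦ : ContinuousOn Φ (closedBall 0 1)) :
    IntegrableOn (fun z : ℂ => Φ z * (1 - ‖z‖ ^ 2) ^ (b - 1)) (ball 0 1) := by
  obtain ⟨C, hC⟩ := (isCompact_closedBall (0 : ℂ) 1).exists_bound_of_continuousOn hΦ
  refine Integrable.bdd_mul (c := C) (integrableOn_rho hb)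
    ((hΦ.mono ball_subset_closedBall).aestronglyMeasurable measurableSet_ball) ?_
  exact (ae_restrict_iff' measurableSet_ball).2
    (Eventually.of_forall fun z hz => hC z (ball_subset_closedBall hz))

theorem continuousOn_u {R : ℝ} (hR : 1 < R) {f : ℂ → ℂ} (hf : DifferentiableOn ℂ f (ball 0 R))
    (hi : InjOn f (ball 0 R)) (s : ℝ) :
    ContinuousOn (fun z => ‖deriv f z‖ ^ (-s)) (closedBall 0 1) := by
  have hs : closedBall (0 : ℂ) 1 ⊆ ball 0 R := closedBall_subset_ball hR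
  refine ContinuousOn.rpow_const (((hf.deriv isOpen_ball).continuousOn.mono hs).norm)
    fun z hz => Or.inl (norm_ne_zero_iff.2 ?_)
  exact Crest.Agent.Lib.RMT.deriv_ne_zero_of_injOn isOpen_ball hf hi (hs hz)

theorem integrableOn_mu {R : ℝ} (hR : 1 < R) {f : ℂ → ℂ} (hf : DifferentiableOn ℂ f (ball 0 R))
    (hi : InjOn f (ball 0 R)) (s : ℝ) {b : ℝ} (hb : 0 < b) :
    IntegrableOn (fun z : ℂ => ‖deriv f z‖ ^ (-s) * (1 - ‖z‖ ^ 2) ^ (b - 1)) (ball 0 1) :=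
  integrableOn_mul hb (continuousOn_u hR hf hi s)

/-- The closing step: with `Q = ∫ |f'|^(-s) ρ^(b-1)`, a uniform bound
`∫ |z|^s ρ^(b-1) (4c|z|² - (s+2)) |f'|^(-s) ≤ -δ Q + C₀` with `4c - (s+2) + δ > 0`
gives the uniform area bound. -/
theorem close (hP : PreSchw) {s b c δ C₀ : ℝ} (hs : 0 < s) (hb : 0 < b) (hc : 0 ≤ c)
    (hδ : 0 < 4 * c - (s + 2) + δ)
    (H : ∀ (R : ℝ) (f : ℂ → ℂ), 1 < R → DifferentiableOn ℂ f (ball 0 R) → InjOn f (ball 0 R) →
      f 0 = 0 → deriv f 0 = 1 →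
      ∫ z in ball (0 : ℂ) 1, ‖z‖ ^ s * (1 - ‖z‖ ^ 2) ^ (b - 1) * (4 * c * ‖z‖ ^ 2 - (s + 2)) *
          ‖deriv f z‖ ^ (-s) ≤
        -δ * (∫ z in ball (0 : ℂ) 1, ‖deriv f z‖ ^ (-s) * (1 - ‖z‖ ^ 2) ^ (b - 1)) + C₀) :
    AreaBoundR s b := by
  set κ : ℝ := 4 * c - (s + 2) + δ with hκ
  have hg : ContinuousAt (fun t : ℝ => t ^ s * (4 * c * t ^ 2 - (s + 2))) 1 :=
    (continuousAt_id.rpow_const (Or.inl one_ne_zero)).mul (by fun_prop)
  have hev : ∀ᶠ t in 𝓝 (1 : ℝ), 4 * c - (s + 2) - κ / 2 < t ^ s * (4 * c * t ^ 2 - (s + 2)) := by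
    refine hg.eventually (lt_mem_nhds ?_)
    simp only [Real.one_rpow]
    linarith
  obtain ⟨η, hη, hη'⟩ := Metric.eventually_nhds_iff.1 hev
  set r : ℝ := max (1 - η / 2) 0 with hr
  have hr1 : r < 1 := max_lt (by linarith) one_pos
  have hr0 : 0 ≤ r := le_max_right _ _
  obtain ⟨m, hm, hmf⟩ := lowDist hP hr1
  set B : ℝ := m ^ (-s) * (1 + (1 - r ^ 2) ^ (b - 1)) with hB
  have hr2 : 0 < 1 - r ^ 2 := by nlinarith
  have hB0 : 0 ≤ B := by positivity
  set L : ℝ := κ / 2 + (s + 2) + |δ| with hL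
  have hL0 : 0 ≤ L := by positivity
  set V : ℝ := (volume (ball (0 : ℂ) 1)).toReal with hV
  refine ⟨2 * (C₀ + L * B * V) / κ, fun R f hR hf hi h0 h1 => ?_⟩
  have hsub : ball (0 : ℂ) 1 ⊆ ball 0 R := ball_subset_ball hR.le
  have hmu := integrableOn_mu hR hf hi s hb
  have hu := continuousOn_u hR hf hi s
  have hI : IntegrableOn (fun z : ℂ => ‖z‖ ^ s * (1 - ‖z‖ ^ 2) ^ (b - 1) *
      (4 * c * ‖z‖ ^ 2 - (s + 2)) * ‖deriv f z‖ ^ (-s)) (ball 0 1) := by
    have h2 : ContinuousOn (fun z : ℂ => ‖z‖ ^ s * (4 * c * ‖z‖ ^ 2 - (s + 2)) *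
        ‖deriv f z‖ ^ (-s)) (closedBall 0 1) := by
      refine ContinuousOn.mul (ContinuousOn.mul ?_ (by fun_prop)) hu
      exact ContinuousOn.rpow_const (by fun_prop) fun z _ => Or.inr hs.le
    refine (integrableOn_mul hb h2).congr_fun (fun z _ => ?_) measurableSet_ball
    ring
  have hpt : ∀ z ∈ ball (0 : ℂ) 1,
      κ / 2 * (‖deriv f z‖ ^ (-s) * (1 - ‖z‖ ^ 2) ^ (b - 1)) - L * B ≤
        ‖z‖ ^ s * (1 - ‖z‖ ^ 2) ^ (b - 1) * (4 * c * ‖z‖ ^ 2 - (s + 2)) * ‖deriv f z‖ ^ (-s) +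
          δ * (‖deriv f z‖ ^ (-s) * (1 - ‖z‖ ^ 2) ^ (b - 1)) := by
    intro z hz
    rw [mem_ball_zero_iff] at hz
    have hρ : 0 < 1 - ‖z‖ ^ 2 := by nlinarith [norm_nonneg z]
    set μ : ℝ := ‖deriv f z‖ ^ (-s) * (1 - ‖z‖ ^ 2) ^ (b - 1) with hμ
    have hμ0 : 0 ≤ μ := by positivity
    have e : ‖z‖ ^ s * (1 - ‖z‖ ^ 2) ^ (b - 1) * (4 * c * ‖z‖ ^ 2 - (s + 2)) * ‖deriv f z‖ ^ (-s) =
        ‖z‖ ^ s * (4 * c * ‖z‖ ^ 2 - (s + 2)) * μ := by rw [hμ]; ring
    rw [e]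
    rcases le_total ‖z‖ r with h | h
    · have h2 : m ≤ ‖deriv f z‖ := hmf f (hf.mono hsub) (hi.mono hsub) h1 z h
      have h3 : ‖deriv f z‖ ^ (-s) ≤ m ^ (-s) :=
        Real.rpow_le_rpow_of_nonpos hm h2 (by linarith)
      have h4 : (1 - ‖z‖ ^ 2) ^ (b - 1) ≤ 1 + (1 - r ^ 2) ^ (b - 1) := by
        have h5 : 0 ≤ (1 - r ^ 2) ^ (b - 1) := by positivity
        rcases le_total b 1 with hb1 | hb1
        · have : (1 - ‖z‖ ^ 2) ^ (b - 1) ≤ (1 - r ^ 2) ^ (b - 1) :=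
            Real.rpow_le_rpow_of_nonpos hr2 (by nlinarith [norm_nonneg z]) (by linarith)
          linarith
        · have : (1 - ‖z‖ ^ 2) ^ (b - 1) ≤ 1 :=
            Real.rpow_le_one hρ.le (by nlinarith [norm_nonneg z]) (by linarith)
          linarith
      have h5 : μ ≤ B := mul_le_mul h3 h4 (by positivity) (by positivity)
      have h6 : ‖z‖ ^ s ≤ 1 := Real.rpow_le_one (norm_nonneg z) hz.le hs.le
      have h7 : 0 ≤ ‖z‖ ^ s := by positivity
      have h8 : -(s + 2) ≤ ‖z‖ ^ s * (4 * c * ‖z‖ ^ 2 - (s + 2)) := by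
        have : 0 ≤ ‖z‖ ^ s * (4 * c * ‖z‖ ^ 2) := by positivity
        nlinarith
      have h9 : κ / 2 - L ≤ ‖z‖ ^ s * (4 * c * ‖z‖ ^ 2 - (s + 2)) + δ := by
        have := neg_abs_le δ
        rw [hL]; linarith
      nlinarith [mul_le_mul_of_nonneg_right h9 hμ0, mul_le_mul_of_nonneg_left h5 hL0]
    · have h2 : dist ‖z‖ 1 < η := by
        rw [Real.dist_eq, abs_sub_comm, abs_of_pos (by linarith)]
        have : 1 - η / 2 ≤ r := le_max_left _ _
        linarith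
      have h3 := hη' h2
      have h4 : κ / 2 ≤ ‖z‖ ^ s * (4 * c * ‖z‖ ^ 2 - (s + 2)) + δ := by
        rw [hκ] at h3 ⊢; linarith
      nlinarith [mul_le_mul_of_nonneg_right h4 hμ0, mul_nonneg hL0 hB0]
  have hfin : volume (ball (0 : ℂ) 1) ≠ ⊤ := measure_ball_lt_top.ne
  have hcst : IntegrableOn (fun _ : ℂ => L * B) (ball 0 1) := integrableOn_const hfin
  have hint := setIntegral_mono_on ((hmu.const_mul (κ / 2)).sub hcst) (hI.add (hmu.const_mul δ))
    measurableSet_ball hpt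
  simp only [Pi.sub_apply, Pi.add_apply] at hint
  rw [integral_sub (hmu.const_mul _) hcst, integral_add hI (hmu.const_mul δ), setIntegral_const,
    integral_const_mul, integral_const_mul, smul_eq_mul] at hint
  have hH := H R f hR hf hi h0 h1
  set Q := ∫ z in ball (0 : ℂ) 1, ‖deriv f z‖ ^ (-s) * (1 - ‖z‖ ^ 2) ^ (b - 1) with hQ
  have hQ' : Q ≤ 2 * (C₀ + L * B * V) / κ := by
    rw [le_div_iff₀ hδ]
    have : volume.real (ball (0 : ℂ) 1) = V := rfl
    rw [this] at hint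
    linarith
  rw [← ofReal_integral_eq_lintegral_ofReal hmu]
  · exact ENNReal.ofReal_le_ofReal hQ'
  · refine (ae_restrict_iff' measurableSet_ball).2 (Eventually.of_forall fun z hz => ?_)
    rw [mem_ball_zero_iff] at hz
    have hρ : 0 < 1 - ‖z‖ ^ 2 := by nlinarith [norm_nonneg z]
    simp only [Pi.zero_apply]
    positivity

/-- glue: positive part `≤` negative part gives a nonpositive integral. -/
theorem integral_nonpos_of_lintegral {α : Type*} [MeasurableSpace α] {μ : Measure α} {g : α → ℝ}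
    (hg : Integrable g μ)
    (h : ∫⁻ x, ENNReal.ofReal (g x) ∂μ ≤ ∫⁻ x, ENNReal.ofReal (-g x) ∂μ) : ∫ x, g x ∂μ ≤ 0 := by
  rw [integral_eq_lintegral_pos_part_sub_lintegral_neg_part hg, sub_nonpos]
  refine ENNReal.toReal_mono ?_ h
  exact (hg.neg.lintegral_lt_top).ne

end Crest.Agent.R131.Close
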