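import Crest.Agent.R131.Close
import Crest.Agent.R131.Defs

/-! Row 131, block IDENT: the weighted Jacobian inequality and the non-strict area bound. -/

open Set Metric MeasureTheory Filter
open scoped ENNReal Topology

namespace Crest.Agent.R131.Close

theorem meas_Jd (f : ℂ → ℂ) (c : ℝ) : Measurable (Jd f c) := by
  have h1 : Measurable (deriv f) := measurable_deriv f
  have h2 : Measurable (deriv (deriv f)) := measurable_deriv _
  unfold Jd
  fun_prop

theorem meas_qv (f : ℂ → ℂ) (c : ℝ) : Measurable (qv f c) := by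
  have h1 : Measurable (deriv f) := measurable_deriv f
  unfold qv
  fun_prop

theorem meas_Wt (f : ℂ → ℂ) (s b : ℝ) : Measurable (Wt f s b) := by
  have h1 : Measurable (deriv f) := measurable_deriv f
  unfold Wt
  fun_prop

theorem qv_pos {f : ℂ → ℂ} {c : ℝ} (hc : 0 < c) {z : ℂ} (hz : z ∈ ball (0 : ℂ) 1) (hz0 : z ≠ 0)
    (hd : deriv f z ≠ 0) : 0 < qv f c z := by
  rw [mem_ball_zero_iff] at hz
  have hρ : 0 < 1 - ‖z‖ ^ 2 := by nlinarith [norm_nonneg z]
  have h1 : 0 < ‖z‖ := norm_pos_iff.2 hz0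
  have h2 : 0 < ‖deriv f z‖ := norm_pos_iff.2 hd
  unfold qv
  positivity

theorem Wt_nonneg (f : ℂ → ℂ) (s b : ℝ) {z : ℂ} (hz : z ∈ ball (0 : ℂ) 1) : 0 ≤ Wt f s b z := by
  rw [mem_ball_zero_iff] at hz
  have hρ : 0 < 1 - ‖z‖ ^ 2 := by nlinarith [norm_nonneg z]
  unfold Wt
  positivity

/-- `q^(-(s+2)) |f'|² / (4c²|z|⁴) = (2c)^s W`. -/
theorem weight_eq {f : ℂ → ℂ} {s b c : ℝ} (hc : 0 < c) (hb : b - 1 = (s + 2) * (c - 1)) {z : ℂ}
    (hz : z ∈ ball (0 : ℂ) 1) (hz0 : z ≠ 0) (hd : deriv f z ≠ 0) (J : ℝ) :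
    ‖deriv f z‖ ^ 2 * J / (4 * c ^ 2 * ‖z‖ ^ 4) * qv f c z ^ (-(s + 2)) =
      (2 * c) ^ s * (Wt f s b z * J) := by
  rw [mem_ball_zero_iff] at hz
  have hρ : 0 < 1 - ‖z‖ ^ 2 := by nlinarith [norm_nonneg z]
  have h1 : 0 < ‖z‖ := norm_pos_iff.2 hz0
  have h2 : 0 < ‖deriv f z‖ := norm_pos_iff.2 hd
  have h3 : 0 < 2 * c := by linarith
  unfold qv Wt
  set ρ := 1 - ‖z‖ ^ 2
  set r := ‖z‖
  set d := ‖deriv f z‖
  have e1 : (d * ρ ^ (1 - c) / (2 * c * r)) ^ (-(s + 2)) =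
      d ^ (-(s + 2)) * ρ ^ (b - 1) * ((2 * c) ^ (s + 2) * r ^ (s + 2)) := by
    rw [Real.div_rpow (by positivity) (by positivity), Real.mul_rpow h2.le (by positivity),
      ← Real.rpow_mul hρ.le, Real.rpow_neg (by positivity : (0 : ℝ) ≤ 2 * c * r), div_inv_eq_mul,
      Real.mul_rpow h3.le h1.le]
    congr 3
    rw [hb]; ring
  have e2 : d ^ (-(s + 2)) = d ^ (-s) / d ^ 2 := by
    rw [show -(s + 2) = -s - (2 : ℕ) by push_cast; ring, Real.rpow_sub_natCast h2.ne']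
  have e3 : (2 * c) ^ (s + 2) = (2 * c) ^ s * (2 * c) ^ 2 := by
    rw [show s + 2 = s + (2 : ℕ) by push_cast; ring, Real.rpow_add_natCast h3.ne']
  have e4 : r ^ (s + 2) = r ^ (s - 2) * r ^ 4 := by
    rw [show s + 2 = (s - 2) + (4 : ℕ) by push_cast; ring, Real.rpow_add_natCast h1.ne']
  rw [e1, e2, e3, e4]
  field_simp
  ring

/-- The weighted Jacobian inequality with a gain `t ≥ exp (-(s+2) κ)` on a measurable set `G` of
persistent minima (`G = ∅` gives the plain inequality). -/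
theorem deg_weight (hD : DegFlex) {R : ℝ} {f : ℂ → ℂ} {s b c κ t : ℝ} (hR : 1 < R)
    (hf : DifferentiableOn ℂ f (ball 0 R)) (hi : InjOn f (ball 0 R)) (hc : 0 < c) (hs : 0 ≤ s)
    (hb : b - 1 = (s + 2) * (c - 1)) {G : Set ℂ} [DecidablePred (· ∈ G)] (hG : MeasurableSet G)
    (ht : Real.exp (-(s + 2) * κ) ≤ t)
    (hP : ∀ m ∈ G, m ∈ ball (0 : ℂ) 1 → m ≠ 0 → ∀ p ∈ ball (0 : ℂ) 1, p ≠ 0 → 0 < Jd f c p →
      Mm f c m = Mm f c p →
      JoinedIn {z | z ∈ ball (0 : ℂ) 1 ∧ Fw f c (Mm f c p) z ≤ Fw f c (Mm f c p) p} p m →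
      Real.exp κ * qv f c m ≤ qv f c p) :
    ∫⁻ z in ball (0 : ℂ) 1, ENNReal.ofReal (Wt f s b z * Jd f c z) ≤
      ∫⁻ z in ball (0 : ℂ) 1,
        ENNReal.ofReal (-(Wt f s b z * Jd f c z) * (if z ∈ G then t else 1)) := by
  have hd : ∀ z ∈ ball (0 : ℂ) 1, deriv f z ≠ 0 := fun z hz =>
    Crest.Agent.Lib.RMT.deriv_ne_zero_of_injOn isOpen_ball hf hi (ball_subset_ball hR.le hz)
  have ht0 : 0 ≤ t := (Real.exp_pos _).le.trans ht
  have hite : Measurable fun z : ℂ => if z ∈ G then t else (1 : ℝ) :=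
    Measurable.ite hG measurable_const measurable_const
  have hq : Measurable fun z => qv f c z ^ (-(s + 2)) := (meas_qv f c).pow_const _
  have key := hD R f c hR hf hi hc (fun z => ENNReal.ofReal (qv f c z ^ (-(s + 2))))
    (fun z => ENNReal.ofReal (qv f c z ^ (-(s + 2)) * (if z ∈ G then t else 1)))
    hq.ennreal_ofReal (hq.mul hite).ennreal_ofReal (by
      intro p hp m hm hp0 hm0 hJp _ hM hlt hj
      refine ENNReal.ofReal_le_ofReal ?_
      have h1 := qv_pos hc hm hm0 (hd m hm)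
      split_ifs with hmG
      · have h2 := hP m hmG hm hm0 p hp hp0 hJp hM hj
        have h3 : qv f c p ^ (-(s + 2)) ≤ (Real.exp κ * qv f c m) ^ (-(s + 2)) :=
          Real.rpow_le_rpow_of_nonpos (by positivity) h2 (by linarith)
        rw [Real.mul_rpow (Real.exp_pos _).le h1.le, ← Real.exp_mul, mul_comm κ] at h3
        have h4 : 0 ≤ qv f c m ^ (-(s + 2)) := by positivity
        nlinarith [mul_le_mul_of_nonneg_right ht h4]
      · rw [mul_one]
        exact Real.rpow_le_rpow_of_nonpos h1 hlt.le (by linarith))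
  have mJ := meas_Jd f c
  have mW := meas_Wt f s b
  have mp : MeasurableSet {z | z ∈ ball (0 : ℂ) 1 ∧ z ≠ 0 ∧ 0 < Jd f c z} :=
    measurableSet_ball.inter ((measurableSet_singleton 0).compl.inter
      (measurableSet_lt measurable_const mJ))
  have mn : MeasurableSet {z | z ∈ ball (0 : ℂ) 1 ∧ z ≠ 0 ∧ Jd f c z < 0} :=
    measurableSet_ball.inter ((measurableSet_singleton 0).compl.inter
      (measurableSet_lt mJ measurable_const))
  set A : ℝ≥0∞ := ENNReal.ofReal ((2 * c) ^ s) with hA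
  have hA0 : A ≠ 0 := by
    rw [hA]; exact (ENNReal.ofReal_pos.2 (by positivity)).ne'
  have hAt : A ≠ ⊤ := ENNReal.ofReal_ne_top
  have h0 : ∀ᵐ z ∂(volume : Measure ℂ), z ≠ 0 := by
    rw [ae_iff]; simp
  have l1 : A * ∫⁻ z in ball (0 : ℂ) 1, ENNReal.ofReal (Wt f s b z * Jd f c z) =
      ∫⁻ z in {z | z ∈ ball (0 : ℂ) 1 ∧ z ≠ 0 ∧ 0 < Jd f c z},
        ENNReal.ofReal (‖deriv f z‖ ^ 2 * |Jd f c z| / (4 * c ^ 2 * ‖z‖ ^ 4)) *
          ENNReal.ofReal (qv f c z ^ (-(s + 2))) := by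
    rw [← lintegral_const_mul' _ _ hAt, ← lintegral_indicator measurableSet_ball,
      ← lintegral_indicator mp]
    refine lintegral_congr_ae ?_
    filter_upwards [h0] with z hz0
    by_cases hz : z ∈ ball (0 : ℂ) 1
    · rw [indicator_of_mem hz]
      by_cases hJ : 0 < Jd f c z
      · rw [indicator_of_mem (show z ∈ {z | z ∈ ball (0 : ℂ) 1 ∧ z ≠ 0 ∧ 0 < Jd f c z} from
          ⟨hz, hz0, hJ⟩), hA, ← ENNReal.ofReal_mul (by positivity),
          ← ENNReal.ofReal_mul (by positivity), abs_of_pos hJ, weight_eq hc hb hz hz0 (hd z hz)]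
      · rw [indicator_of_notMem (fun h => hJ h.2.2), ENNReal.ofReal_of_nonpos
          (mul_nonpos_of_nonneg_of_nonpos (Wt_nonneg f s b hz) (not_lt.1 hJ)), mul_zero]
    · rw [indicator_of_notMem hz, indicator_of_notMem (fun h => hz h.1)]
  have l2 : ∫⁻ z in {z | z ∈ ball (0 : ℂ) 1 ∧ z ≠ 0 ∧ Jd f c z < 0},
        ENNReal.ofReal (‖deriv f z‖ ^ 2 * |Jd f c z| / (4 * c ^ 2 * ‖z‖ ^ 4)) *
          ENNReal.ofReal (qv f c z ^ (-(s + 2)) * (if z ∈ G then t else 1)) ≤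
      A * ∫⁻ z in ball (0 : ℂ) 1,
        ENNReal.ofReal (-(Wt f s b z * Jd f c z) * (if z ∈ G then t else 1)) := by
    rw [← lintegral_const_mul' _ _ hAt]
    refine le_trans (le_of_eq (setLIntegral_congr_fun mn fun z hz => ?_))
      (lintegral_mono_set fun z hz => hz.1)
    obtain ⟨hz, hz0, hJ⟩ := hz
    rw [← ENNReal.ofReal_mul (by positivity), hA, ← ENNReal.ofReal_mul (by positivity),
      abs_of_neg hJ, ← mul_assoc, weight_eq hc hb hz hz0 (hd z hz)]
    congr 1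
    ring
  exact (ENNReal.mul_le_mul_iff_right hA0 hAt).1 (l1.trans_le (key.trans l2))

/-- The non-strict bound: `B(-s) ≤ s²/4`. -/
theorem areaBoundR_of (hD : DegFlex) (hI : Ident) (hP : PreSchw) {s b : ℝ} (hs : 0 < s)
    (hb : s ^ 2 / 4 < b) : AreaBoundR s b := by
  classical
  have hs2 : 0 < s + 2 := by linarith
  set c : ℝ := 1 + (b - 1) / (s + 2) with hcdef
  have hbc : b - 1 = (s + 2) * (c - 1) := by rw [hcdef]; field_simp; ring
  have hb0 : 0 < b := lt_of_le_of_lt (by positivity) hb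
  have h4 : 0 < 4 * c - (s + 2) := by
    have : (s + 2) * (4 * c - (s + 2)) = 4 * b - s ^ 2 := by linear_combination (-4) * hbc
    have h5 : 0 < (s + 2) * (4 * c - (s + 2)) := by rw [this]; linarith
    exact (mul_pos_iff_of_pos_left hs2).1 h5
  have hc : 0 < c := by linarith
  refine close (δ := 0) (C₀ := 0) hP hs hb0 hc.le (by linarith) fun R f hR hf hi _ _ => ?_
  have hd : ∀ z ∈ ball (0 : ℂ) R, deriv f z ≠ 0 := fun z hz =>
    Crest.Agent.Lib.RMT.deriv_ne_zero_of_injOn isOpen_ball hf hi hz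
  obtain ⟨i1, -, i3⟩ := hI R f s b c hR hf hd hs hb0 hbc
  have h1 := deg_weight hD (κ := 0) (t := 1) (G := ∅) hR hf hi hc hs.le hbc MeasurableSet.empty
    (by simp) (fun m hm => absurd hm (notMem_empty m))
  simp only [ite_self, mul_one] at h1
  have h2 := integral_nonpos_of_lintegral i1 h1
  rw [i3] at h2
  have h3 : 0 < 4 * c / s ^ 2 := by positivity
  have := (mul_nonpos_iff_pos_imp_nonpos.1 h2).1 h3
  simpa using this

theorem areaBound_two (hD : DegFlex) (hI : Ident) (hP : PreSchw) (e : ℝ) (he : 0 < e) :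
    AreaBound 2 (1 + e) :=
  areaBound_of_R (areaBoundR_of hD hI hP two_pos (by linarith))

end Crest.Agent.R131.Close
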