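import Mathlib

/-!
Row 131: critical points of `F w x = ‖f x - w‖ / (1 - ‖x‖ ^ 2) ^ c` on the unit disc.
-/

set_option autoImplicit false

open Filter Topology Set Complex
open scoped ComplexConjugate

namespace Crest.Agent.R131.Crit

/-- Strict second-derivative test. -/
theorem strict_max {φ ψ : ℝ → ℝ} {d : ℝ} (hφ : ∀ᶠ t in 𝓝 (0 : ℝ), HasDerivAt φ (ψ t) t)
    (h0 : ψ 0 = 0) (hψ : HasDerivAt ψ d 0) (hd : d < 0) :
    ∀ᶠ t in 𝓝[≠] (0 : ℝ), φ t < φ 0 := by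
  have h1 : ∀ᶠ t in 𝓝[≠] (0 : ℝ), slope ψ 0 t < 0 :=
    (hasDerivAt_iff_tendsto_slope.1 hψ).eventually (gt_mem_nhds hd)
  rw [eventually_nhdsWithin_iff] at h1 ⊢
  obtain ⟨ε, hε, hb⟩ := Metric.eventually_nhds_iff.1 (hφ.and h1)
  refine Metric.eventually_nhds_iff.2 ⟨ε, hε, fun t ht ht0 => ?_⟩
  have ht0' : t ≠ 0 := ht0
  rw [Real.dist_eq, sub_zero] at ht
  have hs : ∀ s : ℝ, |s| < ε → s ≠ 0 → ψ s / s < 0 := fun s hs hs0 => by
    have := (hb (y := s) (by rwa [Real.dist_eq, sub_zero])).2 hs0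
    rwa [slope_def_field, h0, sub_zero, sub_zero] at this
  have hD : ∀ s : ℝ, |s| < ε → HasDerivAt φ (ψ s) s := fun s hs =>
    (hb (y := s) (by rwa [Real.dist_eq, sub_zero])).1
  rcases lt_or_gt_of_ne ht0' with hneg | hpos
  · have habs : ∀ s ∈ Icc t 0, |s| < ε := fun s hs => by
      rw [abs_lt] at ht ⊢; constructor <;> linarith [hs.1, hs.2]
    obtain ⟨s, hs1, hs2⟩ := exists_hasDerivAt_eq_slope φ ψ hneg
      (fun s hs => (hD s (habs s hs)).continuousAt.continuousWithinAt)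
      (fun s hs => hD s (habs s (Ioo_subset_Icc_self hs)))
    have h2 := hs s (habs s (Ioo_subset_Icc_self hs1)) hs1.2.ne
    have h3 : 0 < ψ s := by
      by_contra h; push Not at h
      have : 0 ≤ ψ s / s := div_nonneg_of_nonpos h hs1.2.le
      linarith
    rw [hs2] at h3
    have := (div_pos_iff_of_pos_right (by linarith : 0 < 0 - t)).1 h3
    linarith
  · have habs : ∀ s ∈ Icc 0 t, |s| < ε := fun s hs => by
      rw [abs_lt] at ht ⊢; constructor <;> linarith [hs.1, hs.2]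
    obtain ⟨s, hs1, hs2⟩ := exists_hasDerivAt_eq_slope φ ψ hpos
      (fun s hs => (hD s (habs s hs)).continuousAt.continuousWithinAt)
      (fun s hs => hD s (habs s (Ioo_subset_Icc_self hs)))
    have h2 := hs s (habs s (Ioo_subset_Icc_self hs1)) hs1.1.ne'
    have h3 : ψ s < 0 := by
      by_contra h; push Not at h
      have : 0 ≤ ψ s / s := div_nonneg h hs1.1.le
      linarith
    rw [hs2] at h3
    by_contra h; push Not at h
    have : 0 ≤ (φ t - φ 0) / (t - 0) := div_nonneg (by linarith) (by linarith)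
    linarith

theorem strict_min {φ ψ : ℝ → ℝ} {d : ℝ} (hφ : ∀ᶠ t in 𝓝 (0 : ℝ), HasDerivAt φ (ψ t) t)
    (h0 : ψ 0 = 0) (hψ : HasDerivAt ψ d 0) (hd : 0 < d) :
    ∀ᶠ t in 𝓝[≠] (0 : ℝ), φ 0 < φ t := by
  have := strict_max (φ := fun t => -φ t) (ψ := fun t => -ψ t) (d := -d)
    (hφ.mono fun t ht => ht.neg) (by simp [h0]) hψ.neg (by linarith)
  exact this.mono fun t ht => by simpa using ht

/-- The logarithm of `F` along a line. -/
noncomputable def ph (f : ℂ → ℂ) (c : ℝ) (w z v : ℂ) (t : ℝ) : ℝ :=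
  Real.log (‖f (z + t * v) - w‖ ^ 2) / 2 - c * Real.log (1 - ‖z + t * v‖ ^ 2)

/-- Its derivative. -/
noncomputable def ps (f : ℂ → ℂ) (c : ℝ) (w z v : ℂ) (t : ℝ) : ℝ :=
  (deriv f (z + t * v) * v / (f (z + t * v) - w)).re
    + 2 * c * ((conj (z + t * v) * v).re / (1 - ‖z + t * v‖ ^ 2))

theorem hasDerivAt_line (z v : ℂ) (t : ℝ) : HasDerivAt (fun t : ℝ => z + t * v) v t := by
  simpa using ((hasDerivAt_id t).ofReal_comp.mul_const v).const_add z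

theorem hasDerivAt_comp_line {g : ℂ → ℂ} {g' : ℂ} (z v : ℂ) (t : ℝ)
    (hg : HasDerivAt g g' (z + t * v)) :
    HasDerivAt (fun t : ℝ => g (z + t * v)) (g' * v) t := by
  have := (hg.hasFDerivAt.restrictScalars ℝ).comp_hasDerivAt t (hasDerivAt_line z v t)
  simpa [Function.comp_def, mul_comm] using this

theorem hasDerivAt_rho (z v : ℂ) (t : ℝ) :
    HasDerivAt (fun t : ℝ => 1 - ‖z + t * v‖ ^ 2) (-(2 * (conj (z + t * v) * v).re)) t := by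
  have := ((hasDerivAt_line z v t).norm_sq).const_sub 1
  rw [Complex.inner, mul_comm v] at this
  exact this

theorem hasDerivAt_ph {f : ℂ → ℂ} {c : ℝ} {w z v : ℂ} {t : ℝ}
    (hf : DifferentiableAt ℂ f (z + t * v)) (hw : f (z + t * v) ≠ w) (hz : ‖z + t * v‖ < 1) :
    HasDerivAt (ph f c w z v) (ps f c w z v t) t := by
  have hne : f (z + t * v) - w ≠ 0 := sub_ne_zero.2 hw
  have hn : ‖f (z + t * v) - w‖ ^ 2 ≠ 0 := pow_ne_zero _ (norm_ne_zero_iff.2 hne)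
  have hρ : 1 - ‖z + t * v‖ ^ 2 ≠ 0 := by nlinarith [norm_nonneg (z + t * v)]
  have h1 := (((hasDerivAt_comp_line z v t hf.hasDerivAt).sub_const w).norm_sq.log hn).div_const 2
  have h2 := ((hasDerivAt_rho z v t).log hρ).const_mul c
  refine (h1.sub h2).congr_deriv ?_
  symm
  rw [ps, Complex.inner, div_eq_mul_inv (deriv f _ * v), Complex.inv_def, Complex.normSq_eq_norm_sq,
    ← mul_assoc, Complex.re_mul_ofReal]
  field_simp
  ring

theorem ev_good {f : ℂ → ℂ} {w z : ℂ} (v : ℂ) (hf : AnalyticAt ℂ f z) (hw : f z ≠ w)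
    (hz : ‖z‖ < 1) : ∀ᶠ t : ℝ in 𝓝 0, DifferentiableAt ℂ f (z + t * v) ∧ f (z + t * v) ≠ w ∧
      ‖z + t * v‖ < 1 := by
  have hl : Tendsto (fun t : ℝ => z + t * v) (𝓝 0) (𝓝 z) := by
    have := (hasDerivAt_line z v 0).continuousAt.tendsto
    simpa using this
  refine hl.eventually (p := fun x => DifferentiableAt ℂ f x ∧ f x ≠ w ∧ ‖x‖ < 1) ?_
  filter_upwards [hf.eventually_analyticAt, hf.continuousAt.eventually_ne hw,
    continuous_norm.continuousAt.eventually_lt continuousAt_const hz] with x h1 h2 h3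
  exact ⟨h1.differentiableAt, h2, h3⟩

theorem F_eq_exp {f : ℂ → ℂ} {c : ℝ} {w z v : ℂ} {t : ℝ}
    (hw : f (z + t * v) ≠ w) (hz : ‖z + t * v‖ < 1) :
    ‖f (z + t * v) - w‖ / (1 - ‖z + t * v‖ ^ 2) ^ c = Real.exp (ph f c w z v t) := by
  have hn : 0 < ‖f (z + t * v) - w‖ := norm_pos_iff.2 (sub_ne_zero.2 hw)
  have hρ : 0 < 1 - ‖z + t * v‖ ^ 2 := by nlinarith [norm_nonneg (z + t * v)]
  rw [ph, Real.exp_sub, Real.log_pow, Real.rpow_def_of_pos hρ, mul_comm c]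
  congr 1
  rw [show ((2 : ℕ) : ℝ) * Real.log ‖f (z + t * v) - w‖ / 2 = Real.log ‖f (z + t * v) - w‖ by
    push_cast; ring, Real.exp_log hn]

theorem hasDerivAt_ps {f : ℂ → ℂ} {c : ℝ} {w z : ℂ} (v : ℂ) (hf : AnalyticAt ℂ f z)
    (hw : f z ≠ w) (hz : ‖z‖ < 1) :
    HasDerivAt (ps f c w z v)
      (((deriv (deriv f) z / (f z - w) - (deriv f z / (f z - w)) ^ 2) * v ^ 2).re
        + 2 * c * ((‖v‖ ^ 2 * (1 - ‖z‖ ^ 2) + 2 * (conj z * v).re ^ 2) / (1 - ‖z‖ ^ 2) ^ 2)) 0 := by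
  have hz0 : z + ((0 : ℝ) : ℂ) * v = z := by simp
  have hne : f z - w ≠ 0 := sub_ne_zero.2 hw
  have hρ : 1 - ‖z‖ ^ 2 ≠ 0 := by nlinarith [norm_nonneg z]
  have a1 := hasDerivAt_comp_line (g := deriv f) z v 0
    (by rw [hz0]; exact hf.deriv.differentiableAt.hasDerivAt)
  have a2 := (hasDerivAt_comp_line (g := f) z v 0
    (by rw [hz0]; exact hf.differentiableAt.hasDerivAt)).sub_const w
  have a3 := (a1.mul_const v).div a2 (by simpa using hne)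
  have a4 := Complex.reCLM.hasFDerivAt.comp_hasDerivAt (0 : ℝ) a3
  have b1 : HasDerivAt (fun t : ℝ => (conj (z + t * v) * v).re) (‖v‖ ^ 2) 0 := by
    have e : (fun t : ℝ => (conj (z + t * v) * v).re) = fun t : ℝ => (conj z * v).re + t * ‖v‖ ^ 2 := by
      funext t
      rw [Complex.sq_norm, Complex.normSq_apply]
      simp
      ring
    rw [e]
    simpa using ((hasDerivAt_id (0 : ℝ)).mul_const (‖v‖ ^ 2)).const_add (conj z * v).re
  have b2 := (b1.div (hasDerivAt_rho z v 0) (by simpa using hρ)).const_mul (2 * c)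
  refine (a4.add b2).congr_deriv ?_
  simp only [hz0, Complex.reCLM_apply]
  congr 1
  · congr 1
    field_simp
  · ring

/-- The Hessian in direction `v` at a critical point. -/
theorem hess_eq {f : ℂ → ℂ} {c : ℝ} {w z : ℂ} (v : ℂ) (hc : 0 < c) (hz : ‖z‖ < 1) (hz0 : z ≠ 0)
    (h1 : deriv f z ≠ 0)
    (hw : w = f z + deriv f z * ((1 - ‖z‖ ^ 2 : ℝ) : ℂ) / (2 * c * conj z)) :
    ((deriv (deriv f) z / (f z - w) - (deriv f z / (f z - w)) ^ 2) * v ^ 2).re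
        + 2 * c * ((‖v‖ ^ 2 * (1 - ‖z‖ ^ 2) + 2 * (conj z * v).re ^ 2) / (1 - ‖z‖ ^ 2) ^ 2)
      = 2 * c / (1 - ‖z‖ ^ 2) ^ 2 * (‖v‖ ^ 2 - ((((1 - ‖z‖ ^ 2 : ℝ) : ℂ) * conj z *
          (deriv (deriv f) z / deriv f z) + (2 * c - 1) * conj z ^ 2) * v ^ 2).re) := by
  have hρ : 0 < 1 - ‖z‖ ^ 2 := by nlinarith [norm_nonneg z]
  set ρ : ℝ := 1 - ‖z‖ ^ 2 with hρd
  have hρc : (ρ : ℂ) ≠ 0 := by exact_mod_cast hρ.ne'
  have hcc : (c : ℂ) ≠ 0 := by exact_mod_cast hc.ne'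
  have hzc : conj z ≠ 0 := by simpa using hz0
  set h : ℂ := deriv (deriv f) z / deriv f z with hh
  have e1 : (deriv (deriv f) z / (f z - w) - (deriv f z / (f z - w)) ^ 2) * v ^ 2
      = ((2 * c / ρ ^ 2 : ℝ) : ℂ) * (-((ρ * conj z * h + 2 * c * conj z ^ 2) * v ^ 2)) := by
    have : f z - w = -(deriv f z * ρ / (2 * c * conj z)) := by rw [hw]; ring
    rw [this, hh]
    push_cast
    field_simp
    ring
  have e2 : 2 * (conj z * v).re ^ 2 = ‖z‖ ^ 2 * ‖v‖ ^ 2 + (conj z ^ 2 * v ^ 2).re := by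
    rw [Complex.sq_norm, Complex.sq_norm, Complex.normSq_apply, Complex.normSq_apply]
    simp [pow_two]
    ring
  have e3 : ‖z‖ ^ 2 = 1 - ρ := by rw [hρd]; ring
  have e4 : (((ρ : ℂ) * conj z * h + (2 * c - 1) * conj z ^ 2) * v ^ 2).re
      = (((ρ : ℂ) * conj z * h + 2 * c * conj z ^ 2) * v ^ 2).re - (conj z ^ 2 * v ^ 2).re := by
    rw [← Complex.sub_re]; congr 1; ring
  rw [e1, Complex.re_ofReal_mul, Complex.neg_re, e2, e3, e4]
  field_simp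
  ring

theorem ne_of_crit {f : ℂ → ℂ} {c : ℝ} {w z : ℂ} (hc : 0 < c) (hz : ‖z‖ < 1) (hz0 : z ≠ 0)
    (h1 : deriv f z ≠ 0)
    (hw : w = f z + deriv f z * ((1 - ‖z‖ ^ 2 : ℝ) : ℂ) / (2 * c * conj z)) : f z ≠ w := by
  have hρ : 0 < 1 - ‖z‖ ^ 2 := by nlinarith [norm_nonneg z]
  have hρc : ((1 - ‖z‖ ^ 2 : ℝ) : ℂ) ≠ 0 := by exact_mod_cast hρ.ne'
  have hcc : (c : ℂ) ≠ 0 := by exact_mod_cast hc.ne'
  have hzc : conj z ≠ 0 := by simpa using hz0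
  intro h
  rw [hw, left_eq_add] at h
  exact (div_ne_zero (mul_ne_zero h1 hρc) (mul_ne_zero (mul_ne_zero two_ne_zero hcc) hzc)) h

theorem ps_zero {f : ℂ → ℂ} {c : ℝ} {w z : ℂ} (v : ℂ) (hz : ‖z‖ < 1) :
    ps f c w z v 0 = ((deriv f z / (f z - w) + 2 * c * conj z / ((1 - ‖z‖ ^ 2 : ℝ) : ℂ)) * v).re := by
  have hz0 : z + ((0 : ℝ) : ℂ) * v = z := by simp
  have hρ : 0 < 1 - ‖z‖ ^ 2 := by nlinarith [norm_nonneg z]
  have hρc : ((1 - ‖z‖ ^ 2 : ℝ) : ℂ) ≠ 0 := by exact_mod_cast hρ.ne'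
  rw [ps, hz0, add_mul, Complex.add_re]
  congr 1
  · congr 1; ring
  · rw [show 2 * (c : ℂ) * conj z / ((1 - ‖z‖ ^ 2 : ℝ) : ℂ) * v
        = ((2 * c / (1 - ‖z‖ ^ 2) : ℝ) : ℂ) * (conj z * v) by
          rw [Complex.ofReal_div, Complex.ofReal_mul, Complex.ofReal_ofNat]; ring,
      Complex.re_ofReal_mul]
    ring

theorem norm_kappa (c : ℝ) {z : ℂ} (hz0 : z ≠ 0) (ρ h : ℂ) :
    ‖ρ * conj z * h + (2 * c - 1) * conj z ^ 2‖
      = ‖(2 * (c : ℂ) - 1) * ((‖z‖ ^ 2 : ℝ) : ℂ) + ρ * z * h‖ := by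
  have e : (ρ * conj z * h + (2 * c - 1) * conj z ^ 2) * z
      = ((2 * (c : ℂ) - 1) * ((‖z‖ ^ 2 : ℝ) : ℂ) + ρ * z * h) * conj z := by
    rw [Complex.sq_norm, ← Complex.mul_conj]; ring
  have := congrArg norm e
  rw [norm_mul, norm_mul, Complex.norm_conj] at this
  exact mul_right_cancel₀ (norm_ne_zero_iff.2 hz0) this

/-- A critical point with `Jd > 0` is a saddle. -/
theorem saddle {f : ℂ → ℂ} {c : ℝ} {w z : ℂ} (hc : 0 < c) (hf : AnalyticAt ℂ f z) (hz : ‖z‖ < 1)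
    (hz0 : z ≠ 0) (h1 : deriv f z ≠ 0)
    (hw : w = f z + deriv f z * ((1 - ‖z‖ ^ 2 : ℝ) : ℂ) / (2 * c * conj z))
    (hJ : 1 < ‖(2 * (c : ℂ) - 1) * ((‖z‖ ^ 2 : ℝ) : ℂ)
      + ((1 - ‖z‖ ^ 2 : ℝ) : ℂ) * z * (deriv (deriv f) z / deriv f z)‖) :
    ∃ u v : ℂ,
      (∀ᶠ t : ℝ in 𝓝[≠] 0, ‖f (z + t * u) - w‖ / (1 - ‖z + t * u‖ ^ 2) ^ c
        < ‖f z - w‖ / (1 - ‖z‖ ^ 2) ^ c) ∧
      (∀ᶠ t : ℝ in 𝓝[≠] 0, ‖f z - w‖ / (1 - ‖z‖ ^ 2) ^ c
        < ‖f (z + t * v) - w‖ / (1 - ‖z + t * v‖ ^ 2) ^ c) := by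
  have hρ : 0 < 1 - ‖z‖ ^ 2 := by nlinarith [norm_nonneg z]
  have hρc : ((1 - ‖z‖ ^ 2 : ℝ) : ℂ) ≠ 0 := by exact_mod_cast hρ.ne'
  have hcc : (c : ℂ) ≠ 0 := by exact_mod_cast hc.ne'
  have hzc : conj z ≠ 0 := by simpa using hz0
  have hne := ne_of_crit hc hz hz0 h1 hw
  rw [← norm_kappa c hz0] at hJ
  set κ : ℂ := ((1 - ‖z‖ ^ 2 : ℝ) : ℂ) * conj z * (deriv (deriv f) z / deriv f z)
    + (2 * c - 1) * conj z ^ 2 with hκ
  obtain ⟨u, hu⟩ := IsAlgClosed.exists_pow_nat_eq (conj κ) (n := 2) two_pos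
  have hun : ‖u‖ ^ 2 = ‖κ‖ := by rw [← norm_pow, hu, Complex.norm_conj]
  have hre : (κ * u ^ 2).re = ‖κ‖ ^ 2 := by
    rw [hu, Complex.mul_conj, Complex.ofReal_re, Complex.normSq_eq_norm_sq]
  have hps : ∀ v : ℂ, ps f c w z v 0 = 0 := fun v => by
    rw [ps_zero v hz]
    have : f z - w = -(deriv f z * ((1 - ‖z‖ ^ 2 : ℝ) : ℂ) / (2 * c * conj z)) := by rw [hw]; ring
    rw [this, show deriv f z / -(deriv f z * ((1 - ‖z‖ ^ 2 : ℝ) : ℂ) / (2 * c * conj z))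
      + 2 * c * conj z / ((1 - ‖z‖ ^ 2 : ℝ) : ℂ) = 0 by field_simp; ring]
    simp
  have hF0 : ∀ v : ℂ, ‖f z - w‖ / (1 - ‖z‖ ^ 2) ^ c = Real.exp (ph f c w z v 0) := fun v => by
    have := F_eq_exp (f := f) (c := c) (w := w) (z := z) (v := v) (t := 0) (by simpa using hne)
      (by simpa using hz)
    simpa using this
  have hpos : 0 < 2 * c / (1 - ‖z‖ ^ 2) ^ 2 := by positivity
  refine ⟨u, I * u, ?_, ?_⟩
  · have hd := hasDerivAt_ps (c := c) u hf hne hz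
    rw [hess_eq u hc hz hz0 h1 hw, ← hκ, hun, hre] at hd
    have := strict_max ((ev_good u hf hne hz).mono fun t ht => hasDerivAt_ph (c := c) ht.1 ht.2.1 ht.2.2)
      (hps u) hd (mul_neg_of_pos_of_neg hpos (by nlinarith))
    filter_upwards [this, (ev_good u hf hne hz).filter_mono nhdsWithin_le_nhds] with t h2 h3
    rw [F_eq_exp h3.2.1 h3.2.2, hF0 u]
    exact Real.exp_lt_exp.2 h2
  · have hd := hasDerivAt_ps (c := c) (I * u) hf hne hz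
    rw [hess_eq (I * u) hc hz hz0 h1 hw, ← hκ, norm_mul, Complex.norm_I, one_mul, hun,
      show κ * (I * u) ^ 2 = -(κ * u ^ 2) by rw [mul_pow, Complex.I_sq]; ring, Complex.neg_re,
      hre] at hd
    have := strict_min ((ev_good (I * u) hf hne hz).mono fun t ht =>
      hasDerivAt_ph (c := c) ht.1 ht.2.1 ht.2.2) (hps (I * u)) hd (mul_pos hpos (by nlinarith))
    filter_upwards [this, (ev_good (I * u) hf hne hz).filter_mono nhdsWithin_le_nhds] with t h2 h3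
    rw [F_eq_exp h3.2.1 h3.2.2, hF0 (I * u)]
    exact Real.exp_lt_exp.2 h2

/-- A local minimum that is not the pole is a solution of `M z = w` with `Jd ≤ 0`. -/
theorem crit_of_isLocalMin {f : ℂ → ℂ} {c : ℝ} {w z : ℂ} (hc : 0 < c) (hf : AnalyticAt ℂ f z)
    (hz : ‖z‖ < 1) (h1 : deriv f z ≠ 0) (hne : f z ≠ w)
    (hm : IsLocalMin (fun x => ‖f x - w‖ / (1 - ‖x‖ ^ 2) ^ c) z) :
    z ≠ 0 ∧ w = f z + deriv f z * ((1 - ‖z‖ ^ 2 : ℝ) : ℂ) / (2 * c * conj z) ∧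
      ‖(2 * (c : ℂ) - 1) * ((‖z‖ ^ 2 : ℝ) : ℂ)
        + ((1 - ‖z‖ ^ 2 : ℝ) : ℂ) * z * (deriv (deriv f) z / deriv f z)‖ ≤ 1 := by
  have hρ : 0 < 1 - ‖z‖ ^ 2 := by nlinarith [norm_nonneg z]
  have hρc : ((1 - ‖z‖ ^ 2 : ℝ) : ℂ) ≠ 0 := by exact_mod_cast hρ.ne'
  have hcc : (c : ℂ) ≠ 0 := by exact_mod_cast hc.ne'
  have hsub : f z - w ≠ 0 := sub_ne_zero.2 hne
  have hline : ∀ v : ℂ, ∀ᶠ t : ℝ in 𝓝 0, ‖f z - w‖ / (1 - ‖z‖ ^ 2) ^ c
      ≤ ‖f (z + t * v) - w‖ / (1 - ‖z + t * v‖ ^ 2) ^ c := fun v => by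
    have hl : Tendsto (fun t : ℝ => z + t * v) (𝓝 0) (𝓝 z) := by
      have := (hasDerivAt_line z v 0).continuousAt.tendsto
      simpa using this
    exact hl.eventually hm
  have hF0 : ∀ v : ℂ, ‖f z - w‖ / (1 - ‖z‖ ^ 2) ^ c = Real.exp (ph f c w z v 0) := fun v => by
    have := F_eq_exp (f := f) (c := c) (w := w) (z := z) (v := v) (t := 0) (by simpa using hne)
      (by simpa using hz)
    simpa using this
  have hps : ∀ v : ℂ, ps f c w z v 0 = 0 := fun v => by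
    have hmin : IsLocalMin (ph f c w z v) 0 := by
      filter_upwards [hline v, ev_good v hf hne hz] with t h2 h3
      rw [F_eq_exp h3.2.1 h3.2.2, hF0 v] at h2
      exact Real.exp_le_exp.1 h2
    have h3 := (ev_good v hf hne hz).self_of_nhds
    exact hmin.hasDerivAt_eq_zero (hasDerivAt_ph h3.1 h3.2.1 h3.2.2)
  have hg : deriv f z / (f z - w) + 2 * c * conj z / ((1 - ‖z‖ ^ 2 : ℝ) : ℂ) = 0 := by
    have a1 := hps 1
    have a2 := hps I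
    rw [ps_zero _ hz] at a1 a2
    rw [mul_one] at a1
    rw [Complex.mul_I_re, neg_eq_zero] at a2
    exact Complex.ext a1 a2
  have hz0 : z ≠ 0 := by
    rintro rfl
    simp only [map_zero, mul_zero, zero_div, add_zero] at hg
    exact div_ne_zero h1 hsub hg
  have hzc : conj z ≠ 0 := by simpa using hz0
  have hw : w = f z + deriv f z * ((1 - ‖z‖ ^ 2 : ℝ) : ℂ) / (2 * c * conj z) := by
    field_simp at hg ⊢
    linear_combination -hg
  refine ⟨hz0, hw, ?_⟩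
  by_contra hJ
  push Not at hJ
  obtain ⟨u, -, hu, -⟩ := saddle hc hf hz hz0 h1 hw hJ
  obtain ⟨t, h2, h3⟩ := (hu.and ((hline u).filter_mono nhdsWithin_le_nhds)).exists
  linarith

/-- The critical value. -/
theorem crit_val {f : ℂ → ℂ} {c : ℝ} {w z : ℂ} (hc : 0 < c) (hz : ‖z‖ < 1)
    (hw : w = f z + deriv f z * ((1 - ‖z‖ ^ 2 : ℝ) : ℂ) / (2 * c * conj z)) :
    ‖f z - w‖ / (1 - ‖z‖ ^ 2) ^ c = ‖deriv f z‖ * (1 - ‖z‖ ^ 2) ^ (1 - c) / (2 * c * ‖z‖) := by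
  have hρ : 0 < 1 - ‖z‖ ^ 2 := by nlinarith [norm_nonneg z]
  have : f z - w = -(deriv f z * ((1 - ‖z‖ ^ 2 : ℝ) : ℂ) / (2 * c * conj z)) := by rw [hw]; ring
  rw [this, norm_neg, norm_div, norm_mul, norm_mul, norm_mul, Complex.norm_conj, Complex.norm_real,
    Complex.norm_real, Real.norm_of_nonneg hρ.le, Real.norm_of_nonneg hc.le, Complex.norm_ofNat,
    Real.rpow_sub hρ, Real.rpow_one]
  ring

/-- `v ↦ A v + B conj v`. -/
noncomputable def lin (A B : ℂ) : ℂ →L[ℝ] ℂ :=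
  A • (1 : ℂ →L[ℝ] ℂ) + B • (Complex.conjCLE : ℂ →L[ℝ] ℂ)

@[simp] theorem lin_apply (A B v : ℂ) : lin A B v = A * v + B * conj v := by simp [lin]

theorem det_lin (A B : ℂ) : (lin A B).det = ‖A‖ ^ 2 - ‖B‖ ^ 2 := by
  rw [ContinuousLinearMap.det, ← LinearMap.det_toMatrix Complex.basisOneI, Matrix.det_fin_two,
    Complex.sq_norm, Complex.sq_norm, Complex.normSq_apply, Complex.normSq_apply]
  simp [LinearMap.toMatrix_apply]
  ring

/-- The derivative of `M`. -/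
noncomputable def DM (f : ℂ → ℂ) (c : ℝ) (z : ℂ) : ℂ →L[ℝ] ℂ :=
  lin (deriv f z + deriv (deriv f) z * ((conj z)⁻¹ - z) / (2 * c) - deriv f z / (2 * c))
    (-(deriv f z / (2 * c * conj z ^ 2)))

theorem M_eq (f : ℂ → ℂ) (c : ℝ) {x : ℂ} (hx : x ≠ 0) :
    f x + deriv f x * ((1 - ‖x‖ ^ 2 : ℝ) : ℂ) / (2 * c * conj x)
      = f x + deriv f x * ((conj x)⁻¹ - x) / (2 * c) := by
  have hxc : conj x ≠ 0 := by simpa using hx
  rw [Complex.ofReal_sub, Complex.sq_norm, ← Complex.mul_conj, Complex.ofReal_one]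
  congr 1
  rw [show (1 - x * conj x) = ((conj x)⁻¹ - x) * conj x by field_simp, ← mul_assoc,
    mul_div_mul_right _ _ hxc]

theorem hasFDerivAt_M {f : ℂ → ℂ} (c : ℝ) {z : ℂ} (hf : AnalyticAt ℂ f z) (hz0 : z ≠ 0) :
    HasFDerivAt (fun x => f x + deriv f x * ((1 - ‖x‖ ^ 2 : ℝ) : ℂ) / (2 * c * conj x))
      (DM f c z) z := by
  have hzc : conj z ≠ 0 := by simpa using hz0
  have a1 : HasFDerivAt f _ z := hf.differentiableAt.hasDerivAt.hasFDerivAt.restrictScalars ℝ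
  have a2 : HasFDerivAt (deriv f) _ z :=
    hf.deriv.differentiableAt.hasDerivAt.hasFDerivAt.restrictScalars ℝ
  have a3 : HasFDerivAt (fun x : ℂ => conj x) (Complex.conjCLE : ℂ →L[ℝ] ℂ) z :=
    (Complex.conjCLE : ℂ →L[ℝ] ℂ).hasFDerivAt
  have a4 : HasFDerivAt (fun x : ℂ => (conj x)⁻¹) _ z :=
    ((hasDerivAt_inv hzc).hasFDerivAt.restrictScalars ℝ).comp z a3
  have a5 := a1.add ((a2.mul (a4.sub (hasFDerivAt_id z))).mul_const ((2 * (c : ℂ))⁻¹))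
  have a6 : HasFDerivAt (fun x => f x + deriv f x * ((conj x)⁻¹ - x) / (2 * c)) (DM f c z) z := by
    refine HasFDerivAt.congr_fderiv (a5.congr_of_eventuallyEq (Eventually.of_forall fun x => ?_)) ?_
    · simp [div_eq_mul_inv]
    · ext v <;> simp [DM] <;> field_simp <;> ring
  refine a6.congr_of_eventuallyEq ?_
  filter_upwards [isOpen_ne.mem_nhds hz0] with x hx
  exact M_eq f c hx

theorem det_DM {f : ℂ → ℂ} {c : ℝ} {z : ℂ} (hc : c ≠ 0) (hz0 : z ≠ 0) (h1 : deriv f z ≠ 0) :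
    (DM f c z).det = ‖deriv f z‖ ^ 2 * (‖(2 * (c : ℂ) - 1) * ((‖z‖ ^ 2 : ℝ) : ℂ)
      + ((1 - ‖z‖ ^ 2 : ℝ) : ℂ) * z * (deriv (deriv f) z / deriv f z)‖ ^ 2 - 1)
        / (4 * c ^ 2 * ‖z‖ ^ 4) := by
  have hzc : conj z ≠ 0 := by simpa using hz0
  have hcc : (c : ℂ) ≠ 0 := by exact_mod_cast hc
  have hzn : ‖z‖ ≠ 0 := norm_ne_zero_iff.2 hz0
  have e : deriv f z + deriv (deriv f) z * ((conj z)⁻¹ - z) / (2 * c) - deriv f z / (2 * c)
      = deriv f z * ((2 * (c : ℂ) - 1) * ((‖z‖ ^ 2 : ℝ) : ℂ)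
        + ((1 - ‖z‖ ^ 2 : ℝ) : ℂ) * z * (deriv (deriv f) z / deriv f z)) / (2 * c * (z * conj z)) := by
    rw [Complex.ofReal_sub, Complex.sq_norm, ← Complex.mul_conj, Complex.ofReal_one]
    field_simp
    ring
  rw [DM, det_lin, e]
  simp only [norm_neg, norm_div, norm_mul, norm_pow, Complex.norm_conj, Complex.norm_real,
    Complex.norm_ofNat, Real.norm_eq_abs, div_pow, mul_pow, sq_abs]
  field_simp
  ring

end Crest.Agent.R131.Crit
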