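import Mathlib

open MeasureTheory Set Filter Topology Metric Complex

namespace Crest.Agent.R131.Deg

/-- Strict second derivative test. -/
theorem strict_min {φ ψ : ℝ → ℝ} {c : ℝ} (h1 : ∀ᶠ t in 𝓝 (0 : ℝ), HasDerivAt φ (ψ t) t)
    (h0 : ψ 0 = 0) (h2 : HasDerivAt ψ c 0) (hc : 0 < c) :
    ∀ᶠ t in 𝓝[≠] (0 : ℝ), φ 0 < φ t := by
  have hs : ∀ᶠ t in 𝓝[≠] (0 : ℝ), 0 < slope ψ 0 t :=
    (hasDerivAt_iff_tendsto_slope.1 h2).eventually (lt_mem_nhds hc)
  rw [eventually_nhdsWithin_iff] at hs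
  obtain ⟨δ, hδ, hb⟩ := Metric.eventually_nhds_iff.1 (h1.and hs)
  have hb' : ∀ t : ℝ, |t| < δ → HasDerivAt φ (ψ t) t ∧ (t ≠ 0 → 0 < ψ t / t) := by
    intro t ht
    have := hb (y := t) (by simpa [Real.dist_eq] using ht)
    refine ⟨this.1, fun h => ?_⟩
    have h3 := this.2 h
    rwa [slope_def_field, h0, sub_zero, sub_zero] at h3
  have hmem : ∀ᶠ t in 𝓝[≠] (0 : ℝ), |t| < δ := by
    apply mem_nhdsWithin_of_mem_nhds
    exact Metric.eventually_nhds_iff.2 ⟨δ, hδ, fun y hy => by simpa [Real.dist_eq] using hy⟩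
  filter_upwards [hmem, self_mem_nhdsWithin] with t ht ht0
  have ht0' : t ≠ 0 := ht0
  rcases lt_or_gt_of_ne ht0' with hneg | hpos
  · have hin : ∀ x ∈ Icc t 0, |x| < δ := fun x hx => by
      rw [abs_lt] at ht ⊢; constructor <;> linarith [hx.1, hx.2]
    obtain ⟨x, hx, hxe⟩ := exists_hasDerivAt_eq_slope φ ψ hneg
      (fun x hx => (hb' x (hin x hx)).1.continuousAt.continuousWithinAt)
      (fun x hx => (hb' x (hin x (Ioo_subset_Icc_self hx))).1)
    have h3 := (hb' x (hin x (Ioo_subset_Icc_self hx))).2 hx.2.ne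
    have h4 : ψ x < 0 := by
      by_contra h
      exact absurd h3 (not_lt.2 (div_nonpos_of_nonneg_of_nonpos (not_lt.1 h) hx.2.le))
    rw [hxe] at h4
    have h5 : 0 < 0 - t := by linarith
    have := (div_neg_iff.1 h4)
    rcases this with h | h
    · linarith [h.2]
    · linarith [h.1]
  · have hin : ∀ x ∈ Icc 0 t, |x| < δ := fun x hx => by
      rw [abs_lt] at ht ⊢; constructor <;> linarith [hx.1, hx.2]
    obtain ⟨x, hx, hxe⟩ := exists_hasDerivAt_eq_slope φ ψ hpos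
      (fun x hx => (hb' x (hin x hx)).1.continuousAt.continuousWithinAt)
      (fun x hx => (hb' x (hin x (Ioo_subset_Icc_self hx))).1)
    have h3 := (hb' x (hin x (Ioo_subset_Icc_self hx))).2 hx.1.ne'
    have h4 : 0 < ψ x := by
      by_contra h
      exact absurd h3 (not_lt.2 (div_nonpos_of_nonpos_of_nonneg (not_lt.1 h) hx.1.le))
    rw [hxe] at h4
    have h5 : 0 < t - 0 := by linarith
    have := (div_pos_iff.1 h4)
    rcases this with h | h
    · linarith [h.1]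
    · linarith [h.2]

theorem strict_max {φ ψ : ℝ → ℝ} {c : ℝ} (h1 : ∀ᶠ t in 𝓝 (0 : ℝ), HasDerivAt φ (ψ t) t)
    (h0 : ψ 0 = 0) (h2 : HasDerivAt ψ c 0) (hc : c < 0) :
    ∀ᶠ t in 𝓝[≠] (0 : ℝ), φ t < φ 0 := by
  have := strict_min (φ := fun t => -φ t) (ψ := fun t => -ψ t) (c := -c)
    (h1.mono fun t ht => ht.neg) (by simp [h0]) h2.neg (by linarith)
  filter_upwards [this] with t ht
  linarith

theorem det_eq (A : ℂ →L[ℝ] ℂ) : A.det = (A 1).re * (A I).im - (A 1).im * (A I).re := by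
  have : A.det = LinearMap.det (A : ℂ →ₗ[ℝ] ℂ) := rfl
  rw [this, ← LinearMap.det_toMatrix Complex.basisOneI, Matrix.det_fin_two]
  simp [LinearMap.toMatrix_apply]
  ring

theorem apply_eq (A : ℂ →L[ℝ] ℂ) (x y : ℝ) : A (x + y * I) = x * A 1 + y * A I := by
  have : (x + y * I : ℂ) = x • (1 : ℂ) + y • I := by simp
  rw [this, map_add, map_smul, map_smul]; simp

theorem indef {A B C : ℝ} (h : 0 < B ^ 2 - 4 * A * C) :
    (∃ x y : ℝ, A * x ^ 2 + B * (x * y) + C * y ^ 2 < 0) ∧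
    (∃ x y : ℝ, 0 < A * x ^ 2 + B * (x * y) + C * y ^ 2) := by
  rcases lt_trichotomy A 0 with hA | hA | hA
  · refine ⟨⟨1, 0, by simpa using hA⟩, ⟨-B, 2 * A, ?_⟩⟩
    nlinarith [mul_pos (neg_pos.2 hA) h]
  · subst hA
    have hB : B ≠ 0 := by rintro rfl; simp at h
    refine ⟨⟨(-1 - C) / B, 1, ?_⟩, ⟨(1 - C) / B, 1, ?_⟩⟩
    · have : B * ((-1 - C) / B * 1) = -1 - C := by field_simp
      rw [this]; linarith
    · have : B * ((1 - C) / B * 1) = 1 - C := by field_simp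
      rw [this]; linarith
  · refine ⟨⟨-B, 2 * A, ?_⟩, ⟨1, 0, by simpa using hA⟩⟩
    nlinarith [mul_pos hA h]

/-- A real linear map of positive determinant gives an indefinite form `Re (k * A v * v)`. -/
theorem indef_of_det_pos (A : ℂ →L[ℝ] ℂ) (k : ℂ) (hk : k ≠ 0) (h : 0 < A.det) :
    (∃ v : ℂ, (k * A v * v).re < 0) ∧ (∃ v : ℂ, 0 < (k * A v * v).re) := by
  rw [det_eq] at h
  set P := k * A 1 with hP
  set Q := k * A I with hQ
  have hd : P.re * Q.im - P.im * Q.re =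
      normSq k * ((A 1).re * (A I).im - (A 1).im * (A I).re) := by
    simp only [hP, hQ, mul_re, mul_im, normSq_apply]; ring
  have hd' : 0 < P.re * Q.im - P.im * Q.re := by rw [hd]; exact mul_pos (normSq_pos.2 hk) h
  have hq : ∀ x y : ℝ, (k * A (x + y * I) * (x + y * I)).re =
      P.re * x ^ 2 + (Q.re - P.im) * (x * y) + (-Q.im) * y ^ 2 := by
    intro x y
    have : k * A (x + y * I) = x * P + y * Q := by rw [apply_eq, hP, hQ]; ring
    rw [this]
    simp only [mul_re, add_re, add_im, mul_im, ofReal_re, ofReal_im, I_re, I_im]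
    ring
  obtain ⟨⟨x, y, h1⟩, ⟨x', y', h2⟩⟩ := indef (A := P.re) (B := Q.re - P.im) (C := -Q.im)
    (by nlinarith [sq_nonneg (Q.re + P.im)])
  exact ⟨⟨_, by rw [hq]; exact h1⟩, ⟨_, by rw [hq]; exact h2⟩⟩

/-- Derivative of a function with gradient `g` along a line. -/
theorem line_second {L : ℂ → ℝ} {g : ℂ → ℂ} {z : ℂ} {G : ℂ →L[ℝ] ℂ}
    (hL : ∀ᶠ x in 𝓝 z, ∀ v : ℂ, HasDerivAt (fun t : ℝ => L (x + t * v)) (2 * (g x * v).re) 0)
    (hg : HasFDerivAt g G z) (v : ℂ) :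
    (∀ᶠ t : ℝ in 𝓝 0, HasDerivAt (fun t : ℝ => L (z + t * v)) (2 * (g (z + t * v) * v).re) t) ∧
    HasDerivAt (fun t : ℝ => 2 * (g (z + t * v) * v).re) (2 * (G v * v).re) 0 := by
  have hline : ∀ t : ℝ, HasDerivAt (fun t : ℝ => z + t * v) v t := fun t => by
    simpa using ((Complex.ofRealCLM.hasDerivAt (x := t)).mul_const v).const_add z
  constructor
  · have hc : Tendsto (fun t : ℝ => z + t * v) (𝓝 0) (𝓝 z) := by
      have := (hline 0).continuousAt.tendsto
      simpa using this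
    filter_upwards [hc.eventually hL] with t ht
    have h1 := ht v
    have h2 : HasDerivAt (fun s : ℝ => s - t) 1 t := (hasDerivAt_id t).sub_const t
    have h3 := HasDerivAt.comp_of_eq t h1 h2 (by simp)
    rw [mul_one] at h3
    refine h3.congr_of_eventuallyEq (Eventually.of_forall fun s => ?_)
    simp only [Function.comp]
    congr 1
    push_cast; ring
  · have hg' : HasFDerivAt g G (z + ((0 : ℝ) : ℂ) * v) := by simpa using hg
    have h1 := (hg'.comp_hasDerivAt (0 : ℝ) (hline 0)).mul_const v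
    have h2 := (Complex.reCLM.hasFDerivAt.comp_hasDerivAt (0 : ℝ) h1).const_mul 2
    simpa [Function.comp] using h2

end Crest.Agent.R131.Deg
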