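import Crest.Agent.R131.ElderB

set_option autoImplicit false

open Set Filter Topology Complex

namespace Crest.Agent.R131.Elder

theorem exists_min_joined {Om Q : Set ℂ} {F : ℂ → ℝ} {c : ℝ} (hO : IsOpen Om)
    (hF : ContinuousOn F Om) (hQ : IsCompact Q) (hQO : Q ⊆ Om)
    (hsub : ∀ z ∈ Om, F z ≤ c → z ∈ Q) {a : ℂ} (ha : a ∈ Om) (hac : F a < c) :
    ∃ z, F z < c ∧ IsLocalMin F z ∧ JoinedIn {z | z ∈ Om ∧ F z < c} a z := by
  set U : Set ℂ := Om ∩ F ⁻¹' Iio c with hU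
  have hUo : IsOpen U := hF.isOpen_inter_preimage hO isOpen_Iio
  set C := connectedComponentIn U a with hC
  have haU : a ∈ U := ⟨ha, hac⟩
  have haC : a ∈ C := mem_connectedComponentIn haU
  have hCU : C ⊆ U := connectedComponentIn_subset _ _
  have hCo : IsOpen C := hUo.connectedComponentIn
  have hCQ : C ⊆ Q := fun z hz => hsub z (hCU hz).1 (le_of_lt (hCU hz).2)
  have hcl : closure C ⊆ Q := closure_minimal hCQ hQ.isClosed
  have hcc : IsCompact (closure C) := hQ.of_isClosed_subset isClosed_closure hcl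
  obtain ⟨z, hz, hzm⟩ := hcc.exists_isMinOn ⟨a, subset_closure haC⟩ (hF.mono (hcl.trans hQO))
  have hzU : z ∈ U := ⟨hQO (hcl hz), lt_of_le_of_lt (hzm (subset_closure haC)) hac⟩
  have hzC : z ∈ C := by
    have h1 : IsPreconnected (insert z C) :=
      isPreconnected_connectedComponentIn.subset_closure (subset_insert _ _)
        (insert_subset hz subset_closure)
    exact h1.subset_connectedComponentIn (mem_insert_of_mem _ haC)
      (insert_subset hzU hCU) (mem_insert _ _)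
  refine ⟨z, hzU.2, ?_, ?_⟩
  · filter_upwards [hCo.mem_nhds hzC] with w hw using hzm (subset_closure hw)
  · have hpc : IsPathConnected C :=
      (hCo.isConnected_iff_isPathConnected).1 ⟨⟨a, haC⟩, isPreconnected_connectedComponentIn⟩
    exact (hpc.joinedIn a haC z hzC).mono hCU

theorem joinedIn_seg {S : Set ℂ} {p u : ℂ} {e s : ℝ} (hs : s ∈ Icc (-e) e)
    (h : ∀ t ∈ Icc (-e) e, p + (t : ℂ) * u ∈ S) : JoinedIn S p (p + s * u) := by
  have h0 : (0 : ℝ) ∈ Icc (-e) e := ⟨by linarith [hs.1, hs.2], by linarith [hs.1, hs.2]⟩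
  have hpc : IsPathConnected ((fun t : ℝ => p + (t : ℂ) * u) '' Icc (-e) e) :=
    ((convex_Icc (-e) e).isPathConnected ⟨0, h0⟩).image (by fun_prop)
  refine (hpc.joinedIn p ⟨0, h0, by simp⟩ _ ⟨s, hs, rfl⟩).mono ?_
  rintro _ ⟨t, ht, rfl⟩
  exact h t ht

/-- Elder rule: saddles below the level inject into the local minima other than the pole. -/
theorem elder (Om Q Sd Mn Po : Set ℂ) (F : ℂ → ℝ) (lam : ℝ) (hO : IsOpen Om)
    (hF : ContinuousOn F Om) (hQ : IsCompact Q) (hQc : Convex ℝ Q) (hQO : Q ⊆ Om)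
    (hsub : ∀ z ∈ Om, F z ≤ lam → z ∈ Q) (hmax : ∀ z ∈ Om, ¬ IsLocalMax F z)
    (hSd : ∀ p ∈ Sd, p ∈ Om ∧ ∃ u v : ℂ, (∀ᶠ t : ℝ in 𝓝[≠] 0, F (p + t * u) < F p) ∧
      (∀ᶠ t : ℝ in 𝓝[≠] 0, F p < F (p + t * v)))
    (hMn : ∀ z ∈ Om, F z < lam → IsLocalMin F z → z ∈ Mn ∨ z ∈ Po) (hPo : Po.Subsingleton) :
    ∃ io : ℂ → ℂ, InjOn io {p | p ∈ Sd ∧ F p < lam} ∧ ∀ p ∈ Sd, F p < lam →
      io p ∈ Mn ∧ io p ∉ Po ∧ F (io p) < F p ∧ JoinedIn {z | z ∈ Om ∧ F z ≤ F p} p (io p) := by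
  classical
  set ρ : ℂ ↪ Cardinal := embeddingToCardinal with hρ
  set k : ℂ → WithBot Cardinal := fun z => if z ∈ Po then ⊥ else (ρ z : WithBot Cardinal) with hk
  have kinj : Function.Injective k := by
    intro z w h
    by_cases hz : z ∈ Po <;> by_cases hw : w ∈ Po
    · exact hPo hz hw
    · simp [hk, hz, hw] at h
    · simp [hk, hz, hw] at h
    · simp only [hk, hz, hw, if_false, WithBot.coe_inj] at h
      exact ρ.injective h
  set A : ℂ → Set ℂ := fun p => {z | z ∈ Om ∧ (F z < F p ∨ (F z = F p ∧ ρ z < ρ p))} with hA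
  have spec : ∀ p, p ∈ Sd ∧ F p < lam → ∃ y o : ℂ, (y ∈ Mn ∨ y ∈ Po) ∧ F y < F p ∧
      (o ∈ Mn ∨ o ∈ Po) ∧ F o < F p ∧ k o < k y ∧ JoinedIn (insert p (A p)) p y ∧
      JoinedIn (insert p (A p)) p o ∧
      ∀ z, JoinedIn (A p) y z → F z < F p → (z ∈ Mn ∨ z ∈ Po) → k y ≤ k z := by
    rintro p ⟨hpS, hpl⟩
    obtain ⟨hp, u, v, hu, hv⟩ := hSd p hpS
    have hc : Continuous fun t : ℝ => p + (t : ℂ) * u := by fun_prop
    have ev1 : ∀ᶠ t : ℝ in 𝓝 0, p + (t : ℂ) * u ∈ Om :=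
      hc.continuousAt.eventually_mem (by simpa using hO.mem_nhds hp)
    have ev3 : ∀ᶠ t : ℝ in 𝓝 0, p + (t : ℂ) * u ∈ Om ∧ (t ≠ 0 → F (p + t * u) < F p) := by
      have hu' := hu
      rw [eventually_nhdsWithin_iff] at hu'
      filter_upwards [ev1, hu'] with t h1 h2 using ⟨h1, h2⟩
    obtain ⟨d, hd, hb⟩ := Metric.eventually_nhds_iff.1 ev3
    set e : ℝ := d / 2 with he
    have he0 : 0 < e := by positivity
    have hseg : ∀ t ∈ Icc (-e) e, p + (t : ℂ) * u ∈ Om ∧ (t ≠ 0 → F (p + t * u) < F p) := by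
      intro t ht
      apply hb
      rw [Real.dist_eq, sub_zero, abs_lt]
      constructor <;> linarith [ht.1, ht.2]
    have hseg2 : ∀ t ∈ Icc (-e) e, p + (t : ℂ) * u ∈ insert p (A p) := by
      intro t ht
      by_cases h0 : t = 0
      · simp [h0]
      · exact Or.inr ⟨(hseg t ht).1, Or.inl ((hseg t ht).2 h0)⟩
    have hnj := sep hO hF hQ hQc hQO hsub hmax hp hpl.le hu hv he0 (fun t ht => ⟨(hseg t ht).1, by
      by_cases h0 : t = 0
      · simp [h0]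
      · exact ((hseg t ht).2 h0).le⟩)
    have hAsub : A p ⊆ {z | z ∈ Om ∧ F z ≤ F p ∧ z ≠ p} := by
      rintro z ⟨hz, h | h⟩
      · exact ⟨hz, h.le, fun h' => by rw [h'] at h; exact lt_irrefl _ h⟩
      · exact ⟨hz, h.1.le, fun h' => by rw [h'] at h; exact lt_irrefl _ h.2⟩
    have side : ∀ s ∈ Icc (-e) e, s ≠ 0 → ∃ y, (y ∈ Mn ∨ y ∈ Po) ∧ F y < F p ∧
        JoinedIn (A p) (p + (s : ℂ) * u) y ∧
        ∀ z, JoinedIn (A p) y z → F z < F p → (z ∈ Mn ∨ z ∈ Po) → k y ≤ k z := by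
      intro s hs hs0
      obtain ⟨z0, h1, h2, h3⟩ := exists_min_joined (c := F p) hO hF hQ hQO
        (fun z hz h => hsub z hz (h.trans hpl.le)) (hseg s hs).1 ((hseg s hs).2 hs0)
      have h3' : JoinedIn (A p) (p + (s : ℂ) * u) z0 := h3.mono fun z hz => ⟨hz.1, Or.inl hz.2⟩
      set P : Set ℂ := {y | (y ∈ Mn ∨ y ∈ Po) ∧ F y < F p ∧ JoinedIn (A p) (p + (s : ℂ) * u) y}
      have hP : (k '' P).Nonempty :=
        ⟨_, z0, ⟨hMn z0 h3.target_mem.1 (h1.trans hpl) h2, h1, h3'⟩, rfl⟩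
      obtain ⟨_, ⟨y, hy, rfl⟩, hmin⟩ := wellFounded_lt.has_min _ hP
      exact ⟨y, hy.1, hy.2.1, hy.2.2, fun z hz hz1 hz2 =>
        not_lt.1 (hmin _ ⟨z, ⟨hz2, hz1, hy.2.2.trans hz⟩, rfl⟩)⟩
    have m1 : e ∈ Icc (-e) e := ⟨by linarith, le_rfl⟩
    have m2 : -e ∈ Icc (-e) e := ⟨le_rfl, by linarith⟩
    obtain ⟨y1, a1, a2, a3, a4⟩ := side e m1 he0.ne'
    obtain ⟨y2, b1, b2, b3, b4⟩ := side (-e) m2 (neg_ne_zero.2 he0.ne')
    have j1 : JoinedIn (insert p (A p)) p y1 :=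
      (joinedIn_seg m1 hseg2).trans (a3.mono (subset_insert _ _))
    have j2 : JoinedIn (insert p (A p)) p y2 :=
      (joinedIn_seg m2 hseg2).trans (b3.mono (subset_insert _ _))
    have hne : k y1 ≠ k y2 := fun h => by
      have := kinj h
      subst this
      exact hnj ((a3.trans b3.symm).mono hAsub)
    rcases lt_or_gt_of_ne hne with h | h
    · exact ⟨y2, y1, b1, b2, a1, a2, h, j2, j1, b4⟩
    · exact ⟨y1, y2, a1, a2, b1, b2, h, j1, j2, a4⟩
  choose! y o hy using spec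
  have mono : ∀ p q, p ∈ Om → (F p < F q ∨ (F p = F q ∧ ρ p < ρ q)) → insert p (A p) ⊆ A q := by
    rintro p q hp h z (rfl | ⟨hz, hz'⟩)
    · exact ⟨hp, h⟩
    · refine ⟨hz, ?_⟩
      rcases h with h | h <;> rcases hz' with h' | h'
      · exact Or.inl (h'.trans h)
      · exact Or.inl (h'.1 ▸ h)
      · exact Or.inl (h.1 ▸ h')
      · exact Or.inr ⟨h'.1.trans h.1, h'.2.trans h.2⟩
  have key : ∀ p q, p ∈ Sd ∧ F p < lam → q ∈ Sd ∧ F q < lam →
      (F p < F q ∨ (F p = F q ∧ ρ p < ρ q)) → y p ≠ y q := by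
    intro p q hp hq h heq
    obtain ⟨-, -, a3, a4, a5, a6, a7, -⟩ := hy p hp
    obtain ⟨-, -, -, -, -, -, -, b8⟩ := hy q hq
    have hj : JoinedIn (A q) (y q) (o p) :=
      heq ▸ (a6.symm.trans a7).mono (mono p q (hSd p hp.1).1 h)
    have hle : F p ≤ F q := h.elim le_of_lt fun h => h.1.le
    have := b8 _ hj (a4.trans_le hle) a3
    rw [← heq] at this
    exact absurd a5 (not_lt.2 this)
  refine ⟨y, ?_, ?_⟩
  · intro p hp q hq heq
    by_contra hne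
    rcases lt_trichotomy (F p) (F q) with h | h | h
    · exact key p q hp hq (Or.inl h) heq
    · rcases lt_or_gt_of_ne (fun h' => hne (ρ.injective h')) with h' | h'
      · exact key p q hp hq (Or.inr ⟨h, h'⟩) heq
      · exact key q p hq hp (Or.inr ⟨h.symm, h'⟩) heq.symm
    · exact key q p hq hp (Or.inl h) heq.symm
  · intro p hpS hpl
    obtain ⟨a1, a2, -, -, a5, a6, -, -⟩ := hy p ⟨hpS, hpl⟩
    have hn : y p ∉ Po := fun h => by simp [hk, h] at a5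
    refine ⟨a1.resolve_right hn, hn, a2, a6.mono ?_⟩
    rintro z (rfl | ⟨hz, h | h⟩)
    · exact ⟨(hSd _ hpS).1, le_rfl⟩
    · exact ⟨hz, h.le⟩
    · exact ⟨hz, h.1.le⟩

end Crest.Agent.R131.Elder
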