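import Mathlib

/-! Row 131, block DEG: no local maximum of `‖f - w‖ / (1 - ‖z‖²)^c`, compact sublevel sets,
and almost every `w` is off the image of the unit circle. -/

set_option autoImplicit false

open Metric Set Filter Topology MeasureTheory

namespace Crest.Agent.R131.NoMax

lemma key_id (z x : ℂ) :
    ‖1 - (starRingEnd ℂ) z * x‖ ^ 2 = (1 - ‖z‖ ^ 2) * (1 - ‖x‖ ^ 2) + ‖x - z‖ ^ 2 := by
  simp only [← Complex.normSq_eq_norm_sq, Complex.normSq_apply]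
  simp
  ring

lemma rho_pos {z : ℂ} (hz : z ∈ ball (0 : ℂ) 1) : 0 < 1 - ‖z‖ ^ 2 := by
  have h : ‖z‖ < 1 := by simpa using hz
  have := norm_nonneg z
  nlinarith

/-- An injective function takes the value `w` at most once: eventually (punctured) `f x ≠ w`. -/
lemma eventually_ne {f : ℂ → ℂ} (hinj : InjOn f (ball 0 1)) (w : ℂ) {z : ℂ}
    (hz : z ∈ ball (0 : ℂ) 1) : ∀ᶠ x in 𝓝[≠] z, f x ≠ w := by
  by_cases h : ∃ p ∈ ball (0 : ℂ) 1, f p = w
  · obtain ⟨p, hp, hpw⟩ := h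
    have h1 : ∀ᶠ x in 𝓝[≠] z, x ≠ p := by
      by_cases hzp : z = p
      · subst hzp; exact self_mem_nhdsWithin
      · exact nhdsWithin_le_nhds (isOpen_ne.mem_nhds hzp)
    have h2 : ∀ᶠ x in 𝓝[≠] z, x ∈ ball (0 : ℂ) 1 :=
      nhdsWithin_le_nhds (isOpen_ball.mem_nhds hz)
    filter_upwards [h1, h2] with x hx1 hx2 hx
    exact hx1 (hinj hx2 hp (hx.trans hpw.symm))
  · have h2 : ∀ᶠ x in 𝓝[≠] z, x ∈ ball (0 : ℂ) 1 :=
      nhdsWithin_le_nhds (isOpen_ball.mem_nhds hz)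
    filter_upwards [h2] with x hx2 hx
    exact h ⟨x, hx2, hx⟩

/-- (a) disc model: `‖f x - w‖ / (1 - ‖x‖²)^c` has no local maximum in the disc. -/
theorem not_isLocalMax_disc {f : ℂ → ℂ} (hf : DifferentiableOn ℂ f (ball 0 1))
    (hinj : InjOn f (ball 0 1)) {c : ℝ} (hc : 0 < c) (w : ℂ) {z : ℂ} (hz : z ∈ ball (0 : ℂ) 1) :
    ¬ IsLocalMax (fun x => ‖f x - w‖ / (1 - ‖x‖ ^ 2) ^ c) z := by
  intro hmax
  have hz1 : ‖z‖ < 1 := by simpa using hz
  have hρz := rho_pos hz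
  set k : ℂ → ℂ := fun x => 1 - (starRingEnd ℂ) z * x with hk
  set g : ℂ → ℂ := fun x => (f x - w) * (((1 - ‖z‖ ^ 2) ^ c : ℝ) : ℂ) * (k x) ^ ((-(2 * c) : ℝ) : ℂ)
    with hg
  have hball : ∀ᶠ x in 𝓝 z, x ∈ ball (0 : ℂ) 1 := isOpen_ball.mem_nhds hz
  have hslit : ∀ x ∈ ball (0 : ℂ) 1, k x ∈ Complex.slitPlane := by
    intro x hx
    have hx1 : ‖x‖ < 1 := by simpa using hx
    left
    have h1 : ((starRingEnd ℂ) z * x).re ≤ ‖(starRingEnd ℂ) z * x‖ := Complex.re_le_norm _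
    have h2 : ‖(starRingEnd ℂ) z * x‖ < 1 := by
      rw [norm_mul, Complex.norm_conj]
      nlinarith [norm_nonneg z, norm_nonneg x]
    simp only [hk, Complex.sub_re, Complex.one_re]
    linarith
  have hgd : ∀ᶠ x in 𝓝 z, DifferentiableAt ℂ g x := by
    filter_upwards [hball] with x hx
    have h1 : DifferentiableAt ℂ f x := hf.differentiableAt (isOpen_ball.mem_nhds hx)
    have h2 : DifferentiableAt ℂ k x := by simp only [hk]; fun_prop
    exact ((h1.sub_const w).mul_const _).mul (h2.cpow_const (hslit x hx))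
  have hnorm : ∀ x, ‖g x‖ = ‖f x - w‖ * ((1 - ‖z‖ ^ 2) ^ c / (‖k x‖ ^ 2) ^ c) := by
    intro x
    simp only [hg, norm_mul, Complex.norm_cpow_real, Complex.norm_real, Real.norm_eq_abs]
    rw [abs_of_pos (Real.rpow_pos_of_pos hρz c), Real.rpow_neg (norm_nonneg _),
      ← Real.rpow_natCast ‖k x‖ 2, ← Real.rpow_mul (norm_nonneg _)]
    push_cast
    ring
  have hlt : ∀ x ∈ ball (0 : ℂ) 1, x ≠ z →
      (1 - ‖z‖ ^ 2) ^ c / (‖k x‖ ^ 2) ^ c < 1 / (1 - ‖x‖ ^ 2) ^ c := by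
    intro x hx hxz
    have hρx := rho_pos hx
    have hpos : 0 < ‖x - z‖ ^ 2 := by
      have : 0 < ‖x - z‖ := norm_pos_iff.2 (sub_ne_zero.2 hxz)
      positivity
    have hlt0 : (1 - ‖z‖ ^ 2) * (1 - ‖x‖ ^ 2) < ‖k x‖ ^ 2 := by
      simp only [hk]; rw [key_id]; linarith
    have hkpos : 0 < ‖k x‖ ^ 2 := lt_trans (mul_pos hρz hρx) hlt0
    rw [div_lt_div_iff₀ (Real.rpow_pos_of_pos hkpos c) (Real.rpow_pos_of_pos hρx c), one_mul,
      ← Real.mul_rpow hρz.le hρx.le]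
    exact Real.rpow_lt_rpow (mul_pos hρz hρx).le hlt0 hc
  have heq : ‖g z‖ = ‖f z - w‖ / (1 - ‖z‖ ^ 2) ^ c := by
    rw [hnorm]
    have : ‖k z‖ ^ 2 = (1 - ‖z‖ ^ 2) * (1 - ‖z‖ ^ 2) := by
      simp only [hk]; rw [key_id]; simp
    rw [this, Real.mul_rpow hρz.le hρz.le]
    have := Real.rpow_pos_of_pos hρz c
    field_simp
  have hle : ∀ x ∈ ball (0 : ℂ) 1, ‖g x‖ ≤ ‖f x - w‖ / (1 - ‖x‖ ^ 2) ^ c := by
    intro x hx
    by_cases hxz : x = z
    · subst hxz; exact heq.le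
    · rw [hnorm, div_eq_mul_one_div ‖f x - w‖]
      exact mul_le_mul_of_nonneg_left (hlt x hx hxz).le (norm_nonneg _)
  have hgm : IsLocalMax (norm ∘ g) z := by
    filter_upwards [hmax, hball] with x h1 h2
    simp only [Function.comp]
    rw [heq]
    exact (hle x h2).trans h1
  have hconst := Complex.norm_eventually_eq_of_isLocalMax hgd hgm
  have hfin : ∀ᶠ x in 𝓝[≠] z, False := by
    filter_upwards [eventually_ne hinj w hz, nhdsWithin_le_nhds hconst, nhdsWithin_le_nhds hball,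
      nhdsWithin_le_nhds hmax, self_mem_nhdsWithin] with x h1 h2 h3 h4 h5
    have h6 : ‖g x‖ < ‖f x - w‖ / (1 - ‖x‖ ^ 2) ^ c := by
      rw [hnorm, div_eq_mul_one_div ‖f x - w‖]
      exact mul_lt_mul_of_pos_left (hlt x h3 h5) (norm_pos_iff.2 (sub_ne_zero.2 h1))
    have h7 : ‖f x - w‖ / (1 - ‖x‖ ^ 2) ^ c ≤ ‖f z - w‖ / (1 - ‖z‖ ^ 2) ^ c := h4
    rw [h2, heq] at h6
    linarith
  exact (hfin.exists).elim fun _ h => h

/-- distance to the boundary image: a uniform lower bound near the circle. -/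
lemma exists_lower {f : ℂ → ℂ} (hf : ContinuousOn f (closedBall 0 1)) {w : ℂ}
    (hw : w ∉ f '' sphere 0 1) :
    ∃ δ > 0, ∃ r : ℝ, r < 1 ∧ ∀ z ∈ closedBall (0 : ℂ) 1, r < ‖z‖ → δ ≤ ‖f z - w‖ := by
  -- the set where `‖f - w‖ ≤ δ` is compact and misses the circle
  obtain ⟨p, hp, hmin⟩ := (isCompact_sphere (0 : ℂ) 1).exists_isMinOn
    (NormedSpace.sphere_nonempty.2 zero_le_one)
    (((hf.mono sphere_subset_closedBall).sub continuousOn_const (g := fun _ => w)).norm)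
  have hδ : 0 < ‖f p - w‖ := norm_pos_iff.2 (sub_ne_zero.2 fun h => hw ⟨p, hp, h⟩)
  set K : Set ℂ := {z ∈ closedBall (0 : ℂ) 1 | ‖f z - w‖ ≤ ‖f p - w‖ / 2} with hK
  have hKc : IsCompact K := by
    refine (isCompact_closedBall (0 : ℂ) 1).of_isClosed_subset ?_ (fun z hz => hz.1)
    have := ((hf.sub continuousOn_const (g := fun _ => w)).norm).preimage_isClosed_of_isClosed
      isClosed_closedBall (isClosed_Iic (a := ‖f p - w‖ / 2))
    exact this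
  by_cases hne : K.Nonempty
  · obtain ⟨q, hq, hmax⟩ := hKc.exists_isMaxOn hne continuous_norm.continuousOn
    have hq1 : ‖q‖ < 1 := by
      have h1 : ‖q‖ ≤ 1 := by simpa using hq.1
      refine lt_of_le_of_ne h1 fun h => ?_
      have h2 : ‖f p - w‖ ≤ ‖f q - w‖ := hmin (by simpa using h : q ∈ sphere (0 : ℂ) 1)
      have h3 := hq.2
      linarith
    refine ⟨‖f p - w‖ / 2, by positivity, ‖q‖, hq1, fun z hz hr => ?_⟩
    by_contra hcon
    have : ‖z‖ ≤ ‖q‖ := hmax (show z ∈ K from ⟨hz, (not_le.1 hcon).le⟩)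
    linarith
  · refine ⟨‖f p - w‖ / 2, by positivity, 0, one_pos, fun z hz _ => ?_⟩
    by_contra hcon
    exact hne ⟨z, hz, (not_le.1 hcon).le⟩

/-- (b) general weight `P → +∞` at the circle: sublevel sets of `‖f - w‖ * P` stay in a smaller
closed disc. -/
theorem sublevel_subset_gen {f : ℂ → ℂ} (hf : ContinuousOn f (closedBall 0 1)) {w : ℂ}
    (hw : w ∉ f '' sphere 0 1) {P : ℂ → ℝ}
    (hP : ∀ T : ℝ, ∃ r : ℝ, r < 1 ∧ ∀ z ∈ ball (0 : ℂ) 1, r < ‖z‖ → T < P z) (lam : ℝ) :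
    ∃ r : ℝ, 0 < r ∧ r < 1 ∧
      ∀ z ∈ ball (0 : ℂ) 1, ‖f z - w‖ * P z ≤ lam → z ∈ closedBall (0 : ℂ) r := by
  obtain ⟨δ, hδ, r1, hr1, h1⟩ := exists_lower hf hw
  obtain ⟨r2, hr2, h2⟩ := hP (|lam| / δ)
  refine ⟨max (1 / 2) (max r1 r2), by positivity, max_lt (by norm_num) (max_lt hr1 hr2),
    fun z hz hl => ?_⟩
  by_contra hcon
  have hr : max (1 / 2) (max r1 r2) < ‖z‖ := by simpa using hcon
  have a1 := h1 z (ball_subset_closedBall hz)
    (lt_of_le_of_lt ((le_max_left _ _).trans (le_max_right _ _)) hr)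
  have a2 := h2 z hz (lt_of_le_of_lt ((le_max_right _ _).trans (le_max_right _ _)) hr)
  have a3 : 0 ≤ |lam| / δ := by positivity
  have a4 : |lam| < δ * P z := by
    rw [div_lt_iff₀ hδ] at a2; linarith
  have a5 : δ * P z ≤ ‖f z - w‖ * P z := mul_le_mul_of_nonneg_right a1 (by linarith)
  linarith [le_abs_self lam]

lemma weight_tendsto {c : ℝ} (hc : 0 < c) (T : ℝ) :
    ∃ r : ℝ, r < 1 ∧ ∀ z ∈ ball (0 : ℂ) 1, r < ‖z‖ → T < 1 / (1 - ‖z‖ ^ 2) ^ c := by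
  set ε : ℝ := (1 / (|T| + 1)) ^ (1 / c) with hε
  have hT : 0 < |T| + 1 := by positivity
  have hεpos : 0 < ε := Real.rpow_pos_of_pos (by positivity) _
  refine ⟨1 - ε / 2, by linarith, fun z hz hr => ?_⟩
  have hρ := rho_pos hz
  have hz1 : ‖z‖ < 1 := by simpa using hz
  have h1 : 1 - ‖z‖ ^ 2 ≤ ε := by nlinarith [norm_nonneg z]
  have h2 : (1 - ‖z‖ ^ 2) ^ c ≤ 1 / (|T| + 1) := by
    calc (1 - ‖z‖ ^ 2) ^ c ≤ ε ^ c := Real.rpow_le_rpow hρ.le h1 hc.le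
      _ = 1 / (|T| + 1) := by
        rw [hε, ← Real.rpow_mul (by positivity), one_div_mul_cancel hc.ne', Real.rpow_one]
  have h3 := Real.rpow_pos_of_pos hρ c
  rw [lt_div_iff₀ h3]
  rw [le_div_iff₀ hT] at h2
  nlinarith [le_abs_self T]

/-- (b) disc model. -/
theorem sublevel_subset {f : ℂ → ℂ} (hf : ContinuousOn f (closedBall 0 1)) {w : ℂ}
    (hw : w ∉ f '' sphere 0 1) {c : ℝ} (hc : 0 < c) (lam : ℝ) :
    ∃ r : ℝ, 0 < r ∧ r < 1 ∧
      ∀ z ∈ ball (0 : ℂ) 1, ‖f z - w‖ / (1 - ‖z‖ ^ 2) ^ c ≤ lam → z ∈ closedBall (0 : ℂ) r := by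
  obtain ⟨r, h0, h1, h⟩ := sublevel_subset_gen hf hw (weight_tendsto hc) lam
  exact ⟨r, h0, h1, fun z hz hl => h z hz (by rwa [← div_eq_mul_one_div])⟩

lemma continuousOn_E {f : ℂ → ℂ} (hf : ContinuousOn f (ball 0 1)) (w : ℂ) (c : ℝ) :
    ContinuousOn (fun x => ‖f x - w‖ / (1 - ‖x‖ ^ 2) ^ c) (ball 0 1) := by
  refine ((hf.sub continuousOn_const).norm).div ?_ fun x hx => (Real.rpow_pos_of_pos (rho_pos hx) c).ne'
  exact ContinuousOn.rpow_const (by fun_prop) fun x hx => Or.inl (rho_pos hx).ne'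

/-- (b) compactness form. -/
theorem isCompact_sublevel {f : ℂ → ℂ} (hf : ContinuousOn f (closedBall 0 1)) {w : ℂ}
    (hw : w ∉ f '' sphere 0 1) {c : ℝ} (hc : 0 < c) (lam : ℝ) :
    IsCompact {z ∈ ball (0 : ℂ) 1 | ‖f z - w‖ / (1 - ‖z‖ ^ 2) ^ c ≤ lam} := by
  obtain ⟨r, _, h1, h⟩ := sublevel_subset hf hw hc lam
  have hsub : closedBall (0 : ℂ) r ⊆ ball 0 1 := closedBall_subset_ball h1
  have heq : {z ∈ ball (0 : ℂ) 1 | ‖f z - w‖ / (1 - ‖z‖ ^ 2) ^ c ≤ lam} =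
      closedBall (0 : ℂ) r ∩ (fun x => ‖f x - w‖ / (1 - ‖x‖ ^ 2) ^ c) ⁻¹' Iic lam := by
    ext z
    exact ⟨fun hz => ⟨h z hz.1 hz.2, hz.2⟩, fun hz => ⟨hsub hz.1, hz.2⟩⟩
  rw [heq]
  refine (isCompact_closedBall (0 : ℂ) r).of_isClosed_subset ?_ inter_subset_left
  exact ((continuousOn_E (hf.mono ball_subset_closedBall) w c).mono hsub).preimage_isClosed_of_isClosed
    isClosed_closedBall isClosed_Iic

/-- The image of the circle is null. -/
theorem volume_image_sphere {f : ℂ → ℂ} (hf : ∀ z ∈ sphere (0 : ℂ) 1, DifferentiableAt ℂ f z) :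
    volume (f '' sphere 0 1) = 0 :=
  addHaar_image_eq_zero_of_differentiableOn_of_addHaar_eq_zero volume
    (fun z hz => ((hf z hz).restrictScalars ℝ).differentiableWithinAt)
    (Measure.addHaar_sphere volume 0 1)

theorem ae_notMem_image_sphere {f : ℂ → ℂ} {R : ℝ} (hR : 1 < R)
    (hf : DifferentiableOn ℂ f (ball 0 R)) : ∀ᵐ w : ℂ, w ∉ f '' sphere 0 1 :=
  measure_eq_zero_iff_ae_notMem.1 (volume_image_sphere fun _ hz =>
    hf.differentiableAt (isOpen_ball.mem_nhds (sphere_subset_ball hR hz)))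

end Crest.Agent.R131.NoMax
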