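import Crest.Agent.R131.AreaCmp
import Crest.Agent.R131.Elder
import Crest.Agent.R131.NoMax

/-! # Row 131: the degree inequality from the local facts about critical points (helper12). -/

set_option autoImplicit false

open Metric Set Filter Topology MeasureTheory
open scoped ENNReal

namespace Crest.Agent.R131.Deg12

/-- abstract form of the degree inequality -/
theorem deg_abs {f : ℂ → ℂ} {R : ℝ} (hR : 1 < R) (hf : DifferentiableOn ℂ f (ball 0 R))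
    (hinj : InjOn f (ball 0 R)) {c : ℝ} (hc : 0 < c) {M : ℂ → ℂ} {M' : ℂ → ℂ →L[ℝ] ℂ}
    {J : ℂ → ℝ} (hJ : Measurable J)
    (hM : ∀ z ∈ ball (0 : ℂ) 1, z ≠ 0 → HasFDerivAt M (M' z) z)
    (hdet : ∀ z ∈ ball (0 : ℂ) 1, z ≠ 0 → ((M' z).det = 0 ↔ J z = 0))
    (hsad : ∀ z ∈ ball (0 : ℂ) 1, z ≠ 0 → 0 < J z → ∃ u v : ℂ,
      (∀ᶠ t : ℝ in 𝓝[≠] 0, ‖f (z + t * u) - M z‖ / (1 - ‖z + t * u‖ ^ 2) ^ c <
        ‖f z - M z‖ / (1 - ‖z‖ ^ 2) ^ c) ∧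
      (∀ᶠ t : ℝ in 𝓝[≠] 0, ‖f z - M z‖ / (1 - ‖z‖ ^ 2) ^ c <
        ‖f (z + t * v) - M z‖ / (1 - ‖z + t * v‖ ^ 2) ^ c))
    (hmin : ∀ w : ℂ, ∀ z ∈ ball (0 : ℂ) 1,
      IsLocalMin (fun x => ‖f x - w‖ / (1 - ‖x‖ ^ 2) ^ c) z → f z ≠ w →
        z ≠ 0 ∧ M z = w ∧ J z ≤ 0)
    (hbd : ∀ w : ℂ, w ∉ f '' sphere 0 1 → ∃ lam : ℝ, ∀ z ∈ ball (0 : ℂ) 1, z ≠ 0 → M z = w →
      ‖f z - w‖ / (1 - ‖z‖ ^ 2) ^ c < lam)
    {g h : ℂ → ℝ≥0∞} (hg : Measurable g) (hh : Measurable h)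
    (H : ∀ w p m : ℂ, p ∈ ball (0 : ℂ) 1 → p ≠ 0 → m ∈ ball (0 : ℂ) 1 → m ≠ 0 → 0 < J p →
      J m < 0 → M p = w → M m = w →
      ‖f m - w‖ / (1 - ‖m‖ ^ 2) ^ c < ‖f p - w‖ / (1 - ‖p‖ ^ 2) ^ c →
      JoinedIn {z | z ∈ ball (0 : ℂ) 1 ∧
        ‖f z - w‖ / (1 - ‖z‖ ^ 2) ^ c ≤ ‖f p - w‖ / (1 - ‖p‖ ^ 2) ^ c} p m → g p ≤ h m) :
    ∫⁻ z in {z | z ∈ ball (0 : ℂ) 1 ∧ z ≠ 0 ∧ 0 < J z}, ENNReal.ofReal |(M' z).det| * g z ≤
      ∫⁻ z in {z | z ∈ ball (0 : ℂ) 1 ∧ z ≠ 0 ∧ J z < 0}, ENNReal.ofReal |(M' z).det| * h z := by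
  have hsub1 : ball (0 : ℂ) 1 ⊆ ball 0 R := ball_subset_ball hR.le
  have hsub2 : closedBall (0 : ℂ) 1 ⊆ ball 0 R := closedBall_subset_ball hR
  have hf1 : DifferentiableOn ℂ f (ball 0 1) := hf.mono hsub1
  have hinj1 : InjOn f (ball 0 1) := hinj.mono hsub1
  have hfc : ContinuousOn f (closedBall 0 1) := hf.continuousOn.mono hsub2
  have hne : MeasurableSet {z : ℂ | z ≠ 0} := (measurableSet_singleton (0 : ℂ)).compl
  have hs : MeasurableSet {z | z ∈ ball (0 : ℂ) 1 ∧ z ≠ 0 ∧ 0 < J z} :=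
    measurableSet_ball.inter (hne.inter (measurableSet_lt measurable_const hJ))
  have ht : MeasurableSet {z | z ∈ ball (0 : ℂ) 1 ∧ z ≠ 0 ∧ J z < 0} :=
    measurableSet_ball.inter (hne.inter (measurableSet_lt hJ measurable_const))
  refine Area.lintegral_le_of_inj volume hs ht (f := M) (f' := M')
    (fun x hx => (hM x hx.1 hx.2.1).hasFDerivWithinAt)
    (fun x hx e => hx.2.2.ne' ((hdet x hx.1 hx.2.1).1 e))
    (fun x hx => (hM x hx.1 hx.2.1).hasFDerivWithinAt)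
    (fun x hx e => hx.2.2.ne ((hdet x hx.1 hx.2.1).1 e)) hg hh ?_
  have hsard := Area.ae_det_ne_zero (volume : Measure ℂ)
    (s := {z | z ∈ ball (0 : ℂ) 1 ∧ z ≠ 0}) (f := M) (f' := M')
    (fun x hx => (hM x hx.1 hx.2).hasFDerivWithinAt)
  filter_upwards [hsard, NoMax.ae_notMem_image_sphere hR hf] with w hw1 hw2
  obtain ⟨lam, hlam⟩ := hbd w hw2
  obtain ⟨r, hr0, hr1, hr⟩ := NoMax.sublevel_subset hfc hw2 hc lam
  obtain ⟨io, hio, hio2⟩ := Elder.elder (ball (0 : ℂ) 1) (closedBall 0 r)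
    {z | z ∈ ball (0 : ℂ) 1 ∧ z ≠ 0 ∧ 0 < J z ∧ M z = w}
    {z | z ∈ ball (0 : ℂ) 1 ∧ z ≠ 0 ∧ J z < 0 ∧ M z = w}
    {z | z ∈ ball (0 : ℂ) 1 ∧ f z = w}
    (fun x => ‖f x - w‖ / (1 - ‖x‖ ^ 2) ^ c) lam isOpen_ball
    (NoMax.continuousOn_E hf1.continuousOn w c) (isCompact_closedBall 0 r) (convex_closedBall 0 r)
    (closedBall_subset_ball hr1) hr (fun z hz => NoMax.not_isLocalMax_disc hf1 hinj1 hc w hz)
    (fun p hp => ⟨hp.1, by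
      obtain ⟨u, v, h1, h2⟩ := hsad p hp.1 hp.2.1 hp.2.2.1
      rw [hp.2.2.2] at h1 h2
      exact ⟨u, v, h1, h2⟩⟩)
    (fun z hz _ hmn => by
      by_cases e : f z = w
      · exact Or.inr ⟨hz, e⟩
      · obtain ⟨h1, h2, h3⟩ := hmin w z hz hmn e
        refine Or.inl ⟨hz, h1, lt_of_le_of_ne h3 fun e0 => ?_, h2⟩
        exact hw1 z ⟨hz, h1⟩ h2 ((hdet z hz h1).2 e0))
    (fun a ha b hb => hinj1 ha.1 hb.1 (ha.2.trans hb.2.symm))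
  have hmem : ∀ x ∈ {z | z ∈ ball (0 : ℂ) 1 ∧ z ≠ 0 ∧ 0 < J z} ∩ M ⁻¹' {w},
      x ∈ {z | z ∈ ball (0 : ℂ) 1 ∧ z ≠ 0 ∧ 0 < J z ∧ M z = w} ∧
        ‖f x - w‖ / (1 - ‖x‖ ^ 2) ^ c < lam := fun x hx =>
    ⟨⟨hx.1.1, hx.1.2.1, hx.1.2.2, hx.2⟩, hlam x hx.1.1 hx.1.2.1 hx.2⟩
  refine ⟨io, fun a ha b hb e => hio (hmem a ha) (hmem b hb) e, fun x hx => ?_, fun x hx => ?_⟩
  · obtain ⟨h1, -, -, -⟩ := hio2 x (hmem x hx).1 (hmem x hx).2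
    exact ⟨⟨h1.1, h1.2.1, h1.2.2.1⟩, h1.2.2.2⟩
  · obtain ⟨h1, -, h3, h4⟩ := hio2 x (hmem x hx).1 (hmem x hx).2
    exact H w x (io x) hx.1.1 hx.1.2.1 h1.1 h1.2.1 hx.1.2.2 h1.2.2.1 hx.2 h1.2.2.2 h3 h4

/-- the critical values over a point off the boundary curve are bounded -/
theorem crit_bdd {f : ℂ → ℂ} {R : ℝ} (hR : 1 < R) (hf : DifferentiableOn ℂ f (ball 0 R))
    {c : ℝ} (hc : 0 < c) {w : ℂ} (hw : w ∉ f '' sphere 0 1) :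
    ∃ lam : ℝ, ∀ z ∈ ball (0 : ℂ) 1, z ≠ 0 →
      f z + deriv f z * ((1 - ‖z‖ ^ 2 : ℝ) : ℂ) / (2 * (c : ℂ) * (starRingEnd ℂ) z) = w →
      ‖f z - w‖ / (1 - ‖z‖ ^ 2) ^ c < lam := by
  have hsub2 : closedBall (0 : ℂ) 1 ⊆ ball 0 R := closedBall_subset_ball hR
  have hfc : ContinuousOn f (closedBall 0 1) := hf.continuousOn.mono hsub2
  have hdc : ContinuousOn (deriv f) (closedBall 0 1) :=
    ((hf.deriv isOpen_ball).continuousOn).mono hsub2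
  obtain ⟨δ, hδ, r, hr1, hr⟩ := NoMax.exists_lower hfc hw
  obtain ⟨B, hB⟩ := (isCompact_closedBall (0 : ℂ) 1).exists_bound_of_continuousOn
    (hfc.sub continuousOn_const : ContinuousOn (fun z => f z - w) _)
  obtain ⟨D, hD⟩ := (isCompact_closedBall (0 : ℂ) 1).exists_bound_of_continuousOn hdc
  have hB0 : 0 ≤ B := (norm_nonneg _).trans (hB 0 (by simp))
  have hD0 : 0 ≤ D := (norm_nonneg _).trans (hD 0 (by simp))
  set r1 : ℝ := max r (1 / 2) with hr1def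
  have hr11 : r1 < 1 := max_lt hr1 (by norm_num)
  have hr12 : 1 / 2 ≤ r1 := le_max_right _ _
  set ρ0 : ℝ := min (1 - r1 ^ 2) (δ * c / (D + 1)) with hρ0
  have hρ0pos : 0 < ρ0 := lt_min (by nlinarith) (by positivity)
  refine ⟨B / ρ0 ^ c + 1, fun z hz hz0 hMz => ?_⟩
  have hzc : z ∈ closedBall (0 : ℂ) 1 := ball_subset_closedBall hz
  have hρ := NoMax.rho_pos hz
  have hge : ρ0 ≤ 1 - ‖z‖ ^ 2 := by
    by_cases h1 : ‖z‖ ≤ r1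
    · refine (min_le_left _ _).trans ?_
      have := norm_nonneg z
      nlinarith
    · push Not at h1
      refine (min_le_right _ _).trans ?_
      have h2 := hr z hzc ((le_max_left _ _).trans_lt h1)
      have h3 : f z - w =
          -(deriv f z * ((1 - ‖z‖ ^ 2 : ℝ) : ℂ) / (2 * (c : ℂ) * (starRingEnd ℂ) z)) := by
        rw [← hMz]; ring
      have hzpos : 0 < ‖z‖ := norm_pos_iff.2 hz0
      have h4 : ‖f z - w‖ = ‖deriv f z‖ * (1 - ‖z‖ ^ 2) / (2 * c * ‖z‖) := by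
        rw [h3, norm_neg, norm_div, norm_mul, norm_mul, norm_mul, Complex.norm_real,
          Complex.norm_real, Complex.norm_conj, Real.norm_of_nonneg hρ.le,
          Real.norm_of_nonneg hc.le]
        simp
      rw [h4, le_div_iff₀ (by positivity)] at h2
      rw [div_le_iff₀ (by positivity)]
      have h5 := hD z hzc
      have h6 : δ * c ≤ δ * (2 * c * ‖z‖) := by
        refine mul_le_mul_of_nonneg_left ?_ hδ.le
        nlinarith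
      nlinarith
  have h7 : ρ0 ^ c ≤ (1 - ‖z‖ ^ 2) ^ c := Real.rpow_le_rpow hρ0pos.le hge hc.le
  have h8 : 0 < ρ0 ^ c := Real.rpow_pos_of_pos hρ0pos c
  have h9 : ‖f z - w‖ / (1 - ‖z‖ ^ 2) ^ c ≤ B / ρ0 ^ c :=
    div_le_div₀ hB0 (hB z hzc) h8 h7
  linarith

end Crest.Agent.R131.Deg12
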