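import Crest.Agent.R131.Defs
import Crest.Agent.R131.Deg12A
import Crest.Agent.R131.Crit
import Crest.Agent.Lib.RMT.Basic

/-! # Row 131: block DEG in the form of `Defs.DegFlex` (helper12). -/

set_option autoImplicit false

open Metric Set Filter Topology MeasureTheory
open scoped ENNReal

namespace Crest.Agent.R131.Deg12

theorem Jd_eq (f : ℂ → ℂ) (c : ℝ) (z : ℂ) :
    Jd f c z = ‖(2 * (c : ℂ) - 1) * ((‖z‖ ^ 2 : ℝ) : ℂ)
      + ((1 - ‖z‖ ^ 2 : ℝ) : ℂ) * z * (deriv (deriv f) z / deriv f z)‖ ^ 2 - 1 := by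
  unfold Jd
  congr 4
  push_cast
  ring

theorem measurable_Jd (f : ℂ → ℂ) (c : ℝ) : Measurable (Jd f c) := by
  have h1 : Measurable (deriv f) := measurable_deriv f
  have h2 : Measurable (deriv (deriv f)) := measurable_deriv (deriv f)
  unfold Jd
  fun_prop

theorem degFlex : DegFlex := by
  intro R f c hR hf hinj hc g h hg hh H
  have hsub1 : ball (0 : ℂ) 1 ⊆ ball 0 R := ball_subset_ball hR.le
  have han : ∀ z ∈ ball (0 : ℂ) 1, AnalyticAt ℂ f z := fun z hz =>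
    hf.analyticAt (isOpen_ball.mem_nhds (hsub1 hz))
  have hd : ∀ z ∈ ball (0 : ℂ) 1, deriv f z ≠ 0 := fun z hz =>
    Crest.Agent.Lib.RMT.deriv_ne_zero_of_injOn isOpen_ball hf hinj (hsub1 hz)
  have hn : ∀ z ∈ ball (0 : ℂ) 1, ‖z‖ < 1 := fun z hz => by simpa using hz
  have hdet : ∀ z ∈ ball (0 : ℂ) 1, z ≠ 0 →
      (Crit.DM f c z).det = ‖deriv f z‖ ^ 2 * Jd f c z / (4 * c ^ 2 * ‖z‖ ^ 4) := fun z hz hz0 => by
    rw [Crit.det_DM hc.ne' hz0 (hd z hz), Jd_eq]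
  have habs : ∀ z ∈ ball (0 : ℂ) 1, z ≠ 0 →
      |(Crit.DM f c z).det| = ‖deriv f z‖ ^ 2 * |Jd f c z| / (4 * c ^ 2 * ‖z‖ ^ 4) :=
    fun z hz hz0 => by
      rw [hdet z hz hz0, abs_div, abs_mul, abs_of_nonneg (sq_nonneg ‖deriv f z‖),
        abs_of_nonneg (by positivity : (0 : ℝ) ≤ 4 * c ^ 2 * ‖z‖ ^ 4)]
  have hval : ∀ z ∈ ball (0 : ℂ) 1, ∀ w : ℂ, Mm f c z = w →
      ‖f z - w‖ / (1 - ‖z‖ ^ 2) ^ c = qv f c z := fun z hz w hw =>
    Crit.crit_val hc (hn z hz) hw.symm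
  have key := deg_abs hR hf hinj hc (M := Mm f c) (M' := Crit.DM f c) (J := Jd f c)
    (measurable_Jd f c) (fun z hz hz0 => Crit.hasFDerivAt_M c (han z hz) hz0)
    (fun z hz hz0 => by
      have h1 : 0 < ‖deriv f z‖ := norm_pos_iff.2 (hd z hz)
      have h2 : 0 < ‖z‖ := norm_pos_iff.2 hz0
      rw [hdet z hz hz0, div_eq_zero_iff, mul_eq_zero]
      constructor
      · rintro ((e | e) | e)
        · exact absurd e (by positivity)
        · exact e
        · exact absurd e (by positivity)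
      · exact fun e => Or.inl (Or.inr e))
    (fun z hz hz0 hJ => by
      refine Crit.saddle hc (han z hz) (hn z hz) hz0 (hd z hz) rfl ?_
      rw [Jd_eq] at hJ
      by_contra hle
      push Not at hle
      have := norm_nonneg ((2 * (c : ℂ) - 1) * ((‖z‖ ^ 2 : ℝ) : ℂ)
        + ((1 - ‖z‖ ^ 2 : ℝ) : ℂ) * z * (deriv (deriv f) z / deriv f z))
      nlinarith)
    (fun w z hz hm hne => by
      obtain ⟨h1, h2, h3⟩ := Crit.crit_of_isLocalMin hc (han z hz) (hn z hz) (hd z hz) hne hm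
      refine ⟨h1, h2.symm, ?_⟩
      rw [Jd_eq]
      have := norm_nonneg ((2 * (c : ℂ) - 1) * ((‖z‖ ^ 2 : ℝ) : ℂ)
        + ((1 - ‖z‖ ^ 2 : ℝ) : ℂ) * z * (deriv (deriv f) z / deriv f z))
      nlinarith)
    (fun w hw => crit_bdd hR hf hc hw) hg hh
    (fun w p m hp hp0 hm hm0 hJp hJm hMp hMm hlt hj => by
      refine H p hp m hm hp0 hm0 hJp hJm (hMm.trans hMp.symm) ?_ ?_
      · rw [← hval m hm w hMm, ← hval p hp w hMp]
        exact hlt
      · rw [hMp]
        exact hj)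
  have hne : MeasurableSet {z : ℂ | z ≠ 0} := (measurableSet_singleton (0 : ℂ)).compl
  have hs : MeasurableSet {z | z ∈ ball (0 : ℂ) 1 ∧ z ≠ 0 ∧ 0 < Jd f c z} :=
    measurableSet_ball.inter (hne.inter (measurableSet_lt measurable_const (measurable_Jd f c)))
  have ht : MeasurableSet {z | z ∈ ball (0 : ℂ) 1 ∧ z ≠ 0 ∧ Jd f c z < 0} :=
    measurableSet_ball.inter (hne.inter (measurableSet_lt (measurable_Jd f c) measurable_const))
  rw [setLIntegral_congr_fun hs (fun z hz => by rw [habs z hz.1 hz.2.1]),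
    setLIntegral_congr_fun ht (fun z hz => by rw [habs z hz.1 hz.2.1])] at key
  exact key

end Crest.Agent.R131.Deg12
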