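import Crest.Agent.R131.ElderAll
import Crest.Agent.R131.AreaCmp
import Crest.Agent.R131.NoMax

set_option autoImplicit false

open Set Filter Topology Metric MeasureTheory
open scoped ENNReal

namespace Crest.Agent.R131.Deg43

/-- Abstract degree comparison: only the second-order facts about `M`, `J` are assumed. -/
theorem deg_abs {f : ℂ → ℂ} {R c : ℝ} (hR : 1 < R) (hf : DifferentiableOn ℂ f (ball 0 R))
    (hinj : InjOn f (ball 0 1)) (hc : 0 < c) (M : ℂ → ℂ) (M' : ℂ → ℂ →L[ℝ] ℂ) (J : ℂ → ℝ)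
    (hJ : Measurable J)
    (hM : ∀ z ∈ ball (0 : ℂ) 1, z ≠ 0 → HasFDerivAt M (M' z) z)
    (hdet : ∀ z ∈ ball (0 : ℂ) 1, z ≠ 0 → ((M' z).det = 0 ↔ J z = 0))
    (hsad : ∀ p ∈ ball (0 : ℂ) 1, p ≠ 0 → 0 < J p → ∃ u v : ℂ,
      (∀ᶠ t : ℝ in 𝓝[≠] 0, ‖f (p + t * u) - M p‖ / (1 - ‖p + t * u‖ ^ 2) ^ c <
        ‖f p - M p‖ / (1 - ‖p‖ ^ 2) ^ c) ∧
      (∀ᶠ t : ℝ in 𝓝[≠] 0, ‖f p - M p‖ / (1 - ‖p‖ ^ 2) ^ c <
        ‖f (p + t * v) - M p‖ / (1 - ‖p + t * v‖ ^ 2) ^ c))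
    (hmin : ∀ w : ℂ, ∀ m ∈ ball (0 : ℂ) 1,
      IsLocalMin (fun x => ‖f x - w‖ / (1 - ‖x‖ ^ 2) ^ c) m → f m ≠ w →
        m ≠ 0 ∧ M m = w ∧ J m ≤ 0)
    {g h : ℂ → ℝ≥0∞} (hg : Measurable g) (hh : Measurable h)
    (H : ∀ p ∈ ball (0 : ℂ) 1, ∀ m ∈ ball (0 : ℂ) 1, p ≠ 0 → m ≠ 0 → 0 < J p → J m < 0 →
      M p = M m → ‖f m - M m‖ / (1 - ‖m‖ ^ 2) ^ c < ‖f p - M m‖ / (1 - ‖p‖ ^ 2) ^ c →
      JoinedIn {z | z ∈ ball (0 : ℂ) 1 ∧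
        ‖f z - M m‖ / (1 - ‖z‖ ^ 2) ^ c ≤ ‖f p - M m‖ / (1 - ‖p‖ ^ 2) ^ c} p m → g p ≤ h m) :
    ∫⁻ z in {z | z ∈ ball (0 : ℂ) 1 ∧ z ≠ 0 ∧ 0 < J z}, ENNReal.ofReal |(M' z).det| * g z ≤
      ∫⁻ z in {z | z ∈ ball (0 : ℂ) 1 ∧ z ≠ 0 ∧ J z < 0}, ENNReal.ofReal |(M' z).det| * h z := by
  have hsub1 : ball (0 : ℂ) 1 ⊆ ball 0 R := ball_subset_ball hR.le
  have hf1 : DifferentiableOn ℂ f (ball 0 1) := hf.mono hsub1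
  have hfc : ContinuousOn f (closedBall 0 1) :=
    hf.continuousOn.mono (closedBall_subset_ball hR)
  have m0 : MeasurableSet {z : ℂ | z ≠ 0} := (measurableSet_singleton (0 : ℂ)).compl
  have hs : MeasurableSet {z | z ∈ ball (0 : ℂ) 1 ∧ z ≠ 0 ∧ 0 < J z} :=
    measurableSet_ball.inter (m0.inter (measurableSet_lt measurable_const hJ))
  have ht : MeasurableSet {z | z ∈ ball (0 : ℂ) 1 ∧ z ≠ 0 ∧ J z < 0} :=
    measurableSet_ball.inter (m0.inter (measurableSet_lt hJ measurable_const))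
  refine Area.lintegral_le_of_inj volume hs ht
    (fun z hz => (hM z hz.1 hz.2.1).hasFDerivWithinAt)
    (fun z hz h0 => hz.2.2.ne' ((hdet z hz.1 hz.2.1).1 h0))
    (fun z hz => (hM z hz.1 hz.2.1).hasFDerivWithinAt)
    (fun z hz h0 => hz.2.2.ne ((hdet z hz.1 hz.2.1).1 h0)) hg hh ?_
  have sard := Area.ae_det_ne_zero volume (s := {z | z ∈ ball (0 : ℂ) 1 ∧ z ≠ 0}) (f := M)
    (f' := M') (fun z hz => (hM z hz.1 hz.2).hasFDerivWithinAt)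
  filter_upwards [sard, NoMax.ae_notMem_image_sphere hR hf] with w hw1 hw2
  obtain ⟨io, h1, h2⟩ := Elder.elder_disc
    ({z | z ∈ ball (0 : ℂ) 1 ∧ z ≠ 0 ∧ 0 < J z} ∩ M ⁻¹' {w})
    ({z | z ∈ ball (0 : ℂ) 1 ∧ z ≠ 0 ∧ J z < 0} ∩ M ⁻¹' {w})
    {z | z ∈ ball (0 : ℂ) 1 ∧ f z = w} (fun x => ‖f x - w‖ / (1 - ‖x‖ ^ 2) ^ c)
    (NoMax.continuousOn_E hf1.continuousOn w c)
    (fun lam => by
      obtain ⟨r, -, hr, h⟩ := NoMax.sublevel_subset hfc hw2 hc lam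
      exact ⟨r, hr, h⟩)
    (fun z hz => NoMax.not_isLocalMax_disc hf1 hinj hc w hz)
    (by
      rintro p ⟨⟨hp, hp0, hpJ⟩, hpw⟩
      have hpw' : M p = w := hpw
      refine ⟨hp, ?_⟩
      rw [← hpw']
      exact hsad p hp hp0 hpJ)
    (by
      intro z hz hzm
      by_cases hfz : f z = w
      · exact Or.inr ⟨hz, hfz⟩
      · obtain ⟨a1, a2, a3⟩ := hmin w z hz hzm hfz
        refine Or.inl ⟨⟨hz, a1, lt_of_le_of_ne a3 fun h0 => ?_⟩, a2⟩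
        exact hw1 z ⟨hz, a1⟩ a2 ((hdet z hz a1).2 h0))
    (fun x hx y hy => hinj hx.1 hy.1 (hx.2.trans hy.2.symm))
  refine ⟨io, h1, fun p hp => (h2 p hp).1, fun p hp => ?_⟩
  obtain ⟨⟨⟨a1, a2, a3⟩, a4⟩, -, a5, a6⟩ := h2 p hp
  obtain ⟨⟨b1, b2, b3⟩, b4⟩ := hp
  have a4' : M (io p) = w := a4
  have b4' : M p = w := b4
  refine H p b1 (io p) a1 b2 a2 b3 a3 (b4'.trans a4'.symm) ?_ ?_
  · rw [a4']; exact a5
  · rw [a4']; exact a6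

end Crest.Agent.R131.Deg43
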