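import Crest.Agent.R131.Defs
import Crest.Agent.R131.Deg43
import Crest.Agent.R131.Crit
import Crest.Agent.R131.Asm

/-! Row 131: the block `DegFlex`. -/

set_option autoImplicit false

open Set Filter Topology Metric MeasureTheory
open scoped ENNReal ComplexConjugate

namespace Crest.Agent.R131.Deg13

theorem Jd_eq (f : ℂ → ℂ) (c : ℝ) (z : ℂ) :
    Jd f c z = ‖(2 * (c : ℂ) - 1) * ((‖z‖ ^ 2 : ℝ) : ℂ)
      + ((1 - ‖z‖ ^ 2 : ℝ) : ℂ) * z * (deriv (deriv f) z / deriv f z)‖ ^ 2 - 1 := by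
  rw [Jd]; congr 4; push_cast; ring

theorem measurable_Jd (f : ℂ → ℂ) (c : ℝ) : Measurable (Jd f c) := by
  have h1 : Measurable (deriv f) := measurable_deriv f
  have h2 : Measurable (deriv (deriv f)) := measurable_deriv _
  unfold Jd
  fun_prop

theorem degFlex : DegFlex := by
  intro R f c hR hf hinj hc g h hg hh H
  have hsub : ball (0 : ℂ) 1 ⊆ ball 0 R := ball_subset_ball hR.le
  have han : ∀ z ∈ ball (0 : ℂ) 1, AnalyticAt ℂ f z := fun z hz =>
    hf.analyticAt (isOpen_ball.mem_nhds (hsub hz))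
  have hne : ∀ z ∈ ball (0 : ℂ) 1, deriv f z ≠ 0 := fun z hz =>
    asm_deriv_ne (hf.mono hsub) (hinj.mono hsub) hz
  have hdet : ∀ z ∈ ball (0 : ℂ) 1, z ≠ 0 →
      (Crit.DM f c z).det = ‖deriv f z‖ ^ 2 * Jd f c z / (4 * c ^ 2 * ‖z‖ ^ 4) := fun z hz hz0 => by
    rw [Crit.det_DM hc.ne' hz0 (hne z hz), Jd_eq]
  have habs : ∀ z ∈ ball (0 : ℂ) 1, z ≠ 0 →
      |(Crit.DM f c z).det| = ‖deriv f z‖ ^ 2 * |Jd f c z| / (4 * c ^ 2 * ‖z‖ ^ 4) :=
    fun z hz hz0 => by
      rw [hdet z hz hz0, abs_div, abs_mul, abs_of_nonneg (sq_nonneg ‖deriv f z‖),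
        abs_of_nonneg (by positivity : 0 ≤ 4 * c ^ 2 * ‖z‖ ^ 4)]
  have key := Deg43.deg_abs hR hf (hinj.mono hsub) hc (Mm f c) (Crit.DM f c) (Jd f c)
    (measurable_Jd f c) (fun z hz hz0 => Crit.hasFDerivAt_M c (han z hz) hz0)
    (fun z hz hz0 => by
      have h1 : 0 < ‖deriv f z‖ := norm_pos_iff.2 (hne z hz)
      have h2 : 0 < ‖z‖ := norm_pos_iff.2 hz0
      rw [hdet z hz hz0, div_eq_zero_iff, mul_eq_zero]
      constructor
      · rintro ((h | h) | h)
        · exact absurd h (by positivity)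
        · exact h
        · exact absurd h (by positivity)
      · exact fun h => Or.inl (Or.inr h))
    (fun p hp hp0 hJ => Crit.saddle hc (han p hp) (mem_ball_zero_iff.1 hp) hp0 (hne p hp) rfl (by
      rw [Jd_eq, sub_pos] at hJ
      exact lt_of_pow_lt_pow_left₀ 2 (norm_nonneg _) (by simpa using hJ)))
    (fun w m hm hmin hw => by
      obtain ⟨a1, a2, a3⟩ := Crit.crit_of_isLocalMin hc (han m hm) (mem_ball_zero_iff.1 hm)
        (hne m hm) hw hmin
      refine ⟨a1, a2.symm, ?_⟩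
      rw [Jd_eq, sub_nonpos]
      exact pow_le_one₀ (norm_nonneg _) a3)
    hg hh (fun p hp m hm hp0 hm0 hJp hJm hM hlt hj => by
      refine H p hp m hm hp0 hm0 hJp hJm hM.symm ?_ ?_
      · have e1 := Crit.crit_val (f := f) (w := Mm f c m) hc (mem_ball_zero_iff.1 hm) rfl
        have e2 := Crit.crit_val (f := f) (w := Mm f c m) hc (mem_ball_zero_iff.1 hp) hM.symm
        rw [e1, e2] at hlt
        exact hlt
      · rw [hM]; exact hj)
  have m0 : MeasurableSet {z : ℂ | z ≠ 0} := (measurableSet_singleton (0 : ℂ)).compl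
  have hs : MeasurableSet {z | z ∈ ball (0 : ℂ) 1 ∧ z ≠ 0 ∧ 0 < Jd f c z} :=
    measurableSet_ball.inter (m0.inter (measurableSet_lt measurable_const (measurable_Jd f c)))
  have ht : MeasurableSet {z | z ∈ ball (0 : ℂ) 1 ∧ z ≠ 0 ∧ Jd f c z < 0} :=
    measurableSet_ball.inter (m0.inter (measurableSet_lt (measurable_Jd f c) measurable_const))
  rw [setLIntegral_congr_fun hs (fun z hz => by rw [habs z hz.1 hz.2.1]),
    setLIntegral_congr_fun ht (fun z hz => by rw [habs z hz.1 hz.2.1])] at key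
  exact key

end Crest.Agent.R131.Deg13
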