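import Crest.Agent.R131.Deg1
import Crest.Agent.R131.Elder
import Crest.Agent.R131.AreaCmp

open MeasureTheory Set Filter Topology Metric Complex
open scoped ENNReal

namespace Crest.Agent.R131.Deg

theorem log_norm_deriv {h : ℝ → ℂ} {h' : ℂ} {t : ℝ} (hd : HasDerivAt h h' t) (h0 : h t ≠ 0) :
    HasDerivAt (fun s => Real.log ‖h s‖) ((h' / h t).re) t := by
  have h1 := hd.norm_sq
  have hn : ‖h t‖ ^ 2 ≠ 0 := pow_ne_zero 2 (norm_ne_zero_iff.2 h0)
  have h2 := (h1.log hn).const_mul (1 / 2 : ℝ)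
  have e : (fun s => Real.log ‖h s‖) = fun s => (1 / 2 : ℝ) * Real.log (‖h s‖ ^ 2) := by
    funext s; rw [Real.log_pow]; push_cast; ring
  rw [e]
  refine h2.congr_deriv ?_
  symm
  rw [Complex.inner, Complex.div_re, Complex.normSq_eq_norm_sq]
  simp only [mul_re, conj_re, conj_im]
  field_simp
  ring

/-- Hypotheses on the univalent map and on the weight. -/
structure Setup (f : ℂ → ℂ) (Θ : ℂ → ℝ) (a : ℂ → ℂ) : Prop where
  hf : DifferentiableOn ℂ f (ball 0 1)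
  hinj : InjOn f (ball 0 1)
  hf1 : ∀ z ∈ ball (0 : ℂ) 1, deriv f z ≠ 0
  hΘc : ContinuousOn Θ (ball 0 1)
  hΘ : ∀ z ∈ ball (0 : ℂ) 1, ∀ v : ℂ,
    HasDerivAt (fun t : ℝ => Θ (z + t * v)) (2 * (a z * v).re) 0
  ha : ∀ z ∈ ball (0 : ℂ) 1, DifferentiableAt ℝ a z
  hlap : ∀ z ∈ ball (0 : ℂ) 1, 0 < (fderiv ℝ a z 1 + I * fderiv ℝ a z I).re

/-- The function whose critical points are counted. -/
noncomputable def EE (f : ℂ → ℂ) (Θ : ℂ → ℝ) (w z : ℂ) : ℝ := ‖f z - w‖ * Real.exp (Θ z)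

/-- The map whose fibres are the critical points. -/
noncomputable def MM (f a : ℂ → ℂ) (z : ℂ) : ℂ := f z + deriv f z / (2 * a z)

/-- The complex gradient of the logarithm of `EE`. -/
noncomputable def gg (f a : ℂ → ℂ) (w z : ℂ) : ℂ := deriv f z / (2 * (f z - w)) + a z

variable {f : ℂ → ℂ} {Θ : ℂ → ℝ} {a : ℂ → ℂ}

theorem Setup.an (S : Setup f Θ a) {z : ℂ} (hz : z ∈ ball (0 : ℂ) 1) : AnalyticAt ℂ f z :=
  S.hf.analyticAt (isOpen_ball.mem_nhds hz)

theorem Setup.ne_near (S : Setup f Θ a) {z w : ℂ} (hz : z ∈ ball (0 : ℂ) 1) (hw : f z ≠ w) :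
    ∀ᶠ x in 𝓝 z, x ∈ ball (0 : ℂ) 1 ∧ f x ≠ w :=
  (isOpen_ball.eventually_mem hz).and ((S.an hz).continuousAt.eventually_ne hw)

theorem Setup.line (S : Setup f Θ a) {z w : ℂ} (hz : z ∈ ball (0 : ℂ) 1) (hw : f z ≠ w) :
    ∀ᶠ x in 𝓝 z, ∀ v : ℂ, HasDerivAt (fun t : ℝ => Real.log ‖f (x + t * v) - w‖ + Θ (x + t * v))
      (2 * (gg f a w x * v).re) 0 := by
  filter_upwards [S.ne_near hz hw] with x hx v
  have hline : HasDerivAt (fun t : ℝ => x + t * v) v 0 := by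
    simpa using ((Complex.ofRealCLM.hasDerivAt (x := (0 : ℝ))).mul_const v).const_add x
  have hfx : HasDerivAt f (deriv f x) (x + ((0 : ℝ) : ℂ) * v) := by
    simpa using (S.an hx.1).differentiableAt.hasDerivAt
  have h1 : HasDerivAt (fun t : ℝ => f (x + t * v) - w) (deriv f x * v) 0 := by
    have := ((hfx.hasFDerivAt.restrictScalars ℝ).comp_hasDerivAt (0 : ℝ) hline).sub_const w
    simpa [Function.comp, mul_comm] using this
  have h2 := log_norm_deriv h1 (by simpa using sub_ne_zero.2 hx.2)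
  have h3 := h2.add (S.hΘ x hx.1 v)
  refine HasDerivAt.congr_deriv h3 ?_
  symm
  have hne : f x - w ≠ 0 := sub_ne_zero.2 hx.2
  have : gg f a w x * v = (1 / 2 : ℝ) * (deriv f x * v / (f x - w)) + a x * v := by
    simp only [gg]; push_cast; field_simp
  rw [this]
  simp only [add_re, re_ofReal_mul, ofReal_zero, zero_mul, add_zero]
  ring

theorem Setup.EE_eq (S : Setup f Θ a) {z w : ℂ} (hz : z ∈ ball (0 : ℂ) 1) (hw : f z ≠ w) :
    ∀ᶠ x in 𝓝 z, EE f Θ w x = Real.exp (Real.log ‖f x - w‖ + Θ x) := by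
  filter_upwards [S.ne_near hz hw] with x hx
  rw [Real.exp_add, Real.exp_log (norm_pos_iff.2 (sub_ne_zero.2 hx.2)), EE]

theorem tendsto_line (z v : ℂ) : Tendsto (fun t : ℝ => z + t * v) (𝓝 0) (𝓝 z) := by
  have : Continuous (fun t : ℝ => z + t * v) := by fun_prop
  simpa using this.tendsto 0

theorem Setup.up (S : Setup f Θ a) {z w : ℂ} (hz : z ∈ ball (0 : ℂ) 1) (hw : f z ≠ w)
    (h0 : gg f a w z = 0) {G : ℂ →L[ℝ] ℂ} (hG : HasFDerivAt (gg f a w) G z) {v : ℂ}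
    (hv : 0 < (G v * v).re) : ∀ᶠ t : ℝ in 𝓝[≠] 0, EE f Θ w z < EE f Θ w (z + t * v) := by
  obtain ⟨h1, h2⟩ := line_second (L := fun x => Real.log ‖f x - w‖ + Θ x) (S.line hz hw) hG v
  have h3 := strict_min h1 (by simp [h0]) h2 (by linarith)
  have h4 := (tendsto_line z v).eventually (S.EE_eq hz hw)
  filter_upwards [h3, mem_nhdsWithin_of_mem_nhds h4] with t ht ht'
  rw [ht', (S.EE_eq hz hw).self_of_nhds]
  simpa using ht

theorem Setup.down (S : Setup f Θ a) {z w : ℂ} (hz : z ∈ ball (0 : ℂ) 1) (hw : f z ≠ w)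
    (h0 : gg f a w z = 0) {G : ℂ →L[ℝ] ℂ} (hG : HasFDerivAt (gg f a w) G z) {v : ℂ}
    (hv : (G v * v).re < 0) : ∀ᶠ t : ℝ in 𝓝[≠] 0, EE f Θ w (z + t * v) < EE f Θ w z := by
  obtain ⟨h1, h2⟩ := line_second (L := fun x => Real.log ‖f x - w‖ + Θ x) (S.line hz hw) hG v
  have h3 := strict_max h1 (by simp [h0]) h2 (by linarith)
  have h4 := (tendsto_line z v).eventually (S.EE_eq hz hw)
  filter_upwards [h3, mem_nhdsWithin_of_mem_nhds h4] with t ht ht'
  rw [ht', (S.EE_eq hz hw).self_of_nhds]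
  simpa using ht

/-- At a local extremum off the pole the gradient vanishes. -/
theorem Setup.crit (S : Setup f Θ a) {z w : ℂ} (hz : z ∈ ball (0 : ℂ) 1) (hw : f z ≠ w)
    (h : IsLocalExtr (EE f Θ w) z) : gg f a w z = 0 := by
  have key : ∀ v : ℂ, (gg f a w z * v).re = 0 := by
    intro v
    have h1 := (S.line hz hw).self_of_nhds v
    have h2 := h1.exp
    have h4 := (tendsto_line z v).eventually (S.EE_eq hz hw)
    have h5 : HasDerivAt (fun t : ℝ => EE f Θ w (z + t * v)) _ 0 :=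
      h2.congr_of_eventuallyEq h4
    have h6 : IsLocalExtr (fun t : ℝ => EE f Θ w (z + t * v)) 0 := by
      have hz0 : z + ((0 : ℝ) : ℂ) * v = z := by simp
      have h' : IsLocalExtr (EE f Θ w) (z + ((0 : ℝ) : ℂ) * v) := by rwa [hz0]
      exact h'.comp_continuous (g := fun t : ℝ => z + t * v) (by fun_prop)
    have h7 := h6.hasDerivAt_eq_zero h5
    have h8 := (mul_eq_zero.1 h7).resolve_left (Real.exp_pos _).ne'
    linarith
  have e1 := key 1
  have e2 := key I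
  apply Complex.ext
  · simpa using e1
  · simpa using e2

theorem Setup.hol_diff (S : Setup f Θ a) {z w : ℂ} (hz : z ∈ ball (0 : ℂ) 1) (hw : f z ≠ w) :
    DifferentiableAt ℂ (fun x => deriv f x / (2 * (f x - w))) z :=
  (S.an hz).deriv.differentiableAt.div
    (((S.an hz).differentiableAt.sub_const w).const_mul 2)
    (mul_ne_zero two_ne_zero (sub_ne_zero.2 hw))

theorem Setup.not_max (S : Setup f Θ a) (w : ℂ) {z : ℂ} (hz : z ∈ ball (0 : ℂ) 1) :
    ¬ IsLocalMax (EE f Θ w) z := by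
  intro h
  by_cases hw : f z = w
  · have h1 : ∀ᶠ x in 𝓝[≠] z, x ∈ ball (0 : ℂ) 1 ∧ EE f Θ w x ≤ EE f Θ w z :=
      mem_nhdsWithin_of_mem_nhds ((isOpen_ball.eventually_mem hz).and h)
    obtain ⟨x, ⟨hx1, hx2⟩, hx3⟩ := (h1.and self_mem_nhdsWithin).exists
    have h2 : EE f Θ w z = 0 := by simp [EE, hw]
    have h3 : f x ≠ w := fun h' => hx3 (S.hinj hx1 hz (h'.trans hw.symm))
    have h4 : 0 < EE f Θ w x :=
      mul_pos (norm_pos_iff.2 (sub_ne_zero.2 h3)) (Real.exp_pos _)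
    linarith
  · have h0 := S.crit hz hw (Or.inr h)
    obtain ⟨d, hd⟩ : ∃ d, HasDerivAt (fun x => deriv f x / (2 * (f x - w))) d z :=
      ⟨_, (S.hol_diff hz hw).hasDerivAt⟩
    have hG : HasFDerivAt (gg f a w) _ z :=
      (hd.hasFDerivAt.restrictScalars ℝ).add (S.ha z hz).hasFDerivAt
    set G := ContinuousLinearMap.restrictScalars ℝ
      (ContinuousLinearMap.toSpanSingleton ℂ d) + fderiv ℝ a z with hGdef
    have hsum : (G 1 * 1).re + (G I * I).re =
        (fderiv ℝ a z 1 + I * fderiv ℝ a z I).re := by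
      simp [hGdef, mul_re, mul_im]
      ring
    have hpos := S.hlap z hz
    have : ∃ v : ℂ, 0 < (G v * v).re := by
      by_contra hc
      push Not at hc
      linarith [hc 1, hc I]
    obtain ⟨v, hv⟩ := this
    have h1 := S.up hz hw h0 hG hv
    have h2 : ∀ᶠ t : ℝ in 𝓝[≠] 0, EE f Θ w (z + t * v) ≤ EE f Θ w z :=
      mem_nhdsWithin_of_mem_nhds ((tendsto_line z v).eventually h)
    obtain ⟨t, ht1, ht2⟩ := (h1.and h2).exists
    linarith

theorem diff_div {p q : ℂ → ℂ} {z : ℂ} (hp : DifferentiableAt ℝ p z) (hq : DifferentiableAt ℝ q z)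
    (h : q z ≠ 0) : DifferentiableAt ℝ (fun x => p x / q x) z := by
  have h1 : DifferentiableAt ℝ (fun x => (q x)⁻¹) z :=
    ((differentiableAt_inv (𝕜 := ℂ) h).restrictScalars ℝ).comp z hq
  simp only [div_eq_mul_inv]; exact hp.mul h1

theorem Setup.M_diff (S : Setup f Θ a) {z : ℂ} (hz : z ∈ ball (0 : ℂ) 1) (h : a z ≠ 0) :
    DifferentiableAt ℝ (MM f a) z :=
  ((S.an hz).differentiableAt.restrictScalars ℝ).add
    (diff_div ((S.an hz).deriv.differentiableAt.restrictScalars ℝ) ((S.ha z hz).const_mul 2)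
      (mul_ne_zero two_ne_zero h))

theorem Setup.ne_M (S : Setup f Θ a) {z : ℂ} (hz : z ∈ ball (0 : ℂ) 1) (h : a z ≠ 0) :
    f z ≠ MM f a z := by
  intro h'
  have : deriv f z / (2 * a z) = 0 := by
    have := h'; simp only [MM] at this; linear_combination -this
  exact div_ne_zero (S.hf1 z hz) (mul_ne_zero two_ne_zero h) this

theorem Setup.saddle (S : Setup f Θ a) {z : ℂ} (hz : z ∈ ball (0 : ℂ) 1) (h : a z ≠ 0)
    (hdet : 0 < (fderiv ℝ (MM f a) z).det) :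
    ∃ u v : ℂ, (∀ᶠ t : ℝ in 𝓝[≠] 0, EE f Θ (MM f a z) (z + t * u) < EE f Θ (MM f a z) z) ∧
      (∀ᶠ t : ℝ in 𝓝[≠] 0, EE f Θ (MM f a z) z < EE f Θ (MM f a z) (z + t * v)) := by
  set w := MM f a z with hwdef
  have hw : f z ≠ w := S.ne_M hz h
  have hk : DifferentiableAt ℝ (fun x => a x / (f x - w)) z :=
    diff_div (S.ha z hz) (((S.an hz).differentiableAt.restrictScalars ℝ).sub_const w)
      (sub_ne_zero.2 hw)
  have hM := (S.M_diff hz h).hasFDerivAt.sub_const w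
  have hprod := hk.hasFDerivAt.mul hM
  have heq : gg f a w =ᶠ[𝓝 z] (fun x => a x / (f x - w)) * (fun x => MM f a x - w) := by
    filter_upwards [S.ne_near hz hw, (S.ha z hz).continuousAt.eventually_ne h] with x hx hx'
    have := sub_ne_zero.2 hx.2
    simp only [gg, MM, Pi.mul_apply]
    field_simp
    ring
  have hG := hprod.congr_of_eventuallyEq heq
  have h0 : gg f a w z = 0 := by
    rw [heq.self_of_nhds]; simp [hwdef]
  have hkne : a z / (f z - w) ≠ 0 := div_ne_zero h (sub_ne_zero.2 hw)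
  obtain ⟨⟨u, hu⟩, ⟨v, hv⟩⟩ := indef_of_det_pos _ _ hkne hdet
  refine ⟨u, v, S.down hz hw h0 hG ?_, S.up hz hw h0 hG ?_⟩
  · simpa [hwdef] using hu
  · simpa [hwdef] using hv

theorem Setup.min_crit (S : Setup f Θ a) {z w : ℂ} (hz : z ∈ ball (0 : ℂ) 1) (hw : f z ≠ w)
    (h : IsLocalMin (EE f Θ w) z) :
    a z ≠ 0 ∧ MM f a z = w ∧ (fderiv ℝ (MM f a) z).det ≤ 0 := by
  have h0 := S.crit hz hw (Or.inl h)
  have hne := sub_ne_zero.2 hw
  have ha : a z ≠ 0 := by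
    intro ha
    simp only [gg, ha, add_zero] at h0
    exact div_ne_zero (S.hf1 z hz) (mul_ne_zero two_ne_zero hne) h0
  have hM : MM f a z = w := by
    simp only [gg] at h0
    simp only [MM]
    field_simp at h0 ⊢
    linear_combination h0
  refine ⟨ha, hM, not_lt.1 fun hdet => ?_⟩
  obtain ⟨u, -, hu, -⟩ := S.saddle hz ha hdet
  rw [hM] at hu
  have h2 : ∀ᶠ t : ℝ in 𝓝[≠] 0, EE f Θ w z ≤ EE f Θ w (z + t * u) :=
    mem_nhdsWithin_of_mem_nhds ((tendsto_line z u).eventually h)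
  obtain ⟨t, ht1, ht2⟩ := (hu.and h2).exists
  linarith

end Crest.Agent.R131.Deg
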