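import Crest.Agent.R131.Deg2
import Crest.Agent.R131.Defs
import Crest.Agent.R131.NoMax
import Crest.Agent.R131.ElderAll
import Crest.Agent.Lib.RMT.Basic

open MeasureTheory Set Filter Topology Metric Complex
open scoped ENNReal

namespace Crest.Agent.R131.Deg

local notation "cj" => starRingEnd ℂ

noncomputable def Th (c : ℝ) (z : ℂ) : ℝ := -c * Real.log (1 - ‖z‖ ^ 2)

noncomputable def aa (c : ℝ) (z : ℂ) : ℂ := c * cj z / (1 - z * cj z)

theorem rho_cast (z : ℂ) : ((1 - ‖z‖ ^ 2 : ℝ) : ℂ) = 1 - z * cj z := by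
  rw [Complex.mul_conj, Complex.normSq_eq_norm_sq]; push_cast; ring

theorem rho_pos {z : ℂ} (hz : z ∈ ball (0 : ℂ) 1) : 0 < 1 - ‖z‖ ^ 2 := by
  have : ‖z‖ < 1 := by simpa using hz
  nlinarith [norm_nonneg z]

theorem rho_ne {z : ℂ} (hz : z ∈ ball (0 : ℂ) 1) : 1 - z * cj z ≠ 0 := by
  rw [← rho_cast]; exact_mod_cast (rho_pos hz).ne'

theorem MM_eq (f : ℂ → ℂ) (c : ℝ) : MM f (aa c) = Mm f c := by
  funext z
  simp only [MM, Mm, aa, rho_cast]
  rw [← mul_div_assoc, div_div_eq_mul_div, mul_assoc]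

theorem EE_eq (f : ℂ → ℂ) (c : ℝ) (w : ℂ) {z : ℂ} (hz : z ∈ ball (0 : ℂ) 1) :
    EE f (Th c) w z = Fw f c w z := by
  simp only [EE, Fw, Th]
  rw [Real.rpow_def_of_pos (rho_pos hz), div_eq_mul_inv, ← Real.exp_neg]
  congr 2; ring

/-- The real linear map `v ↦ A v + B conj v`. -/
noncomputable def lin (A B : ℂ) : ℂ →L[ℝ] ℂ :=
  A • ContinuousLinearMap.id ℝ ℂ + B • (Complex.conjCLE : ℂ →L[ℝ] ℂ)

theorem lin_apply (A B v : ℂ) : lin A B v = A * v + B * cj v := by simp [lin]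

theorem lin_det (A B : ℂ) : (lin A B).det = ‖A‖ ^ 2 - ‖B‖ ^ 2 := by
  rw [det_eq, lin_apply, lin_apply, ← Complex.normSq_eq_norm_sq, ← Complex.normSq_eq_norm_sq]
  simp [normSq_apply]
  ring

theorem conj_fderiv (z : ℂ) : HasFDerivAt (fun x : ℂ => cj x) (lin 0 1) z := by
  have := (Complex.conjCLE : ℂ →L[ℝ] ℂ).hasFDerivAt (x := z)
  refine HasFDerivAt.congr_fderiv this ?_
  ext; simp [lin]

theorem hol_fderiv {g : ℂ → ℂ} {d z : ℂ} (h : HasDerivAt g d z) : HasFDerivAt g (lin d 0) z := by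
  refine HasFDerivAt.congr_fderiv (h.hasFDerivAt.restrictScalars ℝ) ?_
  ext; simp [lin, mul_comm]

theorem lin_add {p q : ℂ → ℂ} {A B C D z : ℂ} (hp : HasFDerivAt p (lin A B) z)
    (hq : HasFDerivAt q (lin C D) z) : HasFDerivAt (fun x => p x + q x) (lin (A + C) (B + D)) z := by
  refine HasFDerivAt.congr_fderiv (hp.add hq) ?_
  ext; simp [lin]; ring

theorem lin_mul {p q : ℂ → ℂ} {A B C D z : ℂ} (hp : HasFDerivAt p (lin A B) z)
    (hq : HasFDerivAt q (lin C D) z) :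
    HasFDerivAt (fun x => p x * q x) (lin (p z * C + q z * A) (p z * D + q z * B)) z := by
  refine HasFDerivAt.congr_fderiv (hp.mul hq) ?_
  ext; simp [lin]; ring

theorem lin_inv {q : ℂ → ℂ} {C D z : ℂ} (hq : HasFDerivAt q (lin C D) z) (h : q z ≠ 0) :
    HasFDerivAt (fun x => (q x)⁻¹) (lin (-(q z ^ 2)⁻¹ * C) (-(q z ^ 2)⁻¹ * D)) z := by
  have h1 := (hol_fderiv (hasDerivAt_inv h)).comp z hq
  refine HasFDerivAt.congr_fderiv h1 ?_
  ext; simp [lin]; ring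

theorem rho_fderiv (z : ℂ) : HasFDerivAt (fun x : ℂ => 1 - x * cj x) (lin (-cj z) (-z)) z := by
  have h1 := lin_mul (hol_fderiv (hasDerivAt_id' z)) (conj_fderiv z)
  refine HasFDerivAt.congr_fderiv (h1.const_sub 1) ?_
  ext; simp [lin]; ring

theorem aa_fderiv (c : ℝ) {z : ℂ} (hz : z ∈ ball (0 : ℂ) 1) :
    ∃ A : ℂ, HasFDerivAt (aa c) (lin A (c / (1 - z * cj z) ^ 2)) z := by
  have h1 := lin_mul (lin_mul (hol_fderiv (hasDerivAt_const z (c : ℂ))) (conj_fderiv z))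
    (lin_inv (rho_fderiv z) (rho_ne hz))
  have h2 : HasFDerivAt (aa c) _ z := h1.congr_of_eventuallyEq
    (Eventually.of_forall fun x => by simp only [aa, div_eq_mul_inv])
  have e : (c : ℂ) * cj z * (-((1 - z * cj z) ^ 2)⁻¹ * -z) +
      (1 - z * cj z)⁻¹ * (↑c * 1 + cj z * 0) = c / (1 - z * cj z) ^ 2 := by
    have := rho_ne hz
    field_simp
    ring
  rw [e] at h2
  exact ⟨_, h2⟩

theorem setup {f : ℂ → ℂ} {c : ℝ} (hf : DifferentiableOn ℂ f (ball 0 1))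
    (hinj : InjOn f (ball 0 1)) (hc : 0 < c) : Setup f (Th c) (aa c) where
  hf := hf
  hinj := hinj
  hf1 := fun z hz => Crest.Agent.Lib.RMT.deriv_ne_zero_of_injOn isOpen_ball hf hinj hz
  hΘc := by
    refine ContinuousOn.mul continuousOn_const (ContinuousOn.log (by fun_prop) ?_)
    exact fun z hz => (rho_pos hz).ne'
  hΘ := by
    intro z hz v
    have hline : HasDerivAt (fun t : ℝ => z + t * v) v 0 := by
      simpa using ((Complex.ofRealCLM.hasDerivAt (x := (0 : ℝ))).mul_const v).const_add z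
    have h1 := (hline.norm_sq.const_sub 1).log (by simpa using (rho_pos hz).ne')
    refine HasDerivAt.congr_deriv (h1.const_mul (-c)) ?_
    have e : aa c z * v = ((c / (1 - ‖z‖ ^ 2) : ℝ) : ℂ) * (cj z * v) := by
      simp only [aa, ← rho_cast]; push_cast; ring
    rw [e, re_ofReal_mul, Complex.inner]
    simp only [ofReal_zero, zero_mul, add_zero, mul_comm v]
    ring
  ha := fun z hz => (aa_fderiv c hz).choose_spec.differentiableAt
  hlap := by
    intro z hz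
    obtain ⟨A, hA⟩ := aa_fderiv c hz
    rw [hA.fderiv, lin_apply, lin_apply, ← rho_cast]
    have e : A * 1 + ↑c / ((1 - ‖z‖ ^ 2 : ℝ) : ℂ) ^ 2 * cj 1 +
        I * (A * I + ↑c / ((1 - ‖z‖ ^ 2 : ℝ) : ℂ) ^ 2 * cj I) =
        ((2 * c / (1 - ‖z‖ ^ 2) ^ 2 : ℝ) : ℂ) := by
      rw [map_one, conj_I]; push_cast
      linear_combination (A - ↑c / (1 - (‖z‖ : ℂ) ^ 2) ^ 2) * I_mul_I
    rw [e, ofReal_re]
    have := rho_pos hz
    positivity

theorem Mm_det {f : ℂ → ℂ} {c : ℝ} (hc : 0 < c) {z : ℂ} (han : AnalyticAt ℂ f z)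
    (hz0 : z ≠ 0) (h1 : deriv f z ≠ 0) :
    (fderiv ℝ (Mm f c) z).det = ‖deriv f z‖ ^ 2 * Jd f c z / (4 * c ^ 2 * ‖z‖ ^ 4) := by
  have hc' : (c : ℂ) ≠ 0 := by exact_mod_cast hc.ne'
  have hz' : cj z ≠ 0 := by simpa using hz0
  have hden : HasFDerivAt (fun x => 2 * (c : ℂ) * cj x) (lin _ _) z :=
    lin_mul (hol_fderiv (hasDerivAt_const z (2 * (c : ℂ)))) (conj_fderiv z)
  have h2 := lin_add (hol_fderiv han.differentiableAt.hasDerivAt)
    (lin_mul (lin_mul (hol_fderiv han.deriv.differentiableAt.hasDerivAt) (rho_fderiv z))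
      (lin_inv hden (mul_ne_zero (mul_ne_zero two_ne_zero hc') hz')))
  have h3 : HasFDerivAt (Mm f c) _ z := h2.congr_of_eventuallyEq
    (Eventually.of_forall fun x => by simp only [Mm, rho_cast, div_eq_mul_inv])
  rw [h3.fderiv, lin_det]
  set W : ℂ := (((2 * c - 1) * ‖z‖ ^ 2 : ℝ) : ℂ) +
      ((1 - ‖z‖ ^ 2 : ℝ) : ℂ) * z * (deriv (deriv f) z / deriv f z) with hW
  have hn : ((‖z‖ ^ 2 : ℝ) : ℂ) = z * cj z := by
    rw [Complex.mul_conj, Complex.normSq_eq_norm_sq]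
  have hW' : W = (2 * c - 1) * (z * cj z) + (1 - z * cj z) * z * (deriv (deriv f) z / deriv f z) := by
    rw [hW, rho_cast, ← hn]; push_cast; ring
  have eA : deriv f z + (deriv f z * (1 - z * cj z) *
      (-((2 * (c : ℂ) * cj z) ^ 2)⁻¹ * (2 * ↑c * 0 + cj z * 0)) +
      (2 * (c : ℂ) * cj z)⁻¹ * (deriv f z * -cj z + (1 - z * cj z) * deriv (deriv f) z)) =
      deriv f z * W / (2 * c * (z * cj z)) := by
    rw [hW']; field_simp; ring
  have eB : 0 + (deriv f z * (1 - z * cj z) *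
      (-((2 * (c : ℂ) * cj z) ^ 2)⁻¹ * (2 * ↑c * 1 + cj z * 0)) +
      (2 * (c : ℂ) * cj z)⁻¹ * (deriv f z * -z + (1 - z * cj z) * 0)) =
      -deriv f z / (2 * c * (cj z * cj z)) := by
    field_simp; ring
  rw [eA, eB]
  simp only [Jd, ← hW, norm_div, norm_mul, norm_neg, Complex.norm_conj, Complex.norm_real,
    Complex.norm_ofNat, Real.norm_eq_abs, abs_of_pos hc]
  have : ‖z‖ ≠ 0 := norm_ne_zero_iff.2 hz0
  field_simp
  ring

theorem Fw_crit {f : ℂ → ℂ} {c : ℝ} (hc : 0 < c) {z : ℂ} (hz : z ∈ ball (0 : ℂ) 1) :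
    Fw f c (Mm f c z) z = qv f c z := by
  have hr := rho_pos hz
  simp only [Fw, Mm, qv, sub_add_cancel_left, norm_neg, norm_div, norm_mul, Complex.norm_conj,
    Complex.norm_real, Complex.norm_ofNat, Real.norm_eq_abs, abs_of_pos hc, abs_of_pos hr]
  rw [Real.rpow_sub hr, Real.rpow_one]
  ring

theorem measurable_Jd (f : ℂ → ℂ) (c : ℝ) : Measurable (Jd f c) := by
  have h1 : Measurable (deriv f) := measurable_deriv f
  have h2 : Measurable (deriv (deriv f)) := measurable_deriv _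
  unfold Jd
  fun_prop

theorem degFlex : DegFlex := by
  intro R f c hR hfR hinjR hc g h hg hh H
  have hsub : ball (0 : ℂ) 1 ⊆ ball 0 R := ball_subset_ball hR.le
  have hf := hfR.mono hsub
  have hinj := hinjR.mono hsub
  have S := setup hf hinj hc
  have haa : ∀ z ∈ ball (0 : ℂ) 1, (aa c z ≠ 0 ↔ z ≠ 0) := by
    intro z hz
    have hc' : (c : ℂ) ≠ 0 := by exact_mod_cast hc.ne'
    simp [aa, rho_ne hz, hc']
  have hdet : ∀ z ∈ ball (0 : ℂ) 1, z ≠ 0 → (fderiv ℝ (Mm f c) z).det =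
      ‖deriv f z‖ ^ 2 * Jd f c z / (4 * c ^ 2 * ‖z‖ ^ 4) :=
    fun z hz hz0 => Mm_det hc (S.an hz) hz0 (S.hf1 z hz)
  have hk : ∀ z ∈ ball (0 : ℂ) 1, z ≠ 0 → 0 < ‖deriv f z‖ ^ 2 / (4 * c ^ 2 * ‖z‖ ^ 4) := by
    intro z hz hz0
    have := norm_pos_iff.2 (S.hf1 z hz)
    have := norm_pos_iff.2 hz0
    positivity
  have hdet' : ∀ z ∈ ball (0 : ℂ) 1, z ≠ 0 → (fderiv ℝ (Mm f c) z).det =
      ‖deriv f z‖ ^ 2 / (4 * c ^ 2 * ‖z‖ ^ 4) * Jd f c z := by
    intro z hz hz0; rw [hdet z hz hz0]; ring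
  have hdiff : ∀ z ∈ ball (0 : ℂ) 1, z ≠ 0 → HasFDerivAt (Mm f c) (fderiv ℝ (Mm f c) z) z := by
    intro z hz hz0
    have := S.M_diff hz ((haa z hz).2 hz0)
    rw [MM_eq] at this
    exact this.hasFDerivAt
  have hJ := measurable_Jd f c
  set A := {z | z ∈ ball (0 : ℂ) 1 ∧ z ≠ 0 ∧ 0 < Jd f c z} with hA
  set B := {z | z ∈ ball (0 : ℂ) 1 ∧ z ≠ 0 ∧ Jd f c z < 0} with hB
  have hAm : MeasurableSet A := measurableSet_ball.inter
    ((measurableSet_singleton 0).compl.inter (measurableSet_lt measurable_const hJ))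
  have hBm : MeasurableSet B := measurableSet_ball.inter
    ((measurableSet_singleton 0).compl.inter (measurableSet_lt hJ measurable_const))
  have habs : ∀ z ∈ ball (0 : ℂ) 1, z ≠ 0 → |(fderiv ℝ (Mm f c) z).det| =
      ‖deriv f z‖ ^ 2 * |Jd f c z| / (4 * c ^ 2 * ‖z‖ ^ 4) := by
    intro z hz hz0
    rw [hdet' z hz hz0, abs_mul, abs_of_pos (hk z hz hz0)]; ring
  have main := Area.lintegral_le_of_inj (volume : Measure ℂ) hAm hBm (f := Mm f c)
    (f' := fun z => fderiv ℝ (Mm f c) z)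
    (fun z hz => (hdiff z hz.1 hz.2.1).hasFDerivWithinAt)
    (fun z hz => by
      rw [hdet' z hz.1 hz.2.1]; exact (mul_pos (hk z hz.1 hz.2.1) hz.2.2).ne')
    (fun z hz => (hdiff z hz.1 hz.2.1).hasFDerivWithinAt)
    (fun z hz => by
      rw [hdet' z hz.1 hz.2.1]; exact (mul_neg_of_pos_of_neg (hk z hz.1 hz.2.1) hz.2.2).ne)
    hg hh ?_
  · rw [setLIntegral_congr_fun hAm (fun z hz => by rw [← habs z hz.1 hz.2.1]),
      setLIntegral_congr_fun hBm (fun z hz => by rw [← habs z hz.1 hz.2.1])]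
    exact main
  have hsard := Area.ae_det_ne_zero (volume : Measure ℂ)
    (s := {z | z ∈ ball (0 : ℂ) 1 ∧ z ≠ 0}) (f := Mm f c) (f' := fun z => fderiv ℝ (Mm f c) z)
    (fun z hz => (hdiff z hz.1 hz.2).hasFDerivWithinAt)
  filter_upwards [hsard, NoMax.ae_notMem_image_sphere hR hfR] with w hw hws
  have hfc : ContinuousOn f (closedBall 0 1) :=
    hfR.continuousOn.mono (closedBall_subset_ball hR)
  obtain ⟨io, hio1, hio2⟩ := Elder.elder_disc (A ∩ Mm f c ⁻¹' {w}) (B ∩ Mm f c ⁻¹' {w})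
    {z | z ∈ ball (0 : ℂ) 1 ∧ f z = w} (EE f (Th c) w)
    (((hf.continuousOn.sub continuousOn_const).norm).mul (S.hΘc.rexp))
    (fun lam => by
      obtain ⟨r, -, hr, h'⟩ := NoMax.sublevel_subset hfc hws hc lam
      exact ⟨r, hr, fun z hz hl => h' z hz (by rwa [EE_eq f c w hz] at hl)⟩)
    (fun z hz => S.not_max w hz)
    (fun p hp => by
      refine ⟨hp.1.1, ?_⟩
      have h1 := S.saddle hp.1.1 ((haa p hp.1.1).2 hp.1.2.1) (by
        rw [MM_eq, hdet' p hp.1.1 hp.1.2.1]; exact mul_pos (hk p hp.1.1 hp.1.2.1) hp.1.2.2)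
      have h2 : MM f (aa c) p = w := by rw [MM_eq]; exact hp.2
      rwa [h2] at h1)
    (fun z hz hmin => by
      by_cases hzw : f z = w
      · exact Or.inr ⟨hz, hzw⟩
      · obtain ⟨h1, h2, h3⟩ := S.min_crit hz hzw hmin
        rw [MM_eq] at h2 h3
        have hz0 := (haa z hz).1 h1
        refine Or.inl ⟨⟨hz, hz0, ?_⟩, h2⟩
        have h4 := lt_of_le_of_ne h3 (hw z ⟨hz, hz0⟩ h2)
        rw [hdet' z hz hz0] at h4
        by_contra h5
        exact absurd h4 (not_lt.2 (mul_nonneg (hk z hz hz0).le (not_lt.1 h5))))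
    (fun x hx y hy => hinj hx.1 hy.1 (hx.2.trans hy.2.symm))
  refine ⟨io, hio1, fun p hp => (hio2 p hp).1, fun p hp => ?_⟩
  obtain ⟨hm, -, hlt, hj⟩ := hio2 p hp
  have hpw : Mm f c p = w := hp.2
  have hmw : Mm f c (io p) = w := hm.2
  refine H p hp.1.1 (io p) hm.1.1 hp.1.2.1 hm.1.2.1 hp.1.2.2 hm.1.2.2 (hmw.trans hpw.symm) ?_ ?_
  · rw [EE_eq f c w hm.1.1, EE_eq f c w hp.1.1] at hlt
    rw [← Fw_crit hc hm.1.1, ← Fw_crit hc hp.1.1, hmw, hpw]; exact hlt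
  · rw [hpw]
    refine hj.mono fun z hz => ⟨hz.1, ?_⟩
    rw [← EE_eq f c w hz.1, ← EE_eq f c w hp.1.1]; exact hz.2

end Crest.Agent.R131.Deg
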