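import Crest.Agent.R131.Elder
import Crest.Agent.R131.AreaCmp
import Crest.Agent.R131.NoMax

/-! Row 131, block DEG (backup assembly): the weighted area inequality between saddles and
minima, from the elder rule, the area formula and the absence of local maxima. -/

set_option autoImplicit false

open Metric Set Filter Topology MeasureTheory
open scoped ENNReal

namespace Crest.Agent.R131.Deg37

/-- Abstract flexible DEG: the second-order facts are hypotheses. -/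
theorem deg_abs {f : ℂ → ℂ} {R : ℝ} (hR : 1 < R) (hf : DifferentiableOn ℂ f (ball 0 R))
    (hinj : InjOn f (ball 0 1)) {c : ℝ} (hc : 0 < c)
    (M : ℂ → ℂ) (M' : ℂ → ℂ →L[ℝ] ℂ) (Jd : ℂ → ℝ)
    (hJ : ContinuousOn Jd (ball 0 1 \ {0}))
    (hM : ∀ z ∈ ball (0 : ℂ) 1, z ≠ 0 → HasFDerivAt M (M' z) z)
    (hdet : ∀ z ∈ ball (0 : ℂ) 1, z ≠ 0 → ((M' z).det = 0 ↔ Jd z = 0))
    (hsad : ∀ p ∈ ball (0 : ℂ) 1, p ≠ 0 → 0 < Jd p → ∃ u v : ℂ,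
      (∀ᶠ t : ℝ in 𝓝[≠] 0, ‖f (p + t * u) - M p‖ / (1 - ‖p + t * u‖ ^ 2) ^ c
        < ‖f p - M p‖ / (1 - ‖p‖ ^ 2) ^ c) ∧
      (∀ᶠ t : ℝ in 𝓝[≠] 0, ‖f p - M p‖ / (1 - ‖p‖ ^ 2) ^ c
        < ‖f (p + t * v) - M p‖ / (1 - ‖p + t * v‖ ^ 2) ^ c))
    (hmin : ∀ w : ℂ, ∀ m ∈ ball (0 : ℂ) 1,
      IsLocalMin (fun x => ‖f x - w‖ / (1 - ‖x‖ ^ 2) ^ c) m → f m ≠ w →
        m ≠ 0 ∧ M m = w ∧ Jd m ≤ 0)
    {g h : ℂ → ℝ≥0∞} (hg : Measurable g) (hh : Measurable h)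
    (H : ∀ w : ℂ, ∀ p ∈ ball (0 : ℂ) 1, ∀ m ∈ ball (0 : ℂ) 1, p ≠ 0 → m ≠ 0 → 0 < Jd p → Jd m < 0 →
      M p = w → M m = w →
      ‖f m - w‖ / (1 - ‖m‖ ^ 2) ^ c < ‖f p - w‖ / (1 - ‖p‖ ^ 2) ^ c →
      JoinedIn {z | z ∈ ball (0 : ℂ) 1 ∧
        ‖f z - w‖ / (1 - ‖z‖ ^ 2) ^ c ≤ ‖f p - w‖ / (1 - ‖p‖ ^ 2) ^ c} p m → g p ≤ h m) :
    ∫⁻ z in {z | z ∈ ball (0 : ℂ) 1 ∧ z ≠ 0 ∧ 0 < Jd z}, ENNReal.ofReal |(M' z).det| * g z ≤
      ∫⁻ z in {z | z ∈ ball (0 : ℂ) 1 ∧ z ≠ 0 ∧ Jd z < 0}, ENNReal.ofReal |(M' z).det| * h z := by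
  have hU : IsOpen (ball (0 : ℂ) 1 \ {0}) := isOpen_ball.sdiff isClosed_singleton
  have hf1 : DifferentiableOn ℂ f (ball 0 1) := hf.mono (ball_subset_ball hR.le)
  have hfc : ContinuousOn f (closedBall 0 1) := hf.continuousOn.mono (closedBall_subset_ball hR)
  have hMc : ContinuousOn M (ball 0 1 \ {0}) := fun z hz =>
    (hM z hz.1 hz.2).continuousAt.continuousWithinAt
  set L : ℂ → ℝ := fun z => ‖f z - M z‖ / (1 - ‖z‖ ^ 2) ^ c with hL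
  have hLc : ContinuousOn L (ball 0 1 \ {0}) := by
    refine (((hf1.continuousOn.mono diff_subset).sub hMc).norm).div ?_
      fun x hx => (Real.rpow_pos_of_pos (NoMax.rho_pos hx.1) c).ne'
    exact ContinuousOn.rpow_const (by fun_prop) fun x hx => Or.inl (NoMax.rho_pos hx.1).ne'
  set S : ℕ → Set ℂ := fun n => {z | (z ∈ ball (0 : ℂ) 1 ∧ z ≠ 0 ∧ 0 < Jd z) ∧ L z < n} with hS
  set T : Set ℂ := {z | z ∈ ball (0 : ℂ) 1 ∧ z ≠ 0 ∧ Jd z < 0} with hT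
  have hSo : ∀ n, IsOpen (S n) := by
    intro n
    have h1 := hJ.isOpen_inter_preimage hU (isOpen_Ioi (a := (0 : ℝ)))
    have h2 := hLc.isOpen_inter_preimage hU (isOpen_Iio (a := (n : ℝ)))
    convert h1.inter h2 using 1
    ext z
    simp only [hS, mem_setOf_eq, mem_inter_iff, mem_diff, mem_singleton_iff, mem_preimage,
      mem_Ioi, mem_Iio]
    tauto
  have hTo : IsOpen T := by
    have h1 := hJ.isOpen_inter_preimage hU (isOpen_Iio (a := (0 : ℝ)))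
    convert h1 using 1
    ext z
    simp only [hT, mem_setOf_eq, mem_inter_iff, mem_diff, mem_singleton_iff, mem_preimage,
      mem_Iio]
    tauto
  have hUn : {z | z ∈ ball (0 : ℂ) 1 ∧ z ≠ 0 ∧ 0 < Jd z} = ⋃ n, S n := by
    ext z
    simp only [hS, mem_setOf_eq, mem_iUnion]
    constructor
    · intro hz
      obtain ⟨n, hn⟩ := exists_nat_gt (L z)
      exact ⟨n, hz, hn⟩
    · rintro ⟨n, hz, -⟩
      exact hz
  have hmono : Monotone S := by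
    intro a b hab z hz
    exact ⟨hz.1, hz.2.trans_le (by exact_mod_cast hab)⟩
  rw [hUn, setLIntegral_iUnion_of_directed _ hmono.directed_le]
  refine iSup_le fun n => ?_
  refine Area.lintegral_le_of_inj volume (hSo n).measurableSet hTo.measurableSet
    (fun x hx => (hM x hx.1.1 hx.1.2.1).hasFDerivWithinAt)
    (fun x hx h0 => hx.1.2.2.ne' ((hdet x hx.1.1 hx.1.2.1).1 h0))
    (fun x hx => (hM x hx.1 hx.2.1).hasFDerivWithinAt)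
    (fun x hx h0 => hx.2.2.ne ((hdet x hx.1 hx.2.1).1 h0)) hg hh ?_
  have hsard := Area.ae_det_ne_zero volume (s := ball (0 : ℂ) 1 \ {0}) (f := M) (f' := M')
    (fun x hx => (hM x hx.1 hx.2).hasFDerivWithinAt)
  filter_upwards [hsard, NoMax.ae_notMem_image_sphere hR hf] with w hw1 hw2
  obtain ⟨r, -, hr1, hr⟩ := NoMax.sublevel_subset hfc hw2 hc (n : ℝ)
  obtain ⟨io, hio1, hio2⟩ := Elder.elder (ball 0 1) (closedBall 0 r)
    {p | (p ∈ ball (0 : ℂ) 1 ∧ p ≠ 0 ∧ 0 < Jd p) ∧ M p = w} (T ∩ M ⁻¹' {w})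
    {z | z ∈ ball (0 : ℂ) 1 ∧ f z = w} (fun x => ‖f x - w‖ / (1 - ‖x‖ ^ 2) ^ c) n isOpen_ball
    (NoMax.continuousOn_E hf1.continuousOn w c) (isCompact_closedBall _ _) (convex_closedBall _ _)
    (closedBall_subset_ball hr1) hr (fun z hz => NoMax.not_isLocalMax_disc hf1 hinj hc w hz)
    (by
      rintro p ⟨hp, hpw⟩
      refine ⟨hp.1, ?_⟩
      rw [← hpw]
      exact hsad p hp.1 hp.2.1 hp.2.2)
    (by
      intro z hz _ hloc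
      by_cases hfz : f z = w
      · exact Or.inr ⟨hz, hfz⟩
      · obtain ⟨h0, h1, h2⟩ := hmin w z hz hloc hfz
        refine Or.inl ⟨⟨hz, h0, lt_of_le_of_ne h2 fun h3 => ?_⟩, h1⟩
        exact hw1 z ⟨hz, h0⟩ h1 ((hdet z hz h0).2 h3))
    (fun a ha b hb => hinj ha.1 hb.1 (ha.2.trans hb.2.symm))
  have hlev : ∀ x ∈ S n ∩ M ⁻¹' {w}, ((x ∈ ball (0 : ℂ) 1 ∧ x ≠ 0 ∧ 0 < Jd x) ∧ M x = w) ∧
      ‖f x - w‖ / (1 - ‖x‖ ^ 2) ^ c < n := by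
    rintro x ⟨hx, hxw⟩
    have hxw' : M x = w := hxw
    refine ⟨⟨hx.1, hxw'⟩, ?_⟩
    have := hx.2
    simp only [hL] at this
    rwa [hxw'] at this
  refine ⟨io, hio1.mono fun x hx => hlev x hx, fun x hx => (hio2 x (hlev x hx).1 (hlev x hx).2).1,
    fun x hx => ?_⟩
  obtain ⟨⟨hx1, hxw⟩, hx2⟩ := hlev x hx
  obtain ⟨a1, -, a3, a4⟩ := hio2 x ⟨hx1, hxw⟩ hx2
  exact H w x hx1.1 (io x) a1.1.1 hx1.2.1 a1.1.2.1 hx1.2.2 a1.1.2.2 hxw a1.2 a3 a4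

end Crest.Agent.R131.Deg37
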