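import Mathlib
import Crest.Agent.R131.Defs

/-! Row 131: second order facts for the function `Fw` and the Jacobian of `Mm`. -/

open Set Metric MeasureTheory Filter Complex
open scoped ENNReal Topology ComplexConjugate

namespace Crest.Agent.R131.Deg63

/-- The real linear map `v ↦ A v + B conj v`. -/
noncomputable def LL (A B : ℂ) : ℂ →L[ℝ] ℂ :=
  A • (ContinuousLinearMap.id ℝ ℂ) + B • (conjCLE : ℂ →L[ℝ] ℂ)

theorem LL_apply (A B v : ℂ) : LL A B v = A * v + B * conj v := by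
  simp [LL]

theorem LL_det (A B : ℂ) : (LL A B).det = ‖A‖ ^ 2 - ‖B‖ ^ 2 := by
  rw [ContinuousLinearMap.det, ← LinearMap.det_toMatrix basisOneI, Matrix.det_fin_two]
  simp only [LinearMap.toMatrix_apply, ContinuousLinearMap.coe_coe, LL_apply, coe_basisOneI,
    coe_basisOneI_repr, Matrix.cons_val_zero, Matrix.cons_val_one]
  rw [Complex.sq_norm, Complex.sq_norm, normSq_apply, normSq_apply]
  simp
  ring

theorem rho_cast (z : ℂ) : ((1 - ‖z‖ ^ 2 : ℝ) : ℂ) = 1 - z * conj z := by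
  rw [mul_conj, normSq_eq_norm_sq]; push_cast; ring

noncomputable def AA (f : ℂ → ℂ) (c : ℝ) (z : ℂ) : ℂ :=
  deriv f z + (deriv (deriv f) z * ((conj z)⁻¹ - z) - deriv f z) / (2 * c)

noncomputable def BB (f : ℂ → ℂ) (c : ℝ) (z : ℂ) : ℂ :=
  - deriv f z / (2 * c * conj z ^ 2)

theorem hasFDerivAt_Mm {f : ℂ → ℂ} {c : ℝ} (hc : 0 < c) {z : ℂ} (hf : AnalyticAt ℂ f z)
    (hz : z ≠ 0) : HasFDerivAt (Mm f c) (LL (AA f c z) (BB f c z)) z := by
  have hcc : (c : ℂ) ≠ 0 := by exact_mod_cast hc.ne'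
  have hzc : conj z ≠ 0 := by simpa using hz
  have h1 : HasFDerivAt f ((ContinuousLinearMap.toSpanSingleton ℂ (deriv f z)).restrictScalars ℝ) z :=
    (hf.differentiableAt.hasDerivAt.hasFDerivAt).restrictScalars ℝ
  have h2 : HasFDerivAt (deriv f)
      ((ContinuousLinearMap.toSpanSingleton ℂ (deriv (deriv f) z)).restrictScalars ℝ) z :=
    (hf.deriv.differentiableAt.hasDerivAt.hasFDerivAt).restrictScalars ℝ
  have h3 : HasFDerivAt (fun x : ℂ => conj x) (conjCLE : ℂ →L[ℝ] ℂ) z := conjCLE.hasFDerivAt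
  have h4 : HasFDerivAt (fun x : ℂ => (conj x)⁻¹)
      (((ContinuousLinearMap.toSpanSingleton ℂ (-(conj z ^ 2)⁻¹)).restrictScalars ℝ).comp
        (conjCLE : ℂ →L[ℝ] ℂ)) z :=
    (((hasDerivAt_inv hzc).hasFDerivAt).restrictScalars ℝ).comp z h3
  have h5 := h1.add ((h2.mul (h4.sub (hasFDerivAt_id z))).mul_const (2 * (c : ℂ))⁻¹)
  have h6 : Mm f c =ᶠ[𝓝 z] fun x => f x + deriv f x * ((conj x)⁻¹ - x) * (2 * (c : ℂ))⁻¹ := by
    filter_upwards [isOpen_compl_singleton.mem_nhds hz] with x hx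
    have hxc : conj x ≠ 0 := by simpa using hx
    rw [Mm, rho_cast]
    field_simp
  refine (h5.congr_fderiv ?_).congr_of_eventuallyEq h6
  ext v
  simp [LL_apply, AA, BB]; field_simp; ring

theorem det_Mm {f : ℂ → ℂ} {c : ℝ} (hc : 0 < c) {z : ℂ} (hz : z ≠ 0) (hd : deriv f z ≠ 0) :
    (LL (AA f c z) (BB f c z)).det = ‖deriv f z‖ ^ 2 * Jd f c z / (4 * c ^ 2 * ‖z‖ ^ 4) := by
  have hcc : (c : ℂ) ≠ 0 := by exact_mod_cast hc.ne'
  have hzc : conj z ≠ 0 := by simpa using hz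
  have hn : ‖z‖ ≠ 0 := by simpa using hz
  have e1 : AA f c z = deriv f z * ((((2 * c - 1) * ‖z‖ ^ 2 : ℝ) : ℂ) +
      ((1 - ‖z‖ ^ 2 : ℝ) : ℂ) * z * (deriv (deriv f) z / deriv f z)) / (2 * c * (z * conj z)) := by
    have : (((2 * c - 1) * ‖z‖ ^ 2 : ℝ) : ℂ) = (2 * c - 1) * (z * conj z) := by
      rw [mul_conj, normSq_eq_norm_sq]; push_cast; ring
    rw [this, rho_cast, AA]
    field_simp
    ring
  rw [LL_det, e1, BB, Jd]
  simp only [norm_div, norm_mul, norm_neg, norm_pow, Complex.norm_conj, Complex.norm_real,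
    Complex.norm_ofNat, Real.norm_eq_abs, abs_of_pos hc]
  field_simp
  ring

theorem strict_of_second {φ φ' : ℝ → ℝ} {d : ℝ} (h1 : ∀ᶠ t in 𝓝 (0 : ℝ), HasDerivAt φ (φ' t) t)
    (h0 : φ' 0 = 0) (h2 : HasDerivAt φ' d 0) (hd : 0 < d) :
    ∀ᶠ t in 𝓝[≠] (0 : ℝ), φ 0 < φ t := by
  have h3 : ∀ᶠ t in 𝓝[≠] (0 : ℝ), 0 < slope φ' 0 t :=
    (hasDerivAt_iff_tendsto_slope.1 h2).eventually (lt_mem_nhds hd)
  rw [eventually_nhdsWithin_iff] at h3 ⊢
  obtain ⟨e, he, h4⟩ := Metric.eventually_nhds_iff.1 (h1.and h3)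
  refine Metric.eventually_nhds_iff.2 ⟨e, he, fun t ht ht0 => ?_⟩
  have ht0' : t ≠ 0 := ht0
  rw [Real.dist_eq, sub_zero] at ht
  have key : ∀ s : ℝ, |s| < e → s ≠ 0 → 0 < φ' s / s := by
    intro s hs hs0
    have := (h4 (y := s) (by rwa [Real.dist_eq, sub_zero])).2 hs0
    rwa [slope_def_field, h0, sub_zero, sub_zero] at this
  have hder : ∀ s : ℝ, |s| < e → HasDerivAt φ (φ' s) s := fun s hs =>
    (h4 (y := s) (by rwa [Real.dist_eq, sub_zero])).1
  have hte := abs_lt.1 ht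
  rcases lt_or_gt_of_ne ht0' with h | h
  · obtain ⟨x, hx, hx2⟩ := exists_hasDerivAt_eq_slope φ φ' h
      (fun s hs => (hder s (abs_lt.2 ⟨by linarith [hs.1], by linarith [hs.2]⟩)).continuousAt.continuousWithinAt)
      (fun s hs => hder s (abs_lt.2 ⟨by linarith [hs.1], by linarith [hs.2]⟩))
    have h5 := key x (abs_lt.2 ⟨by linarith [hx.1], by linarith [hx.2]⟩) hx.2.ne
    have h6 : φ' x < 0 := by
      by_contra hcon
      have := div_nonpos_of_nonneg_of_nonpos (not_lt.1 hcon) hx.2.le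
      linarith
    rw [hx2, div_neg_iff] at h6
    rcases h6 with h6 | h6 <;> linarith [h6.1, h6.2]
  · obtain ⟨x, hx, hx2⟩ := exists_hasDerivAt_eq_slope φ φ' h
      (fun s hs => (hder s (abs_lt.2 ⟨by linarith [hs.1], by linarith [hs.2]⟩)).continuousAt.continuousWithinAt)
      (fun s hs => hder s (abs_lt.2 ⟨by linarith [hs.1], by linarith [hs.2]⟩))
    have h5 := key x (abs_lt.2 ⟨by linarith [hx.1], by linarith [hx.2]⟩) hx.1.ne'
    have h6 : 0 < φ' x := (div_pos_iff_of_pos_right hx.1).1 h5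
    rw [hx2, div_pos_iff] at h6
    rcases h6 with h6 | h6 <;> linarith [h6.1, h6.2]

end Crest.Agent.R131.Deg63
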