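import Mathlib
import Crest.Agent.R131.Deg63A
import Crest.Agent.R131.Deg43
import Crest.Agent.R131.Crit
import Crest.Agent.Lib.RMT.Basic

/-! Row 131: the block `DegFlex`. -/

open Set Metric MeasureTheory Filter Complex
open scoped ENNReal Topology ComplexConjugate

namespace Crest.Agent.R131.Deg63

theorem measurable_Jd (f : ℂ → ℂ) (c : ℝ) : Measurable (Jd f c) := by
  have h1 : Measurable (deriv f) := measurable_deriv f
  have h2 : Measurable (deriv (deriv f)) := measurable_deriv _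
  have h3 : Measurable fun z : ℂ => ‖z‖ ^ 2 := measurable_norm.pow_const 2
  unfold Jd
  refine Measurable.sub (Measurable.pow_const (Measurable.norm ?_) 2) measurable_const
  exact (measurable_ofReal.comp (h3.const_mul _)).add
    (((measurable_ofReal.comp (measurable_const.sub h3)).mul measurable_id).mul (h2.div h1))

theorem Jd_eq (f : ℂ → ℂ) (c : ℝ) (z : ℂ) : Jd f c z = ‖(2 * (c : ℂ) - 1) * ((‖z‖ ^ 2 : ℝ) : ℂ)
      + ((1 - ‖z‖ ^ 2 : ℝ) : ℂ) * z * (deriv (deriv f) z / deriv f z)‖ ^ 2 - 1 := by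
  rw [Jd]; congr 3; push_cast; ring

theorem degFlex : DegFlex := by
  intro R f c hR hf hinj hc g h hg hh H
  have hsub : ball (0 : ℂ) 1 ⊆ ball 0 R := ball_subset_ball hR.le
  have han : ∀ z ∈ ball (0 : ℂ) 1, AnalyticAt ℂ f z := fun z hz =>
    hf.analyticAt (isOpen_ball.mem_nhds (hsub hz))
  have hne : ∀ z ∈ ball (0 : ℂ) 1, deriv f z ≠ 0 := fun z hz =>
    Crest.Agent.Lib.RMT.deriv_ne_zero_of_injOn isOpen_ball hf hinj (hsub hz)
  have hdet : ∀ z ∈ ball (0 : ℂ) 1, z ≠ 0 → |(LL (AA f c z) (BB f c z)).det| =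
      ‖deriv f z‖ ^ 2 * |Jd f c z| / (4 * c ^ 2 * ‖z‖ ^ 4) := by
    intro z hz hz0
    rw [det_Mm hc hz0 (hne z hz), abs_div, abs_mul, abs_of_nonneg (sq_nonneg _),
      abs_of_nonneg (a := 4 * c ^ 2 * ‖z‖ ^ 4) (by positivity)]
  have key := Crest.Agent.R131.Deg43.deg_abs hR hf (hinj.mono hsub) hc (Mm f c)
    (fun z => LL (AA f c z) (BB f c z)) (Jd f c) (measurable_Jd f c)
    (fun z hz hz0 => hasFDerivAt_Mm hc (han z hz) hz0)
    (fun z hz hz0 => by
      have hn : ‖z‖ ≠ 0 := by simpa using hz0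
      have hd : ‖deriv f z‖ ≠ 0 := by simpa using hne z hz
      rw [det_Mm hc hz0 (hne z hz)]
      simp [hc.ne', hz0, hne z hz])
    (fun p hp hp0 hJ => by
      refine Crit.saddle hc (han p hp) (mem_ball_zero_iff.1 hp) hp0 (hne p hp) rfl ?_
      rw [Jd_eq] at hJ
      by_contra hcon
      have := pow_le_one₀ (n := 2) (norm_nonneg _) (not_lt.1 hcon)
      linarith)
    (fun w m hm hmin hw => by
      obtain ⟨h1, h2, h3⟩ := Crit.crit_of_isLocalMin hc (han m hm) (mem_ball_zero_iff.1 hm)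
        (hne m hm) hw hmin
      refine ⟨h1, h2.symm, ?_⟩
      rw [Jd_eq]
      have := pow_le_one₀ (n := 2) (norm_nonneg _) h3
      linarith)
    hg hh
    (fun p hp m hm hp0 hm0 hJp hJm hM hF hJ => by
      refine H p hp m hm hp0 hm0 hJp hJm hM.symm ?_ ?_
      · have e1 := Crit.crit_val (f := f) (w := Mm f c m) hc (mem_ball_zero_iff.1 hm) rfl
        have e2 := Crit.crit_val (f := f) (w := Mm f c m) hc (mem_ball_zero_iff.1 hp) hM.symm
        rw [e1, e2] at hF
        exact hF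
      · rw [hM]; exact hJ)
  have hm1 : MeasurableSet {z | z ∈ ball (0 : ℂ) 1 ∧ z ≠ 0 ∧ 0 < Jd f c z} :=
    measurableSet_ball.inter ((measurableSet_singleton (0 : ℂ)).compl.inter
      (measurableSet_lt measurable_const (measurable_Jd f c)))
  have hm2 : MeasurableSet {z | z ∈ ball (0 : ℂ) 1 ∧ z ≠ 0 ∧ Jd f c z < 0} :=
    measurableSet_ball.inter ((measurableSet_singleton (0 : ℂ)).compl.inter
      (measurableSet_lt (measurable_Jd f c) measurable_const))
  refine le_of_eq_of_le ?_ (key.trans_eq ?_)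
  · refine setLIntegral_congr_fun hm1 fun z hz => ?_
    simp only [hdet z hz.1 hz.2.1]
  · refine setLIntegral_congr_fun hm2 fun z hz => ?_
    simp only [hdet z hz.1 hz.2.1]

end Crest.Agent.R131.Deg63
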