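import Mathlib
import Crest.Agent.R131.AreaCmp
import Crest.Agent.R131.Elder
import Crest.Agent.R131.NoMax

/-! Row 131: degree inequality, abstract in the calculus facts about `M`, `J`, `q`. -/

open Set Metric MeasureTheory Filter
open scoped ENNReal Topology

namespace Crest.Agent.R131.Deg79

/-- The function whose critical points are counted. -/
noncomputable def FF (f : ℂ → ℂ) (c : ℝ) (w x : ℂ) : ℝ := ‖f x - w‖ / (1 - ‖x‖ ^ 2) ^ c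

theorem deg_abs {f : ℂ → ℂ} {R c : ℝ} (hR : 1 < R) (hf : DifferentiableOn ℂ f (ball 0 R))
    (hinj : InjOn f (ball 0 R)) (hc : 0 < c) (M : ℂ → ℂ) (M' : ℂ → ℂ →L[ℝ] ℂ) (J q : ℂ → ℝ)
    (hJm : Measurable J) (hqm : Measurable q)
    (hM : ∀ z ∈ ball (0 : ℂ) 1, z ≠ 0 → HasFDerivAt M (M' z) z)
    (hdet : ∀ z ∈ ball (0 : ℂ) 1, z ≠ 0 → ((M' z).det ≠ 0 ↔ J z ≠ 0))
    (hsad : ∀ z ∈ ball (0 : ℂ) 1, z ≠ 0 → 0 < J z → ∃ u v : ℂ,
      (∀ᶠ t : ℝ in 𝓝[≠] 0, FF f c (M z) (z + t * u) < FF f c (M z) z) ∧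
      (∀ᶠ t : ℝ in 𝓝[≠] 0, FF f c (M z) z < FF f c (M z) (z + t * v)))
    (hmin : ∀ w : ℂ, ∀ m ∈ ball (0 : ℂ) 1, IsLocalMin (FF f c w) m → f m ≠ w →
      m ≠ 0 ∧ M m = w ∧ J m ≤ 0)
    (hq : ∀ z ∈ ball (0 : ℂ) 1, z ≠ 0 → FF f c (M z) z = q z)
    {g h : ℂ → ℝ≥0∞} (hg : Measurable g) (hh : Measurable h)
    (H : ∀ p ∈ ball (0 : ℂ) 1, ∀ m ∈ ball (0 : ℂ) 1, p ≠ 0 → m ≠ 0 → 0 < J p → J m < 0 →
      M m = M p → FF f c (M p) m < FF f c (M p) p →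
      JoinedIn {z | z ∈ ball (0 : ℂ) 1 ∧ FF f c (M p) z ≤ FF f c (M p) p} p m → g p ≤ h m) :
    ∫⁻ z in {z | z ∈ ball (0 : ℂ) 1 ∧ z ≠ 0 ∧ 0 < J z}, ENNReal.ofReal |(M' z).det| * g z ≤
      ∫⁻ z in {z | z ∈ ball (0 : ℂ) 1 ∧ z ≠ 0 ∧ J z < 0}, ENNReal.ofReal |(M' z).det| * h z := by
  have hb : ball (0 : ℂ) 1 ⊆ ball 0 R := ball_subset_ball hR.le
  have hcb : closedBall (0 : ℂ) 1 ⊆ ball 0 R := closedBall_subset_ball hR
  have hf1 : DifferentiableOn ℂ f (ball 0 1) := hf.mono hb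
  have hi1 : InjOn f (ball 0 1) := hinj.mono hb
  have hfc : ContinuousOn f (closedBall 0 1) := hf.continuousOn.mono hcb
  have hmeas0 : MeasurableSet {z : ℂ | z ∈ ball (0 : ℂ) 1 ∧ z ≠ 0} :=
    measurableSet_ball.inter (measurableSet_singleton (0 : ℂ)).compl
  have hT : MeasurableSet {z | z ∈ ball (0 : ℂ) 1 ∧ z ≠ 0 ∧ J z < 0} := by
    have := hmeas0.inter (measurableSet_lt hJm (measurable_const (a := (0 : ℝ))))
    convert this using 1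
    ext z; simp only [mem_setOf_eq, mem_inter_iff]; tauto
  set S : ℕ → Set ℂ := fun n => {z | z ∈ ball (0 : ℂ) 1 ∧ z ≠ 0 ∧ 0 < J z ∧ q z < n} with hS
  have hSm : ∀ n, MeasurableSet (S n) := fun n => by
    have := (hmeas0.inter (measurableSet_lt (measurable_const (a := (0 : ℝ))) hJm)).inter
      (measurableSet_lt hqm (measurable_const (a := (n : ℝ))))
    convert this using 1
    ext z; simp only [hS, mem_setOf_eq, mem_inter_iff]; tauto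
  have hU : {z | z ∈ ball (0 : ℂ) 1 ∧ z ≠ 0 ∧ 0 < J z} = ⋃ n, S n := by
    ext z
    simp only [hS, mem_setOf_eq, mem_iUnion]
    constructor
    · rintro ⟨h1, h2, h3⟩
      obtain ⟨n, hn⟩ := exists_nat_gt (q z)
      exact ⟨n, h1, h2, h3, hn⟩
    · rintro ⟨n, h1, h2, h3, -⟩
      exact ⟨h1, h2, h3⟩
  have hmono : Monotone S := fun a b hab z hz =>
    ⟨hz.1, hz.2.1, hz.2.2.1, hz.2.2.2.trans_le (by exact_mod_cast hab)⟩
  rw [hU, setLIntegral_iUnion_of_directed _ hmono.directed_le]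
  refine iSup_le fun n => ?_
  refine Area.lintegral_le_of_inj (volume : Measure ℂ) (f := M) (f' := M') (hSm n) hT
    (fun x hx => (hM x hx.1 hx.2.1).hasFDerivWithinAt)
    (fun x hx => (hdet x hx.1 hx.2.1).2 hx.2.2.1.ne')
    (fun x hx => (hM x hx.1 hx.2.1).hasFDerivWithinAt)
    (fun x hx => (hdet x hx.1 hx.2.1).2 hx.2.2.ne) hg hh ?_
  have hsard := Area.ae_det_ne_zero (volume : Measure ℂ)
    (s := {z : ℂ | z ∈ ball (0 : ℂ) 1 ∧ z ≠ 0}) (f := M) (f' := M')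
    (fun x hx => (hM x hx.1 hx.2).hasFDerivWithinAt)
  filter_upwards [hsard, NoMax.ae_notMem_image_sphere hR hf] with w hw1 hw2
  obtain ⟨r, hr0, hr1, hsub⟩ := NoMax.sublevel_subset hfc hw2 hc (n : ℝ)
  obtain ⟨io, hio, hio2⟩ := Elder.elder (ball 0 1) (closedBall 0 r)
    {z | z ∈ ball (0 : ℂ) 1 ∧ z ≠ 0 ∧ 0 < J z ∧ M z = w}
    {z | z ∈ ball (0 : ℂ) 1 ∧ z ≠ 0 ∧ J z < 0 ∧ M z = w}
    {z | z ∈ ball (0 : ℂ) 1 ∧ f z = w} (FF f c w) n isOpen_ball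
    (NoMax.continuousOn_E hf1.continuousOn w c) (isCompact_closedBall 0 r) (convex_closedBall 0 r)
    (closedBall_subset_ball hr1) hsub
    (fun z hz => NoMax.not_isLocalMax_disc hf1 hi1 hc w hz)
    (fun p hp => ⟨hp.1, by
      have := hsad p hp.1 hp.2.1 hp.2.2.1
      rwa [hp.2.2.2] at this⟩)
    (fun z hz _ hm => by
      by_cases hz0 : f z = w
      · exact Or.inr ⟨hz, hz0⟩
      · obtain ⟨h1, h2, h3⟩ := hmin w z hz hm hz0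
        exact Or.inl ⟨hz, h1, lt_of_le_of_ne h3 ((hdet z hz h1).1 (hw1 z ⟨hz, h1⟩ h2)), h2⟩)
    (fun a ha b hb' => hi1 ha.1 hb'.1 (ha.2.trans hb'.2.symm))
  have key : ∀ x ∈ S n ∩ M ⁻¹' {w},
      x ∈ {z | z ∈ ball (0 : ℂ) 1 ∧ z ≠ 0 ∧ 0 < J z ∧ M z = w} ∧ FF f c w x < n := by
    rintro x ⟨hx, hxw⟩
    have hxw' : M x = w := hxw
    refine ⟨⟨hx.1, hx.2.1, hx.2.2.1, hxw'⟩, ?_⟩
    have := hq x hx.1 hx.2.1
    rw [hxw'] at this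
    rw [this]; exact hx.2.2.2
  refine ⟨io, fun a ha b hb' hab => hio (key a ha) (key b hb') hab, fun x hx => ?_, fun x hx => ?_⟩
  · obtain ⟨h1, -, -, -⟩ := hio2 x (key x hx).1 (key x hx).2
    exact ⟨⟨h1.1, h1.2.1, h1.2.2.1⟩, h1.2.2.2⟩
  · obtain ⟨h1, -, h3, h4⟩ := hio2 x (key x hx).1 (key x hx).2
    obtain ⟨⟨k1, k2, k3, k4⟩, -⟩ := key x hx
    refine H x k1 (io x) h1.1 k2 h1.2.1 k3 h1.2.2.1 (h1.2.2.2.trans k4.symm) ?_ ?_
    · rw [k4]; exact h3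
    · rw [k4]; exact h4

end Crest.Agent.R131.Deg79
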