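import Mathlib
import Crest.Agent.R131.Deg79
import Crest.Agent.R131.Crit
import Crest.Agent.R131.Defs
import Crest.Agent.Lib.RMT.Basic

/-! Row 131: the block `DegFlex`. -/

open Set Metric MeasureTheory Filter
open scoped ENNReal Topology

namespace Crest.Agent.R131.Deg79

theorem Jd_eq (f : ℂ → ℂ) (c : ℝ) (z : ℂ) :
    Jd f c z = ‖(2 * (c : ℂ) - 1) * ((‖z‖ ^ 2 : ℝ) : ℂ)
      + ((1 - ‖z‖ ^ 2 : ℝ) : ℂ) * z * (deriv (deriv f) z / deriv f z)‖ ^ 2 - 1 := by
  unfold Jd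
  congr 3
  push_cast
  ring

theorem measurable_Jd (f : ℂ → ℂ) (c : ℝ) : Measurable (Jd f c) := by
  have h1 : Measurable (deriv f) := measurable_deriv f
  have h2 : Measurable (deriv (deriv f)) := measurable_deriv (deriv f)
  unfold Jd
  fun_prop

theorem measurable_qv (f : ℂ → ℂ) (c : ℝ) : Measurable (qv f c) := by
  have h1 : Measurable (deriv f) := measurable_deriv f
  unfold qv
  fun_prop

theorem degFlex79 : DegFlex := by
  intro R f c hR hf hinj hc g h hg hh H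
  have hb : ball (0 : ℂ) 1 ⊆ ball 0 R := ball_subset_ball hR.le
  have han : ∀ z ∈ ball (0 : ℂ) 1, AnalyticAt ℂ f z := fun z hz =>
    hf.analyticAt (isOpen_ball.mem_nhds (hb hz))
  have hd : ∀ z ∈ ball (0 : ℂ) 1, deriv f z ≠ 0 := fun z hz =>
    Crest.Agent.Lib.RMT.deriv_ne_zero_of_injOn isOpen_ball hf hinj (hb hz)
  have hn : ∀ z ∈ ball (0 : ℂ) 1, ‖z‖ < 1 := fun z hz => by simpa using hz
  have hdet : ∀ z ∈ ball (0 : ℂ) 1, z ≠ 0 → (Crit.DM f c z).det
      = ‖deriv f z‖ ^ 2 * Jd f c z / (4 * c ^ 2 * ‖z‖ ^ 4) := fun z hz hz0 => by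
    rw [Crit.det_DM hc.ne' hz0 (hd z hz), Jd_eq]
  have hq : ∀ z ∈ ball (0 : ℂ) 1, z ≠ 0 → FF f c (Mm f c z) z = qv f c z := fun z hz hz0 =>
    Crit.crit_val hc (hn z hz) rfl
  have habs : ∀ z ∈ ball (0 : ℂ) 1, z ≠ 0 → |(Crit.DM f c z).det|
      = ‖deriv f z‖ ^ 2 * |Jd f c z| / (4 * c ^ 2 * ‖z‖ ^ 4) := fun z hz hz0 => by
    rw [hdet z hz hz0, abs_div, abs_mul, abs_of_nonneg (a := ‖deriv f z‖ ^ 2) (by positivity),
      abs_of_nonneg (a := 4 * c ^ 2 * ‖z‖ ^ 4) (by positivity)]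
  have key := deg_abs hR hf hinj hc (Mm f c) (Crit.DM f c) (Jd f c) (qv f c)
    (measurable_Jd f c) (measurable_qv f c)
    (fun z hz hz0 => Crit.hasFDerivAt_M c (han z hz) hz0)
    (fun z hz hz0 => by
      have h1 : 0 < ‖deriv f z‖ := norm_pos_iff.2 (hd z hz)
      have h2 : 0 < ‖z‖ := norm_pos_iff.2 hz0
      rw [hdet z hz hz0]
      constructor
      · intro h0 hJ
        exact h0 (by rw [hJ]; simp)
      · intro hJ
        exact div_ne_zero (mul_ne_zero (by positivity) hJ) (by positivity))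
    (fun z hz hz0 hJ => Crit.saddle hc (han z hz) (hn z hz) hz0 (hd z hz) rfl (by
      rw [Jd_eq] at hJ
      by_contra hle
      push Not at hle
      nlinarith [norm_nonneg ((2 * (c : ℂ) - 1) * ((‖z‖ ^ 2 : ℝ) : ℂ)
        + ((1 - ‖z‖ ^ 2 : ℝ) : ℂ) * z * (deriv (deriv f) z / deriv f z))]))
    (fun w m hm hmin hne => by
      obtain ⟨h1, h2, h3⟩ := Crit.crit_of_isLocalMin hc (han m hm) (hn m hm) (hd m hm) hne hmin
      refine ⟨h1, h2.symm, ?_⟩
      rw [Jd_eq]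
      nlinarith [norm_nonneg ((2 * (c : ℂ) - 1) * ((‖m‖ ^ 2 : ℝ) : ℂ)
        + ((1 - ‖m‖ ^ 2 : ℝ) : ℂ) * m * (deriv (deriv f) m / deriv f m))])
    hq hg hh
    (fun p hp m hm hp0 hm0 hJp hJm hM hlt hj => by
      refine H p hp m hm hp0 hm0 hJp hJm hM ?_ hj
      rw [← hq p hp hp0, ← hq m hm hm0, hM]
      exact hlt)
  have hmeas0 : MeasurableSet {z : ℂ | z ∈ ball (0 : ℂ) 1 ∧ z ≠ 0} :=
    measurableSet_ball.inter (measurableSet_singleton (0 : ℂ)).compl
  have hT : MeasurableSet {z | z ∈ ball (0 : ℂ) 1 ∧ z ≠ 0 ∧ Jd f c z < 0} := by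
    have := hmeas0.inter (measurableSet_lt (measurable_Jd f c) (measurable_const (a := (0 : ℝ))))
    convert this using 1
    ext z; simp only [mem_setOf_eq, mem_inter_iff]; tauto
  have hS : MeasurableSet {z | z ∈ ball (0 : ℂ) 1 ∧ z ≠ 0 ∧ 0 < Jd f c z} := by
    have := hmeas0.inter (measurableSet_lt (measurable_const (a := (0 : ℝ))) (measurable_Jd f c))
    convert this using 1
    ext z; simp only [mem_setOf_eq, mem_inter_iff]; tauto
  refine le_trans (le_of_eq ?_) (le_trans key (le_of_eq ?_))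
  · refine setLIntegral_congr_fun hS fun z hz => ?_
    simp only [habs z hz.1 hz.2.1]
  · refine setLIntegral_congr_fun hT fun z hz => ?_
    simp only [habs z hz.1 hz.2.1]

end Crest.Agent.R131.Deg79
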