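import Crest.Agent.R131.Deg37
import Crest.Agent.R131.Crit
import Crest.Agent.R131.Defs
import Crest.Agent.R131.Asm

/-! Row 131, block DEG: the statement `DegFlex`. -/

set_option autoImplicit false

open Metric Set Filter Topology MeasureTheory
open scoped ENNReal

namespace Crest.Agent.R131.Deg37

lemma Jd_eq (f : ℂ → ℂ) (c : ℝ) (z : ℂ) :
    Jd f c z = ‖(2 * (c : ℂ) - 1) * ((‖z‖ ^ 2 : ℝ) : ℂ)
      + ((1 - ‖z‖ ^ 2 : ℝ) : ℂ) * z * (deriv (deriv f) z / deriv f z)‖ ^ 2 - 1 := by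
  unfold Jd
  congr 3
  push_cast
  ring

theorem degFlex : DegFlex := by
  intro R f c hR hf hinj hc g h hg hh H
  have hf1 : DifferentiableOn ℂ f (ball 0 1) := hf.mono (ball_subset_ball hR.le)
  have hi1 : InjOn f (ball 0 1) := hinj.mono (ball_subset_ball hR.le)
  have han : AnalyticOnNhd ℂ f (ball 0 1) := hf1.analyticOnNhd isOpen_ball
  have hne : ∀ z ∈ ball (0 : ℂ) 1, deriv f z ≠ 0 := fun z hz => asm_deriv_ne hf1 hi1 hz
  have hlt : ∀ z ∈ ball (0 : ℂ) 1, ‖z‖ < 1 := fun z hz => by simpa using hz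
  have hdet : ∀ z ∈ ball (0 : ℂ) 1, z ≠ 0 → (Crit.DM f c z).det =
      ‖deriv f z‖ ^ 2 * Jd f c z / (4 * c ^ 2 * ‖z‖ ^ 4) := fun z hz hz0 => by
    rw [Crit.det_DM hc.ne' hz0 (hne z hz), Jd_eq]
  have habs : ∀ z ∈ ball (0 : ℂ) 1, z ≠ 0 → |(Crit.DM f c z).det| =
      ‖deriv f z‖ ^ 2 * |Jd f c z| / (4 * c ^ 2 * ‖z‖ ^ 4) := fun z hz hz0 => by
    rw [hdet z hz hz0, abs_div, abs_mul, abs_of_nonneg (by positivity : (0 : ℝ) ≤ ‖deriv f z‖ ^ 2),
      abs_of_nonneg (by positivity : (0 : ℝ) ≤ 4 * c ^ 2 * ‖z‖ ^ 4)]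
  have hJc : ContinuousOn (Jd f c) (ball 0 1 \ {0}) := by
    have h1 : ContinuousOn (deriv f) (ball 0 1) := han.deriv.continuousOn
    have h2 : ContinuousOn (deriv (deriv f)) (ball 0 1) := han.deriv.deriv.continuousOn
    have h3 : ContinuousOn (fun z => deriv (deriv f) z / deriv f z) (ball 0 1) := h2.div h1 hne
    have h4 : ContinuousOn (Jd f c) (ball 0 1) := by
      unfold Jd
      refine (ContinuousOn.pow (ContinuousOn.norm (ContinuousOn.add ?_ (ContinuousOn.mul ?_ h3))) 2).sub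
        continuousOn_const
      · fun_prop
      · fun_prop
    exact h4.mono diff_subset
  have hU : IsOpen (ball (0 : ℂ) 1 \ {0}) := isOpen_ball.sdiff isClosed_singleton
  have hm1 : MeasurableSet {z | z ∈ ball (0 : ℂ) 1 ∧ z ≠ 0 ∧ 0 < Jd f c z} := by
    have h1 := hJc.isOpen_inter_preimage hU (isOpen_Ioi (a := (0 : ℝ)))
    refine IsOpen.measurableSet ?_
    convert h1 using 1
    ext z
    simp only [mem_setOf_eq, mem_inter_iff, mem_diff, mem_singleton_iff, mem_preimage, mem_Ioi]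
    tauto
  have hm2 : MeasurableSet {z | z ∈ ball (0 : ℂ) 1 ∧ z ≠ 0 ∧ Jd f c z < 0} := by
    have h1 := hJc.isOpen_inter_preimage hU (isOpen_Iio (a := (0 : ℝ)))
    refine IsOpen.measurableSet ?_
    convert h1 using 1
    ext z
    simp only [mem_setOf_eq, mem_inter_iff, mem_diff, mem_singleton_iff, mem_preimage, mem_Iio]
    tauto
  have key := deg_abs hR hf hi1 hc (Mm f c) (Crit.DM f c) (Jd f c) hJc
    (fun z hz hz0 => Crit.hasFDerivAt_M c (han z hz) hz0)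
    (fun z hz hz0 => by
      rw [hdet z hz hz0]
      have h1 : 0 < ‖deriv f z‖ := norm_pos_iff.2 (hne z hz)
      have h2 : 0 < ‖z‖ := norm_pos_iff.2 hz0
      have h3 : (4 * c ^ 2 * ‖z‖ ^ 4) ≠ 0 := by positivity
      have h4 : ‖deriv f z‖ ^ 2 ≠ 0 := by positivity
      rw [div_eq_zero_iff, mul_eq_zero]
      tauto)
    (fun p hp hp0 hJ => Crit.saddle hc (han p hp) (hlt p hp) hp0 (hne p hp) rfl (by
      rw [Jd_eq] at hJ
      by_contra hcon
      have h0 := norm_nonneg ((2 * (c : ℂ) - 1) * ((‖p‖ ^ 2 : ℝ) : ℂ)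
        + ((1 - ‖p‖ ^ 2 : ℝ) : ℂ) * p * (deriv (deriv f) p / deriv f p))
      have h1 := not_lt.1 hcon
      nlinarith))
    (fun w m hm hloc hfm => by
      obtain ⟨a, b, d⟩ := Crit.crit_of_isLocalMin hc (han m hm) (hlt m hm) (hne m hm) hfm hloc
      refine ⟨a, b.symm, ?_⟩
      rw [Jd_eq]
      have h0 := norm_nonneg ((2 * (c : ℂ) - 1) * ((‖m‖ ^ 2 : ℝ) : ℂ)
        + ((1 - ‖m‖ ^ 2 : ℝ) : ℂ) * m * (deriv (deriv f) m / deriv f m))
      nlinarith)
    hg hh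
    (fun w p hp m hm hp0 hm0 hJp hJm hMp hMm hlt' hj => by
      subst hMp
      refine H p hp m hm hp0 hm0 hJp hJm hMm ?_ hj
      have e1 := Crit.crit_val (f := f) (w := Mm f c p) hc (hlt p hp) rfl
      have e2 := Crit.crit_val (f := f) (w := Mm f c p) hc (hlt m hm) hMm.symm
      unfold qv
      rw [← e1, ← e2]
      exact hlt')
  refine le_trans (le_of_eq ?_) (key.trans (le_of_eq ?_))
  · refine setLIntegral_congr_fun hm1 fun z hz => ?_
    simp only [habs z hz.1 hz.2.1]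
  · refine setLIntegral_congr_fun hm2 fun z hz => ?_
    simp only [habs z hz.1 hz.2.1]

end Crest.Agent.R131.Deg37
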