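import Mathlib

/-!
Density of the set where the pre-Schwarzian is small (row 131, strictness block).
-/

open Set Filter Metric Complex MeasureTheory
open scoped Topology ENNReal ComplexConjugate

namespace Crest.Agent.R131.Dens

set_option maxHeartbeats 1000000

theorem rho_pos {z : ℂ} (hz : z ∈ ball (0 : ℂ) 1) : 0 < 1 - ‖z‖ ^ 2 := by
  have h : ‖z‖ < 1 := by simpa using hz
  have := norm_nonneg z
  nlinarith

theorem mem_of_rho_pos {z : ℂ} (hz : 0 < 1 - ‖z‖ ^ 2) : z ∈ ball (0 : ℂ) 1 := by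
  have := norm_nonneg z
  simp only [mem_ball, dist_zero_right]
  by_contra h
  push Not at h
  nlinarith

theorem one_sub_le (z x : ℂ) : 1 - ‖z‖ * ‖x‖ ≤ ‖1 - conj z * x‖ := by
  have := norm_sub_norm_le (1 : ℂ) (conj z * x)
  simpa using this

theorem norm_sub_sq_eq (z x : ℂ) :
    ‖x - z‖ ^ 2 = ‖1 - conj z * x‖ ^ 2 - (1 - ‖z‖ ^ 2) * (1 - ‖x‖ ^ 2) := by
  simp only [Complex.sq_norm, Complex.normSq_apply]
  simp
  ring

/-- Maximum modulus: near every point there is a point where the pre-Schwarzian is small. -/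
theorem exists_near {f : ℂ → ℂ} {K θ η : ℝ} (hθ : 0 < θ) (hη : 0 < η) (hη1 : η < 1)
    (hηK : η * K < θ)
    (hf : DifferentiableOn ℂ f (ball 0 1)) (h1 : ∀ z ∈ ball (0 : ℂ) 1, deriv f z ≠ 0)
    (hK : ∀ z ∈ ball (0 : ℂ) 1, (1 - ‖z‖ ^ 2) * ‖deriv (deriv f) z‖ ≤ K * ‖deriv f z‖)
    {z : ℂ} (hz : z ∈ ball (0 : ℂ) 1) :
    ∃ x ∈ ball (0 : ℂ) 1, (1 - ‖x‖ ^ 2) * ‖deriv (deriv f) x‖ < θ * ‖deriv f x‖ ∧
      η * ‖1 - conj z * x‖ ^ 2 ≤ (1 - ‖z‖ ^ 2) * (1 - ‖x‖ ^ 2) := by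
  by_contra hcon
  push Not at hcon
  have hz1 : ‖z‖ < 1 := by simpa using hz
  have hρz := rho_pos hz
  have hf1 : DifferentiableOn ℂ (deriv f) (ball 0 1) := hf.deriv isOpen_ball
  have hf2 : DifferentiableOn ℂ (deriv (deriv f)) (ball 0 1) := hf1.deriv isOpen_ball
  set U : Set ℂ := {x | η * ‖1 - conj z * x‖ ^ 2 < (1 - ‖z‖ ^ 2) * (1 - ‖x‖ ^ 2)} with hU
  have c1 : Continuous fun x : ℂ => η * ‖1 - conj z * x‖ ^ 2 := by fun_prop
  have c2 : Continuous fun x : ℂ => (1 - ‖z‖ ^ 2) * (1 - ‖x‖ ^ 2) := by fun_prop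
  have hcl : ∀ x ∈ closure U,
      η * ‖1 - conj z * x‖ ^ 2 ≤ (1 - ‖z‖ ^ 2) * (1 - ‖x‖ ^ 2) := fun x hx =>
    closure_lt_subset_le c1 c2 hx
  have hV : ∀ x, η * ‖1 - conj z * x‖ ^ 2 ≤ (1 - ‖z‖ ^ 2) * (1 - ‖x‖ ^ 2) →
      x ∈ ball (0 : ℂ) 1 ∧ 0 < ‖1 - conj z * x‖ := by
    intro x hx
    have h0 : 0 ≤ (1 - ‖z‖ ^ 2) * (1 - ‖x‖ ^ 2) := le_trans (by positivity) hx
    have h2 : 0 ≤ 1 - ‖x‖ ^ 2 := by
      by_contra h
      push Not at h
      nlinarith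
    have h3 : ‖x‖ ≤ 1 := by
      by_contra h
      push Not at h
      nlinarith
    have h4 : 0 < ‖1 - conj z * x‖ := by
      have := one_sub_le z x
      have h5 : ‖z‖ * ‖x‖ ≤ ‖z‖ := by nlinarith [norm_nonneg z]
      linarith
    refine ⟨mem_of_rho_pos ?_, h4⟩
    have h6 : 0 < (1 - ‖z‖ ^ 2) * (1 - ‖x‖ ^ 2) := lt_of_lt_of_le (by positivity) hx
    by_contra h
    push Not at h
    nlinarith
  have hbig : ∀ x, η * ‖1 - conj z * x‖ ^ 2 ≤ (1 - ‖z‖ ^ 2) * (1 - ‖x‖ ^ 2) →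
      θ * ‖deriv f x‖ ≤ (1 - ‖x‖ ^ 2) * ‖deriv (deriv f) x‖ := by
    intro x hx
    by_contra h
    push Not at h
    exact absurd hx (not_le.2 (hcon x (hV x hx).1 h))
  have hne : ∀ x, η * ‖1 - conj z * x‖ ^ 2 ≤ (1 - ‖z‖ ^ 2) * (1 - ‖x‖ ^ 2) →
      0 < ‖deriv (deriv f) x‖ := by
    intro x hx
    have a1 := hbig x hx
    have a2 : 0 < ‖deriv f x‖ := norm_pos_iff.2 (h1 x (hV x hx).1)
    have a3 : 0 < θ * ‖deriv f x‖ := by positivity
    rcases (norm_nonneg (deriv (deriv f) x)).lt_or_eq with h | h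
    · exact h
    · rw [← h] at a1; linarith
  set g : ℂ → ℂ := fun x => ((1 - ‖z‖ ^ 2 : ℝ) : ℂ) * deriv f x /
    ((1 - conj z * x) ^ 2 * deriv (deriv f) x) with hg
  have hgd : ∀ x ∈ closure U, DifferentiableAt ℂ g x := by
    intro x hx
    have hx' := hcl x hx
    have hb := (hV x hx').1
    have d1 : DifferentiableAt ℂ (deriv f) x := hf1.differentiableAt (isOpen_ball.mem_nhds hb)
    have d2 : DifferentiableAt ℂ (deriv (deriv f)) x :=
      hf2.differentiableAt (isOpen_ball.mem_nhds hb)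
    refine DifferentiableAt.div (by fun_prop) (by fun_prop) ?_
    exact mul_ne_zero (pow_ne_zero _ (norm_pos_iff.1 (hV x hx').2)) (norm_pos_iff.1 (hne x hx'))
  have hdc : DiffContOnCl ℂ g U :=
    DifferentiableOn.diffContOnCl fun x hx => (hgd x hx).differentiableWithinAt
  have hbd : Bornology.IsBounded U :=
    (isBounded_ball (x := (0 : ℂ)) (r := 1)).subset fun x hx => (hV x (le_of_lt hx)).1
  have hnorm : ∀ x, ‖g x‖ = (1 - ‖z‖ ^ 2) * ‖deriv f x‖ /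
      (‖1 - conj z * x‖ ^ 2 * ‖deriv (deriv f) x‖) := by
    intro x
    simp only [hg, norm_div, norm_mul, norm_pow, Complex.norm_real, Real.norm_eq_abs,
      abs_of_pos hρz]
  have hfr : ∀ x ∈ frontier U, ‖g x‖ ≤ η / θ := by
    intro x hx
    have he : η * ‖1 - conj z * x‖ ^ 2 = (1 - ‖z‖ ^ 2) * (1 - ‖x‖ ^ 2) :=
      frontier_lt_subset_eq c1 c2 hx
    have a1 := hbig x he.le
    have a2 := hne x he.le
    have a3 := (hV x he.le).2
    rw [hnorm, div_le_div_iff₀ (by positivity) hθ]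
    calc (1 - ‖z‖ ^ 2) * ‖deriv f x‖ * θ = (1 - ‖z‖ ^ 2) * (θ * ‖deriv f x‖) := by ring
      _ ≤ (1 - ‖z‖ ^ 2) * ((1 - ‖x‖ ^ 2) * ‖deriv (deriv f) x‖) := by gcongr
      _ = ((1 - ‖z‖ ^ 2) * (1 - ‖x‖ ^ 2)) * ‖deriv (deriv f) x‖ := by ring
      _ = η * (‖1 - conj z * x‖ ^ 2 * ‖deriv (deriv f) x‖) := by rw [← he]; ring
  have hzz : ‖1 - conj z * z‖ = 1 - ‖z‖ ^ 2 := by
    have : (1 - conj z * z : ℂ) = ((1 - ‖z‖ ^ 2 : ℝ) : ℂ) := by
      rw [Complex.conj_mul']; push_cast; ring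
    rw [this, Complex.norm_real, Real.norm_eq_abs, abs_of_pos hρz]
  have hzU : z ∈ U := by
    simp only [hU, mem_ofPred_eq, hzz]
    nlinarith [mul_pos hρz hρz]
  have hle := Complex.norm_le_of_forall_mem_frontier_norm_le hbd hdc hfr (subset_closure hzU)
  have a2 := hne z (le_of_lt hzU)
  have a4 : 0 < ‖deriv f z‖ := norm_pos_iff.2 (h1 z hz)
  rw [hnorm, hzz, div_le_div_iff₀ (by positivity) hθ] at hle
  have a5 := hK z hz
  have a6 : η * ((1 - ‖z‖ ^ 2) ^ 2 * ‖deriv (deriv f) z‖) ≤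
      η * ((1 - ‖z‖ ^ 2) * (K * ‖deriv f z‖)) := by
    have : (1 - ‖z‖ ^ 2) ^ 2 * ‖deriv (deriv f) z‖ =
      (1 - ‖z‖ ^ 2) * ((1 - ‖z‖ ^ 2) * ‖deriv (deriv f) z‖) := by ring
    rw [this]; gcongr
  have a7 : 0 < (1 - ‖z‖ ^ 2) * ‖deriv f z‖ := by positivity
  nlinarith

/-- Gronwall distortion along a segment. -/
theorem distort {f : ℂ → ℂ} {K m : ℝ} (hm : 0 < m)
    (hf : DifferentiableOn ℂ f (ball 0 1))
    (hK : ∀ z ∈ ball (0 : ℂ) 1, (1 - ‖z‖ ^ 2) * ‖deriv (deriv f) z‖ ≤ K * ‖deriv f z‖)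
    {u v : ℂ} (hu : m ≤ 1 - ‖u‖ ^ 2) (hv : m ≤ 1 - ‖v‖ ^ 2) :
    ‖deriv f v‖ ≤ ‖deriv f u‖ * Real.exp (K * ‖v - u‖ / m) := by
  have hf1 : DifferentiableOn ℂ (deriv f) (ball 0 1) := hf.deriv isOpen_ball
  set y : ℝ → ℂ := fun t => u + (t : ℂ) * (v - u) with hy
  have hym : ∀ t ∈ Icc (0 : ℝ) 1, m ≤ 1 - ‖y t‖ ^ 2 := by
    intro t ht
    have e : y t = ((1 - t : ℝ) : ℂ) * u + (t : ℂ) * v := by simp only [hy]; push_cast; ring
    have h1 : ‖y t‖ ≤ (1 - t) * ‖u‖ + t * ‖v‖ := by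
      rw [e]
      refine (norm_add_le _ _).trans ?_
      rw [norm_mul, norm_mul, Complex.norm_real, Complex.norm_real, Real.norm_eq_abs,
        Real.norm_eq_abs, abs_of_nonneg ht.1, abs_of_nonneg (by linarith [ht.2])]
    have h2 : ‖y t‖ ≤ max ‖u‖ ‖v‖ := by
      have a := le_max_left ‖u‖ ‖v‖
      have b := le_max_right ‖u‖ ‖v‖
      nlinarith [ht.1, ht.2]
    have h3 : ‖y t‖ ^ 2 ≤ (max ‖u‖ ‖v‖) ^ 2 := by gcongr
    rcases max_choice ‖u‖ ‖v‖ with h | h <;> rw [h] at h3 <;> linarith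
  have hyb : ∀ t ∈ Icc (0 : ℝ) 1, y t ∈ ball (0 : ℂ) 1 := fun t ht =>
    mem_of_rho_pos (lt_of_lt_of_le hm (hym t ht))
  have hd : ∀ t ∈ Icc (0 : ℝ) 1,
      HasDerivAt (fun t => deriv f (y t)) (deriv (deriv f) (y t) * (v - u)) t := by
    intro t ht
    have d1 : HasDerivAt (deriv f) (deriv (deriv f) (y t)) (y t) :=
      (hf1.differentiableAt (isOpen_ball.mem_nhds (hyb t ht))).hasDerivAt
    have d2 : HasDerivAt (fun s : ℂ => u + s * (v - u)) (v - u) (t : ℂ) := by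
      simpa using ((hasDerivAt_id (t : ℂ)).mul_const (v - u)).const_add u
    have d3 := HasDerivAt.comp (t : ℂ) (h₂ := deriv f) (h := fun s : ℂ => u + s * (v - u)) d1 d2
    exact d3.comp_ofReal
  have key := norm_le_gronwallBound_of_norm_deriv_right_le (f := fun t => deriv f (y t))
    (f' := fun t => deriv (deriv f) (y t) * (v - u)) (δ := ‖deriv f u‖)
    (K := K * ‖v - u‖ / m) (ε := 0) (a := 0) (b := 1)
    (fun t ht => (hd t ht).continuousAt.continuousWithinAt)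
    (fun t ht => (hd t (Ico_subset_Icc_self ht)).hasDerivWithinAt)
    (by simp [hy])
    (fun t ht => by
      have ht' := Ico_subset_Icc_self ht
      have a1 := hK _ (hyb t ht')
      have a2 := hym t ht'
      have a3 : m * ‖deriv (deriv f) (y t)‖ ≤ K * ‖deriv f (y t)‖ :=
        le_trans (by gcongr) a1
      rw [norm_mul, add_zero, div_mul_eq_mul_div, le_div_iff₀ hm]
      nlinarith [norm_nonneg (v - u)])
    1 ⟨zero_le_one, le_rfl⟩
  rw [gronwallBound_ε0] at key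
  simpa [hy] using key

/-- The pre-Schwarzian is Lipschitz at the scale of the distance to the circle. -/
theorem lip {f : ℂ → ℂ} {K : ℝ}
    (hf : DifferentiableOn ℂ f (ball 0 1)) (h1 : ∀ z ∈ ball (0 : ℂ) 1, deriv f z ≠ 0)
    (hK : ∀ z ∈ ball (0 : ℂ) 1, (1 - ‖z‖ ^ 2) * ‖deriv (deriv f) z‖ ≤ K * ‖deriv f z‖)
    {z x : ℂ} (hz : z ∈ ball (0 : ℂ) 1) (hx : x ∈ ball z ((1 - ‖z‖ ^ 2) / 4)) :
    x ∈ ball (0 : ℂ) 1 ∧ (1 - ‖z‖ ^ 2) / 4 ≤ 1 - ‖x‖ ^ 2 ∧ 1 - ‖x‖ ^ 2 ≤ 3 * (1 - ‖z‖ ^ 2) ∧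
    ‖deriv (deriv f) x / deriv f x - deriv (deriv f) z / deriv f z‖ ≤
      32 * K * ‖x - z‖ / (1 - ‖z‖ ^ 2) ^ 2 := by
  have hρ := rho_pos hz
  have hz1 : ‖z‖ < 1 := by simpa using hz
  have hgeo : ∀ y ∈ ball z ((1 - ‖z‖ ^ 2) / 4), y ∈ ball (0 : ℂ) 1 ∧
      (1 - ‖z‖ ^ 2) / 4 ≤ 1 - ‖y‖ ^ 2 ∧ 1 - ‖y‖ ^ 2 ≤ 3 * (1 - ‖z‖ ^ 2) := by
    intro y hy
    rw [mem_ball, dist_eq_norm] at hy
    have a1 : ‖y‖ ≤ ‖z‖ + ‖y - z‖ := by simpa using norm_add_le z (y - z)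
    have a2 : ‖z‖ ≤ ‖y‖ + ‖y - z‖ := by
      have := norm_sub_le y (y - z); simpa using this
    have a3 := norm_nonneg y
    have a4 := norm_nonneg z
    have a5 : (1 - ‖z‖ ^ 2) / 4 ≤ 1 - ‖y‖ := by nlinarith
    have a6 : ‖y‖ < 1 := by linarith
    refine ⟨by simpa using a6, by nlinarith, by nlinarith⟩
  have hf1 : DifferentiableOn ℂ (deriv f) (ball 0 1) := hf.deriv isOpen_ball
  have hf2 : DifferentiableOn ℂ (deriv (deriv f)) (ball 0 1) := hf1.deriv isOpen_ball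
  have hφ : DifferentiableOn ℂ (fun y => deriv (deriv f) y / deriv f y)
      (ball z ((1 - ‖z‖ ^ 2) / 4)) :=
    (hf2.div hf1 h1).mono fun y hy => (hgeo y hy).1
  have hb : ∀ y ∈ ball z ((1 - ‖z‖ ^ 2) / 4),
      ‖deriv (deriv f) y / deriv f y‖ ≤ 4 * K / (1 - ‖z‖ ^ 2) := by
    intro y hy
    obtain ⟨g1, g2, -⟩ := hgeo y hy
    have a1 := hK y g1
    have a2 : 0 < ‖deriv f y‖ := norm_pos_iff.2 (h1 y g1)
    rw [norm_div, div_le_div_iff₀ a2 hρ]
    nlinarith [norm_nonneg (deriv (deriv f) y)]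
  have hmaps : MapsTo (fun y => deriv (deriv f) y / deriv f y) (ball z ((1 - ‖z‖ ^ 2) / 4))
      (closedBall (deriv (deriv f) z / deriv f z) (8 * K / (1 - ‖z‖ ^ 2))) := by
    intro y hy
    rw [mem_closedBall, dist_eq_norm]
    have a1 := hb y hy
    have a2 := hb z (mem_ball_self (by positivity))
    calc _ ≤ ‖deriv (deriv f) y / deriv f y‖ + ‖deriv (deriv f) z / deriv f z‖ := norm_sub_le _ _
      _ ≤ 4 * K / (1 - ‖z‖ ^ 2) + 4 * K / (1 - ‖z‖ ^ 2) := add_le_add a1 a2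
      _ = _ := by ring
  have := Complex.dist_le_div_mul_dist_of_mapsTo_ball hφ hmaps hx
  rw [dist_eq_norm, dist_eq_norm] at this
  refine ⟨(hgeo x hx).1, (hgeo x hx).2.1, (hgeo x hx).2.2, this.trans_eq ?_⟩
  field_simp
  ring

theorem rpow_cmp {a c B p q : ℝ} (ha : 0 < a) (hc : 0 < c) (hB : 1 ≤ B) (h1 : a ≤ B * c)
    (h2 : c ≤ B * a) (hp : |p| ≤ q) : a ^ p ≤ B ^ q * c ^ p := by
  have hB0 : 0 < B := by linarith
  rw [Real.rpow_def_of_pos ha, Real.rpow_def_of_pos hc, Real.rpow_def_of_pos hB0, ← Real.exp_add]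
  apply Real.exp_le_exp.2
  have l1 : Real.log a ≤ Real.log B + Real.log c := by
    rw [← Real.log_mul hB0.ne' hc.ne']; exact Real.log_le_log ha h1
  have l2 : Real.log c ≤ Real.log B + Real.log a := by
    rw [← Real.log_mul hB0.ne' ha.ne']; exact Real.log_le_log hc h2
  have l3 : 0 ≤ Real.log B := Real.log_nonneg hB
  have l4 : |Real.log a - Real.log c| ≤ Real.log B := abs_le.2 ⟨by linarith, by linarith⟩
  have l5 : (Real.log a - Real.log c) * p ≤ Real.log B * q := by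
    refine (le_abs_self _).trans ?_
    rw [abs_mul]
    exact mul_le_mul l4 hp (abs_nonneg _) l3
  linarith

/-- Local step: a ball of good points near every point, with comparable data. -/
theorem local_ball {f : ℂ → ℂ} {K θ η e : ℝ} (hK0 : 0 < K) (hθ : 0 < θ) (hη : 0 < η)
    (hη1 : η ≤ 1 / 2) (hηK : η * K ≤ θ / 12) (he : 0 < e) (he1 : e ≤ 1 / 8)
    (heK : e * K ≤ θ / 400)
    (hf : DifferentiableOn ℂ f (ball 0 1)) (h1 : ∀ z ∈ ball (0 : ℂ) 1, deriv f z ≠ 0)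
    (hK : ∀ z ∈ ball (0 : ℂ) 1, (1 - ‖z‖ ^ 2) * ‖deriv (deriv f) z‖ ≤ K * ‖deriv f z‖)
    {z : ℂ} (hz : z ∈ ball (0 : ℂ) 1) :
    ∃ c : ℂ, ∀ x ∈ ball c (e * (1 - ‖z‖ ^ 2) / (16 / η)), x ∈ ball (0 : ℂ) 1 ∧
      (1 - ‖x‖ ^ 2) * ‖deriv (deriv f) x‖ < θ * ‖deriv f x‖ ∧
      ‖x - z‖ ≤ 16 / η * (1 - ‖z‖ ^ 2) ∧ 1 - ‖z‖ ^ 2 ≤ 16 / η * (1 - ‖x‖ ^ 2) ∧
      1 - ‖x‖ ^ 2 ≤ 16 / η * (1 - ‖z‖ ^ 2) := by
  obtain ⟨c, hc, hc1, hc2⟩ := exists_near (θ := θ / 6) (by positivity) hη (by linarith)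
    (by linarith) hf h1 hK hz
  refine ⟨c, fun x hx => ?_⟩
  have hρz := rho_pos hz
  have hρc := rho_pos hc
  have hz1 : ‖z‖ < 1 := by simpa using hz
  have hc1' : ‖c‖ < 1 := by simpa using hc
  have n1 := norm_nonneg z
  have n2 := norm_nonneg c
  have b0 := one_sub_le z c
  have b1 : (1 - ‖z‖ ^ 2) / 2 ≤ ‖1 - conj z * c‖ := by nlinarith
  have b2 : (1 - ‖c‖ ^ 2) / 2 ≤ ‖1 - conj z * c‖ := by nlinarith
  set p := 1 - ‖z‖ ^ 2 with hp
  set q := 1 - ‖c‖ ^ 2 with hq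
  have b3 : η * p ≤ 4 * q := by
    have : (p / 2) ^ 2 ≤ ‖1 - conj z * c‖ ^ 2 := by gcongr
    have h2 : η * (p / 2) ^ 2 ≤ p * q := le_trans (by gcongr) hc2
    by_contra h
    push Not at h
    nlinarith
  have b4 : η * q ≤ 4 * p := by
    have : (q / 2) ^ 2 ≤ ‖1 - conj z * c‖ ^ 2 := by gcongr
    have h2 : η * (q / 2) ^ 2 ≤ p * q := le_trans (by gcongr) hc2
    by_contra h
    push Not at h
    nlinarith
  have b5 : η * ‖c - z‖ ≤ 2 * p := by
    have e1 := norm_sub_sq_eq z c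
    rw [← hp, ← hq] at e1
    have e2 : η * ‖c - z‖ ^ 2 ≤ p * q := by
      have : ‖c - z‖ ^ 2 ≤ ‖1 - conj z * c‖ ^ 2 := by nlinarith
      exact le_trans (by gcongr) hc2
    have e3 : (η * ‖c - z‖) ^ 2 ≤ (2 * p) ^ 2 := by nlinarith
    exact abs_le_of_sq_le_sq' e3 (by positivity) |>.2
  rw [mem_ball, dist_eq_norm] at hx
  have hx1 : ‖x - c‖ ≤ e * q := by
    have : e * p / (16 / η) = e * (η * p) / 16 := by field_simp
    rw [this] at hx
    nlinarith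
  have hx2 : x ∈ ball c (q / 4) := by
    rw [mem_ball, dist_eq_norm]; nlinarith
  obtain ⟨g1, g2, g3, g4⟩ := lip hf h1 hK hc hx2
  rw [← hq] at g2 g3 g4
  have a2 : 0 < ‖deriv f x‖ := norm_pos_iff.2 (h1 x g1)
  have a3 : 0 < ‖deriv f c‖ := norm_pos_iff.2 (h1 c hc)
  refine ⟨g1, ?_, ?_, ?_, ?_⟩
  · have t1 : ‖deriv (deriv f) c / deriv f c‖ < θ / 6 / q := by
      rw [norm_div, div_lt_div_iff₀ a3 hρc]; linarith
    have t2 : 32 * K * ‖x - c‖ / q ^ 2 ≤ 32 * (θ / 400) / q := by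
      rw [div_le_div_iff₀ (by positivity) hρc]
      have : K * ‖x - c‖ ≤ θ / 400 * q :=
        calc K * ‖x - c‖ ≤ K * (e * q) := by gcongr
          _ = (e * K) * q := by ring
          _ ≤ θ / 400 * q := by gcongr
      calc 32 * K * ‖x - c‖ * q = 32 * q * (K * ‖x - c‖) := by ring
        _ ≤ 32 * q * (θ / 400 * q) := by gcongr
        _ = _ := by ring
    have t3 : ‖deriv (deriv f) x / deriv f x‖ < (θ / 6 + 32 * (θ / 400)) / q := by
      have := norm_add_le (deriv (deriv f) c / deriv f c)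
        (deriv (deriv f) x / deriv f x - deriv (deriv f) c / deriv f c)
      rw [add_sub_cancel] at this
      rw [add_div]; linarith
    rw [norm_div, div_lt_div_iff₀ a2 hρc] at t3
    have t4 : (1 - ‖x‖ ^ 2) * ‖deriv (deriv f) x‖ ≤ 3 * q * ‖deriv (deriv f) x‖ := by gcongr
    have t5 : 0 < θ * ‖deriv f x‖ := by positivity
    linarith
  · have t1 : ‖x - z‖ ≤ ‖x - c‖ + ‖c - z‖ := norm_sub_le_norm_sub_add_norm_sub _ _ _
    rw [div_mul_eq_mul_div, le_div_iff₀ hη]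
    have t2 : η * ‖x - c‖ ≤ e * (η * q) :=
      calc η * ‖x - c‖ ≤ η * (e * q) := by gcongr
        _ = _ := by ring
    have t3 : e * (η * q) ≤ 1 / 8 * (4 * p) := by gcongr
    have t4 : ‖x - z‖ * η ≤ (‖x - c‖ + ‖c - z‖) * η := by gcongr
    linarith
  · rw [div_mul_eq_mul_div, le_div_iff₀ hη]; linarith
  · rw [div_mul_eq_mul_div, le_div_iff₀ hη]
    have t4 : (1 - ‖x‖ ^ 2) * η ≤ 3 * q * η := by gcongr
    linarith

/-- The weighted measure of the set where the pre-Schwarzian is small is a fixed proportion of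
the total weighted measure. -/
theorem dens {K θ : ℝ} (hK0 : 0 < K) (hθ : 0 < θ) : ∃ C : ℝ, 0 < C ∧ ∀ s b : ℝ, |s| ≤ 2 →
    |b - 1| ≤ 1 → ∀ f : ℂ → ℂ, DifferentiableOn ℂ f (ball 0 1) →
    (∀ z ∈ ball (0 : ℂ) 1, deriv f z ≠ 0) →
    (∀ z ∈ ball (0 : ℂ) 1, (1 - ‖z‖ ^ 2) * ‖deriv (deriv f) z‖ ≤ K * ‖deriv f z‖) →
    ∫⁻ z in ball (0 : ℂ) 1, ENNReal.ofReal (‖deriv f z‖ ^ (-s) * (1 - ‖z‖ ^ 2) ^ (b - 1)) ≤
      ENNReal.ofReal C * ∫⁻ z in {z ∈ ball (0 : ℂ) 1 |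
        (1 - ‖z‖ ^ 2) * ‖deriv (deriv f) z‖ < θ * ‖deriv f z‖},
        ENNReal.ofReal (‖deriv f z‖ ^ (-s) * (1 - ‖z‖ ^ 2) ^ (b - 1)) := by
  obtain ⟨η, hη, hη1, hηK⟩ : ∃ η : ℝ, 0 < η ∧ η ≤ 1 / 2 ∧ η * K ≤ θ / 12 := by
    refine ⟨min (1 / 2) (θ / 12 / K), by positivity, min_le_left _ _, ?_⟩
    rw [← le_div_iff₀ hK0]; exact min_le_right _ _
  obtain ⟨e, he, he1, heK⟩ : ∃ e : ℝ, 0 < e ∧ e ≤ 1 / 8 ∧ e * K ≤ θ / 400 := by
    refine ⟨min (1 / 8) (θ / 400 / K), by positivity, min_le_left _ _, ?_⟩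
    rw [← le_div_iff₀ hK0]; exact min_le_right _ _
  set L : ℝ := 16 / η with hL
  have hL1 : 1 ≤ L := by rw [hL, le_div_iff₀ hη]; linarith
  have hL0 : 0 < L := by linarith
  set B : ℝ := Real.exp (K * L ^ 2) with hB
  have hB1 : 1 ≤ B := Real.one_le_exp (by positivity)
  have hB0 : 0 < B := by linarith
  set C1 : ℝ := B ^ (2 : ℝ) * L ^ 5 / (Real.pi * e ^ 2) with hC1
  have hC10 : 0 < C1 := by have := Real.pi_pos; positivity
  refine ⟨C1 * (Real.pi * L ^ 4), by have := Real.pi_pos; positivity, ?_⟩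
  intro s b hs hb f hf h1 hK
  set g : ℂ → ℝ := fun z => ‖deriv f z‖ ^ (-s) * (1 - ‖z‖ ^ 2) ^ (b - 1) with hg
  set G : Set ℂ := {z ∈ ball (0 : ℂ) 1 |
    (1 - ‖z‖ ^ 2) * ‖deriv (deriv f) z‖ < θ * ‖deriv f z‖} with hG
  have m1 : Measurable (deriv f) := measurable_deriv f
  have m2 : Measurable (deriv (deriv f)) := measurable_deriv _
  have hgm : Measurable g := by
    simp only [hg]
    exact (m1.norm.pow_const _).mul ((by fun_prop : Measurable fun z : ℂ => 1 - ‖z‖ ^ 2).pow_const _)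
  have hGm : MeasurableSet G := by
    refine measurableSet_ball.inter ?_
    exact measurableSet_lt (f := fun z : ℂ => (1 - ‖z‖ ^ 2) * ‖deriv (deriv f) z‖)
      (g := fun z : ℂ => θ * ‖deriv f z‖) (by fun_prop) (by fun_prop)
  set h : ℂ → ℝ≥0∞ := G.indicator fun x => ENNReal.ofReal (g x / (1 - ‖x‖ ^ 2) ^ 2) with hh
  have hhm : Measurable h := by
    refine Measurable.indicator ?_ hGm
    exact (hgm.div (by fun_prop)).ennreal_ofReal
  set N : Set (ℂ × ℂ) := {p | ‖p.2 - p.1‖ ≤ L ^ 2 * (1 - ‖p.2‖ ^ 2)} with hN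
  have hNm : MeasurableSet N := measurableSet_le (by fun_prop) (by fun_prop)
  set F : ℂ → ℂ → ℝ≥0∞ := fun z x => N.indicator (fun p => h p.2) (z, x) with hF
  have hFm : Measurable (Function.uncurry F) := by
    have : Function.uncurry F = N.indicator (fun p => h p.2) := by
      funext p; rfl
    rw [this]
    exact Measurable.indicator (hhm.comp measurable_snd) hNm
  have step1 : ∀ z ∈ ball (0 : ℂ) 1, ENNReal.ofReal (g z) ≤ ENNReal.ofReal C1 * ∫⁻ x, F z x := by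
    intro z hz
    have hρz := rho_pos hz
    obtain ⟨c, hc⟩ := local_ball hK0 hθ hη hη1 hηK he he1 heK hf h1 hK hz
    rw [← hL] at hc
    have az : 0 < ‖deriv f z‖ := norm_pos_iff.2 (h1 z hz)
    have hgz : 0 ≤ g z := by simp only [hg]; positivity
    set p := 1 - ‖z‖ ^ 2 with hp
    set a : ℝ := g z / (B ^ (2 : ℝ) * L ^ 3 * p ^ 2) with ha
    have low : ∀ x ∈ ball c (e * p / L), ENNReal.ofReal a ≤ F z x := by
      intro x hx
      obtain ⟨g1, g2, g3, g4, g5⟩ := hc x hx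
      have hρx := rho_pos g1
      have ax : 0 < ‖deriv f x‖ := norm_pos_iff.2 (h1 x g1)
      have hN' : (z, x) ∈ N := by
        simp only [hN, mem_ofPred_eq]
        calc ‖x - z‖ ≤ L * p := g3
          _ ≤ L * (L * (1 - ‖x‖ ^ 2)) := by gcongr
          _ = _ := by ring
      have hG' : x ∈ G := ⟨g1, g2⟩
      simp only [hF, hh, indicator_of_mem hN', indicator_of_mem hG']
      apply ENNReal.ofReal_le_ofReal
      have mz : p / L ≤ 1 - ‖z‖ ^ 2 := div_le_self hρz.le hL1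
      have mx : p / L ≤ 1 - ‖x‖ ^ 2 := by rw [div_le_iff₀ hL0]; linarith
      have ex : ∀ w : ℝ, w ≤ L * p → Real.exp (K * w / (p / L)) ≤ B := by
        intro w hw
        apply Real.exp_le_exp.2
        rw [div_le_iff₀ (by positivity)]
        have : K * L ^ 2 * (p / L) = K * (L * p) := by field_simp
        rw [this]; gcongr
      have d1 := distort (by positivity : 0 < p / L) hf hK mz mx
      have d2 := distort (by positivity : 0 < p / L) hf hK mx mz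
      have d1' : ‖deriv f x‖ ≤ B * ‖deriv f z‖ := by
        rw [mul_comm]; exact d1.trans (by gcongr; exact ex _ g3)
      have d2' : ‖deriv f z‖ ≤ B * ‖deriv f x‖ := by
        rw [mul_comm]; exact d2.trans (by gcongr; exact ex _ (by rwa [norm_sub_rev]))
      have r1 := rpow_cmp (p := -s) (q := 2) az ax hB1 d2' d1' (by rwa [abs_neg])
      have r2 := rpow_cmp (p := b - 1) (q := 1) hρz hρx hL1 g4 g5 hb
      rw [Real.rpow_one] at r2
      have hgx : 0 ≤ g x := by simp only [hg]; positivity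
      have r3 : g z ≤ B ^ (2 : ℝ) * L * g x := by
        simp only [hg]
        calc ‖deriv f z‖ ^ (-s) * (1 - ‖z‖ ^ 2) ^ (b - 1)
            ≤ (B ^ (2 : ℝ) * ‖deriv f x‖ ^ (-s)) * (L * (1 - ‖x‖ ^ 2) ^ (b - 1)) :=
              mul_le_mul r1 r2 (by positivity) (by positivity)
          _ = _ := by ring
      rw [ha, div_le_div_iff₀ (by positivity) (by positivity)]
      have r4 : (1 - ‖x‖ ^ 2) ^ 2 ≤ (L * p) ^ 2 := by gcongr
      calc g z * (1 - ‖x‖ ^ 2) ^ 2 ≤ (B ^ (2 : ℝ) * L * g x) * (L * p) ^ 2 :=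
            mul_le_mul r3 r4 (by positivity) (by positivity)
        _ = _ := by ring
    have low2 : ENNReal.ofReal a * volume (ball c (e * p / L)) ≤ ∫⁻ x, F z x := by
      calc ENNReal.ofReal a * volume (ball c (e * p / L))
          = ∫⁻ _ in ball c (e * p / L), ENNReal.ofReal a := by rw [setLIntegral_const]
        _ ≤ ∫⁻ x in ball c (e * p / L), F z x := setLIntegral_mono' measurableSet_ball low
        _ ≤ ∫⁻ x, F z x := setLIntegral_le_lintegral _ _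
    refine le_trans (le_of_eq ?_) (mul_le_mul_right low2 _)
    rw [Complex.volume_ball, ← ENNReal.ofReal_pow (by positivity), ← ENNReal.ofReal_coe_nnreal,
      NNReal.coe_real_pi, ← ENNReal.ofReal_mul (by positivity),
      ← ENNReal.ofReal_mul (by positivity), ← ENNReal.ofReal_mul (by positivity)]
    congr 1
    rw [ha, hC1]
    have := Real.pi_pos
    field_simp
  have step2 : ∀ x, ∫⁻ z, F z x ≤
      ENNReal.ofReal (Real.pi * L ^ 4) * G.indicator (fun x => ENNReal.ofReal (g x)) x := by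
    intro x
    by_cases hx : x ∈ G
    · have hρx := rho_pos hx.1
      have e1 : (fun z => F z x) = (closedBall x (L ^ 2 * (1 - ‖x‖ ^ 2))).indicator
          fun _ => h x := by
        funext z
        by_cases hz : (z, x) ∈ N
        · have : z ∈ closedBall x (L ^ 2 * (1 - ‖x‖ ^ 2)) := by
            rw [mem_closedBall, dist_eq_norm, norm_sub_rev]; exact hz
          simp only [hF, indicator_of_mem hz, indicator_of_mem this]
        · have : z ∉ closedBall x (L ^ 2 * (1 - ‖x‖ ^ 2)) := by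
            rw [mem_closedBall, dist_eq_norm, norm_sub_rev]; exact hz
          simp only [hF, indicator_of_notMem hz, indicator_of_notMem this]
      have hgx : 0 ≤ g x := by simp only [hg]; positivity
      rw [e1, lintegral_indicator measurableSet_closedBall, setLIntegral_const,
        Complex.volume_closedBall, hh, indicator_of_mem hx, indicator_of_mem hx,
        ← ENNReal.ofReal_pow (by positivity), ← ENNReal.ofReal_coe_nnreal,
        NNReal.coe_real_pi, ← ENNReal.ofReal_mul (by positivity),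
        ← ENNReal.ofReal_mul (by positivity), ← ENNReal.ofReal_mul (by positivity)]
      apply le_of_eq
      congr 1
      field_simp
    · have e1 : (fun z => F z x) = fun _ => 0 := by
        funext z
        by_cases hz : (z, x) ∈ N
        · simp only [hF, indicator_of_mem hz, hh, indicator_of_notMem hx]
        · simp only [hF, indicator_of_notMem hz]
      rw [e1]; simp
  calc ∫⁻ z in ball (0 : ℂ) 1, ENNReal.ofReal (g z)
      ≤ ∫⁻ z in ball (0 : ℂ) 1, ENNReal.ofReal C1 * ∫⁻ x, F z x :=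
        setLIntegral_mono' measurableSet_ball step1
    _ ≤ ∫⁻ z, ENNReal.ofReal C1 * ∫⁻ x, F z x := setLIntegral_le_lintegral _ _
    _ = ENNReal.ofReal C1 * ∫⁻ z, ∫⁻ x, F z x :=
        lintegral_const_mul' _ _ ENNReal.ofReal_ne_top
    _ = ENNReal.ofReal C1 * ∫⁻ x, ∫⁻ z, F z x := by
        rw [lintegral_lintegral_swap hFm.aemeasurable]
    _ ≤ ENNReal.ofReal C1 * ∫⁻ x, ENNReal.ofReal (Real.pi * L ^ 4) *
          G.indicator (fun x => ENNReal.ofReal (g x)) x :=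
        mul_le_mul_right (lintegral_mono step2) _
    _ = _ := by
        rw [lintegral_const_mul' _ _ ENNReal.ofReal_ne_top, lintegral_indicator hGm,
          ENNReal.ofReal_mul hC10.le, mul_assoc]

end Crest.Agent.R131.Dens
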