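import Mathlib

set_option autoImplicit false
open MeasureTheory Metric Set

namespace Crest.Agent.R131.Fub

/-- Covering by comparable discs + Fubini. -/
theorem cover (D G : Set ℂ) (hD : MeasurableSet D) (hG : MeasurableSet G)
    (g : ℂ → ENNReal) (hg : Measurable g) (rho : ℂ → ℝ) (hr : Measurable rho)
    (hpos : ∀ x ∈ G, 0 < rho x) (A L d : ℝ) (hA : 0 ≤ A) (hL : 0 < L) (hd : 0 < d)
    (h : ∀ z ∈ D, ∃ (z1 : ℂ) (r : ℝ), d * rho z ≤ r ∧ 0 < rho z ∧
      ∀ x ∈ ball z1 r, x ∈ G ∧ g z ≤ ENNReal.ofReal A * g x ∧ dist x z ≤ L * rho x ∧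
        rho x ≤ L * rho z) :
    ∫⁻ z in D, g z ≤ ENNReal.ofReal (A * L ^ 4 / d ^ 2) * ∫⁻ x in G, g x := by
  set k : ℂ → ENNReal := fun x => ENNReal.ofReal (A * L ^ 2 / (d ^ 2 * Real.pi * rho x ^ 2)) * g x
    with hk
  have hkm : Measurable k := by
    apply Measurable.mul _ hg
    apply ENNReal.measurable_ofReal.comp
    exact measurable_const.div (measurable_const.mul (hr.pow_const 2))
  set S : Set (ℂ × ℂ) := {p | dist p.2 p.1 ≤ L * rho p.2} with hS
  have hSm : MeasurableSet S := by
    apply measurableSet_le
    · exact (continuous_snd.dist continuous_fst).measurable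
    · exact measurable_const.mul (hr.comp measurable_snd)
  set F : ℂ × ℂ → ENNReal := S.indicator (fun p => k p.2) with hF
  have hFm : Measurable F := (hkm.comp measurable_snd).indicator hSm
  have hpi := Real.pi_pos
  have h1 : ∀ z ∈ D, g z ≤ ∫⁻ x in G, F (z, x) := by
    intro z hz
    obtain ⟨z1, r, hdr, hz0, hb⟩ := h z hz
    have hr0 : 0 < r := lt_of_lt_of_le (mul_pos hd hz0) hdr
    have hsub : ball z1 r ⊆ G := fun x hx => (hb x hx).1
    have hc : ∀ x ∈ ball z1 r,
        ENNReal.ofReal (1 / (Real.pi * r ^ 2)) * g z ≤ F (z, x) := by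
      intro x hx
      obtain ⟨hxG, hgx, hdist, hrx⟩ := hb x hx
      have hx0 := hpos x hxG
      have hmem : (z, x) ∈ S := hdist
      rw [hF, indicator_of_mem hmem]
      simp only [hk]
      calc ENNReal.ofReal (1 / (Real.pi * r ^ 2)) * g z
          ≤ ENNReal.ofReal (1 / (Real.pi * r ^ 2)) * (ENNReal.ofReal A * g x) := by gcongr
        _ = ENNReal.ofReal (1 / (Real.pi * r ^ 2) * A) * g x := by
            rw [ENNReal.ofReal_mul (by positivity), mul_assoc]
        _ ≤ _ := by
            gcongr
            rw [one_div, inv_mul_eq_div, div_le_div_iff₀ (by positivity) (by positivity)]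
            have h2 : d * rho x ≤ L * r := by
              calc d * rho x ≤ d * (L * rho z) := by gcongr
                _ = L * (d * rho z) := by ring
                _ ≤ L * r := by gcongr
            have h3 : (d * rho x) ^ 2 ≤ (L * r) ^ 2 := by gcongr
            have h4 : A * Real.pi * (d * rho x) ^ 2 ≤ A * Real.pi * (L * r) ^ 2 := by gcongr
            nlinarith [h4]
    calc g z = ENNReal.ofReal (1 / (Real.pi * r ^ 2)) * g z * volume (ball z1 r) := by
          rw [Complex.volume_ball, mul_right_comm]
          have : ENNReal.ofReal (1 / (Real.pi * r ^ 2)) * (ENNReal.ofReal r ^ 2 * (NNReal.pi : ENNReal)) = 1 := by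
            rw [← ENNReal.ofReal_pow hr0.le, ← ENNReal.ofReal_coe_nnreal, NNReal.coe_real_pi,
              ← ENNReal.ofReal_mul (by positivity), ← ENNReal.ofReal_mul (by positivity)]
            rw [show 1 / (Real.pi * r ^ 2) * (r ^ 2 * Real.pi) = 1 by field_simp]
            simp
          rw [this, one_mul]
      _ = ∫⁻ _x in ball z1 r, ENNReal.ofReal (1 / (Real.pi * r ^ 2)) * g z := by
          rw [setLIntegral_const]
      _ ≤ ∫⁻ x in ball z1 r, F (z, x) := setLIntegral_mono' measurableSet_ball hc
      _ ≤ ∫⁻ x in G, F (z, x) := lintegral_mono_set hsub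
  calc ∫⁻ z in D, g z ≤ ∫⁻ z in D, ∫⁻ x in G, F (z, x) := setLIntegral_mono' hD h1
    _ ≤ ∫⁻ z, ∫⁻ x in G, F (z, x) := setLIntegral_le_lintegral _ _
    _ = ∫⁻ x in G, ∫⁻ z, F (z, x) := by
        apply lintegral_lintegral_swap
        exact hFm.aemeasurable
    _ ≤ ∫⁻ x in G, ENNReal.ofReal (A * L ^ 4 / d ^ 2) * g x := by
        apply setLIntegral_mono' hG
        intro x hx
        have hx0 := hpos x hx
        have : (fun z => F (z, x)) = (closedBall x (L * rho x)).indicator (fun _ => k x) := by
          funext z
          by_cases hz : z ∈ closedBall x (L * rho x)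
          · have hm : (z, x) ∈ S := by
              show dist x z ≤ L * rho x
              rw [dist_comm]; exact hz
            rw [hF, indicator_of_mem hm, indicator_of_mem hz]
          · have hm : (z, x) ∉ S := by
              intro hm; apply hz
              have : dist x z ≤ L * rho x := hm
              rw [mem_closedBall, dist_comm]; exact this
            rw [hF, indicator_of_notMem hm, indicator_of_notMem hz]
        rw [this, lintegral_indicator measurableSet_closedBall, setLIntegral_const,
          Complex.volume_closedBall]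
        simp only [hk]
        rw [mul_right_comm]
        apply le_of_eq
        congr 1
        rw [← ENNReal.ofReal_pow (by positivity), ← ENNReal.ofReal_coe_nnreal, NNReal.coe_real_pi,
          ← ENNReal.ofReal_mul (by positivity), ← ENNReal.ofReal_mul (by positivity)]
        congr 1
        field_simp
    _ = _ := by rw [lintegral_const_mul _ hg]

end Crest.Agent.R131.Fub
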