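import Mathlib

/-! Distortion along segments and a Lipschitz bound for the pre-Schwarzian. -/

set_option autoImplicit false
open Metric Set

namespace Crest.Agent.R131.Gron

theorem gron (K : ℝ) (f : ℂ → ℂ) (hf : DifferentiableOn ℂ f (ball 0 1))
    (hK : ∀ z ∈ ball (0 : ℂ) 1, (1 - ‖z‖ ^ 2) * ‖deriv (deriv f) z‖ ≤ K * ‖deriv f z‖)
    (hK0 : 0 ≤ K) (z x : ℂ) (m : ℝ) (hm : 0 < m) (hz : m ≤ 1 - ‖z‖ ^ 2) (hx : m ≤ 1 - ‖x‖ ^ 2) :
    ‖deriv f x‖ ≤ Real.exp (K * ‖x - z‖ / m) * ‖deriv f z‖ := by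
  have hd : DifferentiableOn ℂ (deriv f) (ball 0 1) := hf.deriv isOpen_ball
  have hseg : ∀ t ∈ Icc (0 : ℝ) 1, m ≤ 1 - ‖z + (t : ℂ) * (x - z)‖ ^ 2 := by
    intro t ht
    have h1 : z + (t : ℂ) * (x - z) = ((1 - t : ℝ) : ℂ) * z + (t : ℂ) * x := by push_cast; ring
    have h2 : ‖z + (t : ℂ) * (x - z)‖ ≤ (1 - t) * ‖z‖ + t * ‖x‖ := by
      rw [h1]
      refine (norm_add_le _ _).trans ?_
      rw [norm_mul, norm_mul, Complex.norm_real, Complex.norm_real, Real.norm_eq_abs,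
        Real.norm_eq_abs, abs_of_nonneg (by linarith [ht.2]), abs_of_nonneg ht.1]
    have h3 : ‖z + (t : ℂ) * (x - z)‖ ^ 2 ≤ ((1 - t) * ‖z‖ + t * ‖x‖) ^ 2 :=
      pow_le_pow_left₀ (norm_nonneg _) h2 2
    have h4 : ((1 - t) * ‖z‖ + t * ‖x‖) ^ 2 ≤ (1 - t) * ‖z‖ ^ 2 + t * ‖x‖ ^ 2 := by
      have : 0 ≤ t * (1 - t) * (‖z‖ - ‖x‖) ^ 2 :=
        mul_nonneg (mul_nonneg ht.1 (by linarith [ht.2])) (sq_nonneg _)
      nlinarith
    have h5 : (1 - t) * ‖z‖ ^ 2 ≤ (1 - t) * (1 - m) :=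
      mul_le_mul_of_nonneg_left (by linarith) (by linarith [ht.2])
    have h6 : t * ‖x‖ ^ 2 ≤ t * (1 - m) := mul_le_mul_of_nonneg_left (by linarith) ht.1
    nlinarith
  have hball : ∀ t ∈ Icc (0 : ℝ) 1, z + (t : ℂ) * (x - z) ∈ ball (0 : ℂ) 1 := by
    intro t ht
    have := hseg t ht
    rw [mem_ball_zero_iff]
    nlinarith [norm_nonneg (z + (t : ℂ) * (x - z))]
  have hder : ∀ t ∈ Icc (0 : ℝ) 1, HasDerivAt (fun t : ℝ => deriv f (z + (t : ℂ) * (x - z)))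
      (deriv (deriv f) (z + (t : ℂ) * (x - z)) * (x - z)) t := by
    intro t ht
    have h1 : HasDerivAt (deriv f) (deriv (deriv f) (z + (t : ℂ) * (x - z)))
        (z + (t : ℂ) * (x - z)) :=
      (hd.differentiableAt (isOpen_ball.mem_nhds (hball t ht))).hasDerivAt
    have h2 : HasDerivAt (fun w : ℂ => z + w * (x - z)) (x - z) (t : ℂ) := by
      simpa using ((hasDerivAt_id (t : ℂ)).mul_const (x - z)).const_add z
    exact (h1.comp (t : ℂ) h2).comp_ofReal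
  have key := norm_le_gronwallBound_of_norm_deriv_right_le (a := 0) (b := 1)
    (f := fun t : ℝ => deriv f (z + (t : ℂ) * (x - z)))
    (f' := fun t : ℝ => deriv (deriv f) (z + (t : ℂ) * (x - z)) * (x - z))
    (δ := ‖deriv f z‖) (K := K * ‖x - z‖ / m) (ε := 0)
    (fun t ht => (hder t ht).continuousAt.continuousWithinAt)
    (fun t ht => (hder t (Ico_subset_Icc_self ht)).hasDerivWithinAt)
    (by simp)
    (by
      intro t ht
      have ht' := Ico_subset_Icc_self ht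
      have h1 := hK _ (hball t ht')
      have h2 := hseg t ht'
      set w := z + (t : ℂ) * (x - z)
      have h3 : m * ‖deriv (deriv f) w‖ ≤ K * ‖deriv f w‖ :=
        le_trans (mul_le_mul_of_nonneg_right h2 (norm_nonneg _)) h1
      rw [norm_mul, add_zero, div_mul_eq_mul_div, le_div_iff₀ hm]
      nlinarith [norm_nonneg (x - z)])
    1 ⟨zero_le_one, le_rfl⟩
  rw [gronwallBound_ε0] at key
  simpa [mul_comm] using key

theorem lip (K th e : ℝ) (f : ℂ → ℂ) (hf : DifferentiableOn ℂ f (ball 0 1))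
    (hne : ∀ z ∈ ball (0 : ℂ) 1, deriv f z ≠ 0)
    (hK : ∀ z ∈ ball (0 : ℂ) 1, (1 - ‖z‖ ^ 2) * ‖deriv (deriv f) z‖ ≤ K * ‖deriv f z‖)
    (hK0 : 0 ≤ K) (he0 : 0 ≤ e) (he : e ≤ 1 / 8) (heK : 64 * K * e ≤ th)
    (m : ℂ) (hm1 : m ∈ ball (0 : ℂ) 1)
    (hm : (1 - ‖m‖ ^ 2) * ‖deriv (deriv f) m‖ ≤ th * ‖deriv f m‖) :
    ∀ x ∈ closedBall m (e * (1 - ‖m‖ ^ 2)),
      (1 - ‖x‖ ^ 2) * ‖deriv (deriv f) x‖ ≤ 15 / 8 * th * ‖deriv f x‖ := by
  intro x hx
  have hm2 : ‖m‖ < 1 := by simpa using hm1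
  have hm0 := norm_nonneg m
  set r := 1 - ‖m‖ ^ 2 with hr
  have hr0 : 0 < r := by nlinarith
  have hth : 0 ≤ th := le_trans (by positivity) heK
  have hd : DifferentiableOn ℂ (deriv f) (ball 0 1) := hf.deriv isOpen_ball
  have hdd : DifferentiableOn ℂ (deriv (deriv f)) (ball 0 1) := hd.deriv isOpen_ball
  have hlow : ∀ y ∈ ball m (r / 4), r / 4 ≤ 1 - ‖y‖ ^ 2 ∧ y ∈ ball (0 : ℂ) 1 := by
    intro y hy
    rw [mem_ball, dist_eq_norm] at hy
    have h1 : ‖y‖ ≤ ‖m‖ + ‖y - m‖ := by simpa using norm_add_le m (y - m)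
    have h2 : r / 4 ≤ 1 - ‖y‖ := by nlinarith
    have h3 : ‖y‖ < 1 := by linarith
    refine ⟨by nlinarith [norm_nonneg y], by simpa using h3⟩
  set φ : ℂ → ℂ := fun y => deriv (deriv f) y / deriv f y with hφ
  have hsub : ball m (r / 4) ⊆ ball (0 : ℂ) 1 := fun y hy => (hlow y hy).2
  have hφd : DifferentiableOn ℂ φ (ball m (r / 4)) :=
    (hdd.mono hsub).div (hd.mono hsub) (fun y hy => hne y (hsub hy))
  have hφb : ∀ y ∈ ball m (r / 4), ‖φ y‖ ≤ 4 * K / r := by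
    intro y hy
    obtain ⟨h1, h2⟩ := hlow y hy
    have h3 := hK y h2
    have h4 : 0 < ‖deriv f y‖ := norm_pos_iff.2 (hne y h2)
    rw [hφ]
    simp only [norm_div]
    rw [div_le_div_iff₀ h4 hr0]
    nlinarith [norm_nonneg (deriv (deriv f) y)]
  have hmm : m ∈ ball m (r / 4) := mem_ball_self (by positivity)
  have hmaps : MapsTo φ (ball m (r / 4)) (closedBall (φ m) (8 * K / r)) := by
    intro y hy
    rw [mem_closedBall, dist_eq_norm]
    have := norm_sub_le (φ y) (φ m)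
    have h1 := hφb y hy
    have h2 := hφb m hmm
    have h3 : 8 * K / r = 4 * K / r + 4 * K / r := by ring
    linarith
  rw [mem_closedBall] at hx
  have hxb : x ∈ ball m (r / 4) := by
    rw [mem_ball]; nlinarith
  have h1 := Complex.dist_le_div_mul_dist_of_mapsTo_ball hφd hmaps hxb
  have h2 : dist (φ x) (φ m) ≤ 32 * K * e / r := by
    refine h1.trans ?_
    calc 8 * K / r / (r / 4) * dist x m ≤ 8 * K / r / (r / 4) * (e * r) :=
          mul_le_mul_of_nonneg_left hx (by positivity)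
      _ = 32 * K * e / r := by field_simp; ring
  have hm3 : 0 < ‖deriv f m‖ := norm_pos_iff.2 (hne m hm1)
  have h3 : ‖φ m‖ ≤ th / r := by
    rw [hφ]
    simp only [norm_div]
    rw [div_le_div_iff₀ hm3 hr0]
    nlinarith
  have h4 : ‖φ x‖ ≤ 3 / 2 * th / r := by
    have h5 : ‖φ x‖ ≤ ‖φ m‖ + dist (φ x) (φ m) := by
      rw [dist_eq_norm]; simpa using norm_add_le (φ m) (φ x - φ m)
    have h6 : 32 * K * e / r ≤ (th / 2) / r := by gcongr; linarith
    have h7 : 3 / 2 * th / r = th / r + (th / 2) / r := by ring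
    linarith
  have hx1 := hsub hxb
  have hx3 : 0 < ‖deriv f x‖ := norm_pos_iff.2 (hne x hx1)
  have h5 : 1 - ‖x‖ ^ 2 ≤ 5 / 4 * r := by
    have h6 : ‖m‖ ≤ ‖x‖ + dist x m := by
      rw [dist_comm, dist_eq_norm]; simpa using norm_add_le x (m - x)
    have h7 : ‖x‖ < 1 := by simpa using hx1
    have h8 : dist x m ≤ r / 8 := by nlinarith
    nlinarith [norm_nonneg x, dist_nonneg (x := x) (y := m)]
  rw [hφ] at h4
  simp only [norm_div] at h4
  rw [div_le_div_iff₀ hx3 hr0] at h4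
  calc (1 - ‖x‖ ^ 2) * ‖deriv (deriv f) x‖ ≤ 5 / 4 * r * ‖deriv (deriv f) x‖ :=
        mul_le_mul_of_nonneg_right h5 (norm_nonneg _)
    _ ≤ 15 / 8 * th * ‖deriv f x‖ := by nlinarith

end Crest.Agent.R131.Gron
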