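import Mathlib

set_option autoImplicit false
open Metric Set

namespace Crest.Agent.R131.MaxMod

theorem one_sub_ne (z x : ℂ) (hz : ‖z‖ < 1) (hx : ‖x‖ ≤ 1) : 1 - (starRingEnd ℂ) z * x ≠ 0 := by
  intro h
  have h1 : (starRingEnd ℂ) z * x = 1 := by linear_combination -h
  have h2 : ‖(starRingEnd ℂ) z * x‖ = 1 := by rw [h1]; simp
  rw [norm_mul, Complex.norm_conj] at h2
  nlinarith [norm_nonneg z, norm_nonneg x]

/-- `|1 - conj z x|^2 = |z - x|^2 + (1-|z|^2)(1-|x|^2)`. -/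
theorem normsq_id (z x : ℂ) :
    ‖1 - (starRingEnd ℂ) z * x‖ ^ 2 = ‖z - x‖ ^ 2 + (1 - ‖z‖ ^ 2) * (1 - ‖x‖ ^ 2) := by
  simp only [Complex.sq_norm, Complex.normSq_apply, Complex.sub_re, Complex.sub_im, Complex.mul_re,
    Complex.mul_im, Complex.one_re, Complex.one_im, Complex.conj_re, Complex.conj_im]
  ring

/-- Every point has a hyperbolically close point where the pre-Schwarzian is small. -/
theorem exists_small (K th eta : ℝ) (hK : 0 < K) (hth : 0 < th) (heta : 0 < eta) (heta1 : eta < 1)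
    (hek : eta * K < th) (f : ℂ → ℂ) (hf : DifferentiableOn ℂ f (ball 0 1))
    (hne : ∀ z ∈ ball (0 : ℂ) 1, deriv f z ≠ 0)
    (hb : ∀ z ∈ ball (0 : ℂ) 1, (1 - ‖z‖ ^ 2) * ‖deriv (deriv f) z‖ ≤ K * ‖deriv f z‖)
    (z : ℂ) (hz : z ∈ ball (0 : ℂ) 1) :
    ∃ z' ∈ ball (0 : ℂ) 1, (1 - ‖z'‖ ^ 2) * ‖deriv (deriv f) z'‖ < th * ‖deriv f z'‖ ∧
      eta * ‖1 - (starRingEnd ℂ) z * z'‖ ^ 2 ≤ (1 - ‖z‖ ^ 2) * (1 - ‖z'‖ ^ 2) := by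
  by_contra hcon
  push Not at hcon
  have hz1 : ‖z‖ < 1 := by simpa using hz
  have hrz : 0 < 1 - ‖z‖ ^ 2 := by nlinarith [norm_nonneg z]
  have hf1 : DifferentiableOn ℂ (deriv f) (ball 0 1) := hf.deriv isOpen_ball
  have hf2 : DifferentiableOn ℂ (deriv (deriv f)) (ball 0 1) := hf1.deriv isOpen_ball
  set U : Set ℂ := {x | x ∈ ball (0 : ℂ) 1 ∧
    eta * ‖1 - (starRingEnd ℂ) z * x‖ ^ 2 < (1 - ‖z‖ ^ 2) * (1 - ‖x‖ ^ 2)} with hU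
  have hc1 : Continuous fun x : ℂ => eta * ‖1 - (starRingEnd ℂ) z * x‖ ^ 2 := by fun_prop
  have hc2 : Continuous fun x : ℂ => (1 - ‖z‖ ^ 2) * (1 - ‖x‖ ^ 2) := by fun_prop
  have hUo : IsOpen U := isOpen_ball.inter (isOpen_lt hc1 hc2)
  have hUb : Bornology.IsBounded U := isBounded_ball.subset fun x hx => hx.1
  have hcl : ∀ x ∈ closure U, x ∈ ball (0 : ℂ) 1 ∧
      eta * ‖1 - (starRingEnd ℂ) z * x‖ ^ 2 ≤ (1 - ‖z‖ ^ 2) * (1 - ‖x‖ ^ 2) := by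
    intro x hx
    have hclosed : IsClosed {x : ℂ | x ∈ closedBall (0 : ℂ) 1 ∧
        eta * ‖1 - (starRingEnd ℂ) z * x‖ ^ 2 ≤ (1 - ‖z‖ ^ 2) * (1 - ‖x‖ ^ 2)} :=
      isClosed_closedBall.inter (isClosed_le hc1 hc2)
    have hx' := closure_minimal (fun y (hy : y ∈ U) =>
      (⟨ball_subset_closedBall hy.1, hy.2.le⟩ : y ∈ {x : ℂ | x ∈ closedBall (0 : ℂ) 1 ∧
        eta * ‖1 - (starRingEnd ℂ) z * x‖ ^ 2 ≤ (1 - ‖z‖ ^ 2) * (1 - ‖x‖ ^ 2)})) hclosed hx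
    obtain ⟨hx1, hx2⟩ := hx'
    have hx1' : ‖x‖ ≤ 1 := by simpa using hx1
    have hn := norm_pos_iff.mpr (one_sub_ne z x hz1 hx1')
    have hpos : 0 < (1 - ‖z‖ ^ 2) * (1 - ‖x‖ ^ 2) := lt_of_lt_of_le (by positivity) hx2
    have hpos2 : 0 < 1 - ‖x‖ ^ 2 := (pos_iff_pos_of_mul_pos hpos).mp hrz
    refine ⟨?_, hx2⟩
    rw [mem_ball_zero_iff]
    nlinarith [norm_nonneg x]
  have hbig : ∀ x ∈ closure U, th * ‖deriv f x‖ ≤ (1 - ‖x‖ ^ 2) * ‖deriv (deriv f) x‖ := by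
    intro x hx
    by_contra hlt
    push Not at hlt
    exact absurd (hcon x (hcl x hx).1 hlt) (not_lt.mpr (hcl x hx).2)
  have hne2 : ∀ x ∈ closure U, deriv (deriv f) x ≠ 0 := by
    intro x hx h0
    have h1 := hbig x hx
    rw [h0, norm_zero, mul_zero] at h1
    have := norm_pos_iff.mpr (hne x (hcl x hx).1)
    have : 0 < th * ‖deriv f x‖ := by positivity
    linarith
  set g : ℂ → ℂ := fun x => deriv f x / ((1 - (starRingEnd ℂ) z * x) ^ 2 * deriv (deriv f) x)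
    with hg
  have hgd : DifferentiableOn ℂ g (closure U) := by
    intro x hx
    have hxb := (hcl x hx).1
    have hx1 : ‖x‖ ≤ 1 := (mem_ball_zero_iff.mp hxb).le
    have a1 : DifferentiableAt ℂ (deriv f) x := hf1.differentiableAt (isOpen_ball.mem_nhds hxb)
    have a2 : DifferentiableAt ℂ (deriv (deriv f)) x :=
      hf2.differentiableAt (isOpen_ball.mem_nhds hxb)
    have a3 : DifferentiableAt ℂ (fun x : ℂ => (1 - (starRingEnd ℂ) z * x) ^ 2) x := by fun_prop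
    exact (a1.div (a3.mul a2)
      (mul_ne_zero (pow_ne_zero 2 (one_sub_ne z x hz1 hx1)) (hne2 x hx))).differentiableWithinAt
  have hzU : z ∈ U := by
    refine ⟨hz, ?_⟩
    rw [normsq_id, sub_self, norm_zero]
    nlinarith [mul_pos hrz hrz]
  have hfr : ∀ x ∈ frontier U, ‖g x‖ ≤ eta / (th * (1 - ‖z‖ ^ 2)) := by
    intro x hx
    have hxc : x ∈ closure U := frontier_subset_closure hx
    have hxn : x ∉ U := by
      rw [hUo.frontier_eq] at hx; exact hx.2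
    have hxb := (hcl x hxc).1
    have hx1 : ‖x‖ ≤ 1 := (mem_ball_zero_iff.mp hxb).le
    have hge : (1 - ‖z‖ ^ 2) * (1 - ‖x‖ ^ 2) ≤ eta * ‖1 - (starRingEnd ℂ) z * x‖ ^ 2 := by
      by_contra hlt
      push Not at hlt
      exact hxn ⟨hxb, hlt⟩
    have hn := norm_pos_iff.mpr (one_sub_ne z x hz1 hx1)
    have hn2 := norm_pos_iff.mpr (hne2 x hxc)
    rw [hg]
    simp only [norm_div, norm_mul, norm_pow]
    rw [div_le_div_iff₀ (by positivity) (by positivity)]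
    have h1 := hbig x hxc
    calc ‖deriv f x‖ * (th * (1 - ‖z‖ ^ 2)) = (th * ‖deriv f x‖) * (1 - ‖z‖ ^ 2) := by ring
      _ ≤ ((1 - ‖x‖ ^ 2) * ‖deriv (deriv f) x‖) * (1 - ‖z‖ ^ 2) := by gcongr
      _ = ((1 - ‖z‖ ^ 2) * (1 - ‖x‖ ^ 2)) * ‖deriv (deriv f) x‖ := by ring
      _ ≤ (eta * ‖1 - (starRingEnd ℂ) z * x‖ ^ 2) * ‖deriv (deriv f) x‖ := by gcongr
      _ = _ := by ring
  have hmax := Complex.norm_le_of_forall_mem_frontier_norm_le hUb hgd.diffContOnCl hfr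
    (subset_closure hzU)
  have hn2 := norm_pos_iff.mpr (hne2 z (subset_closure hzU))
  have hn1 := norm_pos_iff.mpr (hne z hz)
  have hzz : ‖1 - (starRingEnd ℂ) z * z‖ ^ 2 = (1 - ‖z‖ ^ 2) ^ 2 := by
    rw [normsq_id, sub_self, norm_zero]; ring
  rw [hg] at hmax
  simp only [norm_div, norm_mul, norm_pow] at hmax
  rw [hzz, div_le_div_iff₀ (by positivity) (by positivity)] at hmax
  have h2 := hb z hz
  have h3 : eta * ((1 - ‖z‖ ^ 2) ^ 2 * ‖deriv (deriv f) z‖) ≤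
      eta * K * ‖deriv f z‖ * (1 - ‖z‖ ^ 2) := by
    calc eta * ((1 - ‖z‖ ^ 2) ^ 2 * ‖deriv (deriv f) z‖)
        = eta * (1 - ‖z‖ ^ 2) * ((1 - ‖z‖ ^ 2) * ‖deriv (deriv f) z‖) := by ring
      _ ≤ eta * (1 - ‖z‖ ^ 2) * (K * ‖deriv f z‖) := by gcongr
      _ = _ := by ring
  have h4 : eta * K * ‖deriv f z‖ * (1 - ‖z‖ ^ 2) < th * ‖deriv f z‖ * (1 - ‖z‖ ^ 2) := by gcongr
  nlinarith

/-- Consequences of hyperbolic closeness. -/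
theorem close_bounds (eta : ℝ) (heta : 0 < eta) (z z' : ℂ) (hz : ‖z‖ < 1) (hz' : ‖z'‖ < 1)
    (h : eta * ‖1 - (starRingEnd ℂ) z * z'‖ ^ 2 ≤ (1 - ‖z‖ ^ 2) * (1 - ‖z'‖ ^ 2)) :
    eta / 4 * (1 - ‖z‖ ^ 2) ≤ 1 - ‖z'‖ ^ 2 ∧ eta / 4 * (1 - ‖z'‖ ^ 2) ≤ 1 - ‖z‖ ^ 2 ∧
      eta * ‖z - z'‖ ≤ 2 * (1 - ‖z‖ ^ 2) ∧ eta * ‖z - z'‖ ≤ 2 * (1 - ‖z'‖ ^ 2) := by
  have hr : 0 < 1 - ‖z‖ ^ 2 := by nlinarith [norm_nonneg z]
  have hr' : 0 < 1 - ‖z'‖ ^ 2 := by nlinarith [norm_nonneg z']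
  have hlow : 1 - ‖z‖ * ‖z'‖ ≤ ‖1 - (starRingEnd ℂ) z * z'‖ := by
    have := norm_sub_norm_le (1 : ℂ) ((starRingEnd ℂ) z * z')
    rwa [norm_one, norm_mul, Complex.norm_conj] at this
  have n0 := norm_nonneg z
  have n1 := norm_nonneg z'
  have a1 : (1 - ‖z‖ ^ 2) / 2 ≤ ‖1 - (starRingEnd ℂ) z * z'‖ := by nlinarith
  have a2 : (1 - ‖z'‖ ^ 2) / 2 ≤ ‖1 - (starRingEnd ℂ) z * z'‖ := by nlinarith
  have b1 : ((1 - ‖z‖ ^ 2) / 2) ^ 2 ≤ ‖1 - (starRingEnd ℂ) z * z'‖ ^ 2 := by gcongr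
  have b2 : ((1 - ‖z'‖ ^ 2) / 2) ^ 2 ≤ ‖1 - (starRingEnd ℂ) z * z'‖ ^ 2 := by gcongr
  have c1 : eta / 4 * (1 - ‖z‖ ^ 2) ≤ 1 - ‖z'‖ ^ 2 := by
    have : eta * ((1 - ‖z‖ ^ 2) / 2) ^ 2 ≤ (1 - ‖z‖ ^ 2) * (1 - ‖z'‖ ^ 2) :=
      le_trans (by gcongr) h
    have h2 : (1 - ‖z‖ ^ 2) * (eta / 4 * (1 - ‖z‖ ^ 2)) ≤ (1 - ‖z‖ ^ 2) * (1 - ‖z'‖ ^ 2) := by
      nlinarith
    exact le_of_mul_le_mul_left h2 hr
  have c2 : eta / 4 * (1 - ‖z'‖ ^ 2) ≤ 1 - ‖z‖ ^ 2 := by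
    have : eta * ((1 - ‖z'‖ ^ 2) / 2) ^ 2 ≤ (1 - ‖z‖ ^ 2) * (1 - ‖z'‖ ^ 2) :=
      le_trans (by gcongr) h
    have h2 : (1 - ‖z'‖ ^ 2) * (eta / 4 * (1 - ‖z'‖ ^ 2)) ≤ (1 - ‖z'‖ ^ 2) * (1 - ‖z‖ ^ 2) := by
      nlinarith
    exact le_of_mul_le_mul_left h2 hr'
  have d0 : eta * ‖z - z'‖ ^ 2 ≤ (1 - ‖z‖ ^ 2) * (1 - ‖z'‖ ^ 2) := by
    rw [normsq_id] at h
    nlinarith [mul_pos heta (mul_pos hr hr')]
  refine ⟨c1, c2, ?_, ?_⟩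
  · refine (pow_le_pow_iff_left₀ (by positivity) (by positivity) two_ne_zero).mp ?_
    have : eta * (eta * ‖z - z'‖ ^ 2) ≤ eta * ((1 - ‖z‖ ^ 2) * (1 - ‖z'‖ ^ 2)) := by gcongr
    nlinarith [mul_le_mul_of_nonneg_left c2 hr.le]
  · refine (pow_le_pow_iff_left₀ (by positivity) (by positivity) two_ne_zero).mp ?_
    have : eta * (eta * ‖z - z'‖ ^ 2) ≤ eta * ((1 - ‖z‖ ^ 2) * (1 - ‖z'‖ ^ 2)) := by gcongr
    nlinarith [mul_le_mul_of_nonneg_left c1 hr'.le]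

end Crest.Agent.R131.MaxMod
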