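import Crest.Agent.R131.Defs
import Crest.Agent.R131.Fub
import Crest.Agent.R131.MaxMod
import Crest.Agent.R131.Gron

set_option autoImplicit false
open Set Metric MeasureTheory

namespace Crest.Agent.R131

theorem dens65_near (z' x : ℂ) (hz' : ‖z'‖ < 1) (hx : ‖x - z'‖ ≤ 1 / 8 * (1 - ‖z'‖ ^ 2)) :
    ‖x‖ < 1 ∧ 3 / 4 * (1 - ‖z'‖ ^ 2) ≤ 1 - ‖x‖ ^ 2 ∧ 1 - ‖x‖ ^ 2 ≤ 5 / 4 * (1 - ‖z'‖ ^ 2) := by
  have h1 : ‖x‖ ≤ ‖z'‖ + ‖x - z'‖ := by
    have := norm_add_le z' (x - z'); rwa [add_sub_cancel] at this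
  have h2 : ‖z'‖ ≤ ‖x‖ + ‖x - z'‖ := by
    have := norm_sub_le x (x - z'); rwa [sub_sub_cancel] at this
  have n0 := norm_nonneg z'
  have n1 := norm_nonneg x
  have hx1 : ‖x‖ < 1 := by nlinarith
  refine ⟨hx1, ?_, ?_⟩
  · rcases le_total ‖x‖ ‖z'‖ with h | h
    · nlinarith
    · have : (‖x‖ - ‖z'‖) * (‖x‖ + ‖z'‖) ≤ (1 / 8 * (1 - ‖z'‖ ^ 2)) * 2 := by
        apply mul_le_mul <;> nlinarith
      nlinarith
  · rcases le_total ‖x‖ ‖z'‖ with h | h
    · have : (‖z'‖ - ‖x‖) * (‖x‖ + ‖z'‖) ≤ (1 / 8 * (1 - ‖z'‖ ^ 2)) * 2 := by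
        apply mul_le_mul <;> nlinarith
      nlinarith
    · nlinarith

theorem dens65 : Dens := by
  intro K th hK hth
  set eta : ℝ := min (1 / 2) (th / (4 * K)) with heta
  set e : ℝ := min (1 / 8) (th / (128 * K)) with he
  have heta0 : 0 < eta := lt_min (by norm_num) (by positivity)
  have heta1 : eta ≤ 1 / 2 := min_le_left _ _
  have hetaK : eta * K < th / 2 := by
    have : eta * K ≤ th / (4 * K) * K := by gcongr; exact min_le_right _ _
    rw [show th / (4 * K) * K = th / 4 by field_simp] at this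
    linarith
  have he0 : 0 < e := lt_min (by norm_num) (by positivity)
  have he1 : e ≤ 1 / 8 := min_le_left _ _
  have heK : 64 * K * e ≤ th / 2 := by
    have : 64 * K * e ≤ 64 * K * (th / (128 * K)) := by gcongr; exact min_le_right _ _
    rw [show 64 * K * (th / (128 * K)) = th / 2 by field_simp; ring] at this
    exact this
  set L : ℝ := 8 / eta with hL
  have hL0 : 0 < L := by positivity
  have hLe : L * eta = 8 := by rw [hL]; field_simp
  have hL1 : 16 ≤ L := by nlinarith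
  set A : ℝ := Real.exp (K * L ^ 2) * L with hA
  have hA0 : 0 < A := by positivity
  refine ⟨A * L ^ 4 / (e * eta / 4) ^ 2, by positivity, ?_⟩
  intro R f b hR hf hne hb hb0 hb1
  have hsub : ball (0 : ℂ) 1 ⊆ ball 0 R := ball_subset_ball hR.le
  have hf1 : DifferentiableOn ℂ f (ball 0 1) := hf.mono hsub
  have hne1 : ∀ z ∈ ball (0 : ℂ) 1, deriv f z ≠ 0 := fun z hz => hne z (hsub hz)
  have hm1 : Measurable (deriv f) := measurable_deriv f
  have hm2 : Measurable (deriv (deriv f)) := measurable_deriv _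
  have hrho : Measurable fun z : ℂ => 1 - ‖z‖ ^ 2 := by fun_prop
  apply Fub.cover (ball 0 1) _ measurableSet_ball _ _ _ (fun z => 1 - ‖z‖ ^ 2) hrho _ A L
    (e * eta / 4) hA0.le hL0 (by positivity)
  · intro z hz
    have hz1 : ‖z‖ < 1 := mem_ball_zero_iff.mp hz
    have hrz : 0 < 1 - ‖z‖ ^ 2 := by nlinarith [norm_nonneg z]
    obtain ⟨z', hz', hsm, hcl⟩ := MaxMod.exists_small K (th / 2) eta hK (by positivity) heta0
      (by linarith) hetaK f hf1 hne1 hb z hz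
    have hz1' : ‖z'‖ < 1 := mem_ball_zero_iff.mp hz'
    have hrz' : 0 < 1 - ‖z'‖ ^ 2 := by nlinarith [norm_nonneg z']
    obtain ⟨c1, c2, c3, c4⟩ := MaxMod.close_bounds eta heta0 z z' hz1 hz1' hcl
    refine ⟨z', e * (1 - ‖z'‖ ^ 2), ?_, hrz, ?_⟩
    · calc e * eta / 4 * (1 - ‖z‖ ^ 2) = e * (eta / 4 * (1 - ‖z‖ ^ 2)) := by ring
        _ ≤ _ := by gcongr
    intro x hx
    have hxd : ‖x - z'‖ ≤ 1 / 8 * (1 - ‖z'‖ ^ 2) := by
      have : ‖x - z'‖ < e * (1 - ‖z'‖ ^ 2) := by simpa [dist_eq_norm] using hx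
      exact this.le.trans (by gcongr)
    obtain ⟨hx1, n1, n2⟩ := dens65_near z' x hz1' hxd
    have hxb : x ∈ ball (0 : ℂ) 1 := mem_ball_zero_iff.mpr hx1
    have hrx : 0 < 1 - ‖x‖ ^ 2 := by nlinarith [norm_nonneg x]
    have hfx := norm_pos_iff.mpr (hne1 x hxb)
    have hfz := norm_pos_iff.mpr (hne1 z hz)
    have hlip := Gron.lip K (th / 2) e f hf1 hne1 hb hK.le he0.le he1 heK z' hz' hsm.le x
      (ball_subset_closedBall hx)
    have hdist : ‖x - z‖ ≤ L * (1 - ‖x‖ ^ 2) := by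
      have t1 : ‖x - z‖ ≤ ‖x - z'‖ + ‖z - z'‖ := by
        have := norm_sub_le (x - z') (z - z')
        rwa [sub_sub_sub_cancel_right] at this
      have t2 : ‖z - z'‖ ≤ L / 4 * (1 - ‖z'‖ ^ 2) := by
        have : L * (eta * ‖z - z'‖) ≤ L * (2 * (1 - ‖z'‖ ^ 2)) := by gcongr
        rw [← mul_assoc, hLe] at this
        linarith
      have t3 : L * (3 / 4 * (1 - ‖z'‖ ^ 2)) ≤ L * (1 - ‖x‖ ^ 2) := by gcongr
      have t4 : 16 * (1 - ‖z'‖ ^ 2) ≤ L * (1 - ‖z'‖ ^ 2) := by gcongr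
      linarith
    have hcomp : 1 - ‖x‖ ^ 2 ≤ L * (1 - ‖z‖ ^ 2) := by
      have : L * (eta / 4 * (1 - ‖z'‖ ^ 2)) ≤ L * (1 - ‖z‖ ^ 2) := by gcongr
      rw [show L * (eta / 4 * (1 - ‖z'‖ ^ 2)) = L * eta / 4 * (1 - ‖z'‖ ^ 2) by ring, hLe] at this
      linarith
    refine ⟨⟨hxb, ?_⟩, ?_, by rw [dist_eq_norm]; exact hdist, hcomp⟩
    · have : 0 < th * ‖deriv f x‖ := by positivity
      linarith
    · rw [← ENNReal.ofReal_mul hA0.le]
      apply ENNReal.ofReal_le_ofReal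
      have hm0 : 0 < (1 - ‖x‖ ^ 2) / L := by positivity
      have hmz : (1 - ‖x‖ ^ 2) / L ≤ 1 - ‖z‖ ^ 2 := by
        rw [div_le_iff₀ hL0]; linarith
      have hmx : (1 - ‖x‖ ^ 2) / L ≤ 1 - ‖x‖ ^ 2 := div_le_self hrx.le (by linarith)
      have hg := Gron.gron K f hf1 hb hK.le z x _ hm0 hmz hmx
      have hexp : Real.exp (K * ‖x - z‖ / ((1 - ‖x‖ ^ 2) / L)) ≤ Real.exp (K * L ^ 2) := by
        apply Real.exp_le_exp.mpr
        rw [div_le_iff₀ hm0]
        calc K * ‖x - z‖ ≤ K * (L * (1 - ‖x‖ ^ 2)) := by gcongr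
          _ = _ := by field_simp
      have g1 : ‖deriv f z‖ ^ (-(1 : ℝ)) ≤ Real.exp (K * L ^ 2) * ‖deriv f x‖ ^ (-(1 : ℝ)) := by
        rw [Real.rpow_neg_one, Real.rpow_neg_one, ← div_eq_mul_inv, inv_eq_one_div,
          div_le_div_iff₀ hfz hfx, one_mul]
        exact hg.trans (by gcongr)
      have g2 : (1 - ‖z‖ ^ 2) ^ (b - 1) ≤ L * (1 - ‖x‖ ^ 2) ^ (b - 1) := by
        calc (1 - ‖z‖ ^ 2) ^ (b - 1) ≤ ((1 - ‖x‖ ^ 2) / L) ^ (b - 1) :=
              Real.rpow_le_rpow_of_nonpos hm0 hmz (by linarith)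
          _ = L ^ (1 - b) * (1 - ‖x‖ ^ 2) ^ (b - 1) := by
              rw [Real.div_rpow hrx.le hL0.le, show (1 - b) = -(b - 1) by ring,
                Real.rpow_neg hL0.le]
              ring
          _ ≤ L * (1 - ‖x‖ ^ 2) ^ (b - 1) := by
              gcongr
              calc L ^ (1 - b) ≤ L ^ (1 : ℝ) :=
                    Real.rpow_le_rpow_of_exponent_le (by linarith) (by linarith)
                _ = L := Real.rpow_one L
      calc ‖deriv f z‖ ^ (-(1 : ℝ)) * (1 - ‖z‖ ^ 2) ^ (b - 1)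
          ≤ (Real.exp (K * L ^ 2) * ‖deriv f x‖ ^ (-(1 : ℝ))) * (L * (1 - ‖x‖ ^ 2) ^ (b - 1)) := by
            gcongr
        _ = _ := by rw [hA]; ring
  · exact measurableSet_ball.inter (measurableSet_lt (hrho.mul hm2.norm) (hm1.norm.const_mul th))
  · exact ENNReal.measurable_ofReal.comp ((hm1.norm.pow_const _).mul (hrho.pow_const _))
  · intro x hx
    have hx1 : ‖x‖ < 1 := mem_ball_zero_iff.mp hx.1
    nlinarith [norm_nonneg x]

end Crest.Agent.R131
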