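import Crest.Agent.R131.Defs
import Crest.Agent.R131.Dens

/-! Row 131: the block `Dens`. -/

open Set Metric

namespace Crest.Agent.R131.Dens87

theorem dens : Crest.Agent.R131.Dens := by
  intro K th hK hth
  obtain ⟨C, hC, H⟩ := Crest.Agent.R131.Dens.dens hK hth
  refine ⟨C, hC, fun R f b hR hf h1 hb hb0 hb1 => ?_⟩
  have hsub : ball (0 : ℂ) 1 ⊆ ball 0 R := ball_subset_ball hR.le
  exact H 1 b (by norm_num) (abs_le.2 ⟨by linarith, by linarith⟩) f (hf.mono hsub)
    (fun z hz => h1 z (hsub hz)) hb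

end Crest.Agent.R131.Dens87
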