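import Crest.Agent.R131.Defs
import Crest.Agent.R131.MaxMod
import Crest.Agent.R131.Fub
import Crest.Agent.R131.Gron

set_option autoImplicit false
open MeasureTheory Metric Set

namespace Crest.Agent.R131

theorem h94_near (e : ℝ) (he0 : 0 ≤ e) (he : e ≤ 1 / 8) (p x : ℂ) (hp : ‖p‖ < 1)
    (hx : dist x p ≤ e * (1 - ‖p‖ ^ 2)) :
    ‖x‖ < 1 ∧ 3 / 4 * (1 - ‖p‖ ^ 2) ≤ 1 - ‖x‖ ^ 2 ∧ 1 - ‖x‖ ^ 2 ≤ 5 / 4 * (1 - ‖p‖ ^ 2) := by
  have hp0 := norm_nonneg p
  have hx0 := norm_nonneg x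
  have hd0 : 0 ≤ dist x p := dist_nonneg
  have hr : 0 < 1 - ‖p‖ ^ 2 := by nlinarith
  have h1 : ‖x‖ ≤ ‖p‖ + dist x p := by
    rw [dist_eq_norm]; simpa using norm_add_le p (x - p)
  have h2 : ‖p‖ ≤ ‖x‖ + dist x p := by
    rw [dist_comm, dist_eq_norm]; simpa using norm_add_le x (p - x)
  have h3 : dist x p ≤ (1 - ‖p‖ ^ 2) / 8 := by nlinarith
  have h4 : ‖x‖ < 1 := by nlinarith
  refine ⟨h4, by nlinarith, by nlinarith⟩

theorem dens94 : Dens := by
  intro K th hK hth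
  set eta : ℝ := min (1 / 2) (th / (4 * K)) with heta
  have heta0 : 0 < eta := lt_min (by norm_num) (by positivity)
  have heta1 : eta ≤ 1 / 2 := min_le_left _ _
  have heta2 : eta * K < th / 2 := by
    have : eta ≤ th / (4 * K) := min_le_right _ _
    rw [le_div_iff₀ (by positivity)] at this
    nlinarith
  set e : ℝ := min (1 / 8) (th / (128 * K)) with he
  have he0 : 0 < e := lt_min (by norm_num) (by positivity)
  have he1 : e ≤ 1 / 8 := min_le_left _ _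
  have he2 : 64 * K * e ≤ th / 2 := by
    have : e ≤ th / (128 * K) := min_le_right _ _
    rw [le_div_iff₀ (by positivity)] at this
    nlinarith
  set L : ℝ := 5 / eta with hL
  have hL0 : 0 < L := by positivity
  have hL1 : 1 ≤ L := by rw [hL, le_div_iff₀ heta0]; linarith
  set A : ℝ := Real.exp (K * (12 / eta ^ 2)) * L with hA
  have hA0 : 0 < A := by positivity
  refine ⟨A * L ^ 4 / (e * (eta / 4)) ^ 2, by positivity, ?_⟩
  intro R f b hR hfR hneR hb hb0 hb1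
  have hsub : ball (0 : ℂ) 1 ⊆ ball 0 R := ball_subset_ball hR.le
  have hf : DifferentiableOn ℂ f (ball 0 1) := hfR.mono hsub
  have hne : ∀ z ∈ ball (0 : ℂ) 1, deriv f z ≠ 0 := fun z hz => hneR z (hsub hz)
  have hm1 : Measurable (deriv f) := measurable_deriv f
  have hm2 : Measurable (deriv (deriv f)) := measurable_deriv _
  refine Fub.cover _ _ measurableSet_ball ?_ _ ?_ (fun x => 1 - ‖x‖ ^ 2) (by fun_prop) ?_
    A L (e * (eta / 4)) hA0.le hL0 (by positivity) ?_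
  · refine measurableSet_ball.inter ?_
    exact measurableSet_lt (f := fun z : ℂ => (1 - ‖z‖ ^ 2) * ‖deriv (deriv f) z‖)
      (g := fun z : ℂ => th * ‖deriv f z‖) (by fun_prop) (by fun_prop)
  · refine ENNReal.measurable_ofReal.comp ?_
    fun_prop
  · intro x hx
    have : ‖x‖ < 1 := by simpa using hx.1
    nlinarith [norm_nonneg x]
  · intro z hz
    have hz1 : ‖z‖ < 1 := by simpa using hz
    have hrz : 0 < 1 - ‖z‖ ^ 2 := by nlinarith [norm_nonneg z]
    obtain ⟨p, hp, hp1, hp2⟩ := MaxMod.exists_small K (th / 2) eta hK (by positivity) heta0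
      (by linarith) heta2 f hf hne hb z hz
    have hp3 : ‖p‖ < 1 := by simpa using hp
    have hrp : 0 < 1 - ‖p‖ ^ 2 := by nlinarith [norm_nonneg p]
    obtain ⟨c1, c2, -, c4⟩ := MaxMod.close_bounds eta heta0 z p hz1 hp3 hp2
    refine ⟨p, e * (1 - ‖p‖ ^ 2), ?_, hrz, ?_⟩
    · calc e * (eta / 4) * (1 - ‖z‖ ^ 2) = e * (eta / 4 * (1 - ‖z‖ ^ 2)) := by ring
        _ ≤ e * (1 - ‖p‖ ^ 2) := mul_le_mul_of_nonneg_left c1 he0.le
    intro x hx
    have hx' : x ∈ closedBall p (e * (1 - ‖p‖ ^ 2)) := ball_subset_closedBall hx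
    obtain ⟨n1, n2, n3⟩ := h94_near e he0.le he1 p x hp3 hx'
    have hxb : x ∈ ball (0 : ℂ) 1 := by simpa using n1
    have hrx : 0 < 1 - ‖x‖ ^ 2 := by linarith
    have hfx : 0 < ‖deriv f x‖ := norm_pos_iff.2 (hne x hxb)
    have hfz : 0 < ‖deriv f z‖ := norm_pos_iff.2 (hne z hz)
    have hl := Gron.lip K (th / 2) e f hf hne hb hK.le he0.le he1 he2 p hp hp1.le x hx'
    have hdist : eta * dist x z ≤ 3 * (1 - ‖p‖ ^ 2) := by
      have h1 : dist x z ≤ dist x p + ‖z - p‖ := by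
        rw [← dist_eq_norm, dist_comm z p]; exact dist_triangle _ _ _
      have h2 : dist x p ≤ e * (1 - ‖p‖ ^ 2) := hx'
      have h3 : dist x p ≤ 1 - ‖p‖ ^ 2 := by nlinarith
      have h4 : eta * dist x p ≤ 1 - ‖p‖ ^ 2 := by nlinarith [dist_nonneg (x := x) (y := p)]
      nlinarith
    have hxz : 1 - ‖x‖ ^ 2 ≤ L * (1 - ‖z‖ ^ 2) := by
      rw [hL, div_mul_eq_mul_div, le_div_iff₀ heta0]
      nlinarith
    refine ⟨⟨hxb, by nlinarith⟩, ?_, ?_, hxz⟩
    · rw [← ENNReal.ofReal_mul hA0.le]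
      apply ENNReal.ofReal_le_ofReal
      have hg := Gron.gron K f hf hb hK.le z x (eta / 4 * (1 - ‖p‖ ^ 2)) (by positivity) c2
        (by nlinarith)
      have hexp : Real.exp (K * ‖x - z‖ / (eta / 4 * (1 - ‖p‖ ^ 2))) ≤
          Real.exp (K * (12 / eta ^ 2)) := by
        apply Real.exp_le_exp.2
        rw [mul_div_assoc]
        apply mul_le_mul_of_nonneg_left _ hK.le
        rw [div_le_div_iff₀ (by positivity) (by positivity), ← dist_eq_norm]
        nlinarith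
      have h1 : ‖deriv f z‖ ^ (-(1 : ℝ)) ≤
          Real.exp (K * (12 / eta ^ 2)) * ‖deriv f x‖ ^ (-(1 : ℝ)) := by
        rw [Real.rpow_neg_one, Real.rpow_neg_one, ← div_eq_mul_inv, inv_eq_one_div,
          div_le_div_iff₀ hfz hfx, one_mul]
        exact hg.trans (mul_le_mul_of_nonneg_right hexp hfz.le)
      have h2 : (1 - ‖z‖ ^ 2) ^ (b - 1) ≤ L * (1 - ‖x‖ ^ 2) ^ (b - 1) := by
        have h3 : (L * (1 - ‖z‖ ^ 2)) ^ (b - 1) ≤ (1 - ‖x‖ ^ 2) ^ (b - 1) :=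
          Real.rpow_le_rpow_of_nonpos hrx hxz (by linarith)
        rw [Real.mul_rpow hL0.le hrz.le] at h3
        have h4 : 1 ≤ L * L ^ (b - 1) := by
          have : L * L ^ (b - 1) = L ^ b := by
            rw [Real.rpow_sub_one hL0.ne']; field_simp
          rw [this]; exact Real.one_le_rpow hL1 hb0.le
        have h5 : 0 ≤ (1 - ‖z‖ ^ 2) ^ (b - 1) := Real.rpow_nonneg hrz.le _
        calc (1 - ‖z‖ ^ 2) ^ (b - 1) ≤ L * L ^ (b - 1) * (1 - ‖z‖ ^ 2) ^ (b - 1) :=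
              le_mul_of_one_le_left h5 h4
          _ = L * (L ^ (b - 1) * (1 - ‖z‖ ^ 2) ^ (b - 1)) := by ring
          _ ≤ _ := mul_le_mul_of_nonneg_left h3 hL0.le
      calc ‖deriv f z‖ ^ (-(1 : ℝ)) * (1 - ‖z‖ ^ 2) ^ (b - 1)
          ≤ (Real.exp (K * (12 / eta ^ 2)) * ‖deriv f x‖ ^ (-(1 : ℝ))) *
            (L * (1 - ‖x‖ ^ 2) ^ (b - 1)) :=
            mul_le_mul h1 h2 (Real.rpow_nonneg hrz.le _) (by positivity)
        _ = _ := by rw [hA]; ring
    · rw [hL, div_mul_eq_mul_div, le_div_iff₀ heta0]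
      nlinarith

end Crest.Agent.R131
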