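import Mathlib
import Crest.Agent.R162.Pick
import Crest.Agent.R131.Asm

/-! Row 131: weak pre-Schwarzian bound and distortion for univalent maps. -/

open Set Metric Filter Function
open scoped Topology

namespace Crest.Agent.R131.PreS

variable {f : ℂ → ℂ}

/-- Some omitted value lies within `2 r |f'(c)|` of `f c`. -/
theorem exists_omit {c : ℂ} {r : ℝ} (hr : 0 < r) (hf : DifferentiableOn ℂ f (ball c r))
    (hinj : InjOn f (ball c r)) :
    ∃ p, p ∉ f '' ball c r ∧ ‖f c - p‖ ≤ 2 * r * ‖deriv f c‖ := by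
  have hc : c ∈ ball c r := mem_ball_self hr
  have h0 : deriv f c ≠ 0 := Crest.Agent.Lib.RMT.deriv_ne_zero_of_injOn isOpen_ball hf hinj hc
  have hn : 0 < ‖deriv f c‖ := norm_pos_iff.mpr h0
  have hR : 0 < 2 * r * ‖deriv f c‖ := by positivity
  by_contra hcon
  push Not at hcon
  have hsub : ball (f c) (2 * r * ‖deriv f c‖) ⊆ f '' ball c r := by
    intro p hp
    by_contra hp'
    have h1 := hcon p hp'
    rw [mem_ball, dist_comm, dist_eq_norm] at hp
    linarith
  have hd : DifferentiableOn ℂ (invFunOn f (ball c r)) (ball (f c) (2 * r * ‖deriv f c‖)) :=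
    (R162.invFunOn_diff isOpen_ball hf hinj).mono hsub
  have hm : MapsTo (invFunOn f (ball c r)) (ball (f c) (2 * r * ‖deriv f c‖))
      (closedBall (invFunOn f (ball c r) (f c)) r) := by
    intro p hp
    rw [hinj.leftInvOn_invFunOn hc]
    obtain ⟨a, ha, rfl⟩ := hsub hp
    rw [hinj.leftInvOn_invFunOn ha]
    exact ball_subset_closedBall ha
  have h2 := Complex.norm_deriv_le_div_of_mapsTo_ball hd hm hR
  rw [R162.deriv_invFunOn isOpen_ball hf hinj hc, norm_inv, inv_eq_one_div,
    div_le_div_iff₀ hn hR] at h2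
  nlinarith

/-- Pre-Schwarzian bound at the centre of a disc. -/
theorem preSchw_ball {c : ℂ} {r : ℝ} (hr : 0 < r) (hf : DifferentiableOn ℂ f (ball c r))
    (hinj : InjOn f (ball c r)) : r * ‖deriv (deriv f) c‖ ≤ 4000 * ‖deriv f c‖ := by
  obtain ⟨p, hp, hpc⟩ := exists_omit hr hf hinj
  have hc : c ∈ ball c r := mem_ball_self hr
  have hne : ∀ z ∈ ball c r, f z - p ≠ 0 := fun z hz h => hp ⟨z, hz, sub_eq_zero.mp h⟩
  have hf1 : DifferentiableOn ℂ (deriv f) (ball c r) := hf.deriv isOpen_ball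
  set u : ℂ → ℂ := fun z => deriv f z / (f z - p) with hu
  have hud : DifferentiableOn ℂ u (ball c r) := hf1.div (hf.sub_const p) hne
  have hub : ∀ z ∈ closedBall c (r / 2), ‖u z‖ ≤ 800 / r := by
    intro z hz
    have hsub : ball z (r / 2) ⊆ ball c r := by
      intro w hw
      rw [mem_ball] at hw ⊢
      rw [mem_closedBall] at hz
      linarith [dist_triangle w z c]
    have hz' : z ∈ ball c r := hsub (mem_ball_self (by linarith))
    have h1 := R162.koebe_omit (w := p) (by linarith : 0 < r / 2) (hf.mono hsub) (hinj.mono hsub)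
      (fun h => hp (image_mono hsub h))
    have h2 : 0 < ‖f z - p‖ := norm_pos_iff.mpr (hne z hz')
    simp only [hu, norm_div]
    rw [div_le_div_iff₀ h2 hr]
    linarith
  have hcl : closedBall c (r / 2) ⊆ ball c r := closedBall_subset_ball (by linarith)
  have hdc : DiffContOnCl ℂ u (ball c (r / 2)) := by
    refine ⟨hud.mono (ball_subset_ball (by linarith)), ?_⟩
    rw [closure_ball c (by linarith : r / 2 ≠ 0)]
    exact hud.continuousOn.mono hcl
  have h3 := Complex.norm_deriv_le_of_forall_mem_sphere_norm_le (by linarith : 0 < r / 2) hdc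
    (fun z hz => hub z (sphere_subset_closedBall hz))
  have hnb : ball c r ∈ 𝓝 c := isOpen_ball.mem_nhds hc
  have hEq : deriv f =ᶠ[𝓝 c] fun z => u z * (f z - p) := by
    filter_upwards [hnb] with z hz
    simp only [hu]
    rw [div_mul_cancel₀ _ (hne z hz)]
  have hD : HasDerivAt (fun z => u z * (f z - p))
      (deriv u c * (f c - p) + u c * deriv f c) c :=
    (hud.differentiableAt hnb).hasDerivAt.mul
      ((hf.differentiableAt hnb).hasDerivAt.sub_const p)
  have h4 : deriv (deriv f) c = deriv u c * (f c - p) + u c * deriv f c := by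
    rw [hEq.deriv_eq, hD.deriv]
  have h5 : ‖u c‖ ≤ 800 / r := hub c (mem_closedBall_self (by linarith))
  have h6 : ‖deriv (deriv f) c‖ ≤
      800 / r / (r / 2) * (2 * r * ‖deriv f c‖) + 800 / r * ‖deriv f c‖ := by
    rw [h4]
    refine (norm_add_le _ _).trans (add_le_add ?_ ?_)
    · rw [norm_mul]
      exact mul_le_mul h3 hpc (norm_nonneg _) (by positivity)
    · rw [norm_mul]
      exact mul_le_mul_of_nonneg_right h5 (norm_nonneg _)
  have h7 : 800 / r / (r / 2) * (2 * r * ‖deriv f c‖) + 800 / r * ‖deriv f c‖ =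
      4000 * ‖deriv f c‖ / r := by
    field_simp
    ring
  rw [h7, le_div_iff₀ hr] at h6
  linarith

/-- Pre-Schwarzian bound in the unit disc. -/
theorem preSchw_disc (hf : DifferentiableOn ℂ f (ball 0 1)) (hinj : InjOn f (ball 0 1)) {z : ℂ}
    (hz : z ∈ ball (0 : ℂ) 1) : (1 - ‖z‖) * ‖deriv (deriv f) z‖ ≤ 4000 * ‖deriv f z‖ := by
  have hz1 : ‖z‖ < 1 := mem_ball_zero_iff.mp hz
  have hsub : ball z (1 - ‖z‖) ⊆ ball 0 1 := by
    intro w hw
    rw [mem_ball, dist_eq_norm] at hw
    rw [mem_ball_zero_iff]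
    have := norm_le_norm_sub_add w z
    linarith
  exact preSchw_ball (by linarith) (hf.mono hsub) (hinj.mono hsub)

/-- The same with the weight `1 - |z|²`. -/
theorem preSchw_rho (hf : DifferentiableOn ℂ f (ball 0 1)) (hinj : InjOn f (ball 0 1)) {z : ℂ}
    (hz : z ∈ ball (0 : ℂ) 1) : (1 - ‖z‖ ^ 2) * ‖deriv (deriv f) z‖ ≤ 8000 * ‖deriv f z‖ := by
  have hz1 : ‖z‖ < 1 := mem_ball_zero_iff.mp hz
  have h1 := preSchw_disc hf hinj hz
  have h2 : 0 ≤ ‖deriv (deriv f) z‖ := norm_nonneg _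
  have h3 : 0 ≤ ‖z‖ := norm_nonneg _
  have h4 : 1 - ‖z‖ ^ 2 ≤ 2 * (1 - ‖z‖) := by nlinarith
  nlinarith [mul_le_mul_of_nonneg_right h4 h2]

theorem preSchw : PreSchw := ⟨4000, fun _ hf hinj _ hz => preSchw_disc hf hinj hz⟩

end Crest.Agent.R131.PreS
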