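import Mathlib
import Crest.Agent.R131.PreS

/-! Row 131: distortion on closed sub-discs. -/

open Set Metric Filter Function
open scoped Topology

namespace Crest.Agent.R131.PreS

variable {f : ℂ → ℂ}

/-- Gronwall along a segment: if `‖g'‖ ≤ L ‖g‖` on a convex set, `‖g w‖ ≤ e^{L |w - z|} ‖g z‖`. -/
theorem gron_seg {g : ℂ → ℂ} {S : Set ℂ} (hS : Convex ℝ S)
    (hg : ∀ x ∈ S, DifferentiableAt ℂ g x) {L : ℝ} (hL : ∀ x ∈ S, ‖deriv g x‖ ≤ L * ‖g x‖)
    {z w : ℂ} (hz : z ∈ S) (hw : w ∈ S) : ‖g w‖ ≤ Real.exp (L * ‖w - z‖) * ‖g z‖ := by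
  have hm : ∀ x ∈ Icc (0 : ℝ) 1, z + (x : ℂ) * (w - z) ∈ S := by
    intro x hx
    have := hS.add_smul_sub_mem hz hw hx
    rwa [Complex.real_smul] at this
  have hd : ∀ x ∈ Icc (0 : ℝ) 1, HasDerivAt (fun x : ℝ => g (z + (x : ℂ) * (w - z)))
      (deriv g (z + (x : ℂ) * (w - z)) * (w - z)) x := by
    intro x hx
    have h2 := (hg _ (hm x hx)).hasDerivAt
    have h3 : HasDerivAt (fun y : ℂ => z + y * (w - z)) (w - z) (x : ℂ) := by
      simpa using ((hasDerivAt_id (x : ℂ)).mul_const (w - z)).const_add z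
    exact (h2.comp (x : ℂ) h3).comp_ofReal
  have key := norm_le_gronwallBound_of_norm_deriv_right_le
    (f := fun x : ℝ => g (z + (x : ℂ) * (w - z)))
    (f' := fun x : ℝ => deriv g (z + (x : ℂ) * (w - z)) * (w - z))
    (δ := ‖g z‖) (K := L * ‖w - z‖) (ε := 0) (a := 0) (b := 1)
    (fun x hx => (hd x hx).continuousAt.continuousWithinAt)
    (fun x hx => (hd x ⟨hx.1, hx.2.le⟩).hasDerivWithinAt) (by simp)
    (fun x hx => by
      have h2 := hL _ (hm x ⟨hx.1, hx.2.le⟩)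
      rw [norm_mul, add_zero]
      have h4 := norm_nonneg (w - z)
      nlinarith) 1 ⟨zero_le_one, le_rfl⟩
  rw [gronwallBound_ε0] at key
  simpa [mul_comm] using key

/-- Distortion on a closed sub-disc. -/
theorem dist_closedBall (hf : DifferentiableOn ℂ f (ball 0 1)) (hinj : InjOn f (ball 0 1))
    {r : ℝ} (hr : r < 1) {z w : ℂ} (hz : ‖z‖ ≤ r) (hw : ‖w‖ ≤ r) :
    ‖deriv f w‖ ≤ Real.exp (4000 / (1 - r) * ‖w - z‖) * ‖deriv f z‖ := by
  have hsub : closedBall (0 : ℂ) r ⊆ ball 0 1 := closedBall_subset_ball hr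
  refine gron_seg (S := closedBall (0 : ℂ) r) (convex_closedBall _ _)
    (fun x hx => (hf.deriv isOpen_ball).differentiableAt (isOpen_ball.mem_nhds (hsub hx)))
    (fun x hx => ?_) (mem_closedBall_zero_iff.mpr hz) (mem_closedBall_zero_iff.mpr hw)
  have h1 := preSchw_disc hf hinj (hsub hx)
  have h2 : ‖x‖ ≤ r := mem_closedBall_zero_iff.mp hx
  have h3 := norm_nonneg (deriv (deriv f) x)
  rw [div_mul_eq_mul_div, le_div_iff₀ (by linarith)]
  nlinarith

/-- Lower bound for the derivative of a normalised univalent map on a closed sub-disc. -/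
theorem deriv_lower (hf : DifferentiableOn ℂ f (ball 0 1)) (hinj : InjOn f (ball 0 1))
    (h1 : deriv f 0 = 1) {r : ℝ} (hr : r < 1) {z : ℂ} (hz : ‖z‖ ≤ r) :
    Real.exp (-(4000 / (1 - r))) ≤ ‖deriv f z‖ := by
  have h0 : ‖(0 : ℂ)‖ ≤ r := by rw [norm_zero]; exact (norm_nonneg z).trans hz
  have h2 := dist_closedBall hf hinj hr hz h0
  rw [h1, norm_one, zero_sub, norm_neg] at h2
  have h3 : Real.exp (4000 / (1 - r) * ‖z‖) ≤ Real.exp (4000 / (1 - r)) := by
    refine Real.exp_le_exp.mpr ?_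
    have : 0 ≤ 4000 / (1 - r) := div_nonneg (by norm_num) (by linarith)
    nlinarith
  rw [Real.exp_neg, inv_le_iff_one_le_mul₀ (Real.exp_pos _), mul_comm]
  exact h2.trans (mul_le_mul_of_nonneg_right h3 (norm_nonneg _))

/-- Upper bound for the derivative of a normalised univalent map on a closed sub-disc. -/
theorem deriv_upper (hf : DifferentiableOn ℂ f (ball 0 1)) (hinj : InjOn f (ball 0 1))
    (h1 : deriv f 0 = 1) {r : ℝ} (hr : r < 1) {z : ℂ} (hz : ‖z‖ ≤ r) :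
    ‖deriv f z‖ ≤ Real.exp (4000 / (1 - r)) := by
  have h0 : ‖(0 : ℂ)‖ ≤ r := by rw [norm_zero]; exact (norm_nonneg z).trans hz
  have h2 := dist_closedBall hf hinj hr h0 hz
  rw [h1, norm_one, sub_zero, mul_one] at h2
  refine h2.trans (Real.exp_le_exp.mpr ?_)
  have : 0 ≤ 4000 / (1 - r) := div_nonneg (by norm_num) (by linarith)
  nlinarith

/-- Negative powers of the derivative are uniformly bounded on closed sub-discs. -/
theorem rpow_neg_le (hf : DifferentiableOn ℂ f (ball 0 1)) (hinj : InjOn f (ball 0 1))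
    (h1 : deriv f 0 = 1) {r s : ℝ} (hr : r < 1) (hs : 0 ≤ s) {z : ℂ} (hz : ‖z‖ ≤ r) :
    ‖deriv f z‖ ^ (-s) ≤ Real.exp (4000 / (1 - r) * s) := by
  have h2 := deriv_lower hf hinj h1 hr hz
  calc ‖deriv f z‖ ^ (-s) ≤ Real.exp (-(4000 / (1 - r))) ^ (-s) :=
        Real.rpow_le_rpow_of_nonpos (Real.exp_pos _) h2 (by linarith)
    _ = Real.exp (4000 / (1 - r) * s) := by
        rw [← Real.exp_mul]; congr 1; ring

/-- Local Harnack bound on the disc of radius `(1 - |z|) / 2`. -/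
theorem harnack_half (hf : DifferentiableOn ℂ f (ball 0 1)) (hinj : InjOn f (ball 0 1))
    {z w : ℂ} (hz : z ∈ ball (0 : ℂ) 1) (hw : ‖w - z‖ ≤ (1 - ‖z‖) / 2) :
    ‖deriv f w‖ ≤ Real.exp 4000 * ‖deriv f z‖ ∧ ‖deriv f z‖ ≤ Real.exp 4000 * ‖deriv f w‖ := by
  have hz1 : ‖z‖ < 1 := mem_ball_zero_iff.mp hz
  have hr : (1 + ‖z‖) / 2 < 1 := by linarith
  have hz2 : ‖z‖ ≤ (1 + ‖z‖) / 2 := by linarith
  have hw2 : ‖w‖ ≤ (1 + ‖z‖) / 2 := by linarith [norm_le_norm_sub_add w z]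
  have he : Real.exp (4000 / (1 - (1 + ‖z‖) / 2) * ‖w - z‖) ≤ Real.exp 4000 := by
    refine Real.exp_le_exp.mpr ?_
    rw [div_mul_eq_mul_div, div_le_iff₀ (by linarith)]
    linarith
  refine ⟨(dist_closedBall hf hinj hr hz2 hw2).trans
    (mul_le_mul_of_nonneg_right he (norm_nonneg _)), ?_⟩
  have h := dist_closedBall hf hinj hr hw2 hz2
  rw [norm_sub_rev] at h
  exact h.trans (mul_le_mul_of_nonneg_right he (norm_nonneg _))

end Crest.Agent.R131.PreS
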