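import Mathlib

set_option autoImplicit false

open Set Filter Topology Complex

namespace Crest.Agent.R131.Elder

/-- `z ↦ z - q` has a continuous logarithm on `K`. -/
def HasLog (K : Set ℂ) (q : ℂ) : Prop :=
  ∃ l : ℂ → ℂ, ContinuousOn l K ∧ ∀ z ∈ K, Complex.exp (l z) = z - q

theorem hasLog_of_convex {K Q : Set ℂ} (hKQ : K ⊆ Q) (hQ : Convex ℝ Q) {q : ℂ} (hq : q ∉ Q) :
    HasLog K q := by
  rcases K.eq_empty_or_nonempty with rfl | ⟨z0, hz0⟩
  · exact ⟨fun _ => 0, continuousOn_empty _, by simp⟩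
  have h0 : z0 - q ≠ 0 := fun h => hq (by rw [← sub_eq_zero.1 h]; exact hKQ hz0)
  have hs : ∀ z ∈ K, (z - q) / (z0 - q) ∈ Complex.slitPlane := by
    intro z hz
    by_contra hn
    rw [Complex.mem_slitPlane_iff, not_or, not_lt, not_not] at hn
    set r : ℝ := -((z - q) / (z0 - q)).re with hr
    have hr0 : 0 ≤ r := by rw [hr]; linarith [hn.1]
    have he : (z - q) / (z0 - q) = -(r : ℂ) := by
      apply Complex.ext
      · simp [hr]
      · simp [hn.2]
    have he2 : z - q = -(r : ℂ) * (z0 - q) := by rw [← he]; field_simp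
    have h1 : (1 + r) ≠ 0 := by positivity
    have h1c : (1 + (r : ℂ)) ≠ 0 := by exact_mod_cast h1
    have hmem := hQ (hKQ hz) (hKQ hz0) (a := 1 / (1 + r)) (b := r / (1 + r)) (by positivity)
      (by positivity) (by field_simp)
    apply hq
    convert hmem using 1
    simp only [Complex.real_smul]
    push_cast
    field_simp
    linear_combination -he2
  refine ⟨fun z => Complex.log ((z - q) / (z0 - q)) + Complex.log (z0 - q), ?_, ?_⟩
  · refine ContinuousOn.add ?_ continuousOn_const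
    exact ContinuousOn.clog (by fun_prop) hs
  · intro z hz
    rw [Complex.exp_add, Complex.exp_log h0, Complex.exp_log (Complex.slitPlane_ne_zero (hs z hz))]
    field_simp

theorem hasLog_near {K : Set ℂ} {q q' : ℂ} {d : ℝ} (hd : ∀ z ∈ K, d ≤ ‖z - q‖)
    (hq : ‖q' - q‖ < d) (h : HasLog K q) : HasLog K q' := by
  obtain ⟨l, hl, he⟩ := h
  have hne : ∀ z ∈ K, z - q ≠ 0 := by
    intro z hz h0
    have := hd z hz
    rw [h0, norm_zero] at this
    linarith [norm_nonneg (q' - q)]
  have hs : ∀ z ∈ K, 1 + (q - q') / (z - q) ∈ Complex.slitPlane := by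
    intro z hz
    apply Complex.mem_slitPlane_of_norm_lt_one
    rw [norm_div, div_lt_one (norm_pos_iff.2 (hne z hz)), norm_sub_rev]
    exact hq.trans_le (hd z hz)
  refine ⟨fun z => l z + Complex.log (1 + (q - q') / (z - q)), ?_, ?_⟩
  · refine hl.add (ContinuousOn.clog ?_ hs)
    exact continuousOn_const.add (continuousOn_const.div (by fun_prop) hne)
  · intro z hz
    rw [Complex.exp_add, he z hz, Complex.exp_log (Complex.slitPlane_ne_zero (hs z hz))]
    have := hne z hz
    field_simp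
    ring

theorem hasLog_iff_of_preconnected {K C : Set ℂ} (hK : IsClosed K) (hC : IsPreconnected C)
    (hCK : ∀ q ∈ C, q ∉ K) {a b : ℂ} (ha : a ∈ C) (hb : b ∈ C) (h : HasLog K b) : HasLog K a := by
  have key : ∀ q ∉ K, ∃ d > 0, ∀ q', ‖q' - q‖ < d → (q' ∉ K ∧ (HasLog K q' ↔ HasLog K q)) := by
    intro q hq
    obtain ⟨e, he, hb⟩ := Metric.isOpen_iff.1 hK.isOpen_compl q hq
    have hd : ∀ z ∈ K, e ≤ ‖z - q‖ := by
      intro z hz
      by_contra hn
      exact hb (by rw [Metric.mem_ball, dist_eq_norm]; exact not_le.1 hn) hz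
    refine ⟨e / 2, by positivity, fun q' hq' => ⟨?_, ?_, ?_⟩⟩
    · exact hb (by rw [Metric.mem_ball, dist_eq_norm]; linarith)
    · refine hasLog_near (d := e / 2) (fun z hz => ?_) (by rwa [norm_sub_rev])
      have h1 := hd z hz
      have h2 : ‖z - q‖ ≤ ‖z - q'‖ + ‖q' - q‖ := norm_sub_le_norm_sub_add_norm_sub _ _ _
      linarith
    · exact hasLog_near hd (by linarith)
  have hU : IsOpen {q | q ∉ K ∧ HasLog K q} := by
    rw [Metric.isOpen_iff]
    rintro q ⟨hq, hl⟩
    obtain ⟨d, hd, h⟩ := key q hq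
    refine ⟨d, hd, fun q' hq' => ?_⟩
    rw [Metric.mem_ball, dist_eq_norm] at hq'
    exact ⟨(h q' hq').1, (h q' hq').2.2 hl⟩
  have hV : IsOpen {q | q ∉ K ∧ ¬ HasLog K q} := by
    rw [Metric.isOpen_iff]
    rintro q ⟨hq, hl⟩
    obtain ⟨d, hd, h⟩ := key q hq
    refine ⟨d, hd, fun q' hq' => ?_⟩
    rw [Metric.mem_ball, dist_eq_norm] at hq'
    exact ⟨(h q' hq').1, fun h' => hl ((h q' hq').2.1 h')⟩
  have := hC.subset_left_of_subset_union hU hV
    (by rw [Set.disjoint_left]; rintro q ⟨-, h1⟩ ⟨-, h2⟩; exact h2 h1)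
    (fun q hq => by
      by_cases h : HasLog K q
      · exact Or.inl ⟨hCK q hq, h⟩
      · exact Or.inr ⟨hCK q hq, h⟩)
    ⟨b, hb, hCK b hb, h⟩
  exact (this ha).2

/-- Two continuous logarithms of the same function on a preconnected set differ by a constant. -/
theorem log_diff_const {S : Set ℂ} (hS : IsPreconnected S) {l m : ℂ → ℂ} (hl : ContinuousOn l S)
    (hm : ContinuousOn m S) (h : ∀ z ∈ S, Complex.exp (l z) = Complex.exp (m z)) {x y : ℂ}
    (hx : x ∈ S) (hy : y ∈ S) : l x - m x = l y - m y := by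
  have hk : ∀ z ∈ S, ∃ n : ℤ, l z - m z = n * (2 * Real.pi * I) := by
    intro z hz
    obtain ⟨n, hn⟩ := Complex.exp_eq_exp_iff_exists_int.1 (h z hz)
    exact ⟨n, by rw [hn]; ring⟩
  have hpi : (2 * Real.pi) ≠ 0 := by positivity
  set g : ℂ → ℝ := fun z => (l z - m z).im / (2 * Real.pi) with hg
  have hgc : ContinuousOn g S := by
    refine ContinuousOn.div_const ?_ _
    exact Complex.continuous_im.comp_continuousOn (hl.sub hm)
  have hgi : ∀ z ∈ S, ∀ n : ℤ, l z - m z = n * (2 * Real.pi * I) → g z = n := by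
    intro z _ n hn
    simp only [hg, hn]
    field_simp
    simp
    ring
  obtain ⟨a, ha⟩ := hk x hx
  obtain ⟨b, hb⟩ := hk y hy
  have hab : a = b := by
    by_contra hne
    have hpc := hS.image g hgc
    have hoc := hpc.ordConnected
    have hax : (a : ℝ) ∈ g '' S := ⟨x, hx, hgi x hx a ha⟩
    have hby : (b : ℝ) ∈ g '' S := ⟨y, hy, hgi y hy b hb⟩
    have hint : ∀ t ∈ g '' S, ∃ n : ℤ, t = n := by
      rintro t ⟨z, hz, rfl⟩
      obtain ⟨n, hn⟩ := hk z hz
      exact ⟨n, hgi z hz n hn⟩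
    rcases lt_or_gt_of_ne hne with hlt | hlt
    · have h1 : (a : ℝ) + 1 ≤ b := by exact_mod_cast hlt
      obtain ⟨n, hn⟩ := hint ((a : ℝ) + 1 / 2) (hoc.out hax hby ⟨by linarith, by linarith⟩)
      have h2 : (2 * a + 1 : ℤ) = 2 * n := by
        have : (2 * (a : ℝ) + 1) = 2 * n := by linarith
        exact_mod_cast this
      omega
    · have h1 : (b : ℝ) + 1 ≤ a := by exact_mod_cast hlt
      obtain ⟨n, hn⟩ := hint ((b : ℝ) + 1 / 2) (hoc.out hby hax ⟨by linarith, by linarith⟩)
      have h2 : (2 * b + 1 : ℤ) = 2 * n := by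
        have : (2 * (b : ℝ) + 1) = 2 * n := by linarith
        exact_mod_cast this
      omega
  rw [ha, hb, hab]

/-- Maximum principle: a point where `F` exceeds its bound on `K` sees a logarithm on `K`. -/
theorem hasLog_of_gt {Om Q K : Set ℂ} {F : ℂ → ℝ} {c : ℝ} (hO : IsOpen Om)
    (hF : ContinuousOn F Om) (hQ : IsCompact Q) (hQc : Convex ℝ Q) (hQO : Q ⊆ Om)
    (hmax : ∀ z ∈ Om, ¬ IsLocalMax F z) (hK : IsClosed K) (hKQ : K ⊆ Q)
    (hKc : ∀ z ∈ K, F z ≤ c) {a : ℂ} (ha : a ∈ Om) (hac : c < F a) : HasLog K a := by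
  set U : Set ℂ := Om ∩ F ⁻¹' Ioi c with hU
  have hUo : IsOpen U := hF.isOpen_inter_preimage hO isOpen_Ioi
  set C := connectedComponentIn U a with hC
  have haU : a ∈ U := ⟨ha, hac⟩
  have haC : a ∈ C := mem_connectedComponentIn haU
  have hCU : C ⊆ U := connectedComponentIn_subset _ _
  have hCo : IsOpen C := hUo.connectedComponentIn
  have hCK : ∀ q ∈ C, q ∉ K := fun q hq hk => absurd (hKc q hk) (not_le.2 (hCU hq).2)
  by_cases hCQ : C ⊆ Q
  · exfalso
    have hcl : closure C ⊆ Q := closure_minimal hCQ hQ.isClosed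
    have hcc : IsCompact (closure C) := hQ.of_isClosed_subset isClosed_closure hcl
    obtain ⟨z, hz, hzm⟩ := hcc.exists_isMaxOn ⟨a, subset_closure haC⟩
      (hF.mono (hcl.trans hQO))
    have hzU : z ∈ U := ⟨hQO (hcl hz), lt_of_lt_of_le hac (hzm (subset_closure haC))⟩
    have hzC : z ∈ C := by
      have h1 : IsPreconnected (insert z C) :=
        isPreconnected_connectedComponentIn.subset_closure (subset_insert _ _)
          (insert_subset hz subset_closure)
      exact h1.subset_connectedComponentIn (mem_insert_of_mem _ haC)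
        (insert_subset hzU hCU) (mem_insert _ _)
    refine hmax z hzU.1 ?_
    filter_upwards [hCo.mem_nhds hzC] with w hw using hzm (subset_closure hw)
  · obtain ⟨b, hb, hbQ⟩ := not_subset.1 hCQ
    exact hasLog_iff_of_preconnected hK isPreconnected_connectedComponentIn hCK haC hb
      (hasLog_of_convex hKQ hQc hbQ)

end Crest.Agent.R131.Elder
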