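import Crest.Agent.R131.ElderA

set_option autoImplicit false

open Set Filter Topology Complex

namespace Crest.Agent.R131.Elder

theorem cross {p u v : ℂ} (hind : ∀ s t : ℝ, (s : ℂ) * u = t * v → t = 0) {e d h : ℝ}
    (he : 0 < e) (hh : 0 < h) (hd : 3 * (h * ‖v‖) < d) {B : Set ℂ} (hB : IsPreconnected B)
    (hBd : ∀ z ∈ B, d ≤ ‖z - p‖) (h1 : p + e * u ∈ B) (h2 : p + (-e : ℝ) * u ∈ B)
    (ha : HasLog ((fun t : ℝ => p + t * u) '' Icc (-e) e ∪ B) (p + h * v))
    (hb : HasLog ((fun t : ℝ => p + t * u) '' Icc (-e) e ∪ B) (p + (-h : ℝ) * v)) : False := by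
  set S : Set ℂ := (fun t : ℝ => p + t * u) '' Icc (-e) e with hS
  obtain ⟨la, hla, hea⟩ := ha
  obtain ⟨lb, hlb, heb⟩ := hb
  set a : ℂ := p + h * v with ha
  set b : ℂ := p + (-h : ℝ) * v with hb
  set g : ℂ → ℂ := fun z => (z - a) / (z - b) with hg
  have hne : ∀ z ∈ S ∪ B, z - b ≠ 0 := fun z hz => by rw [← heb z hz]; exact Complex.exp_ne_zero _
  have hl : ContinuousOn (fun z => la z - lb z) (S ∪ B) := hla.sub hlb
  have hel : ∀ z ∈ S ∪ B, Complex.exp (la z - lb z) = g z := fun z hz => by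
    rw [Complex.exp_sub, hea z hz, heb z hz]
  have hgc : ContinuousOn g (S ∪ B) := ContinuousOn.div (by fun_prop) (by fun_prop) hne
  have hsB : ∀ z ∈ B, g z ∈ Complex.slitPlane := by
    intro z hz
    have h0 := hne z (Or.inr hz)
    have : g z = 1 + (b - a) / (z - b) := by simp only [hg]; field_simp; ring
    rw [this]
    apply Complex.mem_slitPlane_of_norm_lt_one
    rw [norm_div, div_lt_one (norm_pos_iff.2 h0)]
    have e1 : ‖b - a‖ = 2 * (h * ‖v‖) := by
      have : b - a = ((-2 * h : ℝ) : ℂ) * v := by simp only [ha, hb]; push_cast; ring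
      rw [this, norm_mul, Complex.norm_real, Real.norm_eq_abs, abs_of_neg (by linarith)]; ring
    have e2 : ‖b - p‖ = h * ‖v‖ := by
      have : b - p = ((-h : ℝ) : ℂ) * v := by simp only [hb]; ring
      rw [this, norm_mul, Complex.norm_real, Real.norm_eq_abs, abs_of_neg (by linarith)]; ring
    have e3 : ‖z - p‖ ≤ ‖z - b‖ + ‖b - p‖ := norm_sub_le_norm_sub_add_norm_sub _ _ _
    have := hBd z hz
    linarith
  have hsS : ∀ z ∈ S, -g z ∈ Complex.slitPlane := by
    rintro z hz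
    have h0 := hne z (Or.inl hz)
    obtain ⟨t, -, rfl⟩ := hz
    by_contra hn
    rw [Complex.mem_slitPlane_iff, not_or, not_lt, not_not] at hn
    set r : ℝ := (g (p + t * u)).re with hr
    have hr0 : 0 ≤ r := by have := hn.1; simp only [neg_re] at this; linarith
    have hge : g (p + t * u) = (r : ℂ) := by
      apply Complex.ext
      · simp [hr]
      · have := hn.2; simp only [neg_im, neg_eq_zero] at this; simp [this]
    have h3 : p + t * u - a = r * (p + t * u - b) := by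
      rw [← hge]; simp only [hg]; field_simp
    have h4 := hind (t - r * t) (h * (1 + r)) (by
      simp only [ha, hb] at h3; push_cast at h3 ⊢; linear_combination h3)
    have : 0 < h * (1 + r) := by positivity
    linarith
  have hSp : IsPreconnected S := isPreconnected_Icc.image _ (by fun_prop)
  have m1 : p + e * u ∈ S := ⟨e, ⟨by linarith, le_rfl⟩, rfl⟩
  have m2 : p + (-e : ℝ) * u ∈ S := ⟨-e, ⟨le_rfl, by linarith⟩, rfl⟩
  have k1 := log_diff_const hB (hl.mono subset_union_right)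
    (m := fun z => Complex.log (g z)) ((hgc.mono subset_union_right).clog hsB)
    (fun z hz => by
      rw [hel z (Or.inr hz), Complex.exp_log (Complex.slitPlane_ne_zero (hsB z hz))]) h1 h2
  have k2 := log_diff_const hSp (hl.mono subset_union_left)
    (m := fun z => Complex.log (-g z) + Real.pi * I)
    (((hgc.mono subset_union_left).neg.clog hsS).add continuousOn_const)
    (fun z hz => by
      rw [hel z (Or.inl hz), Complex.exp_add,
        Complex.exp_log (Complex.slitPlane_ne_zero (hsS z hz)), Complex.exp_pi_mul_I]; ring) m1 m2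
  set x : ℂ := g (p + e * u) with hx
  have hinv : g (p + (-e : ℝ) * u) = x⁻¹ := by
    simp only [hx, hg, ha, hb]
    rw [inv_div]
    push_cast
    rw [← neg_div_neg_eq]
    congr 1 <;> ring
  have k3 : Complex.log x - Complex.log x⁻¹ = Complex.log (-x) - Complex.log (-x⁻¹) := by
    simp only [hinv] at k1 k2
    linear_combination k2 - k1
  have k4 := congrArg Complex.im k3
  simp only [sub_im, Complex.log_im] at k4
  have hx1 := hsB _ h1
  have hx2 := hsS _ m1
  rw [← hx, Complex.mem_slitPlane_iff] at hx1 hx2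
  have him : x.im ≠ 0 := by
    intro h0
    simp only [h0, ne_eq, not_true, or_false, neg_re, neg_im, neg_zero] at hx1 hx2
    linarith
  have hx0 : x ≠ 0 := fun h0 => him (by simp [h0])
  have hn : 0 < Complex.normSq x := Complex.normSq_pos.2 hx0
  have hpi := Real.pi_pos
  rcases lt_or_gt_of_ne him with hlt | hgt
  · have h5 : 0 < (x⁻¹).im := by rw [Complex.inv_im]; exact div_pos (by linarith) hn
    rw [Complex.arg_neg_eq_arg_add_pi_of_im_neg hlt,
      Complex.arg_neg_eq_arg_sub_pi_of_im_pos h5] at k4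
    linarith
  · have h5 : (x⁻¹).im < 0 := by
      rw [Complex.inv_im]; exact div_neg_of_neg_of_pos (by linarith) hn
    rw [Complex.arg_neg_eq_arg_sub_pi_of_im_pos hgt,
      Complex.arg_neg_eq_arg_add_pi_of_im_neg h5] at k4
    linarith

theorem indep_of_saddle {F : ℂ → ℝ} {p u v : ℂ}
    (hu : ∀ᶠ t : ℝ in 𝓝[≠] 0, F (p + t * u) < F p)
    (hv : ∀ᶠ t : ℝ in 𝓝[≠] 0, F p < F (p + t * v)) (s t : ℝ) (h : (s : ℂ) * u = t * v) :
    t = 0 := by
  by_contra ht
  have htc : (t : ℂ) ≠ 0 := by exact_mod_cast ht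
  have hv' : v = ((s / t : ℝ) : ℂ) * u := by push_cast; field_simp; linear_combination -h
  by_cases hs : s = 0
  · obtain ⟨τ, hτ⟩ := hv.exists
    simp [hv', hs] at hτ
  · have hq : s / t ≠ 0 := div_ne_zero hs ht
    have ht : Tendsto (fun τ : ℝ => τ * (s / t)) (𝓝[≠] 0) (𝓝[≠] 0) := by
      refine tendsto_nhdsWithin_of_tendsto_nhds_of_eventually_within _ ?_ ?_
      · have : Tendsto (fun τ : ℝ => τ * (s / t)) (𝓝 0) (𝓝 (0 * (s / t))) :=
          (continuous_id.mul continuous_const).tendsto 0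
        rw [zero_mul] at this
        exact this.mono_left nhdsWithin_le_nhds
      · filter_upwards [self_mem_nhdsWithin] with τ hτ using mul_ne_zero hτ hq
    obtain ⟨τ, h1, h2⟩ := ((ht.eventually hu).and hv).exists
    rw [hv'] at h2
    push_cast at h1 h2
    rw [← mul_assoc] at h2
    linarith

/-- The two descending sides of a saddle are not joined inside the closed sublevel set minus the
saddle. -/
theorem sep {Om Q : Set ℂ} {F : ℂ → ℝ} {lam : ℝ} (hO : IsOpen Om)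
    (hF : ContinuousOn F Om) (hQ : IsCompact Q) (hQc : Convex ℝ Q) (hQO : Q ⊆ Om)
    (hsub : ∀ z ∈ Om, F z ≤ lam → z ∈ Q) (hmax : ∀ z ∈ Om, ¬ IsLocalMax F z)
    {p u v : ℂ} (hp : p ∈ Om) (hpl : F p ≤ lam)
    (hu : ∀ᶠ t : ℝ in 𝓝[≠] 0, F (p + t * u) < F p)
    (hv : ∀ᶠ t : ℝ in 𝓝[≠] 0, F p < F (p + t * v)) {e : ℝ} (he : 0 < e)
    (hseg : ∀ t ∈ Icc (-e) e, p + (t : ℂ) * u ∈ Om ∧ F (p + (t : ℂ) * u) ≤ F p) :
    ¬ JoinedIn {z | z ∈ Om ∧ F z ≤ F p ∧ z ≠ p} (p + e * u) (p + (-e : ℝ) * u) := by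
  rintro ⟨γ, hγ⟩
  set B : Set ℂ := range γ with hB
  have hBc : IsCompact B := isCompact_range γ.continuous
  have hBp : IsPreconnected B := isPreconnected_range γ.continuous
  have hpB : p ∉ B := by rintro ⟨t, ht⟩; exact (hγ t).2.2 ht
  obtain ⟨d, hd, hb⟩ := Metric.isOpen_iff.1 hBc.isClosed.isOpen_compl p hpB
  have hBd : ∀ z ∈ B, d ≤ ‖z - p‖ := by
    intro z hz
    by_contra hn
    exact hb (by rw [Metric.mem_ball, dist_eq_norm]; exact not_le.1 hn) hz
  have hc : Continuous fun t : ℝ => p + (t : ℂ) * v := by fun_prop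
  have ev1 : ∀ᶠ t : ℝ in 𝓝 0, p + (t : ℂ) * v ∈ Om :=
    hc.continuousAt.eventually_mem (by simpa using hO.mem_nhds hp)
  have ev2 : ∀ᶠ t : ℝ in 𝓝 0, 3 * (t * ‖v‖) < d := by
    have : ContinuousAt (fun t : ℝ => 3 * (t * ‖v‖)) 0 := by fun_prop
    exact this.eventually_lt continuousAt_const (by simpa using hd)
  have ev3 : ∀ᶠ t : ℝ in 𝓝 0, t ≠ 0 → p + (t : ℂ) * v ∈ Om ∧ F p < F (p + t * v) := by
    rw [eventually_nhdsWithin_iff] at hv
    filter_upwards [ev1, hv] with t h1 h2 h3 using ⟨h1, h2 h3⟩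
  have ev4 : ∀ᶠ t : ℝ in 𝓝 0, -t ≠ 0 →
      p + ((-t : ℝ) : ℂ) * v ∈ Om ∧ F p < F (p + ((-t : ℝ) : ℂ) * v) := by
    have : Tendsto (fun t : ℝ => -t) (𝓝 0) (𝓝 0) := by
      simpa using (continuous_neg (G := ℝ)).tendsto 0
    exact this.eventually ev3
  have ev5 : ∀ᶠ t : ℝ in 𝓝[>] 0, 0 < t := self_mem_nhdsWithin
  obtain ⟨h, hh, ⟨h2, h3⟩, h4⟩ :=
    (ev5.and (((ev2.and ev3).and ev4).filter_mono nhdsWithin_le_nhds)).exists
  have h3' := h3 hh.ne'
  have h4' := h4 (neg_ne_zero.2 hh.ne')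
  set K : Set ℂ := (fun t : ℝ => p + t * u) '' Icc (-e) e ∪ B with hK
  have hKcl : IsClosed K :=
    ((isCompact_Icc.image (by fun_prop)).union hBc).isClosed
  have hKO : ∀ z ∈ K, z ∈ Om ∧ F z ≤ F p := by
    rintro z (⟨t, ht, rfl⟩ | ⟨t, rfl⟩)
    · exact hseg t ht
    · exact ⟨(hγ t).1, (hγ t).2.1⟩
  have hKQ : K ⊆ Q := fun z hz => hsub z (hKO z hz).1 ((hKO z hz).2.trans hpl)
  exact cross (indep_of_saddle hu hv) he hh h2 hBp hBd ⟨0, γ.source⟩ ⟨1, γ.target⟩
    (hasLog_of_gt hO hF hQ hQc hQO hmax hKcl hKQ (fun z hz => (hKO z hz).2) h3'.1 h3'.2)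
    (hasLog_of_gt hO hF hQ hQc hQO hmax hKcl hKQ (fun z hz => (hKO z hz).2) h4'.1 h4'.2)

end Crest.Agent.R131.Elder
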