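import Mathlib
import Crest.Agent.R131.Stokes

/-! The exact integration-by-parts identity of row 131 (helper69). -/

open MeasureTheory Set Metric Complex

namespace Crest.Agent.R131.IdentH69

local notation "conj" => starRingEnd ℂ

theorem wt_integrable {s b : ℝ} (hs : 0 < s) (hb : 0 < b) :
    IntegrableOn (fun z : ℂ => ‖z‖ ^ (s - 2) * (1 - ‖z‖ ^ 2) ^ (b - 1)) (ball 0 1) := by
  rw [integrableOn_fun_norm_addHaar volume (f := fun y : ℝ => y ^ (s - 2) * (1 - y ^ 2) ^ (b - 1))]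
  have h1 : IntervalIntegrable (fun y : ℝ => y ^ (s - 1) * (1 - y) ^ (b - 1)) volume 0 1 := by
    have ha : IntervalIntegrable (fun y : ℝ => y ^ (s - 1) * (1 - y) ^ (b - 1)) volume 0 (1 / 2) := by
      refine (intervalIntegral.intervalIntegrable_rpow' (by linarith)).mul_continuousOn ?_
      refine ContinuousOn.rpow_const (by fun_prop) fun x hx => Or.inl ?_
      rw [uIcc_of_le (by norm_num)] at hx
      linarith [hx.2]
    have hb' : IntervalIntegrable (fun y : ℝ => y ^ (s - 1) * (1 - y) ^ (b - 1)) volume (1 / 2) 1 := by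
      have h2 : IntervalIntegrable (fun y : ℝ => (1 - y) ^ (b - 1)) volume (1 / 2) 1 := by
        have := (intervalIntegral.intervalIntegrable_rpow' (a := 1 / 2) (b := 0)
          (r := b - 1) (by linarith)).comp_sub_left 1
        norm_num at this ⊢
        exact this
      refine h2.continuousOn_mul ?_
      refine ContinuousOn.rpow_const (by fun_prop) fun x hx => Or.inl ?_
      rw [uIcc_of_le (by norm_num)] at hx
      linarith [hx.1]
    exact ha.trans hb'
  have h2 : IntervalIntegrable (fun y : ℝ => y ^ (s - 1) * (1 - y) ^ (b - 1) * (1 + y) ^ (b - 1))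
      volume 0 1 := by
    refine h1.mul_continuousOn ?_
    refine ContinuousOn.rpow_const (by fun_prop) fun x hx => Or.inl ?_
    rw [uIcc_of_le (by norm_num)] at hx
    linarith [hx.1]
  rw [intervalIntegrable_iff_integrableOn_Ioo_of_le (by norm_num)] at h2
  refine h2.congr_fun (fun y hy => ?_) measurableSet_Ioo
  have hy0 := hy.1
  have hy1 := hy.2
  simp only [Complex.finrank_real_complex, smul_eq_mul]
  have e1 : y ^ (s - 1) = y ^ (2 - 1) * y ^ (s - 2) := by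
    rw [show s - 1 = 1 + (s - 2) by ring, Real.rpow_add hy0]; simp
  have e2 : (1 - y ^ 2) ^ (b - 1) = (1 - y) ^ (b - 1) * (1 + y) ^ (b - 1) := by
    rw [← Real.mul_rpow (by linarith) (by linarith)]; congr 1; ring
  rw [e1, e2]; ring

theorem hasDerivAt_norm_rpow {g : ℝ → ℂ} {g' : ℂ} (hg : HasDerivAt g g' 0) (h0 : g 0 ≠ 0) (p : ℝ) :
    HasDerivAt (fun t => ‖g t‖ ^ p) (p * ‖g 0‖ ^ p * (g' / g 0).re) 0 := by
  have hn : 0 < ‖g 0‖ := norm_pos_iff.2 h0
  have h1 := hg.norm_sq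
  have h2 := h1.rpow_const (p := p / 2) (Or.inl (by positivity))
  have e : ∀ t, (‖g t‖ ^ 2) ^ (p / 2) = ‖g t‖ ^ p := by
    intro t
    rw [← Real.rpow_natCast, ← Real.rpow_mul (norm_nonneg _)]; congr 1; push_cast; ring
  simp only [e] at h2
  convert h2 using 1
  rw [Real.rpow_sub (by positivity), e, Real.rpow_one, Complex.div_re, Complex.normSq_eq_norm_sq]
  simp only [Complex.inner, Complex.mul_re, Complex.conj_re, Complex.conj_im]
  field_simp
  ring

variable {u h h' : ℂ → ℂ} {s b γ : ℝ}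

/-- weight -/
noncomputable def Wt (u : ℂ → ℂ) (s b : ℝ) (z : ℂ) : ℝ :=
  ‖z‖ ^ (s - 2) * ‖u z‖ ^ (-s) * (1 - ‖z‖ ^ 2) ^ (b - 1)

noncomputable def Ph (h : ℂ → ℂ) (γ : ℝ) (z : ℂ) : ℂ :=
  -2 * (1 - z * conj z) * z * h z + γ * (z * conj z) - 2

noncomputable def G (u h : ℂ → ℂ) (s b γ : ℝ) (z : ℂ) : ℂ :=
  conj z * ((‖z‖ ^ (s - 2) * ‖u z‖ ^ (-s) * (1 - ‖z‖ ^ 2) ^ b : ℝ) : ℂ) * Ph h γ z

noncomputable def a1 (h : ℂ → ℂ) (s γ : ℝ) (z : ℂ) : ℂ :=
  Ph h γ z * (1 - z * conj z) * ((s - 2) / 2)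

noncomputable def a2 (h h' : ℂ → ℂ) (s b γ : ℝ) (z : ℂ) : ℂ :=
  conj z * Ph h γ z * (-(1 - z * conj z) * s * h z / 2 - b * conj z) +
    conj z * (1 - z * conj z) * (2 * conj z * z * h z - 2 * (1 - z * conj z) * (h z + z * h' z)
      + γ * conj z)

noncomputable def bb (h : ℂ → ℂ) (s b γ : ℝ) (z : ℂ) : ℂ :=
  Ph h γ z * (s / 2 * (1 - z * conj z) - s * (1 - z * conj z) * conj (z * h z) / 2
    - b * (z * conj z)) + (1 - z * conj z) * (z * conj z) * (2 * (z * h z) + γ)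

theorem hasLine {z : ℂ} (hz : z ∈ ball (0 : ℂ) 1 \ {0}) (hu : HasDerivAt u (h z * u z) z)
    (hu0 : u z ≠ 0) (hh : HasDerivAt h (h' z) z) (v : ℂ) :
    HasLineDerivAt ℝ (G u h s b γ)
      (((Wt u s b z : ℂ) * a1 h s γ z * (conj z / z) + (Wt u s b z : ℂ) * a2 h h' s b γ z) * v
        + ((Wt u s b z : ℂ) * bb h s b γ z) * conj v) z v := by
  have hz0 : z ≠ 0 := hz.2
  have hz1 : ‖z‖ < 1 := mem_ball_zero_iff.1 hz.1
  have hρ : 0 < 1 - ‖z‖ ^ 2 := by nlinarith [norm_nonneg z]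
  unfold HasLineDerivAt
  have hl : HasDerivAt (fun t : ℝ => z + t • v) v 0 := by
    simpa using ((hasDerivAt_id (0 : ℝ)).smul_const v).const_add z
  have hl0 : z + (0 : ℝ) • v = z := by simp
  have hc : HasDerivAt (fun t : ℝ => conj (z + t • v)) (conj v) 0 := by
    simpa using hl.star
  have hut : HasDerivAt (fun t : ℝ => u (z + t • v)) (h z * u z * v) 0 := by
    have h1 : HasDerivAt u (h z * u z) (z + (0 : ℝ) • v) := by rw [hl0]; exact hu
    exact HasDerivAt.comp_of_eq (0 : ℝ) h1 hl rfl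
  have hht : HasDerivAt (fun t : ℝ => h (z + t • v)) (h' z * v) 0 := by
    have h1 : HasDerivAt h (h' z) (z + (0 : ℝ) • v) := by rw [hl0]; exact hh
    exact HasDerivAt.comp_of_eq (0 : ℝ) h1 hl rfl
  have n1 := hasDerivAt_norm_rpow hl (by simpa using hz0) (s - 2)
  have n2 := hasDerivAt_norm_rpow hut (by simpa using hu0) (-s)
  have n3 : HasDerivAt (fun t : ℝ => (1 - ‖z + t • v‖ ^ 2) ^ b)
      (-(2 * (conj z * v).re) * b * (1 - ‖z‖ ^ 2) ^ (b - 1)) 0 := by
    have h1 := (hl.norm_sq.const_sub 1).rpow_const (p := b) (Or.inl (by simpa using hρ.ne'))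
    simp only [hl0] at h1
    convert h1 using 2
    simp [Complex.inner, mul_comm]
  have nω := ((n1.mul n2).mul n3).ofReal_comp
  have hPh : HasDerivAt (fun t : ℝ => Ph h γ (z + t • v))
      (-2 * (-(v * conj z + z * conj v) * z * h z + (1 - z * conj z) * (v * h z + z * (h' z * v)))
        + γ * (v * conj z + z * conj v)) 0 := by
    have h1 := (((((hl.mul hc).const_sub 1).const_mul (-2)).mul hl).mul hht).add
      ((hl.mul hc).const_mul (γ : ℂ))
    have h2 := h1.sub_const 2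
    simp only [hl0, Pi.mul_apply] at h2
    refine HasDerivAt.congr_deriv h2 ?_
    ring
  have hG := (hc.mul nω).mul hPh
  simp only [hl0, Pi.mul_apply] at hG
  refine HasDerivAt.congr_deriv hG ?_
  have e1 : (1 - ‖z‖ ^ 2) ^ b = (1 - ‖z‖ ^ 2) ^ (b - 1) * (1 - ‖z‖ ^ 2) := by
    rw [Real.rpow_sub_one hρ.ne']; field_simp
  have e2 : ((‖z‖ : ℂ)) ^ 2 = z * conj z := by
    rw [Complex.mul_conj, Complex.normSq_eq_norm_sq]; push_cast; ring
  have hcz : conj z ≠ 0 := by simpa using hz0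
  have e3 : h z * u z * v / u z = h z * v := by field_simp
  rw [e1, e3]
  unfold Wt a1 a2 bb
  push_cast
  rw [e2, Complex.re_eq_add_conj, Complex.re_eq_add_conj, Complex.re_eq_add_conj]
  simp only [map_mul, map_div₀, Complex.conj_conj]
  field_simp
  ring

theorem Wt_integrable (hs : 0 < s) (hb : 0 < b) (hu : ContinuousOn u (closedBall 0 1))
    (hu0 : ∀ z ∈ closedBall (0 : ℂ) 1, u z ≠ 0) : IntegrableOn (Wt u s b) (ball 0 1) := by
  have h1 := (wt_integrable hs hb).mul_continuousOn_of_subset (g' := fun z => ‖u z‖ ^ (-s))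
    (hu.norm.rpow_const fun z hz => Or.inl (norm_ne_zero_iff.2 (hu0 z hz))) measurableSet_ball
    (isCompact_closedBall 0 1) ball_subset_closedBall
  refine h1.congr_fun (fun z _ => ?_) measurableSet_ball
  simp only [Wt]; ring

theorem Wt_mul_integrable (hs : 0 < s) (hb : 0 < b) (hu : ContinuousOn u (closedBall 0 1))
    (hu0 : ∀ z ∈ closedBall (0 : ℂ) 1, u z ≠ 0) {a : ℂ → ℂ} (ha : ContinuousOn a (closedBall 0 1)) :
    IntegrableOn (fun z => (Wt u s b z : ℂ) * a z) (ball 0 1) :=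
  IntegrableOn.mul_continuousOn_of_subset (g := fun z => (Wt u s b z : ℂ))
    (Wt_integrable hs hb hu hu0).ofReal ha measurableSet_ball
    (isCompact_closedBall 0 1) ball_subset_closedBall

theorem Wt_mul_integrable_real (hs : 0 < s) (hb : 0 < b) (hu : ContinuousOn u (closedBall 0 1))
    (hu0 : ∀ z ∈ closedBall (0 : ℂ) 1, u z ≠ 0) {a : ℂ → ℝ} (ha : ContinuousOn a (closedBall 0 1)) :
    IntegrableOn (fun z => Wt u s b z * a z) (ball 0 1) :=
  IntegrableOn.mul_continuousOn_of_subset (Wt_integrable hs hb hu hu0) ha measurableSet_ball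
    (isCompact_closedBall 0 1) ball_subset_closedBall

theorem int_bb (hs : 0 < s) (hb : 0 < b) (hu : ContinuousOn u (closedBall 0 1))
    (hu0 : ∀ z ∈ closedBall (0 : ℂ) 1, u z ≠ 0) (hhc : ContinuousOn h (closedBall 0 1))
    (hhc' : ContinuousOn h' (closedBall 0 1))
    (hud : ∀ z ∈ ball (0 : ℂ) 1, HasDerivAt u (h z * u z) z)
    (hhd : ∀ z ∈ ball (0 : ℂ) 1, HasDerivAt h (h' z) z) :
    ∫ z in ball (0 : ℂ) 1, Wt u s b z * (bb h s b γ z).re = 0 := by
  have cc : Continuous (fun z : ℂ => conj z) := Complex.continuous_conj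
  have cPh : ContinuousOn (Ph h γ) (closedBall 0 1) := by
    unfold Ph
    have := cc.continuousOn (s := closedBall (0 : ℂ) 1)
    fun_prop
  have c1 : ContinuousOn (a1 h s γ) (closedBall 0 1) := by
    unfold a1
    have := cc.continuousOn (s := closedBall (0 : ℂ) 1)
    fun_prop
  have c2 : ContinuousOn (a2 h h' s b γ) (closedBall 0 1) := by
    unfold a2
    have := cc.continuousOn (s := closedBall (0 : ℂ) 1)
    fun_prop
  have c3 : ContinuousOn (bb h s b γ) (closedBall 0 1) := by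
    unfold bb
    have := cc.continuousOn (s := closedBall (0 : ℂ) 1)
    have h4 : ContinuousOn (fun z => conj (z * h z)) (closedBall (0 : ℂ) 1) :=
      cc.comp_continuousOn (continuousOn_id.mul hhc)
    fun_prop
  have iB := Wt_mul_integrable hs hb hu hu0 c3
  have iA : IntegrableOn (fun z => (Wt u s b z : ℂ) * a1 h s γ z * (conj z / z) +
      (Wt u s b z : ℂ) * a2 h h' s b γ z) (ball 0 1) := by
    refine Integrable.add ?_ (Wt_mul_integrable hs hb hu hu0 c2)
    refine Integrable.mul_bdd (c := 1) (Wt_mul_integrable hs hb hu hu0 c1) ?_ ?_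
    · exact (cc.measurable.div measurable_id).aestronglyMeasurable
    · refine Filter.Eventually.of_forall fun z => ?_
      rw [norm_div, Complex.norm_conj]
      exact div_self_le_one _
  have hcG : ContinuousOn (G u h s b γ) (closedBall 0 1 \ {0}) := by
    unfold G
    refine (cc.continuousOn.mul ?_).mul (cPh.mono sdiff_subset)
    refine Complex.continuous_ofReal.comp_continuousOn ((ContinuousOn.mul ?_ ?_).mul ?_)
    · exact continuous_norm.continuousOn.rpow_const fun z hz => Or.inl (norm_ne_zero_iff.2 hz.2)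
    · exact (hu.mono sdiff_subset).norm.rpow_const fun z hz =>
        Or.inl (norm_ne_zero_iff.2 (hu0 z hz.1))
    · exact ContinuousOn.rpow_const (by fun_prop) fun z _ => Or.inr hb.le
  have h0 : ∀ z ∈ sphere (0 : ℂ) 1, G u h s b γ z = 0 := by
    intro z hz
    rw [mem_sphere_zero_iff_norm] at hz
    simp [G, hz, Real.zero_rpow hb.ne']
  have := (Stokes.stokes_wirtinger (G u h s b γ) _ _ hcG
    (fun z hz v => hasLine hz (hud z hz.1) (hu0 z (ball_subset_closedBall hz.1)) (hhd z hz.1) v)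
    h0 iA iB).2
  have h5 := congrArg Complex.re this
  rw [← RCLike.re_to_complex, ← integral_re iB] at h5
  simpa using h5

theorem bb_re {c : ℝ} (hs : 0 < s) (hbc : b - 1 = (s + 2) * (c - 1)) (z : ℂ) :
    (bb h s b (8 * c / s - 4 * c + 2) z).re =
      s * ((‖((2 * c - 1) * ‖z‖ ^ 2 : ℝ) + ((1 - ‖z‖ ^ 2 : ℝ) : ℂ) * z * h z‖ ^ 2 - 1) -
        4 * c / s ^ 2 * (‖z‖ ^ 2 * (4 * c * ‖z‖ ^ 2 - (s + 2)))) := by
  have hb : b = 1 + (s + 2) * (c - 1) := by linarith
  have e2 : z * conj z = ((‖z‖ ^ 2 : ℝ) : ℂ) := by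
    rw [Complex.mul_conj, Complex.normSq_eq_norm_sq]
  unfold bb Ph
  rw [e2, mul_assoc _ z (h z), mul_assoc _ z (h z)]
  generalize z * h z = x
  generalize ‖z‖ ^ 2 = σ
  rw [Complex.sq_norm, Complex.normSq_apply]
  subst hb
  have e3 : ∀ w : ℂ, w / 2 = w * ((1 / 2 : ℝ) : ℂ) := fun w => by push_cast; ring
  simp only [e3, Complex.add_re, Complex.add_im, Complex.mul_re, Complex.mul_im, Complex.sub_re,
    Complex.sub_im, Complex.ofReal_re, Complex.ofReal_im, Complex.neg_re, Complex.neg_im,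
    Complex.one_re, Complex.one_im, Complex.re_ofNat, Complex.im_ofNat, Complex.conj_re,
    Complex.conj_im]
  field_simp
  ring

/-- The exact identity. -/
theorem ident {f : ℂ → ℂ} {R c : ℝ} (hR : 1 < R) (hf : DifferentiableOn ℂ f (ball 0 R))
    (hf0 : ∀ z ∈ ball (0 : ℂ) R, deriv f z ≠ 0) (hs : 0 < s) (hb : 0 < b)
    (hbc : b - 1 = (s + 2) * (c - 1)) :
    IntegrableOn (fun z : ℂ => ‖z‖ ^ (s - 2) * ‖deriv f z‖ ^ (-s) * (1 - ‖z‖ ^ 2) ^ (b - 1) *
      (‖((2 * c - 1) * ‖z‖ ^ 2 : ℝ) + ((1 - ‖z‖ ^ 2 : ℝ) : ℂ) * z *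
        (deriv (deriv f) z / deriv f z)‖ ^ 2 - 1)) (ball 0 1) ∧
    IntegrableOn (fun z : ℂ => ‖z‖ ^ (s - 2) * ‖deriv f z‖ ^ (-s) * (1 - ‖z‖ ^ 2) ^ (b - 1) *
      (‖z‖ ^ 2 * (4 * c * ‖z‖ ^ 2 - (s + 2)))) (ball 0 1) ∧
    ∫ z in ball (0 : ℂ) 1, ‖z‖ ^ (s - 2) * ‖deriv f z‖ ^ (-s) * (1 - ‖z‖ ^ 2) ^ (b - 1) *
      (‖((2 * c - 1) * ‖z‖ ^ 2 : ℝ) + ((1 - ‖z‖ ^ 2 : ℝ) : ℂ) * z *
        (deriv (deriv f) z / deriv f z)‖ ^ 2 - 1) =
    4 * c / s ^ 2 * ∫ z in ball (0 : ℂ) 1, ‖z‖ ^ (s - 2) * ‖deriv f z‖ ^ (-s) *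
      (1 - ‖z‖ ^ 2) ^ (b - 1) * (‖z‖ ^ 2 * (4 * c * ‖z‖ ^ 2 - (s + 2))) := by
  have hsub : closedBall (0 : ℂ) 1 ⊆ ball 0 R := closedBall_subset_ball hR
  have d1 : DifferentiableOn ℂ (deriv f) (ball 0 R) := hf.deriv isOpen_ball
  have d2 : DifferentiableOn ℂ (deriv (deriv f)) (ball 0 R) := d1.deriv isOpen_ball
  set h : ℂ → ℂ := fun z => deriv (deriv f) z / deriv f z with hh
  have d3 : DifferentiableOn ℂ h (ball 0 R) := d2.div d1 hf0
  have d4 : DifferentiableOn ℂ (deriv h) (ball 0 R) := d3.deriv isOpen_ball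
  have hu := d1.continuousOn.mono hsub
  have hu0 : ∀ z ∈ closedBall (0 : ℂ) 1, deriv f z ≠ 0 := fun z hz => hf0 z (hsub hz)
  have hhc := d3.continuousOn.mono hsub
  have hI := int_bb (γ := 8 * c / s - 4 * c + 2) hs hb hu hu0 hhc (d4.continuousOn.mono hsub)
    (fun z hz => by
      have hz' := hsub (ball_subset_closedBall hz)
      have := (d1.differentiableAt (isOpen_ball.mem_nhds hz')).hasDerivAt
      rwa [hh, div_mul_cancel₀ _ (hf0 z hz')])
    (fun z hz => (d3.differentiableAt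
      (isOpen_ball.mem_nhds (hsub (ball_subset_closedBall hz)))).hasDerivAt)
  have i1 := Wt_mul_integrable_real hs hb hu hu0
    (a := fun z => ‖((2 * c - 1) * ‖z‖ ^ 2 : ℝ) + ((1 - ‖z‖ ^ 2 : ℝ) : ℂ) * z * h z‖ ^ 2 - 1)
    (by fun_prop)
  have i2 := Wt_mul_integrable_real hs hb hu hu0
    (a := fun z => ‖z‖ ^ 2 * (4 * c * ‖z‖ ^ 2 - (s + 2))) (by fun_prop)
  refine ⟨i1, i2, ?_⟩
  simp only [bb_re hs hbc] at hI
  have e : ∀ w A B : ℝ, w * (s * (A - 4 * c / s ^ 2 * B)) =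
      s * (w * A - 4 * c / s ^ 2 * (w * B)) := fun w A B => by ring
  simp only [e] at hI
  rw [integral_const_mul, integral_sub i1 (i2.const_mul _), integral_const_mul] at hI
  have := (mul_eq_zero.1 hI).resolve_left hs.ne'
  exact sub_eq_zero.1 this

end Crest.Agent.R131.IdentH69
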