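import Mathlib
import Crest.Agent.R131.Defs
import Crest.Agent.R131.IdentH69

/-! Block IDENT in the form of `Defs` (helper69). -/

open Set Metric MeasureTheory

namespace Crest.Agent.R131

theorem ident_holds : Ident := by
  intro R f s b c hR hf hf0 hs hb hbc
  obtain ⟨i1, i2, e⟩ := IdentH69.ident hR hf hf0 hs hb hbc
  have hfun : (fun z : ℂ => ‖z‖ ^ (s - 2) * ‖deriv f z‖ ^ (-s) * (1 - ‖z‖ ^ 2) ^ (b - 1) *
      (‖z‖ ^ 2 * (4 * c * ‖z‖ ^ 2 - (s + 2)))) = fun z : ℂ =>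
      ‖z‖ ^ s * (1 - ‖z‖ ^ 2) ^ (b - 1) * (4 * c * ‖z‖ ^ 2 - (s + 2)) * ‖deriv f z‖ ^ (-s) := by
    funext z
    have h1 : ‖z‖ ^ s = ‖z‖ ^ (s - 2) * ‖z‖ ^ 2 := by
      rw [← Real.rpow_natCast, ← Real.rpow_add' (norm_nonneg _) (by push_cast; linarith)]
      congr 1; push_cast; ring
    rw [h1]; ring
  rw [hfun] at i2 e
  exact ⟨i1, i2, e⟩

end Crest.Agent.R131
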