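import Mathlib

set_option autoImplicit false

namespace Crest.Agent.R131.Persist

open Real

theorem log_one_sub_bounds (x : ℝ) (hx : |x| ≤ 1 / 2) :
    |x + x ^ 2 / 2 + Real.log (1 - x)| ≤ 2 * |x| ^ 3 := by
  have h := Real.abs_log_sub_add_sum_range_le (x := x) (by linarith) 2
  have e1 : (∑ i ∈ Finset.range 2, x ^ (i + 1) / ((i : ℝ) + 1)) = x + x ^ 2 / 2 := by
    simp [Finset.sum_range_succ]; norm_num
  rw [e1] at h
  refine h.trans ?_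
  have h0 : 0 ≤ |x| ^ 3 := by positivity
  rw [div_le_iff₀ (by linarith), show (2 + 1 : ℕ) = 3 from rfl]
  nlinarith [mul_nonneg h0 (sub_nonneg.mpr hx)]

theorem aux_Y (c e t E : ℝ) (hc1 : 7 / 10 ≤ c) (hc2 : c ≤ 8 / 10) (ht0 : 0 ≤ t)
    (ht2 : t ≤ e ^ 2) (hE : |E| ≤ 3 / 50 * e ^ 2) : |4 * c ^ 2 * t + E| ≤ 3 * e ^ 2 := by
  have h1 : 0 ≤ 4 * c ^ 2 * t := by positivity
  have h3 : c ^ 2 ≤ 64 / 100 := by nlinarith
  have h2 : c ^ 2 * t ≤ (64 / 100) * e ^ 2 := mul_le_mul h3 ht2 ht0 (by norm_num)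
  have h4 := sq_nonneg e
  rw [abs_le] at hE ⊢
  constructor <;> linarith [hE.1, hE.2]

theorem aux_X2 (e u Y : ℝ) (he0 : 0 < e) (he1 : e ≤ 1) (hu : |u| ≤ 32 / 10 * e)
    (hY : |Y| ≤ 3 * e ^ 2) : (u - Y) ^ 2 ≤ u ^ 2 + 30 * e ^ 3 := by
  have h1 : |u * Y| ≤ 32 / 10 * e * (3 * e ^ 2) := by
    rw [abs_mul]; exact mul_le_mul hu hY (abs_nonneg _) (by positivity)
  have h2 : Y ^ 2 ≤ (3 * e ^ 2) ^ 2 := by
    rw [← sq_abs]; exact pow_le_pow_left₀ (abs_nonneg _) hY 2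
  have h5 : e ^ 4 ≤ e ^ 3 := pow_le_pow_of_le_one he0.le he1 (by norm_num)
  have h4 := (abs_le.mp h1).1
  have h6 : (u - Y) ^ 2 = u ^ 2 - 2 * (u * Y) + Y ^ 2 := by ring
  have h7 : (3 * e ^ 2) ^ 2 = 9 * e ^ 4 := by ring
  have h8 : 32 / 10 * e * (3 * e ^ 2) = 96 / 10 * e ^ 3 := by ring
  have h9 : 0 < e ^ 3 := pow_pos he0 3
  linarith

theorem aux_l5 (c α β : ℝ) (hc1 : 7 / 10 ≤ c) (hc2 : c ≤ 8 / 10) :
    32 / 100 * (α ^ 2 + β ^ 2) ≤ 2 * c ^ 2 * β ^ 2 + 2 * c * (1 - c) * α ^ 2 := by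
  have a1 : 32 / 100 ≤ 2 * c * (1 - c) := by nlinarith
  have a2 : 32 / 100 ≤ 2 * c ^ 2 := by nlinarith
  have b1 := mul_le_mul_of_nonneg_right a1 (sq_nonneg α)
  have b2 := mul_le_mul_of_nonneg_right a2 (sq_nonneg β)
  linarith

/-- The real-variable core of the persistence estimate. -/
theorem core_real (c e α β E τ : ℝ) (hc1 : 7 / 10 ≤ c) (hc2 : c ≤ 8 / 10) (he0 : 0 < e)
    (he1 : e ≤ 1 / 10000) (ht1 : e ^ 2 / 4 ≤ α ^ 2 + β ^ 2 + τ) (ht2 : α ^ 2 + β ^ 2 ≤ e ^ 2)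
    (hE : |E| ≤ 3 / 50 * e ^ 2) :
    e ^ 2 / 100 + c * Real.log (1 - 2 * α) - 32 / 100 * τ ≤
      Real.log (1 - (4 * c * α - 4 * c ^ 2 * (α ^ 2 + β ^ 2) - E)) / 2 := by
  have hα : |α| ≤ e := by
    rw [← abs_of_pos he0]; apply sq_le_sq.mp; linarith [sq_nonneg β]
  have hYabs := aux_Y c e (α ^ 2 + β ^ 2) E hc1 hc2 (by positivity) ht2 hE
  have hcα : |4 * c * α| ≤ 32 / 10 * e := by
    rw [abs_mul, abs_of_pos (by linarith : (0:ℝ) < 4 * c)]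
    exact mul_le_mul (by linarith) hα (abs_nonneg _) (by norm_num)
  have hX2 := aux_X2 e (4 * c * α) _ he0 (by linarith) hcα hYabs
  have l5 := aux_l5 c α β hc1 hc2
  have hXY : 4 * c * α - 4 * c ^ 2 * (α ^ 2 + β ^ 2) - E
      = 4 * c * α - (4 * c ^ 2 * (α ^ 2 + β ^ 2) + E) := by ring
  rw [hXY]
  have key : -(4 * c * α - (4 * c ^ 2 * (α ^ 2 + β ^ 2) + E)) / 2 - (4 * c * α) ^ 2 / 4
      - c * (-(2 * α) - (2 * α) ^ 2 / 2)
      = 2 * c ^ 2 * β ^ 2 + 2 * c * (1 - c) * α ^ 2 + E / 2 := by ring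
  generalize 4 * c ^ 2 * (α ^ 2 + β ^ 2) + E = Y at *
  generalize hX : 4 * c * α - Y = X at *
  have he2 : e ^ 2 ≤ e / 10000 := by nlinarith
  have hXabs : |X| ≤ 4 * e := by
    rw [← hX]
    refine (abs_sub _ _).trans ?_
    linarith
  have hX3 : |X| ^ 3 ≤ 64 * e ^ 3 := by
    calc |X| ^ 3 ≤ (4 * e) ^ 3 := pow_le_pow_left₀ (abs_nonneg _) hXabs 3
      _ = 64 * e ^ 3 := by ring
  have hb1 := log_one_sub_bounds X (by linarith)
  have h2α : |2 * α| ≤ 2 * e := by rw [abs_mul]; norm_num; exact hα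
  have hb2 := log_one_sub_bounds (2 * α) (by linarith)
  have hα3 : |2 * α| ^ 3 ≤ 8 * e ^ 3 := by
    calc |2 * α| ^ 3 ≤ (2 * e) ^ 3 := pow_le_pow_left₀ (abs_nonneg _) h2α 3
      _ = 8 * e ^ 3 := by ring
  have he3 : e ^ 3 ≤ e ^ 2 / 10000 := by
    have : e ^ 3 = e ^ 2 * e := by ring
    rw [this]
    have := mul_le_mul_of_nonneg_left he1 (sq_nonneg e)
    linarith
  have l1 : -X - X ^ 2 / 2 - 128 * e ^ 3 ≤ Real.log (1 - X) := by
    have := (abs_le.mp hb1).1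
    linarith
  have l2 : Real.log (1 - 2 * α) ≤ (-(2 * α) - (2 * α) ^ 2 / 2) + 16 * e ^ 3 := by
    have := (abs_le.mp hb2).2
    linarith
  have l3 : c * Real.log (1 - 2 * α) ≤ c * ((-(2 * α) - (2 * α) ^ 2 / 2) + 16 * e ^ 3) :=
    mul_le_mul_of_nonneg_left l2 (by linarith)
  have l4 : c * (16 * e ^ 3) ≤ 1 * (16 * e ^ 3) :=
    mul_le_mul_of_nonneg_right (by linarith) (by positivity)
  rw [mul_add] at l3
  have hE1 := (abs_le.mp hE).1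
  have h4 := sq_nonneg e
  linarith

/-- Complex form. -/
theorem core (c e σ τ : ℝ) (η R : ℂ) (hc1 : 7 / 10 ≤ c) (hc2 : c ≤ 8 / 10) (he0 : 0 < e)
    (he1 : e ≤ 1 / 10000) (hη1 : e ^ 2 / 4 ≤ ‖η‖ ^ 2 + τ) (hη2 : ‖η‖ ≤ e) (hR : ‖R‖ ≤ e ^ 2 / 50)
    (hσ0 : 0 < σ) (hτ : 0 ≤ τ) (hσ : σ ≤ 1 - 2 * η.re - τ) :
    Real.exp (e ^ 2 / 100) * σ ^ c ≤ ‖1 - 2 * (c : ℂ) * η + R‖ := by
  have hn : ‖η‖ ^ 2 = η.re ^ 2 + η.im ^ 2 := by
    rw [Complex.sq_norm, Complex.normSq_apply]; ring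
  set B : ℂ := 1 - 2 * (c : ℂ) * η with hB
  have hBn : ‖B‖ ≤ 1 + 2 * e := by
    have : ‖2 * (c : ℂ) * η‖ ≤ 2 * e := by
      rw [norm_mul, norm_mul, Complex.norm_real, Real.norm_eq_abs, abs_of_pos (by linarith : 0 < c)]
      simp only [Complex.norm_ofNat]
      nlinarith [norm_nonneg η]
    calc ‖B‖ ≤ ‖(1:ℂ)‖ + ‖2 * (c : ℂ) * η‖ := norm_sub_le _ _
      _ ≤ 1 + 2 * e := by rw [norm_one]; linarith
  set E : ℝ := 2 * (B * (starRingEnd ℂ) R).re + ‖R‖ ^ 2 with hE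
  have hEabs : |E| ≤ 3 / 50 * e ^ 2 := by
    have h1 : |(B * (starRingEnd ℂ) R).re| ≤ (1 + 2 * e) * (e ^ 2 / 50) := by
      refine (Complex.abs_re_le_norm _).trans ?_
      rw [norm_mul, Complex.norm_conj]
      exact mul_le_mul hBn hR (norm_nonneg _) (by linarith)
    have h2 : ‖R‖ ^ 2 ≤ (e ^ 2 / 50) ^ 2 := pow_le_pow_left₀ (norm_nonneg _) hR 2
    have h3 : 0 ≤ ‖R‖ ^ 2 := by positivity
    have he2 : e ^ 2 ≤ 1 := by nlinarith
    have h4 : (e ^ 2 / 50) ^ 2 ≤ e ^ 2 / 2500 := by nlinarith [sq_nonneg e]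
    have h5 : (1 + 2 * e) * (e ^ 2 / 50) ≤ (1 + 1 / 100) * (e ^ 2 / 50) :=
      mul_le_mul_of_nonneg_right (by linarith) (by positivity)
    rw [abs_le] at h1 ⊢
    constructor <;> nlinarith [h1.1, h1.2, sq_nonneg e]
  have hsq : ‖B + R‖ ^ 2 =
      1 - (4 * c * η.re - 4 * c ^ 2 * (η.re ^ 2 + η.im ^ 2) - E) := by
    rw [hE, Complex.sq_norm, Complex.sq_norm, Complex.normSq_add, hB]
    simp [Complex.normSq_apply]
    ring
  have hcore := core_real c e η.re η.im E τ hc1 hc2 he0 he1 (by rw [← hn]; exact hη1)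
    (by rw [← hn]; nlinarith [norm_nonneg η]) hEabs
  rw [← hsq, Real.log_pow] at hcore
  have hpos : 0 < ‖B + R‖ := by
    have h1 : ‖2 * (c : ℂ) * η‖ ≤ 2 * e := by
      rw [norm_mul, norm_mul, Complex.norm_real, Real.norm_eq_abs, abs_of_pos (by linarith : 0 < c)]
      simp only [Complex.norm_ofNat]
      nlinarith [norm_nonneg η]
    have h2 : ‖(1:ℂ)‖ ≤ ‖B + R‖ + ‖2 * (c : ℂ) * η‖ + ‖R‖ := by
      have : (1:ℂ) = (B + R) + 2 * (c : ℂ) * η - R := by rw [hB]; ring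
      calc ‖(1:ℂ)‖ = ‖(B + R) + 2 * (c : ℂ) * η - R‖ := by rw [← this]
        _ ≤ ‖(B + R) + 2 * (c : ℂ) * η‖ + ‖R‖ := norm_sub_le _ _
        _ ≤ _ := by gcongr; exact norm_add_le _ _
    rw [norm_one] at h2
    nlinarith
  have hre := abs_le.mp ((Complex.abs_re_le_norm η).trans hη2)
  have hp2 : 0 < 1 - 2 * η.re := by linarith
  have hlog : Real.log σ ≤ Real.log (1 - 2 * η.re) - τ / 2 := by
    have h1 := Real.log_le_sub_one_of_pos (div_pos hσ0 hp2)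
    rw [Real.log_div hσ0.ne' hp2.ne'] at h1
    have h2 : σ / (1 - 2 * η.re) ≤ 1 - τ / 2 := by
      rw [div_le_iff₀ hp2]; nlinarith [hre.1]
    linarith
  calc Real.exp (e ^ 2 / 100) * σ ^ c = Real.exp (e ^ 2 / 100 + c * Real.log σ) := by
        rw [Real.exp_add, Real.rpow_def_of_pos hσ0, mul_comm (Real.log σ)]
    _ ≤ Real.exp (Real.log ‖B + R‖) := by
        apply Real.exp_le_exp.mpr
        have : c * Real.log σ ≤ c * (Real.log (1 - 2 * η.re) - τ / 2) :=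
          mul_le_mul_of_nonneg_left hlog (by linarith)
        have h7 := mul_le_mul_of_nonneg_right hc1 hτ
        rw [mul_sub] at this
        push_cast at hcore
        linarith
    _ = ‖B + R‖ := Real.exp_log hpos

end Crest.Agent.R131.Persist
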