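import Crest.Agent.R131.Defs
import Crest.Agent.R131.PersistCore

set_option autoImplicit false

open Set Metric

namespace Crest.Agent.R131.Persist

theorem rho_expand (m y : ℂ) :
    1 - ‖y‖ ^ 2 = (1 - ‖m‖ ^ 2) - 2 * ((starRingEnd ℂ) m * (y - m)).re - ‖y - m‖ ^ 2 := by
  simp only [Complex.sq_norm, Complex.normSq_apply, Complex.mul_re, Complex.conj_re,
    Complex.conj_im, Complex.sub_re, Complex.sub_im]
  ring

theorem rho_pos {m : ℂ} (hm : m ∈ ball (0 : ℂ) 1) : 0 < 1 - ‖m‖ ^ 2 := by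
  have h := mem_ball_zero_iff.mp hm
  nlinarith [norm_nonneg m]

theorem rho_close {m y : ℂ} (hm : m ∈ ball (0 : ℂ) 1) {e : ℝ} (he0 : 0 ≤ e) (he : e ≤ 1 / 4)
    (hy : ‖y - m‖ ≤ e * (1 - ‖m‖ ^ 2)) :
    y ∈ ball (0 : ℂ) 1 ∧ (1 - ‖m‖ ^ 2) / 3 ≤ 1 - ‖y‖ ^ 2 ∧ 1 - ‖y‖ ^ 2 ≤ 2 * (1 - ‖m‖ ^ 2) := by
  have hρ := rho_pos hm
  have hm1 := mem_ball_zero_iff.mp hm
  have h1 : |((starRingEnd ℂ) m * (y - m)).re| ≤ (1 - ‖m‖ ^ 2) / 4 := by
    refine (Complex.abs_re_le_norm _).trans ?_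
    rw [norm_mul, Complex.norm_conj]
    have : ‖m‖ * ‖y - m‖ ≤ 1 * (e * (1 - ‖m‖ ^ 2)) :=
      mul_le_mul hm1.le hy (norm_nonneg _) (by norm_num)
    nlinarith
  have hρ1 : 1 - ‖m‖ ^ 2 ≤ 1 := by nlinarith [norm_nonneg m]
  have h2 : ‖y - m‖ ≤ (1 - ‖m‖ ^ 2) / 4 := by nlinarith
  have h3 : ‖y - m‖ ^ 2 ≤ (1 - ‖m‖ ^ 2) / 16 := by
    have := pow_le_pow_left₀ (norm_nonneg _) h2 2
    nlinarith
  have h4 := rho_expand m y
  have h5 := abs_le.mp h1
  have h6 := sq_nonneg ‖y - m‖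
  have h7 : (1 - ‖m‖ ^ 2) / 3 ≤ 1 - ‖y‖ ^ 2 := by linarith [h5.1, h5.2]
  refine ⟨?_, h7, by linarith [h5.1, h5.2]⟩
  rw [mem_ball_zero_iff]
  have : ‖y‖ ^ 2 < 1 := by linarith
  nlinarith [norm_nonneg y]

/-- Spreading the smallness of the pre-Schwarzian. -/
theorem spread (f : ℂ → ℂ) (K th e : ℝ) (hK : 0 < K) (he0 : 0 ≤ e) (he : e < 1 / 4)
    (hf : DifferentiableOn ℂ f (ball 0 1)) (hf0 : ∀ z ∈ ball (0 : ℂ) 1, deriv f z ≠ 0)
    (hb : ∀ z ∈ ball (0 : ℂ) 1, (1 - ‖z‖ ^ 2) * ‖deriv (deriv f) z‖ ≤ K * ‖deriv f z‖)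
    {m : ℂ} (hm : m ∈ ball (0 : ℂ) 1)
    (hs : (1 - ‖m‖ ^ 2) * ‖deriv (deriv f) m‖ ≤ th * ‖deriv f m‖)
    {y : ℂ} (hy : ‖y - m‖ ≤ e * (1 - ‖m‖ ^ 2)) :
    (1 - ‖m‖ ^ 2) * ‖deriv (deriv f) y / deriv f y‖ ≤ th + 24 * K * e := by
  have hρ := rho_pos hm
  set ρ := 1 - ‖m‖ ^ 2 with hρdef
  have hd1 : DifferentiableOn ℂ (deriv f) (ball 0 1) := hf.deriv isOpen_ball
  have hd2 : DifferentiableOn ℂ (deriv (deriv f)) (ball 0 1) := hd1.deriv isOpen_ball
  set φ : ℂ → ℂ := fun z => deriv (deriv f) z / deriv f z with hφ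
  have hφd : DifferentiableOn ℂ φ (ball 0 1) := hd2.div hd1 hf0
  have hcl : ∀ z ∈ ball m (ρ / 4), z ∈ ball (0 : ℂ) 1 ∧ ‖φ z‖ ≤ 3 * K / ρ := by
    intro z hz
    have hz' : ‖z - m‖ ≤ 1 / 4 * (1 - ‖m‖ ^ 2) := by
      have := mem_ball_iff_norm.mp hz
      linarith
    obtain ⟨h1, h2, -⟩ := rho_close hm (by norm_num) le_rfl hz'
    refine ⟨h1, ?_⟩
    have h3 := hb z h1
    have h4 : 0 < ‖deriv f z‖ := norm_pos_iff.mpr (hf0 z h1)
    rw [hφ]
    simp only [norm_div]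
    rw [div_le_div_iff₀ h4 hρ]
    have h5 := mul_le_mul_of_nonneg_right h2 (norm_nonneg (deriv (deriv f) z))
    nlinarith
  have hmaps : MapsTo φ (ball m (ρ / 4)) (closedBall (φ m) (6 * K / ρ)) := by
    intro z hz
    rw [mem_closedBall_iff_norm]
    have h1 := (hcl z hz).2
    have h2 := (hcl m (mem_ball_self (by positivity))).2
    calc ‖φ z - φ m‖ ≤ ‖φ z‖ + ‖φ m‖ := norm_sub_le _ _
      _ ≤ 3 * K / ρ + 3 * K / ρ := add_le_add h1 h2
      _ = 6 * K / ρ := by ring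
  have hyb : y ∈ ball m (ρ / 4) := by
    rw [mem_ball_iff_norm]; nlinarith
  have hS := Complex.dist_le_div_mul_dist_of_mapsTo_ball
    (hφd.mono fun z hz => (hcl z hz).1) hmaps hyb
  rw [dist_eq_norm, dist_eq_norm] at hS
  have h1 : ‖φ y - φ m‖ ≤ 24 * K * e / ρ := by
    refine hS.trans ?_
    calc 6 * K / ρ / (ρ / 4) * ‖y - m‖ ≤ 6 * K / ρ / (ρ / 4) * (e * ρ) := by gcongr
      _ = 24 * K * e / ρ := by field_simp; ring
  have h2 : ρ * ‖φ m‖ ≤ th := by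
    have h4 : 0 < ‖deriv f m‖ := norm_pos_iff.mpr (hf0 m hm)
    rw [hφ]
    simp only [norm_div]
    rw [← mul_div_assoc, div_le_iff₀ h4]
    exact hs
  have h3 : ‖φ y‖ ≤ ‖φ m‖ + 24 * K * e / ρ := by
    have := norm_sub_norm_le (φ y) (φ m)
    linarith
  calc ρ * ‖φ y‖ ≤ ρ * (‖φ m‖ + 24 * K * e / ρ) := by gcongr
    _ = ρ * ‖φ m‖ + 24 * K * e := by field_simp
    _ ≤ th + 24 * K * e := by linarith

/-- Second-order Taylor bound when the pre-Schwarzian is small on a closed ball. -/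
theorem taylor (f : ℂ → ℂ) (m : ℂ) (r L : ℝ) (hr : 0 ≤ r) (hL : 0 ≤ L) (hLr : L * r ≤ 1 / 2)
    (hf : DifferentiableOn ℂ f (ball 0 1)) (hsub : closedBall m r ⊆ ball 0 1)
    (hb : ∀ y ∈ closedBall m r, ‖deriv (deriv f) y‖ ≤ L * ‖deriv f y‖)
    {y : ℂ} (hy : y ∈ closedBall m r) :
    ‖f y - f m - deriv f m * (y - m)‖ ≤ 2 * L * r * ‖deriv f m‖ * r := by
  have hd1 : DifferentiableOn ℂ (deriv f) (ball 0 1) := hf.deriv isOpen_ball
  have hm : m ∈ closedBall m r := mem_closedBall_self hr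
  obtain ⟨y0, hy0, hmax⟩ := (isCompact_closedBall m r).exists_isMaxOn ⟨m, hm⟩
    (f := fun z => ‖deriv f z‖) ((hd1.continuousOn.mono hsub).norm)
  set S := ‖deriv f y0‖ with hS
  have hS0 : 0 ≤ S := norm_nonneg _
  have h1 : ∀ z ∈ closedBall m r, ‖deriv f z - deriv f m‖ ≤ L * S * r := by
    intro z hz
    have := (convex_closedBall m r).norm_image_sub_le_of_norm_hasDerivWithin_le
      (f := deriv f) (f' := deriv (deriv f)) (C := L * S)
      (fun x hx => ((hd1.differentiableAt (isOpen_ball.mem_nhds (hsub hx))).hasDerivAt).hasDerivWithinAt)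
      (fun x hx => (hb x hx).trans (mul_le_mul_of_nonneg_left (hmax hx) hL)) hm hz
    refine this.trans ?_
    exact mul_le_mul_of_nonneg_left (mem_closedBall_iff_norm.mp hz) (by positivity)
  have h2 : S ≤ 2 * ‖deriv f m‖ := by
    have h3 := h1 y0 hy0
    have h4 := norm_sub_norm_le (deriv f y0) (deriv f m)
    have h5 : L * S * r ≤ 1 / 2 * S := by
      rw [mul_right_comm]; exact mul_le_mul_of_nonneg_right hLr hS0
    linarith
  have h3 := (convex_closedBall m r).norm_image_sub_le_of_norm_hasDerivWithin_le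
      (f := fun z => f z - deriv f m * z) (f' := fun z => deriv f z - deriv f m)
      (C := 2 * L * r * ‖deriv f m‖)
      (fun x hx => by
        have h := ((hf.differentiableAt (isOpen_ball.mem_nhds (hsub hx))).hasDerivAt).sub
          ((hasDerivAt_id x).const_mul (deriv f m))
        rw [mul_one] at h
        exact h.hasDerivWithinAt)
      (fun x hx => (h1 x hx).trans (by
        have := mul_le_mul_of_nonneg_left h2 (mul_nonneg hL hr)
        nlinarith)) hm hy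
  have e1 : f y - f m - deriv f m * (y - m) = f y - deriv f m * y - (f m - deriv f m * m) := by
    ring
  rw [e1]
  refine h3.trans ?_
  exact mul_le_mul_of_nonneg_left (mem_closedBall_iff_norm.mp hy) (by positivity)

theorem Fw_Mm (f : ℂ → ℂ) (c : ℝ) (hc : 0 < c) {p : ℂ} (hp : p ∈ ball (0 : ℂ) 1) :
    Fw f c (Mm f c p) p = qv f c p := by
  have hρ := rho_pos hp
  unfold Fw Mm qv
  rw [sub_add_cancel_left, norm_neg, norm_div, norm_mul, norm_mul, norm_mul, Complex.norm_conj,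
    Complex.norm_real, Complex.norm_real, Real.norm_eq_abs, Real.norm_eq_abs, abs_of_pos hρ,
    abs_of_pos hc, Real.rpow_sub hρ, Real.rpow_one]
  simp only [Complex.norm_ofNat]
  ring

theorem Jd_le (f : ℂ → ℂ) (c : ℝ) (hc1 : 7 / 10 ≤ c) (hc2 : c ≤ 8 / 10) {y : ℂ}
    (hy : y ∈ ball (0 : ℂ) 1) (h : (1 - ‖y‖ ^ 2) * ‖deriv (deriv f) y / deriv f y‖ ≤ 1 / 100) :
    Jd f c y ≤ -(1 / 2) := by
  have hρ := rho_pos hy
  have hy1 := mem_ball_zero_iff.mp hy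
  unfold Jd
  have h1 : ‖(((2 * c - 1) * ‖y‖ ^ 2 : ℝ) : ℂ)‖ ≤ 6 / 10 := by
    rw [Complex.norm_real, Real.norm_eq_abs, abs_of_nonneg (by
      apply mul_nonneg (by linarith) (by positivity))]
    nlinarith [sq_nonneg ‖y‖]
  have h2 : ‖((1 - ‖y‖ ^ 2 : ℝ) : ℂ) * y * (deriv (deriv f) y / deriv f y)‖ ≤ 1 / 100 := by
    rw [norm_mul, norm_mul, Complex.norm_real, Real.norm_eq_abs, abs_of_pos hρ, mul_right_comm]
    have h0 : 0 ≤ (1 - ‖y‖ ^ 2) * ‖deriv (deriv f) y / deriv f y‖ := by positivity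
    nlinarith [norm_nonneg y]
  have h3 := (norm_add_le _ _).trans (add_le_add h1 h2)
  have h4 := pow_le_pow_left₀ (norm_nonneg _) h3 2
  linarith

/-- The lower bound on the small circle. -/
theorem circle_bound (f : ℂ → ℂ) (c e : ℝ) (hc1 : 7 / 10 ≤ c) (hc2 : c ≤ 8 / 10) (he0 : 0 < e)
    (he1 : e ≤ 1 / 10000) (hf : DifferentiableOn ℂ f (ball 0 1))
    (hf0 : ∀ z ∈ ball (0 : ℂ) 1, deriv f z ≠ 0)
    {m : ℂ} (hm : m ∈ ball (0 : ℂ) 1) (hm0 : m ≠ 0)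
    (hb : ∀ y, ‖y - m‖ ≤ e * (1 - ‖m‖ ^ 2) →
      (1 - ‖m‖ ^ 2) * ‖deriv (deriv f) y / deriv f y‖ ≤ 1 / 200)
    {y : ℂ} (hy : ‖y - m‖ = e * (1 - ‖m‖ ^ 2)) :
    Real.exp (e ^ 2 / 100) * qv f c m ≤ Fw f c (Mm f c m) y := by
  have hρ := rho_pos hm
  have hm1 := mem_ball_zero_iff.mp hm
  have hc : 0 < c := by linarith
  rw [← Fw_Mm f c hc hm]
  set ρ := 1 - ‖m‖ ^ 2 with hρdef
  have hsub : closedBall m (e * ρ) ⊆ ball 0 1 := fun z hz =>
    (rho_close hm he0.le (by linarith) (mem_closedBall_iff_norm.mp hz)).1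
  have hT := taylor f m (e * ρ) (1 / 200 / ρ) (by positivity) (by positivity)
    (by field_simp; linarith) hf hsub
    (fun z hz => by
      have h1 := hb z (mem_closedBall_iff_norm.mp hz)
      have h4 : 0 < ‖deriv f z‖ := norm_pos_iff.mpr (hf0 z (hsub hz))
      rw [norm_div, ← mul_div_assoc, div_le_iff₀ h4] at h1
      rw [div_mul_eq_mul_div, le_div_iff₀ hρ]
      linarith)
    (y := y) (mem_closedBall_iff_norm.mpr hy.le)
  have hyb : y ∈ ball (0 : ℂ) 1 := hsub (mem_closedBall_iff_norm.mpr hy.le)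
  have hρy := rho_pos hyb
  have hd0 : deriv f m ≠ 0 := hf0 m hm
  have hdn : 0 < ‖deriv f m‖ := norm_pos_iff.mpr hd0
  have hcm : (starRingEnd ℂ) m ≠ 0 := by simpa using hm0
  have hρc : (ρ : ℂ) ≠ 0 := by exact_mod_cast hρ.ne'
  have hcc : (c : ℂ) ≠ 0 := by exact_mod_cast hc.ne'
  set err := f y - f m - deriv f m * (y - m) with herr
  set η : ℂ := (starRingEnd ℂ) m * (y - m) / ρ with hη
  set R : ℂ := -(err * (2 * c * (starRingEnd ℂ) m) / (deriv f m * ρ)) with hR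
  have hfac : f y - Mm f c m = (f m - Mm f c m) * (1 - 2 * (c : ℂ) * η + R) := by
    unfold Mm
    rw [hR, hη, herr, ← hρdef]
    field_simp
    ring
  have hηn : ‖η‖ = ‖m‖ * e := by
    rw [hη, norm_div, norm_mul, Complex.norm_conj, hy, Complex.norm_real, Real.norm_eq_abs,
      abs_of_pos hρ]
    field_simp
  have hRn : ‖R‖ ≤ e ^ 2 / 50 := by
    rw [hR, norm_neg, norm_div, norm_mul, norm_mul, norm_mul, norm_mul, Complex.norm_conj,
      Complex.norm_real, Complex.norm_real, Real.norm_eq_abs, Real.norm_eq_abs, abs_of_pos hρ,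
      abs_of_pos hc, div_le_iff₀ (by positivity)]
    simp only [Complex.norm_ofNat]
    have h1 : 2 * (1 / 200 / ρ) * (e * ρ) * ‖deriv f m‖ * (e * ρ)
        = e ^ 2 / 100 * (‖deriv f m‖ * ρ) := by field_simp; ring
    rw [h1] at hT
    have h2 : 2 * c * ‖m‖ ≤ 2 := by nlinarith [norm_nonneg m]
    calc ‖err‖ * (2 * c * ‖m‖) ≤ e ^ 2 / 100 * (‖deriv f m‖ * ρ) * 2 :=
          mul_le_mul hT h2 (by positivity) (by positivity)
      _ = e ^ 2 / 50 * (‖deriv f m‖ * ρ) := by ring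
  set σ := (1 - ‖y‖ ^ 2) / ρ with hσ
  have hσ0 : 0 < σ := div_pos hρy hρ
  have hσe : σ = 1 - 2 * η.re - ρ * e ^ 2 := by
    have h1 : η.re = ((starRingEnd ℂ) m * (y - m)).re / ρ := by
      rw [hη, Complex.div_ofReal_re]
    rw [hσ, h1, rho_expand m y, hy, ← hρdef]
    field_simp
  have hcore := core c e σ (ρ * e ^ 2) η R hc1 hc2 he0 he1
    (by rw [hηn, hρdef]; nlinarith [sq_nonneg e])
    (by rw [hηn]; nlinarith [norm_nonneg m]) hRn hσ0 (by positivity) hσe.le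
  unfold Fw
  have hy2 : 1 - ‖y‖ ^ 2 = ρ * σ := by rw [hσ]; field_simp
  rw [hfac, norm_mul, ← hρdef, hy2, Real.mul_rpow hρ.le hσ0.le]
  have hρc' : 0 < ρ ^ c := Real.rpow_pos_of_pos hρ c
  have hσc : 0 < σ ^ c := Real.rpow_pos_of_pos hσ0 c
  rw [le_div_iff₀ (by positivity)]
  calc Real.exp (e ^ 2 / 100) * (‖f m - Mm f c m‖ / ρ ^ c) * (ρ ^ c * σ ^ c)
      = ‖f m - Mm f c m‖ * (Real.exp (e ^ 2 / 100) * σ ^ c) := by field_simp
    _ ≤ _ := mul_le_mul_of_nonneg_left hcore (norm_nonneg _)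

theorem exists_cross {S : Set ℂ} {p m : ℂ} (h : JoinedIn S p m) {r : ℝ} (hr : 0 ≤ r)
    (hp : r ≤ ‖p - m‖) : ∃ y ∈ S, ‖y - m‖ = r := by
  obtain ⟨γ, hγ⟩ := h
  have hc : Continuous fun t => ‖γ t - m‖ := by fun_prop
  have := intermediate_value_univ 1 0 hc
  obtain ⟨t, ht⟩ := this (a := r) (by simpa using ⟨hr, hp⟩)
  exact ⟨γ t, hγ t, ht⟩

end Crest.Agent.R131.Persist

namespace Crest.Agent.R131

open Persist in
/-- Block PERSIST. -/
theorem persist : Persist := by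
  intro K hK
  set e : ℝ := min (1 / 10000) (1 / (9600 * K)) with he
  have he0 : 0 < e := lt_min (by norm_num) (by positivity)
  have he1 : e ≤ 1 / 10000 := min_le_left _ _
  have he2 : 24 * K * e ≤ 1 / 400 := by
    have : e ≤ 1 / (9600 * K) := min_le_right _ _
    rw [le_div_iff₀ (by positivity)] at this
    linarith
  refine ⟨1 / 400, e ^ 2 / 100, by norm_num, by positivity, ?_⟩
  intro f c hf hf0 hb hc1 hc2 m hm hm0 hs
  have hρ := rho_pos hm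
  have hsp : ∀ y, ‖y - m‖ ≤ e * (1 - ‖m‖ ^ 2) →
      (1 - ‖m‖ ^ 2) * ‖deriv (deriv f) y / deriv f y‖ ≤ 1 / 200 := fun y hy => by
    have := spread f K (1 / 400) e hK he0.le (by linarith) hf hf0 hb hm hs.le hy
    linarith
  have hJ : ∀ y, ‖y - m‖ ≤ e * (1 - ‖m‖ ^ 2) → Jd f c y ≤ -(1 / 2) := fun y hy => by
    obtain ⟨h1, -, h3⟩ := rho_close hm he0.le (by linarith) hy
    refine Jd_le f c hc1 (by linarith) h1 ?_
    have h4 := mul_le_mul_of_nonneg_right h3 (norm_nonneg (deriv (deriv f) y / deriv f y))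
    have := hsp y hy
    linarith
  refine ⟨hJ m (by simp only [sub_self, norm_zero]; positivity), ?_⟩
  intro p hp hp0 hJp hM hj
  have hfar : e * (1 - ‖m‖ ^ 2) ≤ ‖p - m‖ := by
    by_contra hcon
    have := hJ p (not_le.mp hcon).le
    linarith
  obtain ⟨y, hyS, hy⟩ := exists_cross hj (by positivity) hfar
  have h1 := circle_bound f c e hc1 (by linarith) he0 he1 hf hf0 hm hm0 hsp hy
  rw [hM] at h1
  rw [← Fw_Mm f c (by linarith) hp]
  exact h1.trans hyS.2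

end Crest.Agent.R131
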