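import Mathlib
import Crest.Agent.R162.Koebe
import Crest.Agent.R131.Asm2

/-!
The positive range `0 ≤ t < 2/3` of the area integral of `‖f'‖ ^ t`, from the negative exponent
bound applied to `1 / (f - w)`.
-/

open Set Filter Metric Function MeasureTheory
open scoped Topology ENNReal

namespace Crest.Agent.R131.Pos31

theorem pos_area {F : ℂ → ℂ} (hF : DifferentiableOn ℂ F (ball 0 1)) (hinj : InjOn F (ball 0 1))
    {p : ℝ} (hp : 1 < p) :
    ∫⁻ z in ball (0 : ℂ) 1, ENNReal.ofReal (‖deriv F z‖ ^ 2 * (1 + ‖F z‖ ^ 2) ^ (-p)) < ⊤ := by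
  have h1 := lintegral_image_eq_lintegral_abs_det_fderiv_mul (volume : Measure ℂ)
    (s := ball (0 : ℂ) 1) measurableSet_ball
    (f := F) (f' := fun z => (ContinuousLinearMap.toSpanSingleton ℂ (deriv F z)).restrictScalars ℝ)
    (fun z hz => ((hF.differentiableAt
      (isOpen_ball.mem_nhds hz)).hasDerivAt.hasFDerivAt.restrictScalars
      ℝ).hasFDerivWithinAt) hinj (fun w => ENNReal.ofReal ((1 + ‖w‖ ^ 2) ^ (-p)))
  have h2 : ∫⁻ z in ball (0 : ℂ) 1, ENNReal.ofReal (‖deriv F z‖ ^ 2 * (1 + ‖F z‖ ^ 2) ^ (-p))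
      = ∫⁻ w in F '' ball 0 1, ENNReal.ofReal ((1 + ‖w‖ ^ 2) ^ (-p)) := by
    rw [h1]
    refine lintegral_congr fun z => ?_
    rw [ENNReal.ofReal_mul (by positivity)]
    congr 2
    simp [ContinuousLinearMap.det, LinearMap.det_restrictScalars, Algebra.norm_complex_eq,
      Complex.normSq_eq_norm_sq]
  rw [h2]
  have h3 : Integrable (fun x : ℂ => ((1 : ℝ) + ‖x‖ ^ 2) ^ (-(2 * p) / 2)) volume :=
    integrable_rpow_neg_one_add_norm_sq (by simp [Complex.finrank_real_complex]; linarith)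
  have h4 : (-(2 * p) / 2) = -p := by ring
  rw [h4] at h3
  exact lt_of_le_of_lt (setLIntegral_le_lintegral _ _) h3.lintegral_lt_top

theorem pos_scale (H : ℂ → ℝ≥0∞) (hH : Measurable H) :
    ∫⁻ z in ball (0 : ℂ) 1, ∫⁻ τ in Ioc (1 / 2 : ℝ) 1, H (τ • z)
      ≤ 4 * ∫⁻ ζ in ball (0 : ℂ) 1, ENNReal.ofReal (1 - ‖ζ‖) * H ζ := by
  have hm : Measurable (uncurry fun (z : ℂ) (τ : ℝ) => H (τ • z)) :=
    hH.comp (measurable_snd.smul measurable_fst)
  rw [lintegral_lintegral_swap hm.aemeasurable]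
  set K : ℝ → ℂ → ℝ≥0∞ := fun τ ζ => if ‖ζ‖ < τ then H ζ else 0 with hK
  have hKm : Measurable (uncurry K) := by
    refine Measurable.ite ?_ (hH.comp measurable_snd) measurable_const
    exact measurableSet_lt (measurable_snd.norm) measurable_fst
  have h1 : ∀ τ ∈ Ioc (1 / 2 : ℝ) 1, ∫⁻ z in ball (0 : ℂ) 1, H (τ • z) ≤ 4 * ∫⁻ ζ, K τ ζ := by
    intro τ hτ
    have hτ0 : 0 < τ := by linarith [hτ.1]
    have hKτ : Measurable (K τ) := hKm.comp (measurable_const.prodMk measurable_id)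
    have e1 : ∫⁻ z in ball (0 : ℂ) 1, H (τ • z) = ∫⁻ z, K τ (τ • z) := by
      rw [← lintegral_indicator measurableSet_ball]
      refine lintegral_congr fun z => ?_
      simp only [hK, indicator, mem_ball, dist_zero_right, norm_smul, Real.norm_eq_abs,
        abs_of_pos hτ0]
      by_cases hz : ‖z‖ < 1
      · rw [if_pos hz, if_pos (by nlinarith)]
      · rw [if_neg hz, if_neg (by push Not at hz ⊢; nlinarith)]
    rw [e1, ← lintegral_map hKτ (measurable_const_smul τ),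
      Measure.map_addHaar_smul volume hτ0.ne', lintegral_smul_measure, smul_eq_mul]
    refine mul_le_mul_left ?_ _
    rw [Complex.finrank_real_complex, abs_of_pos (by positivity)]
    have : (τ ^ 2)⁻¹ ≤ 4 := by
      rw [inv_le_comm₀ (by positivity) (by norm_num)]
      nlinarith [hτ.1]
    calc ENNReal.ofReal (τ ^ 2)⁻¹ ≤ ENNReal.ofReal 4 := ENNReal.ofReal_le_ofReal this
      _ = 4 := by simp
  calc ∫⁻ τ in Ioc (1 / 2 : ℝ) 1, ∫⁻ z in ball (0 : ℂ) 1, H (τ • z)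
      ≤ ∫⁻ τ in Ioc (1 / 2 : ℝ) 1, 4 * ∫⁻ ζ, K τ ζ := setLIntegral_mono' measurableSet_Ioc h1
    _ = 4 * ∫⁻ τ in Ioc (1 / 2 : ℝ) 1, ∫⁻ ζ, K τ ζ := by
        rw [lintegral_const_mul' _ _ (by simp)]
    _ = 4 * ∫⁻ ζ, ∫⁻ τ in Ioc (1 / 2 : ℝ) 1, K τ ζ := by
        rw [lintegral_lintegral_swap hKm.aemeasurable]
    _ ≤ 4 * ∫⁻ ζ in ball (0 : ℂ) 1, ENNReal.ofReal (1 - ‖ζ‖) * H ζ := by
        refine mul_le_mul_right ?_ _
        rw [← lintegral_indicator measurableSet_ball]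
        refine lintegral_mono fun ζ => ?_
        have e2 : ∫⁻ τ in Ioc (1 / 2 : ℝ) 1, K τ ζ ≤ ∫⁻ τ in Ioc ‖ζ‖ 1, H ζ := by
          rw [← lintegral_indicator measurableSet_Ioc, ← lintegral_indicator measurableSet_Ioc]
          refine lintegral_mono fun τ => ?_
          simp only [hK, indicator, mem_Ioc]
          by_cases h : 1 / 2 < τ ∧ τ ≤ 1
          · rw [if_pos h]
            by_cases h' : ‖ζ‖ < τ
            · rw [if_pos h', if_pos ⟨h', h.2⟩]
            · rw [if_neg h']; exact zero_le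
          · rw [if_neg h]; exact zero_le
        refine e2.trans ?_
        rw [setLIntegral_const, Real.volume_Ioc, mul_comm]
        simp only [indicator, mem_ball, dist_zero_right]
        by_cases hz : ‖ζ‖ < 1
        · rw [if_pos hz]
        · rw [if_neg hz, ENNReal.ofReal_of_nonpos (by push Not at hz; linarith), zero_mul]

theorem pos_rad {F : ℂ → ℂ} (hF : DifferentiableOn ℂ F (ball 0 1)) {q : ℝ} (hq0 : 0 < q)
    (hq1 : q ≤ 1) {z : ℂ} (hz : z ∈ ball (0 : ℂ) 1) :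
    (1 + ‖F z‖ ^ 2) ^ (q / 2) - (1 + ‖F ((1 / 2 : ℝ) • z)‖ ^ 2) ^ (q / 2)
      ≤ ∫ τ in (1 / 2 : ℝ)..1,
        ‖deriv F (τ • z)‖ * (1 + ‖F (τ • z)‖ ^ 2) ^ ((q - 1) / 2) := by
  have hz1 : ‖z‖ < 1 := by simpa using hz
  have hmem : ∀ τ ∈ Icc (1 / 2 : ℝ) 1, τ • z ∈ ball (0 : ℂ) 1 := by
    intro τ hτ
    rw [mem_ball, dist_zero_right, norm_smul, Real.norm_eq_abs, abs_of_pos (by linarith [hτ.1])]
    nlinarith [hτ.1, hτ.2, norm_nonneg z]
  have hsm : Continuous fun τ : ℝ => τ • z := by fun_prop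
  have hc1 : ContinuousOn (fun τ : ℝ => F (τ • z)) (Icc (1 / 2 : ℝ) 1) :=
    hF.continuousOn.comp hsm.continuousOn hmem
  have hc2 : ContinuousOn (fun τ : ℝ => deriv F (τ • z)) (Icc (1 / 2 : ℝ) 1) :=
    (hF.deriv isOpen_ball).continuousOn.comp hsm.continuousOn hmem
  have hW : ContinuousOn (fun τ : ℝ => 1 + ‖F (τ • z)‖ ^ 2) (Icc (1 / 2 : ℝ) 1) :=
    continuousOn_const.add (hc1.norm.pow 2)
  have hd : ∀ τ ∈ Icc (1 / 2 : ℝ) 1, HasDerivAt (fun τ : ℝ => F (τ • z)) (deriv F (τ • z) * z) τ := by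
    intro τ hτ
    have h1 := (hF.differentiableAt (isOpen_ball.mem_nhds (hmem τ hτ))).hasDerivAt
    have h2 : HasDerivAt (fun τ : ℝ => τ • z) z τ := by
      simpa using (hasDerivAt_id τ).smul_const z
    have h3 := (h1.hasFDerivAt.restrictScalars ℝ).comp_hasDerivAt τ h2
    have h4 : ((ContinuousLinearMap.toSpanSingleton ℂ (deriv F (τ • z))).restrictScalars ℝ) z
        = deriv F (τ • z) * z := by simp [mul_comm]
    rw [h4] at h3
    exact h3
  have key := intervalIntegral.sub_le_integral_of_hasDeriv_right_of_le (a := 1 / 2) (b := 1)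
    (g := fun τ : ℝ => (1 + ‖F (τ • z)‖ ^ 2) ^ (q / 2))
    (g' := fun τ : ℝ => (2 * inner ℝ (F (τ • z)) (deriv F (τ • z) * z)) * (q / 2) *
      (1 + ‖F (τ • z)‖ ^ 2) ^ (q / 2 - 1))
    (φ := fun τ : ℝ => ‖deriv F (τ • z)‖ * (1 + ‖F (τ • z)‖ ^ 2) ^ ((q - 1) / 2))
    (by norm_num) (hW.rpow_const fun τ _ => Or.inl (by positivity))
    (fun τ hτ => by
      have h1 := ((hd τ (Ioo_subset_Icc_self hτ)).norm_sq.const_add 1).rpow_const (p := q / 2)
        (Or.inl (by positivity))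
      exact h1.hasDerivWithinAt)
    ((hc2.norm.mul (hW.rpow_const fun τ _ => Or.inl (by positivity))).integrableOn_Icc)
    (fun τ _ => by
      set a := F (τ • z)
      set b := deriv F (τ • z)
      have hW0 : (0 : ℝ) < 1 + ‖a‖ ^ 2 := by positivity
      have h1 : inner ℝ a (b * z) ≤ ‖a‖ * ‖b‖ := by
        refine (real_inner_le_norm _ _).trans ?_
        rw [norm_mul]
        have := mul_nonneg (norm_nonneg a) (norm_nonneg b)
        nlinarith
      have h2 : ‖a‖ ≤ (1 + ‖a‖ ^ 2) ^ (1 / 2 : ℝ) := by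
        rw [← Real.sqrt_eq_rpow]
        exact Real.le_sqrt_of_sq_le (by linarith)
      have h3 : (1 + ‖a‖ ^ 2) ^ ((q - 1) / 2) =
          (1 + ‖a‖ ^ 2) ^ (1 / 2 : ℝ) * (1 + ‖a‖ ^ 2) ^ (q / 2 - 1) := by
        rw [← Real.rpow_add hW0]; congr 1; ring
      rw [h3]
      have h4 : 0 ≤ (1 + ‖a‖ ^ 2) ^ (q / 2 - 1) := by positivity
      have h5 : 2 * inner ℝ a (b * z) * (q / 2) ≤ ‖b‖ * (1 + ‖a‖ ^ 2) ^ (1 / 2 : ℝ) := by
        have h6 := mul_nonneg (norm_nonneg a) (norm_nonneg b)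
        have h7 := mul_le_mul_of_nonneg_left h2 (norm_nonneg b)
        nlinarith
      calc _ ≤ ‖b‖ * (1 + ‖a‖ ^ 2) ^ (1 / 2 : ℝ) * (1 + ‖a‖ ^ 2) ^ (q / 2 - 1) :=
            mul_le_mul_of_nonneg_right h5 h4
        _ = _ := by ring)
  simpa using key

theorem pos_omit {f : ℂ → ℂ} (hf : DifferentiableOn ℂ f (ball 0 1)) (hinj : InjOn f (ball 0 1)) :
    ∃ w, w ∉ f '' ball (0 : ℂ) 1 := by
  by_contra hall
  push Not at hall
  have huniv : f '' ball (0 : ℂ) 1 = univ := eq_univ_of_forall hall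
  set g := invFunOn f (ball (0 : ℂ) 1)
  have hg : Differentiable ℂ g := by
    intro w
    obtain ⟨a, ha, rfl⟩ := hall w
    exact (Lib.RMT.hasStrictDerivAt_invFunOn isOpen_ball hf hinj ha).hasDerivAt.differentiableAt
  have hb : Bornology.IsBounded (range g) := by
    refine (isBounded_ball (x := (0 : ℂ)) (r := 1)).subset ?_
    rintro _ ⟨w, rfl⟩
    obtain ⟨a, ha, haw⟩ := hall w
    exact invFunOn_mem ⟨a, ha, haw⟩
  have h0 : (0 : ℂ) ∈ ball (0 : ℂ) 1 := mem_ball_self one_pos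
  have h1 : (1 / 2 : ℂ) ∈ ball (0 : ℂ) 1 := by
    rw [mem_ball, dist_zero_right]; norm_num
  have := hg.apply_eq_apply_of_bounded hb (f 0) (f (1 / 2))
  have e0 : g (f 0) = 0 := hinj.leftInvOn_invFunOn h0
  have e1 : g (f (1 / 2)) = 1 / 2 := hinj.leftInvOn_invFunOn h1
  rw [e0, e1] at this
  norm_num at this

/-- The negative-exponent area bound used as hypothesis. -/
def PosHyp : Prop := ∀ e : ℝ, 0 < e → ∀ g : ℂ → ℂ, DifferentiableOn ℂ g (ball 0 1) →
  InjOn g (ball 0 1) → g 0 = 0 → deriv g 0 = 1 →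
  ∫⁻ z in ball (0 : ℂ) 1,
    ENNReal.ofReal (‖deriv g z‖ ^ (-(2 : ℝ)) * (1 - ‖z‖ ^ 2) ^ ((1 + e) - 1)) < ⊤

theorem pos_l2 (hA : PosHyp) {F : ℂ → ℂ} (hF : DifferentiableOn ℂ F (ball 0 1))
    (hinj : InjOn F (ball 0 1)) (h0 : ∀ z ∈ ball (0 : ℂ) 1, F z ≠ 0) {e : ℝ} (he : 0 < e) :
    ∫⁻ z in ball (0 : ℂ) 1, ENNReal.ofReal ((1 - ‖z‖) ^ (2 + e) * ‖F z‖ ^ 2) < ⊤ := by
  set g : ℂ → ℂ := fun z => (F z)⁻¹ with hg
  have hgd : DifferentiableOn ℂ g (ball 0 1) := hF.inv h0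
  have hgi : InjOn g (ball 0 1) := fun a ha b hb hab => hinj ha hb (inv_injective hab)
  have hb0 : (0 : ℂ) ∈ ball (0 : ℂ) 1 := mem_ball_self one_pos
  have hd0 : deriv g 0 ≠ 0 := Lib.RMT.deriv_ne_zero_of_injOn isOpen_ball hgd hgi hb0
  set c := deriv g 0 with hc
  set k : ℂ → ℂ := fun z => (g z - g 0) / c with hk
  have hkd : DifferentiableOn ℂ k (ball 0 1) := (hgd.sub_const _).div_const _
  have hki : InjOn k (ball 0 1) := by
    intro a ha b hb hab
    refine hgi ha hb ?_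
    have : g a - g 0 = g b - g 0 := by
      have := congrArg (· * c) hab
      simpa [hk, div_mul_cancel₀ _ hd0] using this
    exact sub_left_injective this
  have hkder : ∀ z, deriv k z = deriv g z / c := by
    intro z
    simp only [hk]
    rw [deriv_div_const, deriv_sub_const]
  have h1 := hA e he k hkd hki (by simp [hk]) (by rw [hkder, ← hc, div_self hd0])
  have hcpos : 0 < ‖c‖ := norm_pos_iff.2 hd0
  refine lt_of_le_of_lt (b := ENNReal.ofReal (400 ^ 2 / ‖c‖ ^ 2) * ∫⁻ z in ball (0 : ℂ) 1,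
    ENNReal.ofReal (‖deriv k z‖ ^ (-(2 : ℝ)) * (1 - ‖z‖ ^ 2) ^ ((1 + e) - 1))) ?_
    (ENNReal.mul_lt_top ENNReal.ofReal_lt_top h1)
  rw [← lintegral_const_mul' _ _ ENNReal.ofReal_ne_top]
  refine setLIntegral_mono' measurableSet_ball fun z hz => ?_
  rw [← ENNReal.ofReal_mul (by positivity)]
  refine ENNReal.ofReal_le_ofReal ?_
  have hz1 : ‖z‖ < 1 := by simpa using hz
  have hsub : ball z (1 - ‖z‖) ⊆ ball (0 : ℂ) 1 := by
    intro u hu
    rw [mem_ball, dist_zero_right]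
    rw [mem_ball, dist_eq_norm] at hu
    have := norm_add_le (u - z) z
    rw [sub_add_cancel] at this
    linarith
  have hK := R162.koebe_omit (w := 0) (by linarith : 0 < 1 - ‖z‖) (hgd.mono hsub) (hgi.mono hsub)
    (by rintro ⟨u, hu, hu0⟩; exact inv_ne_zero (h0 u (hsub hu)) hu0)
  rw [sub_zero] at hK
  have hgz : deriv g z ≠ 0 := Lib.RMT.deriv_ne_zero_of_injOn isOpen_ball hgd hgi hz
  have hgp : 0 < ‖deriv g z‖ := norm_pos_iff.2 hgz
  have hFp : 0 < ‖F z‖ := norm_pos_iff.2 (h0 z hz)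
  have hd : 0 < 1 - ‖z‖ := by linarith
  have hK2 : (1 - ‖z‖) * ‖F z‖ ≤ 400 / ‖deriv g z‖ := by
    rw [le_div_iff₀ hgp]
    simp only [hg, norm_inv] at hK
    have := mul_le_mul_of_nonneg_right hK hFp.le
    rw [mul_assoc 400, inv_mul_cancel₀ hFp.ne'] at this
    linarith
  have hK3 : ((1 - ‖z‖) * ‖F z‖) ^ 2 ≤ (400 / ‖deriv g z‖) ^ 2 :=
    pow_le_pow_left₀ (by positivity) hK2 2
  have e1 : (1 - ‖z‖) ^ (2 + e) = (1 - ‖z‖) ^ 2 * (1 - ‖z‖) ^ e := by
    rw [Real.rpow_add hd, Real.rpow_two]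
  have e2 : (1 - ‖z‖) ^ e ≤ (1 - ‖z‖ ^ 2) ^ ((1 + e) - 1) := by
    rw [add_sub_cancel_left]
    exact Real.rpow_le_rpow hd.le (by nlinarith [norm_nonneg z]) he.le
  have e3 : ‖deriv k z‖ ^ (-(2 : ℝ)) = ‖c‖ ^ 2 / ‖deriv g z‖ ^ 2 := by
    rw [hkder, norm_div, Real.rpow_neg (by positivity), Real.rpow_two, div_pow, inv_div]
  rw [e1, e3]
  have e4 : 0 ≤ (1 - ‖z‖) ^ e := by positivity
  calc (1 - ‖z‖) ^ 2 * (1 - ‖z‖) ^ e * ‖F z‖ ^ 2 = ((1 - ‖z‖) * ‖F z‖) ^ 2 * (1 - ‖z‖) ^ e := by ring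
    _ ≤ (400 / ‖deriv g z‖) ^ 2 * (1 - ‖z‖ ^ 2) ^ ((1 + e) - 1) :=
        mul_le_mul hK3 e2 e4 (by positivity)
    _ = _ := by field_simp

theorem pos_pt1 {d b W q : ℝ} (hd : 0 < d) (hd1 : d ≤ 1) (hW : 0 ≤ W) (hq0 : 0 < q)
    (hq1 : q < 1) :
    d * (b * (1 + W) ^ ((q - 1) / 2)) ≤
      b ^ 2 * (1 + W) ^ (-(1 + (1 - q) / 2)) + (2 + d ^ (2 + (4 / (1 + q) - 2)) * W) := by
  have hV : 0 < 1 + W := by linarith
  set a := (1 + q) / 2 with ha
  have ha0 : 0 < a := by positivity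
  have ha1 : a ≤ 1 := by linarith
  set X := b * (1 + W) ^ (-(1 + (1 - q) / 2) / 2)
  set Y := d * (1 + W) ^ (a / 2)
  have e1 : d * (b * (1 + W) ^ ((q - 1) / 2)) = X * Y := by
    have : (1 + W) ^ ((q - 1) / 2) = (1 + W) ^ (-(1 + (1 - q) / 2) / 2) * (1 + W) ^ (a / 2) := by
      rw [← Real.rpow_add hV]; congr 1; rw [ha]; ring
    rw [this]; simp only [X, Y]; ring
  have e2 : X ^ 2 = b ^ 2 * (1 + W) ^ (-(1 + (1 - q) / 2)) := by
    simp only [X]
    rw [mul_pow, ← Real.rpow_natCast ((1 + W) ^ _), ← Real.rpow_mul hV.le]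
    congr 2; push_cast; ring
  set s := 2 + (4 / (1 + q) - 2) with hs
  have hsa : s * a = 2 := by rw [hs, ha]; field_simp; ring
  have hs0 : 0 < s := by
    by_contra h
    push Not at h
    nlinarith
  have e3 : Y ^ 2 = (d ^ s * (1 + W)) ^ a := by
    simp only [Y]
    rw [mul_pow, ← Real.rpow_natCast ((1 + W) ^ _), ← Real.rpow_mul hV.le,
      Real.mul_rpow (by positivity) hV.le, ← Real.rpow_mul hd.le, hsa, Real.rpow_two]
    congr 2; push_cast; ring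
  have e4 : (d ^ s * (1 + W)) ^ a ≤ 1 + d ^ s * (1 + W) := by
    have hx : 0 ≤ d ^ s * (1 + W) := by positivity
    by_cases h : d ^ s * (1 + W) ≤ 1
    · have := Real.rpow_le_one hx h ha0.le
      linarith
    · push Not at h
      have := Real.rpow_le_rpow_of_exponent_le h.le ha1
      rw [Real.rpow_one] at this
      linarith
  have e5 : d ^ s ≤ 1 := Real.rpow_le_one hd.le hd1 hs0.le
  rw [e1, ← e2]
  nlinarith [sq_nonneg (X - Y), sq_nonneg X, sq_nonneg Y]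

theorem pos_q (hA : PosHyp) {F : ℂ → ℂ} (hF : DifferentiableOn ℂ F (ball 0 1))
    (hinj : InjOn F (ball 0 1)) (h0 : ∀ z ∈ ball (0 : ℂ) 1, F z ≠ 0) {q : ℝ} (hq0 : 0 < q)
    (hq1 : q < 1) :
    ∫⁻ z in ball (0 : ℂ) 1, ENNReal.ofReal ((1 + ‖F z‖ ^ 2) ^ (q / 2)) < ⊤ := by
  classical
  set G : ℂ → ℂ := (ball (0 : ℂ) 1).piecewise F 0 with hG
  have hGm : Measurable G :=
    hF.continuousOn.measurable_piecewise continuousOn_const measurableSet_ball
  have hGF : ∀ z ∈ ball (0 : ℂ) 1, G z = F z := fun z hz => piecewise_eq_of_mem _ _ _ hz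
  set H : ℂ → ℝ≥0∞ := fun ζ =>
    ENNReal.ofReal (‖deriv F ζ‖ * (1 + ‖G ζ‖ ^ 2) ^ ((q - 1) / 2)) with hH
  have hHm : Measurable H := by
    refine Measurable.ennreal_ofReal ((measurable_deriv F).norm.mul ?_)
    exact (measurable_const.add (hGm.norm.pow_const 2)).pow_const _
  obtain ⟨M, hM⟩ := (isCompact_closedBall (0 : ℂ) (1 / 2)).exists_bound_of_continuousOn
    (hF.continuousOn.mono (closedBall_subset_ball (by norm_num)))
  have hpt : ∀ z ∈ ball (0 : ℂ) 1, ENNReal.ofReal ((1 + ‖F z‖ ^ 2) ^ (q / 2)) ≤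
      ENNReal.ofReal ((1 + M ^ 2) ^ (q / 2)) + ∫⁻ τ in Ioc (1 / 2 : ℝ) 1, H (τ • z) := by
    intro z hz
    have hz1 : ‖z‖ < 1 := by simpa using hz
    have h1 := pos_rad hF hq0 hq1.le hz
    have h2 : ‖F ((1 / 2 : ℝ) • z)‖ ≤ M := hM _ (by
      rw [mem_closedBall, dist_zero_right, norm_smul, Real.norm_eq_abs, abs_of_pos (by norm_num)]
      linarith)
    have h3 : (1 + ‖F ((1 / 2 : ℝ) • z)‖ ^ 2) ^ (q / 2) ≤ (1 + M ^ 2) ^ (q / 2) :=
      Real.rpow_le_rpow (by positivity)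
        (by have := pow_le_pow_left₀ (norm_nonneg _) h2 2; linarith) (by positivity)
    have h4 : ENNReal.ofReal (∫ τ in (1 / 2 : ℝ)..1,
        ‖deriv F (τ • z)‖ * (1 + ‖F (τ • z)‖ ^ 2) ^ ((q - 1) / 2))
        ≤ ∫⁻ τ in Ioc (1 / 2 : ℝ) 1, H (τ • z) := by
      rw [intervalIntegral.integral_of_le (by norm_num)]
      refine (Real.ofReal_le_enorm _).trans ((enorm_integral_le_lintegral_enorm _).trans ?_)
      refine setLIntegral_mono' measurableSet_Ioc fun τ hτ => ?_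
      have hmem : τ • z ∈ ball (0 : ℂ) 1 := by
        rw [mem_ball, dist_zero_right, norm_smul, Real.norm_eq_abs,
          abs_of_pos (by linarith [hτ.1])]
        nlinarith [hτ.1, hτ.2, norm_nonneg z]
      rw [Real.enorm_eq_ofReal (by positivity)]
      simp only [hH, hGF _ hmem, le_refl]
    refine le_trans ?_ (add_le_add le_rfl h4)
    refine le_trans (ENNReal.ofReal_le_ofReal (by linarith : _ ≤ (1 + M ^ 2) ^ (q / 2) +
      ∫ τ in (1 / 2 : ℝ)..1, ‖deriv F (τ • z)‖ * (1 + ‖F (τ • z)‖ ^ 2) ^ ((q - 1) / 2)))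
      ENNReal.ofReal_add_le
  have hvol : volume (ball (0 : ℂ) 1) < ⊤ := measure_ball_lt_top
  have he : 0 < 4 / (1 + q) - 2 := by
    rw [sub_pos, lt_div_iff₀ (by linarith)]; linarith
  have hA1 := pos_area hF hinj (p := 1 + (1 - q) / 2) (by linarith)
  have hA2 := pos_l2 hA hF hinj h0 he
  have hm1 : AEMeasurable (fun z => ENNReal.ofReal
      (‖deriv F z‖ ^ 2 * (1 + ‖F z‖ ^ 2) ^ (-(1 + (1 - q) / 2))))
      (volume.restrict (ball (0 : ℂ) 1)) := by
    refine AEMeasurable.ennreal_ofReal ?_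
    refine ((measurable_deriv F).norm.pow_const 2).aemeasurable.mul ?_
    exact (aemeasurable_const.add (((hF.continuousOn.aemeasurable
      measurableSet_ball).norm).pow_const 2)).pow_const _
  have hB : ∫⁻ ζ in ball (0 : ℂ) 1, ENNReal.ofReal (1 - ‖ζ‖) * H ζ < ⊤ := by
    calc ∫⁻ ζ in ball (0 : ℂ) 1, ENNReal.ofReal (1 - ‖ζ‖) * H ζ
        ≤ ∫⁻ ζ in ball (0 : ℂ) 1, (ENNReal.ofReal
          (‖deriv F ζ‖ ^ 2 * (1 + ‖F ζ‖ ^ 2) ^ (-(1 + (1 - q) / 2))) + (ENNReal.ofReal 2 +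
            ENNReal.ofReal ((1 - ‖ζ‖) ^ (2 + (4 / (1 + q) - 2)) * ‖F ζ‖ ^ 2))) := by
          refine setLIntegral_mono' measurableSet_ball fun ζ hζ => ?_
          have hz1 : ‖ζ‖ < 1 := by simpa using hζ
          simp only [hH, hGF _ hζ]
          rw [← ENNReal.ofReal_mul (by linarith)]
          refine le_trans (ENNReal.ofReal_le_ofReal (pos_pt1 (by linarith)
            (by linarith [norm_nonneg ζ]) (by positivity) hq0 hq1)) ?_
          exact ENNReal.ofReal_add_le.trans (add_le_add le_rfl ENNReal.ofReal_add_le)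
      _ < ⊤ := by
          rw [lintegral_add_left' hm1, lintegral_add_left measurable_const, setLIntegral_const]
          exact ENNReal.add_lt_top.2 ⟨hA1, ENNReal.add_lt_top.2
            ⟨ENNReal.mul_lt_top ENNReal.ofReal_lt_top hvol, hA2⟩⟩
  calc ∫⁻ z in ball (0 : ℂ) 1, ENNReal.ofReal ((1 + ‖F z‖ ^ 2) ^ (q / 2))
      ≤ ∫⁻ z in ball (0 : ℂ) 1, (ENNReal.ofReal ((1 + M ^ 2) ^ (q / 2)) +
          ∫⁻ τ in Ioc (1 / 2 : ℝ) 1, H (τ • z)) := setLIntegral_mono' measurableSet_ball hpt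
    _ < ⊤ := by
        rw [lintegral_add_left measurable_const, setLIntegral_const]
        refine ENNReal.add_lt_top.2 ⟨ENNReal.mul_lt_top ENNReal.ofReal_lt_top hvol, ?_⟩
        exact lt_of_le_of_lt (pos_scale H hHm) (ENNReal.mul_lt_top (by simp) hB)

theorem pos_pt2 {b V p q t : ℝ} (hb : 0 ≤ b) (hV : 1 ≤ V) (ht0 : 0 ≤ t) (ht2 : t < 2)
    (hpq : p / (2 - t) * t ≤ q / 2) : b ^ t ≤ b ^ 2 * V ^ (-p) + V ^ (q / 2) := by
  have hV0 : 0 < V := by linarith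
  have h2t : 0 < 2 - t := by linarith
  have h1 : 0 ≤ b ^ 2 * V ^ (-p) := by positivity
  have h2 : 0 ≤ V ^ (q / 2) := by positivity
  by_cases h : b ≤ V ^ (p / (2 - t))
  · have h3 := Real.rpow_le_rpow hb h ht0
    rw [← Real.rpow_mul hV0.le] at h3
    have h4 := Real.rpow_le_rpow_of_exponent_le hV hpq
    linarith
  · push Not at h
    have hb0 : 0 < b := lt_trans (by positivity) h
    have h3 := Real.rpow_le_rpow (by positivity) h.le h2t.le
    rw [← Real.rpow_mul hV0.le, div_mul_cancel₀ _ h2t.ne'] at h3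
    have h4 : b ^ 2 = b ^ t * b ^ (2 - t) := by
      rw [← Real.rpow_add hb0, ← Real.rpow_two]; congr 1; ring
    have h5 : V ^ (-p) * V ^ p = 1 := by rw [← Real.rpow_add hV0]; simp
    have h6 : 0 < b ^ t := by positivity
    have h7 : 0 < V ^ (-p) := by positivity
    have h8 : b ^ t * (V ^ (-p) * V ^ p) ≤ b ^ t * (V ^ (-p) * b ^ (2 - t)) :=
      mul_le_mul_of_nonneg_left (mul_le_mul_of_nonneg_left h3 h7.le) h6.le
    rw [h5] at h8
    rw [h4]
    nlinarith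

/-- The positive range of the area integral. -/
theorem pos_part (hA : PosHyp) (f : ℂ → ℂ) (hf : DifferentiableOn ℂ f (ball 0 1))
    (hinj : InjOn f (ball 0 1)) (t : ℝ) (ht0 : 0 ≤ t) (ht : t < 2 / 3) :
    ∫⁻ w in ball (0 : ℂ) 1, ‖deriv f w‖ₑ ^ t < ⊤ := by
  obtain ⟨w₁, hw₁⟩ := pos_omit hf hinj
  set F : ℂ → ℂ := fun z => f z - w₁ with hFdef
  have hF : DifferentiableOn ℂ F (ball 0 1) := hf.sub_const _
  have hFi : InjOn F (ball 0 1) := fun a ha b hb hab => hinj ha hb (sub_left_injective hab)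
  have h0 : ∀ z ∈ ball (0 : ℂ) 1, F z ≠ 0 := fun z hz h => hw₁ ⟨z, hz, sub_eq_zero.1 h⟩
  have hder : ∀ z, deriv F z = deriv f z := fun z => deriv_sub_const _
  have h2t : 0 < 2 - t := by linarith
  set q₀ := 2 * t / (2 - t) with hq₀
  have hq₀0 : 0 ≤ q₀ := by positivity
  have hq₀1 : q₀ < 1 := by rw [hq₀, div_lt_one h2t]; linarith
  set q := (1 + q₀) / 2 with hq
  set p := (1 + q) / (1 + q₀) with hp
  have hp1 : 1 < p := by rw [hp, one_lt_div (by linarith)]; linarith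
  have hpq : p / (2 - t) * t ≤ q / 2 := by
    have e1 : p / (2 - t) * t = p * q₀ / 2 := by rw [hq₀]; field_simp
    have e2 : p * q₀ ≤ q := by
      rw [hp, div_mul_eq_mul_div, div_le_iff₀ (by linarith)]
      nlinarith
    linarith
  have hA1 := pos_area hF hFi hp1
  have hA2 := pos_q hA hF hFi h0 (q := q) (by linarith) (by linarith)
  have hm1 : AEMeasurable (fun z => ENNReal.ofReal
      (‖deriv F z‖ ^ 2 * (1 + ‖F z‖ ^ 2) ^ (-p))) (volume.restrict (ball (0 : ℂ) 1)) := by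
    refine AEMeasurable.ennreal_ofReal ?_
    refine ((measurable_deriv F).norm.pow_const 2).aemeasurable.mul ?_
    exact (aemeasurable_const.add (((hF.continuousOn.aemeasurable
      measurableSet_ball).norm).pow_const 2)).pow_const _
  calc ∫⁻ w in ball (0 : ℂ) 1, ‖deriv f w‖ₑ ^ t
      ≤ ∫⁻ w in ball (0 : ℂ) 1, (ENNReal.ofReal (‖deriv F w‖ ^ 2 * (1 + ‖F w‖ ^ 2) ^ (-p)) +
          ENNReal.ofReal ((1 + ‖F w‖ ^ 2) ^ (q / 2))) := by
        refine lintegral_mono fun w => ?_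
        rw [← ofReal_norm_eq_enorm, ENNReal.ofReal_rpow_of_nonneg (norm_nonneg _) ht0, ← hder]
        exact (ENNReal.ofReal_le_ofReal (pos_pt2 (norm_nonneg _)
          (by nlinarith [norm_nonneg (F w)]) ht0 (by linarith) hpq)).trans ENNReal.ofReal_add_le
    _ < ⊤ := by
        rw [lintegral_add_left' hm1]
        exact ENNReal.add_lt_top.2 ⟨hA1, hA2⟩

theorem posPart_of (hA : ∀ e : ℝ, 0 < e → AreaBound 2 (1 + e)) : PosPart := by
  intro f hf hinj t ht0 ht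
  refine pos_part ?_ f hf hinj t ht0.le ht
  intro e he g hg hgi h0 h1
  obtain ⟨C, hC⟩ := hA e he
  exact (hC g hg hgi h0 h1).trans_lt ENNReal.ofReal_lt_top

end Crest.Agent.R131.Pos31
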