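import Crest.Agent.R131.Strict31
import Crest.Agent.R131.Asm2
import Crest.Agent.R131.PreS
import Crest.Agent.R131.Persist
import Crest.Agent.R131.Dens65
import Crest.Agent.R131.IdentThm
import Crest.Agent.R131.Deg63
import Crest.Agent.R131.Pos31

/-! Row 131: the area bounds, unconditionally. -/

namespace Crest.Agent.R131.Final31

theorem two (e : ℝ) (he : 0 < e) : AreaBound 2 (1 + e) :=
  Close.areaBound_two Deg63.degFlex ident_holds PreS.preSchw e he

theorem one : ∃ b : ℝ, 0 < b ∧ b < 1 / 4 ∧ AreaBound 1 b :=
  Strict31.strict_of Deg63.degFlex ident_holds dens65 persist PreS.preSchw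

theorem pos : PosPart := Pos31.posPart_of two

end Crest.Agent.R131.Final31
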