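import Mathlib
import Crest.Agent.R131.Asm

/-! Row 131: from an integrated inequality to the uniform weighted area bound. -/

open Set Metric MeasureTheory Filter
open scoped ENNReal Topology

namespace Crest.Agent.R131.Glue

/-- Uniform lower bound for the derivative on a smaller disc. -/
theorem deriv_lower (hP : PreSchw) {r0 : ℝ} (h0 : 0 ≤ r0) (h1 : r0 < 1) :
    ∃ ka : ℝ, 0 < ka ∧ ∀ f : ℂ → ℂ, DifferentiableOn ℂ f (ball 0 1) → InjOn f (ball 0 1) →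
      deriv f 0 = 1 → ∀ z : ℂ, ‖z‖ ≤ r0 → ka ≤ ‖deriv f z‖ := by
  obtain ⟨K0, hK0⟩ := hP
  set K : ℝ := max K0 0 with hK
  have hK0' : 0 ≤ K := le_max_right _ _
  have hL : 0 < 1 - r0 := by linarith
  refine ⟨Real.exp (-(K / (1 - r0))), Real.exp_pos _, fun f hf hi hd z hz => ?_⟩
  have hf' : DifferentiableOn ℂ (deriv f) (ball 0 1) := hf.deriv isOpen_ball
  have hn : ∀ x ∈ Icc (0 : ℝ) 1, ‖((1 - x : ℝ) : ℂ) * z‖ ≤ ‖z‖ := fun x hx => by
    rw [norm_mul, Complex.norm_real, Real.norm_eq_abs, abs_of_nonneg (by linarith [hx.2])]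
    nlinarith [norm_nonneg z, hx.1]
  have hm : ∀ x ∈ Icc (0 : ℝ) 1, ((1 - x : ℝ) : ℂ) * z ∈ ball (0 : ℂ) 1 := fun x hx => by
    rw [mem_ball_zero_iff]; linarith [hn x hx]
  have hdd : ∀ x ∈ Icc (0 : ℝ) 1, HasDerivAt (fun x : ℝ => deriv f (((1 - x : ℝ) : ℂ) * z))
      (deriv (deriv f) (((1 - x : ℝ) : ℂ) * z) * (-z)) x := by
    intro x hx
    have h2 : HasDerivAt (deriv f) (deriv (deriv f) (((1 - x : ℝ) : ℂ) * z))
        (((1 - x : ℝ) : ℂ) * z) :=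
      (hf'.differentiableAt (isOpen_ball.mem_nhds (hm x hx))).hasDerivAt
    have h3 : HasDerivAt (fun w : ℂ => (1 - w) * z) (-z) (x : ℂ) := by
      simpa using ((hasDerivAt_id (x : ℂ)).const_sub 1).mul_const z
    have h4 : ((1 - x : ℝ) : ℂ) * z = (fun w : ℂ => (1 - w) * z) (x : ℂ) := by
      simp
    rw [h4] at h2
    have h5 := (h2.comp (x : ℂ) h3).comp_ofReal
    have h6 : (fun y : ℝ => (deriv f ∘ fun w : ℂ => (1 - w) * z) (y : ℂ)) =
        fun x : ℝ => deriv f (((1 - x : ℝ) : ℂ) * z) := by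
      funext y; simp
    rw [h6] at h5
    simpa using h5
  have key := norm_le_gronwallBound_of_norm_deriv_right_le
    (f := fun x : ℝ => deriv f (((1 - x : ℝ) : ℂ) * z))
    (f' := fun x : ℝ => deriv (deriv f) (((1 - x : ℝ) : ℂ) * z) * (-z))
    (δ := ‖deriv f z‖) (K := K / (1 - r0)) (ε := 0) (a := 0) (b := 1)
    (fun x hx => (hdd x hx).continuousAt.continuousWithinAt)
    (fun x hx => (hdd x ⟨hx.1, hx.2.le⟩).hasDerivWithinAt) (by simp)
    (fun x hx => by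
      have hx' : x ∈ Icc (0 : ℝ) 1 := ⟨hx.1, hx.2.le⟩
      have h2 := hK0 f hf hi _ (hm x hx')
      have h3 := hn x hx'
      have h4 := norm_nonneg (deriv (deriv f) (((1 - x : ℝ) : ℂ) * z))
      have h5 := norm_nonneg (deriv f (((1 - x : ℝ) : ℂ) * z))
      have h6 : K0 ≤ K := le_max_left _ _
      have h7 : ‖z‖ ≤ 1 := by linarith
      rw [norm_mul, norm_neg, add_zero, div_mul_eq_mul_div, le_div_iff₀ hL]
      have h8 : ‖deriv (deriv f) (((1 - x : ℝ) : ℂ) * z)‖ * ‖z‖ * (1 - r0) ≤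
          ‖deriv (deriv f) (((1 - x : ℝ) : ℂ) * z)‖ * (1 - ‖((1 - x : ℝ) : ℂ) * z‖) := by
        rw [mul_assoc]
        refine mul_le_mul_of_nonneg_left ?_ h4
        nlinarith [norm_nonneg z]
      nlinarith) 1 ⟨zero_le_one, le_rfl⟩
  rw [gronwallBound_ε0] at key
  simp only [sub_self, Complex.ofReal_zero, zero_mul, hd, norm_one, sub_zero, mul_one] at key
  rw [Real.exp_neg, inv_le_iff_one_le_mul₀ (Real.exp_pos _)]
  exact key

/-- The weight is bounded on a smaller disc, uniformly on the class `S`. -/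
theorem weight_le (hP : PreSchw) {s : ℝ} (hs : 0 ≤ s) (b : ℝ) {r0 : ℝ} (h0 : 0 ≤ r0)
    (h1 : r0 < 1) :
    ∃ B : ℝ, 0 ≤ B ∧ ∀ f : ℂ → ℂ, DifferentiableOn ℂ f (ball 0 1) → InjOn f (ball 0 1) →
      deriv f 0 = 1 → ∀ z : ℂ, ‖z‖ ≤ r0 →
        ‖deriv f z‖ ^ (-s) * (1 - ‖z‖ ^ 2) ^ (b - 1) ≤ B := by
  obtain ⟨ka, hka, H⟩ := deriv_lower hP h0 h1
  have hr : 0 < 1 - r0 ^ 2 := by nlinarith
  refine ⟨ka ^ (-s) * (1 - r0 ^ 2) ^ (-|b - 1|), by positivity, fun f hf hi hd z hz => ?_⟩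
  have hz0 := norm_nonneg z
  have h2 : 1 - r0 ^ 2 ≤ 1 - ‖z‖ ^ 2 := by nlinarith
  have h3 : 1 - ‖z‖ ^ 2 ≤ 1 := by nlinarith
  refine mul_le_mul (Real.rpow_le_rpow_of_nonpos hka (H f hf hi hd z hz) (by linarith)) ?_
    (Real.rpow_nonneg (by linarith) _) (by positivity)
  calc (1 - ‖z‖ ^ 2) ^ (b - 1) ≤ (1 - ‖z‖ ^ 2) ^ (-|b - 1|) :=
        Real.rpow_le_rpow_of_exponent_ge (by linarith) h3 (neg_abs_le _)
    _ ≤ (1 - r0 ^ 2) ^ (-|b - 1|) :=
        Real.rpow_le_rpow_of_nonpos hr h2 (neg_nonpos.2 (abs_nonneg _))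

/-- An integrated inequality with a radial factor that is positive near the circle gives the
uniform area bound. -/
theorem areaBoundR_of_ineq (hP : PreSchw) {s b : ℝ} (hs : 0 ≤ s) (φ : ℝ → ℝ) {r0 de P D : ℝ}
    (h0 : 0 ≤ r0) (h1 : r0 < 1) (hde : 0 < de) (hout : ∀ r, r0 ≤ r → r < 1 → de ≤ φ r)
    (hin : ∀ r, 0 ≤ r → r ≤ r0 → -P ≤ φ r)
    (H : ∀ (R : ℝ) (f : ℂ → ℂ), 1 < R → DifferentiableOn ℂ f (ball 0 R) → InjOn f (ball 0 R) →
      f 0 = 0 → deriv f 0 = 1 →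
      IntegrableOn (fun z : ℂ => φ ‖z‖ * (‖deriv f z‖ ^ (-s) * (1 - ‖z‖ ^ 2) ^ (b - 1)))
        (ball 0 1) ∧
      ∫ z in ball (0 : ℂ) 1, φ ‖z‖ * (‖deriv f z‖ ^ (-s) * (1 - ‖z‖ ^ 2) ^ (b - 1)) ≤ D) :
    AreaBoundR s b := by
  obtain ⟨B, hB, HB⟩ := weight_le hP hs b h0 h1
  set V : ℝ := (volume (ball (0 : ℂ) 1)).toReal with hV
  have hV0 : 0 ≤ V := ENNReal.toReal_nonneg
  have hVfin : volume (ball (0 : ℂ) 1) ≠ ⊤ := measure_ball_lt_top.ne
  set Q : ℝ := (|P| + de) * B with hQ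
  have hQ0 : 0 ≤ Q := by positivity
  refine ⟨(D + Q * V) / de, fun R f hR hf hi hf0 hd => ?_⟩
  obtain ⟨hI, hD⟩ := H R f hR hf hi hf0 hd
  have hf1 : DifferentiableOn ℂ f (ball 0 1) := hf.mono (ball_subset_ball hR.le)
  have hi1 : InjOn f (ball 0 1) := hi.mono (ball_subset_ball hR.le)
  set g : ℂ → ℝ := fun z => ‖deriv f z‖ ^ (-s) * (1 - ‖z‖ ^ 2) ^ (b - 1) with hg
  have hc : IntegrableOn (fun _ : ℂ => Q) (ball (0 : ℂ) 1) :=
    integrableOn_const hVfin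
  have hI2 : IntegrableOn (fun z : ℂ => (φ ‖z‖ * g z + Q) / de) (ball (0 : ℂ) 1) :=
    (hI.add hc).div_const de
  have hpt : ∀ z ∈ ball (0 : ℂ) 1, 0 ≤ g z ∧ g z ≤ (φ ‖z‖ * g z + Q) / de := by
    intro z hz
    rw [mem_ball_zero_iff] at hz
    have hz0 := norm_nonneg z
    have hg0 : 0 ≤ g z :=
      mul_nonneg (Real.rpow_nonneg (norm_nonneg _) _) (Real.rpow_nonneg (by nlinarith) _)
    refine ⟨hg0, ?_⟩
    rw [le_div_iff₀ hde]
    rcases le_total r0 ‖z‖ with h | h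
    · have := hout _ h hz
      nlinarith
    · have h2 := hin _ hz0 h
      have h3 : g z ≤ B := HB f hf1 hi1 hd z h
      have h4 : -|P| ≤ φ ‖z‖ := by linarith [le_abs_self P]
      have h5 : -|P| * g z ≤ φ ‖z‖ * g z := mul_le_mul_of_nonneg_right h4 hg0
      have h6 : (|P| + de) * g z ≤ (|P| + de) * B :=
        mul_le_mul_of_nonneg_left h3 (by positivity)
      nlinarith
  calc ∫⁻ z in ball (0 : ℂ) 1, ENNReal.ofReal (g z)
      ≤ ∫⁻ z in ball (0 : ℂ) 1, ENNReal.ofReal ((φ ‖z‖ * g z + Q) / de) :=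
        setLIntegral_mono' measurableSet_ball fun z hz => ENNReal.ofReal_le_ofReal (hpt z hz).2
    _ = ENNReal.ofReal (∫ z in ball (0 : ℂ) 1, (φ ‖z‖ * g z + Q) / de) := by
        refine (ofReal_integral_eq_lintegral_ofReal hI2 ?_).symm
        refine (ae_restrict_iff' measurableSet_ball).2 (ae_of_all _ fun z hz => ?_)
        exact (hpt z hz).1.trans (hpt z hz).2
    _ ≤ ENNReal.ofReal ((D + Q * V) / de) := by
        refine ENNReal.ofReal_le_ofReal ?_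
        rw [integral_div, integral_add hI hc]
        refine div_le_div_of_nonneg_right ?_ hde.le
        have : ∫ _ in ball (0 : ℂ) 1, Q = Q * V := by
          rw [setIntegral_const, smul_eq_mul, mul_comm]; rfl
        rw [this]
        exact add_le_add hD le_rfl

/-- Positive part below negative part, in integral form. -/
theorem integral_nonpos_of_lintegral {α : Type*} [MeasurableSpace α] {μ : Measure α}
    {h : α → ℝ} (hI : Integrable h μ)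
    (H : ∫⁻ x, ENNReal.ofReal (h x) ∂μ ≤ ∫⁻ x, ENNReal.ofReal (-h x) ∂μ) :
    ∫ x, h x ∂μ ≤ 0 := by
  rw [integral_eq_lintegral_pos_part_sub_lintegral_neg_part hI, sub_nonpos]
  refine ENNReal.toReal_mono ?_ H
  have := hI.neg.lintegral_lt_top
  exact this.ne

/-- The non-strict range `b > s² / 4`. -/
theorem areaBoundR_plain (hP : PreSchw) {s b c : ℝ} (hs : 0 < s)
    (hc : b - 1 = (s + 2) * (c - 1)) (hb : s ^ 2 / 4 < b)
    (H : ∀ (R : ℝ) (f : ℂ → ℂ), 1 < R → DifferentiableOn ℂ f (ball 0 R) → InjOn f (ball 0 R) →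
      f 0 = 0 → deriv f 0 = 1 →
      IntegrableOn (fun z : ℂ => ‖z‖ ^ s * (4 * c * ‖z‖ ^ 2 - (s + 2)) *
        (‖deriv f z‖ ^ (-s) * (1 - ‖z‖ ^ 2) ^ (b - 1))) (ball 0 1) ∧
      ∫ z in ball (0 : ℂ) 1, ‖z‖ ^ s * (4 * c * ‖z‖ ^ 2 - (s + 2)) *
        (‖deriv f z‖ ^ (-s) * (1 - ‖z‖ ^ 2) ^ (b - 1)) ≤ 0) :
    AreaBoundR s b := by
  have h4 : s + 2 < 4 * c := by
    have h5 : (s + 2) * (s + 2) < (s + 2) * (4 * c) := by nlinarith
    exact lt_of_mul_lt_mul_left h5 (by linarith)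
  have hc0 : 0 < c := by linarith
  -- r0 ^ 2 is the midpoint of (s+2)/(4c) and 1
  set m : ℝ := ((s + 2) / (4 * c) + 1) / 2 with hm
  have hq : (s + 2) / (4 * c) < 1 := by rw [div_lt_one (by linarith)]; exact h4
  have hq0 : 0 < (s + 2) / (4 * c) := by positivity
  have hm0 : 0 < m := by rw [hm]; linarith
  have hm1 : m < 1 := by rw [hm]; linarith
  have hcm : 4 * c * m - (s + 2) = (4 * c - (s + 2)) / 2 := by
    rw [hm]; field_simp; ring
  set r0 : ℝ := Real.sqrt m with hr0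
  have hr00 : 0 < r0 := Real.sqrt_pos.2 hm0
  have hr01 : r0 < 1 := by rw [hr0, Real.sqrt_lt' one_pos]; simpa using hm1
  have hsq : r0 ^ 2 = m := Real.sq_sqrt hm0.le
  refine areaBoundR_of_ineq hP hs.le (fun r => r ^ s * (4 * c * r ^ 2 - (s + 2)))
    (r0 := r0) (de := r0 ^ s * ((4 * c - (s + 2)) / 2)) (P := s + 2) (D := 0) hr00.le hr01
    (mul_pos (Real.rpow_pos_of_pos hr00 _) (by linarith)) ?_ ?_ H
  · intro r hr hr1
    have h5 : r0 ^ s ≤ r ^ s := Real.rpow_le_rpow hr00.le hr hs.le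
    have h6 : m ≤ r ^ 2 := by rw [← hsq]; nlinarith
    have h7 : (4 * c - (s + 2)) / 2 ≤ 4 * c * r ^ 2 - (s + 2) := by rw [← hcm]; nlinarith
    exact mul_le_mul h5 h7 (by linarith) (Real.rpow_nonneg (by linarith) _)
  · intro r hr hr1
    have h5 : r ^ s ≤ 1 := Real.rpow_le_one hr (by linarith) hs.le
    have h6 : 0 ≤ r ^ s := Real.rpow_nonneg hr _
    have h7 : 0 ≤ 4 * c * r ^ 2 := by positivity
    have h8 : 0 ≤ r ^ s * (4 * c * r ^ 2) := mul_nonneg h6 h7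
    show -(s + 2) ≤ r ^ s * (4 * c * r ^ 2 - (s + 2))
    nlinarith

end Crest.Agent.R131.Glue
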