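import Mathlib
import Crest.Agent.R131.Defs
import Crest.Agent.R131.Glue

/-! Row 131: the area bounds from the four blocks. -/

open Set Metric MeasureTheory Filter
open scoped ENNReal Topology

namespace Crest.Agent.R131.Glue

theorem meas_Jd (f : ℂ → ℂ) (c : ℝ) : Measurable (Jd f c) := by
  have h1 : Measurable (deriv f) := measurable_deriv f
  have h2 : Measurable (deriv (deriv f)) := measurable_deriv _
  unfold Jd
  fun_prop

theorem meas_qv (f : ℂ → ℂ) (c : ℝ) : Measurable (qv f c) := by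
  have h1 : Measurable (deriv f) := measurable_deriv f
  unfold qv
  exact (h1.norm.mul ((measurable_const.sub (measurable_norm.pow_const 2)).pow_const _)).div
    (measurable_const.mul measurable_norm)

theorem meas_Wt (f : ℂ → ℂ) (s b : ℝ) : Measurable (Wt f s b) := by
  have h1 : Measurable (deriv f) := measurable_deriv f
  unfold Wt
  exact ((measurable_norm.pow_const _).mul (h1.norm.pow_const _)).mul
    ((measurable_const.sub (measurable_norm.pow_const 2)).pow_const _)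

theorem Wt_nonneg (f : ℂ → ℂ) (s b : ℝ) {z : ℂ} (hz : z ∈ ball (0 : ℂ) 1) : 0 ≤ Wt f s b z := by
  rw [mem_ball_zero_iff] at hz
  have h0 := norm_nonneg z
  unfold Wt
  exact mul_nonneg (mul_nonneg (Real.rpow_nonneg h0 _) (Real.rpow_nonneg (norm_nonneg _) _))
    (Real.rpow_nonneg (by nlinarith) _)

theorem qv_pos {f : ℂ → ℂ} {c : ℝ} (hc : 0 < c) {z : ℂ} (hz : z ∈ ball (0 : ℂ) 1) (h0 : z ≠ 0)
    (hd : deriv f z ≠ 0) : 0 < qv f c z := by
  rw [mem_ball_zero_iff] at hz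
  have h1 : 0 < ‖z‖ := norm_pos_iff.2 h0
  have h2 : 0 < ‖deriv f z‖ := norm_pos_iff.2 hd
  have h3 : 0 < 1 - ‖z‖ ^ 2 := by nlinarith
  unfold qv
  positivity

theorem weight_eq {f : ℂ → ℂ} {s b c : ℝ} (hc : 0 < c) (hb : b - 1 = (s + 2) * (c - 1)) {z : ℂ}
    (hz : z ∈ ball (0 : ℂ) 1) (h0 : z ≠ 0) (hd : deriv f z ≠ 0) (J : ℝ) :
    ‖deriv f z‖ ^ 2 * J / (4 * c ^ 2 * ‖z‖ ^ 4) * ((2 * c) ^ (-s) * qv f c z ^ (-(s + 2))) =
      Wt f s b z * J := by
  rw [mem_ball_zero_iff] at hz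
  have h1 : 0 < ‖z‖ := norm_pos_iff.2 h0
  have h2 : 0 < ‖deriv f z‖ := norm_pos_iff.2 hd
  have h3 : 0 < 1 - ‖z‖ ^ 2 := by nlinarith
  have h4 : 0 < 2 * c := by linarith
  unfold qv Wt
  generalize ‖deriv f z‖ = d at *
  generalize hρ : 1 - ‖z‖ ^ 2 = ρ at *
  generalize ‖z‖ = r at *
  have e1 : (d * ρ ^ (1 - c) / (2 * c * r)) ^ (-(s + 2)) =
      d ^ (-(s + 2)) * ρ ^ (b - 1) * ((2 * c) ^ (s + 2) * r ^ (s + 2)) := by
    rw [Real.div_rpow (by positivity) (by positivity), Real.mul_rpow h2.le (by positivity),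
      ← Real.rpow_mul h3.le, Real.rpow_neg (x := 2 * c * r) (by positivity), div_inv_eq_mul,
      Real.mul_rpow h4.le h1.le]
    congr 3
    rw [hb]; ring
  have e2 : d ^ (-(s + 2)) = d ^ (-s) / d ^ 2 := by
    rw [show -(s + 2) = -s - ((2 : ℕ) : ℝ) by push_cast; ring, Real.rpow_sub h2, Real.rpow_natCast]
  have e3 : (2 * c) ^ (s + 2) = (2 * c) ^ s * (2 * c) ^ 2 := by
    rw [show s + 2 = s + ((2 : ℕ) : ℝ) by push_cast; ring, Real.rpow_add h4, Real.rpow_natCast]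
  have e4 : r ^ (s + 2) = r ^ (s - 2) * r ^ 4 := by
    rw [show s + 2 = (s - 2) + ((4 : ℕ) : ℝ) by push_cast; ring, Real.rpow_add h1,
      Real.rpow_natCast]
  have e5 : (2 * c) ^ (-s) = ((2 * c) ^ s)⁻¹ := Real.rpow_neg h4.le s
  have h5 : 0 < (2 * c) ^ s := Real.rpow_pos_of_pos h4 s
  rw [e1, e2, e3, e4, e5]
  field_simp
  ring

/-- Weighted form of the degree inequality. -/
theorem deg_weighted (hD : DegFlex) {R : ℝ} {f : ℂ → ℂ} {s b c : ℝ} (hR : 1 < R)
    (hf : DifferentiableOn ℂ f (ball 0 R)) (hi : InjOn f (ball 0 R)) (hs : 0 < s) (hc : 0 < c)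
    (hb : b - 1 = (s + 2) * (c - 1)) {om : ℂ → ℝ} (hom : Measurable om) (h0 : ∀ z, 0 ≤ om z)
    (h1 : ∀ z, om z ≤ 1)
    (hp : ∀ p ∈ ball (0 : ℂ) 1, ∀ m ∈ ball (0 : ℂ) 1, p ≠ 0 → m ≠ 0 → 0 < Jd f c p →
      Jd f c m < 0 → Mm f c m = Mm f c p → qv f c m < qv f c p →
      JoinedIn {z | z ∈ ball (0 : ℂ) 1 ∧ Fw f c (Mm f c p) z ≤ Fw f c (Mm f c p) p} p m →
      qv f c p ^ (-(s + 2)) ≤ qv f c m ^ (-(s + 2)) * om m)
    (hI : IntegrableOn (fun z => Wt f s b z * Jd f c z) (ball 0 1)) :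
    IntegrableOn (fun z => Wt f s b z * Jd f c z * om z) (ball 0 1) ∧
      ∫ z in ball (0 : ℂ) 1, Wt f s b z * Jd f c z * om z ≤ 0 := by
  have hne : ∀ z ∈ ball (0 : ℂ) 1, deriv f z ≠ 0 := fun z hz =>
    Crest.Agent.Lib.RMT.deriv_ne_zero_of_injOn isOpen_ball hf hi (ball_subset_ball hR.le hz)
  have hI2 : IntegrableOn (fun z => Wt f s b z * Jd f c z * om z) (ball 0 1) := by
    refine Integrable.mono hI
      (((meas_Wt f s b).mul (meas_Jd f c)).mul hom).aestronglyMeasurable (ae_of_all _ fun z => ?_)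
    rw [norm_mul, Real.norm_eq_abs (om z), abs_of_nonneg (h0 z)]
    exact mul_le_of_le_one_right (norm_nonneg _) (h1 z)
  refine ⟨hI2, integral_nonpos_of_lintegral hI2 ?_⟩
  have hk : 0 < (2 * c) ^ (-s) := Real.rpow_pos_of_pos (by linarith) _
  have hqm : Measurable fun z => (2 * c) ^ (-s) * qv f c z ^ (-(s + 2)) :=
    measurable_const.mul ((meas_qv f c).pow_const _)
  have key := hD R f c hR hf hi hc
    (fun z => ENNReal.ofReal ((2 * c) ^ (-s) * qv f c z ^ (-(s + 2))))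
    (fun z => ENNReal.ofReal ((2 * c) ^ (-s) * qv f c z ^ (-(s + 2)) * om z))
    hqm.ennreal_ofReal (hqm.mul hom).ennreal_ofReal
    (fun p hp1 m hm1 hp0 hm0 a1 a2 a3 a4 a5 => by
      refine ENNReal.ofReal_le_ofReal ?_
      rw [mul_assoc]
      exact mul_le_mul_of_nonneg_left (hp p hp1 m hm1 hp0 hm0 a1 a2 a3 a4 a5) hk.le)
  have hA : MeasurableSet {z : ℂ | z ∈ ball (0 : ℂ) 1 ∧ z ≠ 0 ∧ 0 < Jd f c z} :=
    measurableSet_ball.inter ((measurableSet_singleton (0 : ℂ)).compl.inter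
      (measurableSet_lt measurable_const (meas_Jd f c)))
  have hB : MeasurableSet {z : ℂ | z ∈ ball (0 : ℂ) 1 ∧ z ≠ 0 ∧ Jd f c z < 0} :=
    measurableSet_ball.inter ((measurableSet_singleton (0 : ℂ)).compl.inter
      (measurableSet_lt (meas_Jd f c) measurable_const))
  have hae : ∀ᵐ z : ℂ, z ≠ 0 := by
    simp [ae_iff, measure_singleton]
  calc ∫⁻ z in ball (0 : ℂ) 1, ENNReal.ofReal (Wt f s b z * Jd f c z * om z)
      ≤ ∫⁻ z in {z : ℂ | z ∈ ball (0 : ℂ) 1 ∧ z ≠ 0 ∧ 0 < Jd f c z},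
          ENNReal.ofReal (‖deriv f z‖ ^ 2 * |Jd f c z| / (4 * c ^ 2 * ‖z‖ ^ 4)) *
            ENNReal.ofReal ((2 * c) ^ (-s) * qv f c z ^ (-(s + 2))) := by
        rw [← lintegral_indicator measurableSet_ball, ← lintegral_indicator hA]
        refine lintegral_mono_ae (hae.mono fun z hz0 => ?_)
        by_cases hz : z ∈ ball (0 : ℂ) 1
        · rw [indicator_of_mem hz]
          have hW := Wt_nonneg f s b hz
          by_cases hJ : 0 < Jd f c z
          · rw [indicator_of_mem (show z ∈ {z : ℂ | z ∈ ball (0 : ℂ) 1 ∧ z ≠ 0 ∧ 0 < Jd f c z}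
              from ⟨hz, hz0, hJ⟩), ← ENNReal.ofReal_mul (by positivity),
              weight_eq hc hb hz hz0 (hne z hz), abs_of_pos hJ]
            exact ENNReal.ofReal_le_ofReal
              (mul_le_of_le_one_right (mul_nonneg hW hJ.le) (h1 z))
          · rw [ENNReal.ofReal_of_nonpos
              (mul_nonpos_of_nonpos_of_nonneg
                (mul_nonpos_of_nonneg_of_nonpos hW (not_lt.1 hJ)) (h0 z))]
            exact zero_le
        · rw [indicator_of_notMem hz]; exact zero_le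
    _ ≤ _ := key
    _ ≤ ∫⁻ z in ball (0 : ℂ) 1, ENNReal.ofReal (-(Wt f s b z * Jd f c z * om z)) := by
        refine le_trans (setLIntegral_mono' hB fun z hz => ?_)
          (lintegral_mono_set (fun z hz => hz.1))
        rw [← ENNReal.ofReal_mul (by positivity), ← mul_assoc,
          weight_eq hc hb hz.1 hz.2.1 (hne z hz.1), abs_of_neg hz.2.2]
        exact ENNReal.ofReal_le_ofReal (le_of_eq (by ring))

theorem qv_rpow_le {f : ℂ → ℂ} {s c : ℝ} (hs : 0 < s) (hc : 0 < c) {m p : ℂ}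
    (hm : m ∈ ball (0 : ℂ) 1) (hm0 : m ≠ 0) (hd : deriv f m ≠ 0) {k : ℝ}
    (h : Real.exp k * qv f c m ≤ qv f c p) :
    qv f c p ^ (-(s + 2)) ≤ qv f c m ^ (-(s + 2)) * Real.exp (-((s + 2) * k)) := by
  have hq := qv_pos hc hm hm0 hd
  have h1 := Real.rpow_le_rpow_of_nonpos (mul_pos (Real.exp_pos k) hq) h
    (show -(s + 2) ≤ 0 by linarith)
  rw [Real.mul_rpow (Real.exp_pos k).le hq.le, ← Real.exp_mul, mul_comm] at h1
  convert h1 using 3
  ring

/-- The non-strict range. -/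
theorem areaBoundR_of_blocks (hD : DegFlex) (hId : Ident) (hP : PreSchw) {s b : ℝ} (hs : 0 < s)
    (hb : s ^ 2 / 4 < b) : AreaBoundR s b := by
  set c : ℝ := 1 + (b - 1) / (s + 2) with hc
  have hs2 : 0 < s + 2 := by linarith
  have hb0 : 0 < b := lt_of_le_of_lt (by positivity) hb
  have hbc : b - 1 = (s + 2) * (c - 1) := by rw [hc]; field_simp; ring
  have hc0 : 0 < c := by
    have : (s + 2) * 0 < (s + 2) * c := by nlinarith
    exact lt_of_mul_lt_mul_left this hs2.le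
  refine areaBoundR_plain hP hs hbc hb fun R f hR hf hi _ _ => ?_
  have hne : ∀ z ∈ ball (0 : ℂ) R, deriv f z ≠ 0 := fun z hz =>
    Crest.Agent.Lib.RMT.deriv_ne_zero_of_injOn isOpen_ball hf hi hz
  obtain ⟨hI, hI', he⟩ := hId R f s b c hR hf hne hs hb0 hbc
  have e : (fun z : ℂ => ‖z‖ ^ s * (4 * c * ‖z‖ ^ 2 - (s + 2)) *
        (‖deriv f z‖ ^ (-s) * (1 - ‖z‖ ^ 2) ^ (b - 1))) =
      fun z : ℂ => ‖z‖ ^ s * (1 - ‖z‖ ^ 2) ^ (b - 1) * (4 * c * ‖z‖ ^ 2 - (s + 2)) *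
        ‖deriv f z‖ ^ (-s) := by
    funext z; ring
  rw [e]
  refine ⟨hI', ?_⟩
  have h1 := (deg_weighted hD hR hf hi hs hc0 hbc (om := fun _ => 1) measurable_const
    (fun _ => zero_le_one) (fun _ => le_rfl)
    (fun p _ m hm _ hm0 _ _ _ hq _ => by
      have := qv_rpow_le (f := f) (p := p) hs hc0 hm hm0 (hne m (ball_subset_ball hR.le hm))
        (k := 0) (by simpa using hq.le)
      simpa using this) hI).2
  simp only [mul_one] at h1
  rw [he] at h1
  have h2 : 0 < 4 * c / s ^ 2 := by positivity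
  by_contra h3
  exact absurd h1 (not_le.2 (mul_pos h2 (not_le.1 h3)))

/-- The strict bound at `s = 1`. -/
theorem areaBoundR_strict (hD : DegFlex) (hId : Ident) (hDe : Dens) (hPe : Persist)
    (hP : PreSchw) : ∃ b : ℝ, 0 < b ∧ b < 1 / 4 ∧ AreaBoundR 1 b := by
  obtain ⟨K0, hK0⟩ := id hP
  set K : ℝ := 2 * max K0 1 with hK
  have hK1 : (1 : ℝ) ≤ max K0 1 := le_max_right _ _
  have hKpos : 0 < K := by rw [hK]; linarith
  obtain ⟨th, kap, hth, hkap, HP⟩ := hPe K hKpos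
  obtain ⟨C, hC, HD⟩ := hDe K th hKpos hth
  set E : ℝ := Real.exp (-((1 + 2) * kap)) with hE
  have hE0 : 0 < E := Real.exp_pos _
  have hE1 : E < 1 := by rw [hE, Real.exp_lt_one_iff]; linarith
  set ta : ℝ := (1 - E) / 2 / (3 * C) with hta
  have hta0 : 0 < ta := by rw [hta]; exact div_pos (by linarith) (by linarith)
  set et : ℝ := min (ta / 16) (1 / 20) with het
  have het0 : 0 < et := lt_min (by linarith) (by norm_num)
  have het1 : et ≤ ta / 16 := min_le_left _ _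
  have het2 : et ≤ 1 / 20 := min_le_right _ _
  set ep : ℝ := min (ta / 12) (1 / 2) with hep
  have hep0 : 0 < ep := lt_min (by linarith) (by norm_num)
  have hep1 : ep ≤ ta / 12 := min_le_left _ _
  have hep2 : ep ≤ 1 / 2 := min_le_right _ _
  set c : ℝ := 3 / 4 - et with hc
  set b : ℝ := 1 / 4 - 3 * et with hb
  have hc0 : 0 < c := by rw [hc]; linarith
  have hb0 : 0 < b := by rw [hb]; linarith
  have hbc : b - 1 = (1 + 2) * (c - 1) := by rw [hb, hc]; ring
  set r0 : ℝ := Real.sqrt (1 - ep) with hr0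
  have hr00 : 0 ≤ r0 := Real.sqrt_nonneg _
  have hr01 : r0 < 1 := by rw [hr0, Real.sqrt_lt' one_pos]; linarith
  have hsq : r0 ^ 2 = 1 - ep := Real.sq_sqrt (by linarith)
  refine ⟨b, hb0, by rw [hb]; linarith, ?_⟩
  refine areaBoundR_of_ineq hP zero_le_one
    (fun r => r ^ (1 : ℝ) * (4 * c * r ^ 2 - (1 + 2)) + ta)
    (r0 := r0) (de := ta / 2) (P := 3) (D := 0) hr00 hr01 (by linarith) ?_ ?_ ?_
  · intro r hr hr1
    have h0 : 0 ≤ r := hr00.trans hr
    have h6 : 1 - ep ≤ r ^ 2 := by rw [← hsq]; nlinarith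
    have h7 : r ^ 2 ≤ 1 := by nlinarith
    have h8 : 4 * c * r ^ 2 - (1 + 2) ≤ 0 := by rw [hc]; nlinarith
    have h9 : -(ta / 2) ≤ 4 * c * r ^ 2 - (1 + 2) := by
      have : 4 * c * (1 - ep) ≤ 4 * c * r ^ 2 := mul_le_mul_of_nonneg_left h6 (by linarith)
      have h10 : 4 * c * (1 - ep) = 3 - 3 * ep - 4 * et + 4 * (et * ep) := by rw [hc]; ring
      have h11 : 0 ≤ et * ep := by positivity
      linarith
    show ta / 2 ≤ r ^ (1 : ℝ) * (4 * c * r ^ 2 - (1 + 2)) + ta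
    rw [Real.rpow_one]
    nlinarith
  · intro r hr hr1
    show -3 ≤ r ^ (1 : ℝ) * (4 * c * r ^ 2 - (1 + 2)) + ta
    rw [Real.rpow_one]
    have h7 : 0 ≤ 4 * c * r ^ 2 := by positivity
    have h8 : 0 ≤ r * (4 * c * r ^ 2) := mul_nonneg hr h7
    nlinarith
  intro R f hR hf hi _ _
  have hf1 : DifferentiableOn ℂ f (ball 0 1) := hf.mono (ball_subset_ball hR.le)
  have hi1 : InjOn f (ball 0 1) := hi.mono (ball_subset_ball hR.le)
  have hne : ∀ z ∈ ball (0 : ℂ) R, deriv f z ≠ 0 := fun z hz =>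
    Crest.Agent.Lib.RMT.deriv_ne_zero_of_injOn isOpen_ball hf hi hz
  have hne1 : ∀ z ∈ ball (0 : ℂ) 1, deriv f z ≠ 0 := fun z hz => hne z (ball_subset_ball hR.le hz)
  have hKb : ∀ z ∈ ball (0 : ℂ) 1,
      (1 - ‖z‖ ^ 2) * ‖deriv (deriv f) z‖ ≤ K * ‖deriv f z‖ := by
    intro z hz
    have h2 := hK0 f hf1 hi1 z hz
    rw [mem_ball_zero_iff] at hz
    have h3 := norm_nonneg z
    have h4 := norm_nonneg (deriv (deriv f) z)
    have h5 := norm_nonneg (deriv f z)
    have h6 : K0 * ‖deriv f z‖ ≤ max K0 1 * ‖deriv f z‖ :=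
      mul_le_mul_of_nonneg_right (le_max_left _ _) h5
    have h7 : (1 - ‖z‖ ^ 2) * ‖deriv (deriv f) z‖ ≤ 2 * ((1 - ‖z‖) * ‖deriv (deriv f) z‖) := by
      rw [← mul_assoc]
      exact mul_le_mul_of_nonneg_right (by nlinarith) h4
    rw [hK]; linarith
  obtain ⟨hI, hI', he⟩ := hId R f 1 b c hR hf hne one_pos hb0 hbc
  set G : Set ℂ :=
    {z | z ∈ ball (0 : ℂ) 1 ∧ (1 - ‖z‖ ^ 2) * ‖deriv (deriv f) z‖ < th * ‖deriv f z‖} with hG
  have hGm : MeasurableSet G := by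
    have a1 : Measurable fun z : ℂ => (1 - ‖z‖ ^ 2) * ‖deriv (deriv f) z‖ :=
      (measurable_const.sub (measurable_norm.pow_const 2)).mul (measurable_deriv _).norm
    have a2 : Measurable fun z : ℂ => th * ‖deriv f z‖ :=
      measurable_const.mul (measurable_deriv _).norm
    exact measurableSet_ball.inter (measurableSet_lt a1 a2)
  have HP' := HP f c hf1 hne1 hKb (by rw [hc]; linarith) (by rw [hc]; linarith)
  have HD' := HD R f b hR hf hne hKb hb0 (by rw [hb]; linarith)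
  classical
  set om : ℂ → ℝ := fun z => if z ∈ G then E else 1 with hom
  have homm : Measurable om := Measurable.ite hGm measurable_const measurable_const
  have hom0 : ∀ z, 0 ≤ om z := fun z => by
    simp only [hom]; split_ifs
    · exact hE0.le
    · exact zero_le_one
  have hom1 : ∀ z, om z ≤ 1 := fun z => by
    simp only [hom]; split_ifs
    · exact hE1.le
    · exact le_rfl
  obtain ⟨hI2, h2⟩ := deg_weighted hD hR hf hi one_pos hc0 hbc homm hom0 hom1
    (fun p hp m hm hp0 hm0 a1 _ a3 a4 a5 => by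
      simp only [hom]; split_ifs with hmG
      · exact qv_rpow_le one_pos hc0 hm hm0 (hne1 m hm)
          ((HP' m hm hm0 hmG.2).2 p hp hp0 a1 a3 a5)
      · have := qv_rpow_le (f := f) (p := p) one_pos hc0 hm hm0 (hne1 m hm) (k := 0)
          (by simpa using a4.le)
        simpa using this) hI
  set g : ℂ → ℝ := fun z => ‖deriv f z‖ ^ (-(1 : ℝ)) * (1 - ‖z‖ ^ 2) ^ (b - 1) with hg
  have hgm : Measurable g :=
    ((measurable_deriv f).norm.pow_const _).mul
      ((measurable_const.sub (measurable_norm.pow_const 2)).pow_const _)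
  have hg0 : ∀ z ∈ ball (0 : ℂ) 1, 0 ≤ g z := fun z hz => by
    rw [mem_ball_zero_iff] at hz
    have := norm_nonneg z
    exact mul_nonneg (Real.rpow_nonneg (norm_nonneg _) _) (Real.rpow_nonneg (by nlinarith) _)
  have hae : ∀ᵐ z : ℂ, z ≠ 0 := by
    simp [ae_iff, measure_singleton]
  -- the gain
  set v : ℂ → ℝ := fun z => Wt f 1 b z * Jd f c z * om z - Wt f 1 b z * Jd f c z with hv
  have hvI : IntegrableOn v (ball 0 1) := hI2.sub hI
  have hv0 : ∀ z ∈ ball (0 : ℂ) 1, z ≠ 0 → (1 - E) / 2 * G.indicator g z ≤ v z := by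
    intro z hz hz0
    by_cases hzG : z ∈ G
    · have hJ := (HP' z hz hz0 hzG.2).1
      have hW := Wt_nonneg f 1 b hz
      have hgW : g z ≤ Wt f 1 b z := by
        have h3 : 1 ≤ ‖z‖ ^ ((1 : ℝ) - 2) :=
          Real.one_le_rpow_of_pos_of_le_one_of_nonpos (norm_pos_iff.2 hz0)
            (mem_ball_zero_iff.1 hz).le (by norm_num)
        have h4 : Wt f 1 b z = ‖z‖ ^ ((1 : ℝ) - 2) * g z := by
          simp only [Wt, hg]; ring
        rw [h4]
        exact le_mul_of_one_le_left (hg0 z hz) h3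
      simp only [hv, hom, indicator_of_mem hzG, if_pos hzG]
      have h5 : Wt f 1 b z * (1 / 2) ≤ Wt f 1 b z * (-Jd f c z) :=
        mul_le_mul_of_nonneg_left (by linarith) hW
      have h6 : (1 - E) * (g z * (1 / 2)) ≤ (1 - E) * (Wt f 1 b z * (-Jd f c z)) :=
        mul_le_mul_of_nonneg_left (by linarith) (by linarith)
      linarith
    · simp only [hv, hom, indicator_of_notMem hzG, if_neg hzG]
      simp
  have hE2 : 0 < (1 - E) / 2 := by linarith
  have hvnn : ∀ᵐ z ∂(volume.restrict (ball (0 : ℂ) 1)), 0 ≤ v z := by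
    refine (ae_restrict_iff' measurableSet_ball).2 (hae.mono fun z hz0 hz => ?_)
    refine le_trans (mul_nonneg hE2.le ?_) (hv0 z hz hz0)
    by_cases hzG : z ∈ G
    · rw [indicator_of_mem hzG]; exact hg0 z hz
    · rw [indicator_of_notMem hzG]
  have hGle : ∫⁻ z in G, ENNReal.ofReal (g z) ≤
      ENNReal.ofReal ((∫ z in ball (0 : ℂ) 1, v z) / ((1 - E) / 2)) := by
    rw [← integral_div, ofReal_integral_eq_lintegral_ofReal (hvI.div_const _)
      (hvnn.mono fun z hz => div_nonneg hz hE2.le), ← lintegral_indicator hGm,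
      ← lintegral_indicator measurableSet_ball]
    refine lintegral_mono_ae (hae.mono fun z hz0 => ?_)
    by_cases hzG : z ∈ G
    · rw [indicator_of_mem hzG, indicator_of_mem hzG.1]
      refine ENNReal.ofReal_le_ofReal ?_
      have := hv0 z hzG.1 hz0
      rw [indicator_of_mem hzG] at this
      rw [le_div_iff₀ hE2]
      linarith
    · rw [indicator_of_notMem hzG]; exact zero_le
  have hvint0 : 0 ≤ ∫ z in ball (0 : ℂ) 1, v z := integral_nonneg_of_ae hvnn
  have hball : ∫⁻ z in ball (0 : ℂ) 1, ENNReal.ofReal (g z) ≤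
      ENNReal.ofReal (C * ((∫ z in ball (0 : ℂ) 1, v z) / ((1 - E) / 2))) := by
    rw [ENNReal.ofReal_mul hC.le]
    exact HD'.trans (mul_le_mul_right hGle _)
  have hgnn : ∀ᵐ z ∂(volume.restrict (ball (0 : ℂ) 1)), 0 ≤ g z :=
    (ae_restrict_iff' measurableSet_ball).2 (ae_of_all _ hg0)
  have hgI : IntegrableOn g (ball (0 : ℂ) 1) := by
    refine ⟨hgm.aestronglyMeasurable, ?_⟩
    rw [hasFiniteIntegral_iff_ofReal hgnn]
    exact lt_of_le_of_lt hball ENNReal.ofReal_lt_top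
  have hgle : ∫ z in ball (0 : ℂ) 1, g z ≤
      C * ((∫ z in ball (0 : ℂ) 1, v z) / ((1 - E) / 2)) := by
    rw [← ofReal_integral_eq_lintegral_ofReal hgI hgnn] at hball
    exact (ENNReal.ofReal_le_ofReal_iff (by positivity)).1 hball
  have hgint0 : 0 ≤ ∫ z in ball (0 : ℂ) 1, g z := integral_nonneg_of_ae hgnn
  have e : (fun z : ℂ => (‖z‖ ^ (1 : ℝ) * (4 * c * ‖z‖ ^ 2 - (1 + 2)) + ta) *
        (‖deriv f z‖ ^ (-(1 : ℝ)) * (1 - ‖z‖ ^ 2) ^ (b - 1))) =
      fun z : ℂ => ‖z‖ ^ (1 : ℝ) * (1 - ‖z‖ ^ 2) ^ (b - 1) * (4 * c * ‖z‖ ^ 2 - (1 + 2)) *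
        ‖deriv f z‖ ^ (-(1 : ℝ)) + ta * g z := by
    funext z; simp only [hg]; ring
  refine ⟨by rw [e]; exact hI'.add (hgI.const_mul ta), ?_⟩
  rw [e, integral_add hI' (hgI.const_mul ta), integral_const_mul]
  have hvs : ∫ z in ball (0 : ℂ) 1, v z =
      (∫ z in ball (0 : ℂ) 1, Wt f 1 b z * Jd f c z * om z) -
        ∫ z in ball (0 : ℂ) 1, Wt f 1 b z * Jd f c z := integral_sub hI2 hI
  generalize (∫ z in ball (0 : ℂ) 1, ‖z‖ ^ (1 : ℝ) * (1 - ‖z‖ ^ 2) ^ (b - 1) *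
    (4 * c * ‖z‖ ^ 2 - (1 + 2)) * ‖deriv f z‖ ^ (-(1 : ℝ))) = X at he ⊢
  generalize (∫ z in ball (0 : ℂ) 1, v z) = Y at hvs hgle hvint0
  generalize (∫ z in ball (0 : ℂ) 1, g z) = Z at hgle hgint0 ⊢
  have h3 : Y ≤ -(4 * c * X) := by rw [hvs, he]; simp only [one_pow, div_one]; linarith
  have h4 : ta * Z ≤ Y / 3 := by
    have h5 : ta * Z ≤ ta * (C * (Y / ((1 - E) / 2))) := mul_le_mul_of_nonneg_left hgle hta0.le
    have h6 : ta * (C * (Y / ((1 - E) / 2))) = Y / 3 := by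
      have : (1 - E) ≠ 0 := by linarith
      rw [hta]; field_simp
    linarith
  have h7 : X ≤ 0 := by
    by_contra h8
    have : 0 < 4 * c * X := mul_pos (by linarith) (not_le.1 h8)
    linarith
  have h9 : 4 * c ≤ 3 := by rw [hc]; linarith
  nlinarith

end Crest.Agent.R131.Glue
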