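import Crest.Agent.R162.Wolff

open Set Filter Metric Function Complex MeasureTheory
open scoped Topology ENNReal

namespace Crest.Agent.R131.Grow51

/-- `(1/2) log (1 + |f|²)`. -/
noncomputable def lv (f : ℂ → ℂ) (z : ℂ) : ℝ := Real.log (1 + ‖f z‖ ^ 2) / 2

/-- `|f'| / sqrt (1 + |f|²)`. -/
noncomputable def qq (f : ℂ → ℂ) (z : ℂ) : ℝ := ‖deriv f z‖ / √(1 + ‖f z‖ ^ 2)

lemma qq_nonneg (f : ℂ → ℂ) (z : ℂ) : 0 ≤ qq f z := by unfold qq; positivity

lemma qq_sq (f : ℂ → ℂ) (z : ℂ) : qq f z ^ 2 = ‖deriv f z‖ ^ 2 * (1 / (1 + ‖f z‖ ^ 2)) := by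
  unfold qq
  rw [div_pow, Real.sq_sqrt (by positivity)]
  ring

lemma lv_deriv {f : ℂ → ℂ} {γ : ℝ → ℂ} {γ' : ℂ} {s : ℝ} (hf : DifferentiableAt ℂ f (γ s))
    (hγ : HasDerivAt γ γ' s) :
    ∃ D, HasDerivAt (fun s => lv f (γ s)) D s ∧ |D| ≤ ‖γ'‖ * qq f (γ s) := by
  have h1 : HasDerivAt (fun s => f (γ s)) (γ' • deriv f (γ s)) s := hf.hasDerivAt.scomp s hγ
  have h2 := h1.norm_sq
  have hp : 0 < 1 + ‖f (γ s)‖ ^ 2 := by positivity
  have h3 := ((h2.const_add 1).log hp.ne').div_const 2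
  refine ⟨_, h3, ?_⟩
  have h4 := abs_real_inner_le_norm (f (γ s)) (γ' • deriv f (γ s))
  set n := ‖f (γ s)‖ with hn
  have hn0 : 0 ≤ n := norm_nonneg _
  set w := √(1 + n ^ 2) with hw
  have hw0 : 0 < w := Real.sqrt_pos.2 hp
  have hww : w * w = 1 + n ^ 2 := Real.mul_self_sqrt hp.le
  have hnw : n ≤ w := Real.le_sqrt_of_sq_le (by linarith)
  have e : (2 * inner ℝ (f (γ s)) (γ' • deriv f (γ s)) / (1 + n ^ 2) / 2) =
      inner ℝ (f (γ s)) (γ' • deriv f (γ s)) / (w * w) := by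
    rw [hww]; field_simp
  rw [e, abs_div, abs_of_pos (mul_pos hw0 hw0), div_le_iff₀ (mul_pos hw0 hw0)]
  rw [norm_smul] at h4
  unfold qq
  rw [← hn, ← hw]
  have e2 : ‖γ'‖ * (‖deriv f (γ s)‖ / w) * (w * w) = w * (‖γ'‖ * ‖deriv f (γ s)‖) := by
    field_simp
  rw [e2]
  exact h4.trans (mul_le_mul_of_nonneg_right hnw (by positivity))

/-- weighted area formula -/
lemma area_w {f : ℂ → ℂ} {U S : Set ℂ} (hU : IsOpen U) (hf : DifferentiableOn ℂ f U)
    (hinj : InjOn f U) (hS : MeasurableSet S) (hSU : S ⊆ U) (φ : ℂ → ℝ≥0∞) :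
    ∫⁻ z in S, ENNReal.ofReal (‖deriv f z‖ ^ 2) * φ (f z) = ∫⁻ w in f '' S, φ w := by
  have h := lintegral_image_eq_lintegral_abs_det_fderiv_mul (volume : Measure ℂ) hS
    (f := f) (f' := fun z => (ContinuousLinearMap.toSpanSingleton ℂ (deriv f z)).restrictScalars ℝ)
    (fun z hz => ((hf.differentiableAt (hU.mem_nhds (hSU hz))).hasDerivAt.hasFDerivAt.restrictScalars
      ℝ).hasFDerivWithinAt) (hinj.mono hSU) φ
  rw [h]
  refine lintegral_congr fun z => ?_
  congr 2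
  simp [ContinuousLinearMap.det, LinearMap.det_restrictScalars, Algebra.norm_complex_eq,
    Complex.normSq_eq_norm_sq]

lemma radial {ψ : ℝ → ℝ≥0∞} (hψ : Measurable ψ) :
    ∫⁻ w : ℂ, ψ ‖w‖ = ∫⁻ r in Ioi (0 : ℝ), ENNReal.ofReal r * (ψ r * ENNReal.ofReal (2 * Real.pi)) := by
  rw [R162.lintegral_polar_circles 0 (G := fun w => ψ ‖w‖) (hψ.comp measurable_norm)]
  refine setLIntegral_congr_fun measurableSet_Ioi fun r hr => ?_
  have : ∀ θ : ℝ, ‖circleMap 0 r θ‖ = r := fun θ => by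
    rw [norm_circleMap_zero, abs_of_pos hr]
  simp only [this]
  rw [setLIntegral_const, Real.volume_Ioo]
  congr 3
  ring

lemma log_area {ρ : ℝ} (hρ : 0 ≤ ρ) :
    ∫⁻ w in closedBall (0 : ℂ) ρ, ENNReal.ofReal (1 / (1 + ‖w‖ ^ 2)) =
      ENNReal.ofReal (Real.pi * Real.log (1 + ρ ^ 2)) := by
  have hm : Measurable ((Iic ρ).indicator fun r : ℝ => ENNReal.ofReal (1 / (1 + r ^ 2))) :=
    Measurable.indicator (by fun_prop) measurableSet_Iic
  have h1 := radial hm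
  have h2 : ∫⁻ w in closedBall (0 : ℂ) ρ, ENNReal.ofReal (1 / (1 + ‖w‖ ^ 2)) =
      ∫⁻ w : ℂ, ((Iic ρ).indicator fun r : ℝ => ENNReal.ofReal (1 / (1 + r ^ 2))) ‖w‖ := by
    rw [← lintegral_indicator measurableSet_closedBall]
    refine lintegral_congr fun w => ?_
    by_cases hw : ‖w‖ ≤ ρ
    · rw [indicator_of_mem (by simpa using hw), indicator_of_mem (by simpa using hw)]
    · rw [indicator_of_notMem (by simpa using hw), indicator_of_notMem (by simpa using hw)]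
  rw [h2, h1]
  have h3 : ∫⁻ r in Ioi (0 : ℝ), ENNReal.ofReal r *
      (((Iic ρ).indicator (fun r : ℝ => ENNReal.ofReal (1 / (1 + r ^ 2))) r) *
        ENNReal.ofReal (2 * Real.pi)) =
      ∫⁻ r in Ioc (0 : ℝ) ρ, ENNReal.ofReal (Real.pi * (2 * r / (1 + r ^ 2))) := by
    rw [← Ioi_inter_Iic, inter_comm, ← Measure.restrict_restrict measurableSet_Iic,
      ← lintegral_indicator measurableSet_Iic]
    refine setLIntegral_congr_fun measurableSet_Ioi fun r hr => ?_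
    have hr' : 0 < r := hr
    by_cases h : r ≤ ρ
    · simp only [indicator_of_mem (show r ∈ Iic ρ from h)]
      rw [← ENNReal.ofReal_mul (by positivity), ← ENNReal.ofReal_mul hr'.le]
      congr 1
      ring
    · simp only [indicator_of_notMem (show r ∉ Iic ρ from h)]
      simp
  rw [h3]
  have hc : Continuous fun r : ℝ => Real.pi * (2 * r / (1 + r ^ 2)) := by
    refine continuous_const.mul (Continuous.div (by fun_prop) (by fun_prop) fun r => ?_)
    positivity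
  rw [← ofReal_integral_eq_lintegral_ofReal (hc.integrableOn_Icc.mono_set Ioc_subset_Icc_self)
    ((ae_restrict_iff' measurableSet_Ioc).2 (Eventually.of_forall fun r hr => by
      have := hr.1
      positivity)), ← intervalIntegral.integral_of_le hρ]
  congr 1
  have hd : ∀ r ∈ uIcc (0 : ℝ) ρ, HasDerivAt (fun r : ℝ => Real.pi * Real.log (1 + r ^ 2))
      (Real.pi * (2 * r / (1 + r ^ 2))) r := fun r _ => by
    have h := (((hasDerivAt_pow 2 r).const_add 1).log (by positivity)).const_mul Real.pi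
    simpa using h
  rw [intervalIntegral.integral_eq_sub_of_hasDerivAt hd (hc.intervalIntegrable _ _)]
  simp

lemma sector_mem {h ρ θ : ℝ} (hh : h < Real.pi / 2) (hρ0 : 0 < ρ) (hρ : ρ ≤ Real.cos h)
    (hθ : θ ∈ Icc (-h) h) : ρ * Real.cos h / 2 ≤ 1 - ‖circleMap (-1) ρ θ‖ := by
  have hab : |θ| ≤ h := abs_le.2 hθ
  have hc : Real.cos h ≤ Real.cos θ := by
    rw [← Real.cos_abs θ]
    exact Real.cos_le_cos_of_nonneg_of_le_pi (abs_nonneg _) (by linarith [Real.pi_pos]) hab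
  have hc1 : Real.cos h ≤ 1 := Real.cos_le_one h
  have hc0 : 0 < Real.cos h := lt_of_lt_of_le hρ0 hρ
  have hn : ‖circleMap (-1) ρ θ‖ ^ 2 = 1 - 2 * ρ * Real.cos θ + ρ ^ 2 := by
    rw [← Complex.normSq_eq_norm_sq, Complex.normSq_apply]
    simp only [circleMap, exp_mul_I, add_re, add_im, neg_re, one_re, neg_im, one_im, mul_re,
      mul_im, ofReal_re, ofReal_im, ← ofReal_cos, ← ofReal_sin, I_re, I_im]
    nlinarith [Real.sin_sq_add_cos_sq θ]
  have h1 : ‖circleMap (-1) ρ θ‖ ≤ 1 - ρ * Real.cos h / 2 := by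
    refine abs_le_of_sq_le_sq' ?_ (by nlinarith) |>.2
    rw [hn]
    nlinarith [mul_pos hρ0 hc0, sq_nonneg (ρ * Real.cos h / 2)]
  linarith

lemma lv_contOn {f : ℂ → ℂ} (hf : DifferentiableOn ℂ f (ball 0 1)) :
    ContinuousOn (lv f) (ball 0 1) := by
  unfold lv
  refine ContinuousOn.div_const (ContinuousOn.log ?_ fun z _ => by positivity) _
  exact continuousOn_const.add (hf.continuousOn.norm.pow 2)

lemma qq_contOn {f : ℂ → ℂ} (hf : DifferentiableOn ℂ f (ball 0 1)) :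
    ContinuousOn (qq f) (ball 0 1) := by
  unfold qq
  refine ContinuousOn.div (hf.deriv isOpen_ball).continuousOn.norm
    (ContinuousOn.sqrt (continuousOn_const.add (hf.continuousOn.norm.pow 2))) fun z _ => ?_
  positivity

lemma core {f : ℂ → ℂ} (hf : DifferentiableOn ℂ f (ball 0 1)) (hinj : InjOn f (ball 0 1))
    {K V0 h δ : ℝ} (hh0 : 0 < h) (hh : h < Real.pi / 2)
    (hK : ∀ z ∈ ball (0 : ℂ) 1, (1 - ‖z‖) * qq f z ≤ K)
    (hV : ∀ z : ℂ, ‖z‖ ≤ 1 - Real.cos h ^ 2 / 2 → lv f z ≤ V0) (hδ0 : 0 < δ)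
    (hδ : δ ≤ Real.cos h) :
    lv f (-1 + δ) ≤ Real.pi / h * Real.log (Real.cos h / δ) +
      2 * (V0 + 2 * h * (2 * K / Real.cos h)) := by
  have hpi := Real.pi_pos
  set c := Real.cos h with hc
  have hc0 : 0 < c := lt_of_lt_of_le hδ0 hδ
  set L := 2 * K / c with hL
  set P : Set (ℝ × ℝ) := Icc δ c ×ˢ Icc (-h) h with hP
  have hPc : IsCompact P := isCompact_Icc.prod isCompact_Icc
  set Φ : ℝ × ℝ → ℂ := fun p => circleMap (-1) p.1 p.2 with hΦ
  have hΦc : Continuous Φ := by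
    simp only [hΦ, circleMap]; fun_prop
  have hsec : ∀ ρ ∈ Icc δ c, ∀ θ ∈ Icc (-h) h, ρ * c / 2 ≤ 1 - ‖circleMap (-1) ρ θ‖ :=
    fun ρ hρ θ hθ => sector_mem hh (lt_of_lt_of_le hδ0 hρ.1) hρ.2 hθ
  have hball : ∀ ρ ∈ Icc δ c, ∀ θ ∈ Icc (-h) h, circleMap (-1) ρ θ ∈ ball (0 : ℂ) 1 := by
    intro ρ hρ θ hθ
    have h1 := hsec ρ hρ θ hθ
    have h2 : 0 < ρ * c / 2 := by have := lt_of_lt_of_le hδ0 hρ.1; positivity
    rw [mem_ball_zero_iff]; linarith
  have hPb : MapsTo Φ P (ball 0 1) := fun p hp => hball p.1 hp.1 p.2 hp.2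
  have hS : IsCompact (Φ '' P) := hPc.image hΦc
  have hSb : Φ '' P ⊆ ball 0 1 := hPb.image_subset
  have hp0 : (δ, (0 : ℝ)) ∈ P := ⟨⟨le_rfl, hδ⟩, ⟨by simp [hh0.le], hh0.le⟩⟩
  obtain ⟨⟨ρs, θs⟩, hps, hmax⟩ := hPc.exists_isMaxOn ⟨_, hp0⟩
    ((lv_contOn hf).comp hΦc.continuousOn hPb)
  have hρs : ρs ∈ Icc δ c := hps.1
  have hθs : θs ∈ Icc (-h) h := hps.2
  have hρs0 : 0 < ρs := lt_of_lt_of_le hδ0 hρs.1
  set T := lv f (circleMap (-1) ρs θs) with hT
  have hmax' : ∀ p ∈ P, lv f (Φ p) ≤ T := fun p hp => hmax hp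
  have hT0 : 0 ≤ T := by
    simp only [hT, lv]
    have := Real.log_nonneg (show 1 ≤ 1 + ‖f (circleMap (-1) ρs θs)‖ ^ 2 by nlinarith [sq_nonneg ‖f (circleMap (-1) ρs θs)‖])
    linarith
  have hdiff : ∀ z ∈ ball (0 : ℂ) 1, DifferentiableAt ℂ f z := fun z hz =>
    hf.differentiableAt (isOpen_ball.mem_nhds hz)
  -- step A
  have hA : ∀ θ ∈ Icc (-h) h, T - 2 * h * L ≤ lv f (circleMap (-1) ρs θ) := by
    have hd : ∀ θ ∈ Icc (-h) h, ∃ D, HasDerivAt (fun s => lv f (circleMap (-1) ρs s)) D θ ∧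
        |D| ≤ L := by
      intro θ hθ
      obtain ⟨D, hD, hD'⟩ := lv_deriv (hdiff _ (hball ρs hρs θ hθ)) (hasDerivAt_circleMap (-1) ρs θ)
      refine ⟨D, hD, hD'.trans ?_⟩
      rw [norm_mul, norm_circleMap_zero, norm_I, mul_one, abs_of_pos hρs0, hL, le_div_iff₀ hc0]
      have h1 := hK _ (hball ρs hρs θ hθ)
      have h2 := mul_le_mul_of_nonneg_right (hsec ρs hρs θ hθ) (qq_nonneg f (circleMap (-1) ρs θ))
      nlinarith
    choose! D hD hD' using hd
    intro θ hθ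
    have h1 := (convex_Icc (-h) h).norm_image_sub_le_of_norm_hasDerivWithin_le
      (f := fun s => lv f (circleMap (-1) ρs s)) (f' := D) (C := L)
      (fun x hx => (hD x hx).hasDerivWithinAt) (fun x hx => hD' x hx) hθ hθs
    have hL0 : 0 ≤ L := (abs_nonneg _).trans (hD' θ hθ)
    have h2 : ‖θs - θ‖ ≤ 2 * h := by
      rw [Real.norm_eq_abs, abs_le]; constructor <;> linarith [hθ.1, hθ.2, hθs.1, hθs.2]
    have h3 := (le_abs_self _).trans h1
    have h4 := mul_le_mul_of_nonneg_left h2 hL0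
    linarith
  set l := Real.pi / h with hl
  have hl0 : 0 < l := by positivity
  -- step B
  have hqc : ∀ θ ∈ Icc (-h) h,
      ContinuousOn (fun ρ : ℝ => ρ * qq f (circleMap (-1) ρ θ) ^ 2) (Icc δ c) := by
    intro θ hθ
    refine continuousOn_id.mul (ContinuousOn.pow ?_ 2)
    refine (qq_contOn hf).comp (f := fun ρ : ℝ => circleMap (-1) ρ θ) ?_ fun ρ hρ => hball ρ hρ θ hθ
    simp only [circleMap]; fun_prop
  have hB : ∀ θ ∈ Icc (-h) h, 2 * l * (T - 2 * h * L - V0 - l / 2 * Real.log (c / δ)) ≤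
      ∫ ρ in δ..c, ρ * qq f (circleMap (-1) ρ θ) ^ 2 := by
    intro θ hθ
    have hd : ∀ ρ ∈ Icc δ c, ∃ D, HasDerivAt (fun s : ℝ => lv f (circleMap (-1) s θ)) D ρ ∧
        |D| ≤ qq f (circleMap (-1) ρ θ) := by
      intro ρ hρ
      have hγ : HasDerivAt (fun s : ℝ => circleMap (-1) s θ) (exp (θ * I)) ρ := by
        have := ((hasDerivAt_id ρ).ofReal_comp.mul_const (exp (θ * I))).const_add (-1)
        simpa [circleMap] using this
      obtain ⟨D, hD, hD'⟩ := lv_deriv (γ := fun s : ℝ => circleMap (-1) s θ)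
        (hdiff _ (hball ρ hρ θ hθ)) hγ
      refine ⟨D, hD, ?_⟩
      simpa [norm_exp_ofReal_mul_I] using hD'
    choose! D hD hD' using hd
    have hsub : Icc ρs c ⊆ Icc δ c := Icc_subset_Icc_left hρs.1
    have hder : ∀ ρ ∈ Icc ρs c, HasDerivAt
        (fun s : ℝ => -(2 * l) * lv f (circleMap (-1) s θ) - l ^ 2 * Real.log s)
        (-(2 * l) * D ρ - l ^ 2 * ρ⁻¹) ρ := fun ρ hρ =>
      ((hD ρ (hsub hρ)).const_mul _).sub
        ((Real.hasDerivAt_log (lt_of_lt_of_le hρs0 hρ.1).ne').const_mul _)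
    have h1 := intervalIntegral.sub_le_integral_of_hasDeriv_right_of_le hρs.2
      (g := fun s : ℝ => -(2 * l) * lv f (circleMap (-1) s θ) - l ^ 2 * Real.log s)
      (g' := fun ρ => -(2 * l) * D ρ - l ^ 2 * ρ⁻¹)
      (φ := fun ρ => ρ * qq f (circleMap (-1) ρ θ) ^ 2)
      (fun ρ hρ => (hder ρ hρ).continuousAt.continuousWithinAt)
      (fun ρ hρ => (hder ρ (Ioo_subset_Icc_self hρ)).hasDerivWithinAt)
      (((hqc θ hθ).mono hsub).integrableOn_compact isCompact_Icc)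
      (fun ρ hρ => by
        have hρ0 : 0 < ρ := lt_trans hρs0 hρ.1
        have h2 := (abs_le.1 (hD' ρ (hsub (Ioo_subset_Icc_self hρ)))).1
        set q := qq f (circleMap (-1) ρ θ)
        have h3 : 2 * l * q ≤ ρ * q ^ 2 + l ^ 2 * ρ⁻¹ := by
          have : ρ * q ^ 2 + l ^ 2 * ρ⁻¹ - 2 * l * q = (ρ * q - l) ^ 2 / ρ := by
            field_simp; ring
          have h5 : 0 ≤ (ρ * q - l) ^ 2 / ρ := by positivity
          linarith
        nlinarith)
    have h2 : ∫ ρ in ρs..c, ρ * qq f (circleMap (-1) ρ θ) ^ 2 ≤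
        ∫ ρ in δ..c, ρ * qq f (circleMap (-1) ρ θ) ^ 2 := by
      refine intervalIntegral.integral_mono_interval hρs.1 hρs.2 le_rfl ?_ ?_
      · refine (ae_restrict_iff' measurableSet_Ioc).2 (Eventually.of_forall fun ρ hρ => ?_)
        have := lt_trans hδ0 hρ.1
        simp only [Pi.zero_apply]
        positivity
      · exact ((hqc θ hθ).mono (by rw [uIcc_of_le hδ])).intervalIntegrable
    have h3 := hA θ hθ
    have h4 : lv f (circleMap (-1) c θ) ≤ V0 := by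
      refine hV _ ?_
      have := hsec c ⟨hδ, le_rfl⟩ θ hθ
      nlinarith
    have h5 : Real.log c - Real.log ρs ≤ Real.log (c / δ) := by
      rw [Real.log_div hc0.ne' hδ0.ne']
      have := Real.log_le_log hδ0 hρs.1
      linarith
    nlinarith [mul_le_mul_of_nonneg_left h5 (sq_nonneg l), mul_le_mul_of_nonneg_left h3 hl0.le,
      mul_le_mul_of_nonneg_left h4 hl0.le]
  -- step C
  set G : ℂ → ℝ≥0∞ := (Φ '' P).indicator fun z => ENNReal.ofReal (qq f z ^ 2) with hG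
  have hGm : Measurable G := by
    classical
    rw [hG, ← piecewise_eq_indicator]
    refine ContinuousOn.measurable_piecewise ?_ continuousOn_const hS.measurableSet
    exact ENNReal.continuous_ofReal.comp_continuousOn (((qq_contOn hf).mono hSb).pow 2)
  set B := 2 * l * (T - 2 * h * L - V0 - l / 2 * Real.log (c / δ)) with hBdef
  have hC : ∀ θ ∈ Ioo (-h) h, ENNReal.ofReal B ≤
      ∫⁻ ρ in Ioi (0 : ℝ), ENNReal.ofReal ρ * G (circleMap (-1) ρ θ) := by
    intro θ hθ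
    have hθ' := Ioo_subset_Icc_self hθ
    refine (ENNReal.ofReal_le_ofReal (hB θ hθ')).trans ?_
    rw [intervalIntegral.integral_of_le hδ, ofReal_integral_eq_lintegral_ofReal
      (((hqc θ hθ').integrableOn_compact isCompact_Icc).mono_set Ioc_subset_Icc_self)
      ((ae_restrict_iff' measurableSet_Ioc).2 (Eventually.of_forall fun ρ hρ => by
        have := lt_trans hδ0 hρ.1
        simp only [Pi.zero_apply]
        positivity))]
    refine le_trans (le_of_eq ?_) (lintegral_mono_set (s := Ioc δ c) fun ρ hρ => lt_trans hδ0 hρ.1)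
    refine setLIntegral_congr_fun measurableSet_Ioc fun ρ hρ => ?_
    have hmem : circleMap (-1) ρ θ ∈ Φ '' P := ⟨(ρ, θ), ⟨Ioc_subset_Icc_self hρ, hθ'⟩, rfl⟩
    simp only [hG, indicator_of_mem hmem]
    rw [ENNReal.ofReal_mul (lt_trans hδ0 hρ.1).le]
  -- step D
  have hD : ∫⁻ z, G z ≤ ENNReal.ofReal (2 * Real.pi * T) := by
    rw [hG, lintegral_indicator hS.measurableSet]
    have e1 : ∀ z, ENNReal.ofReal (qq f z ^ 2) =
        ENNReal.ofReal (‖deriv f z‖ ^ 2) * ENNReal.ofReal (1 / (1 + ‖f z‖ ^ 2)) := fun z => by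
      rw [qq_sq, ENNReal.ofReal_mul (by positivity)]
    simp only [e1]
    rw [area_w isOpen_ball hf hinj hS.measurableSet hSb
      (fun w => ENNReal.ofReal (1 / (1 + ‖w‖ ^ 2)))]
    have hsub : f '' (Φ '' P) ⊆ closedBall 0 ‖f (circleMap (-1) ρs θs)‖ := by
      rintro _ ⟨_, ⟨p, hp, rfl⟩, rfl⟩
      have h1 := hmax' p hp
      simp only [hT, lv] at h1
      have h2 : 1 + ‖f (Φ p)‖ ^ 2 ≤ 1 + ‖f (circleMap (-1) ρs θs)‖ ^ 2 :=
        (Real.log_le_log_iff (by positivity) (by positivity)).1 (by linarith)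
      rw [mem_closedBall_zero_iff]
      exact (abs_le_of_sq_le_sq' (by linarith) (norm_nonneg _)).2
    refine (lintegral_mono_set hsub).trans ?_
    rw [log_area (norm_nonneg _)]
    refine le_of_eq ?_
    congr 1
    simp only [hT, lv]
    ring
  -- step E
  have hE : ENNReal.ofReal B * ENNReal.ofReal (2 * h) ≤ ENNReal.ofReal (2 * Real.pi * T) := by
    refine le_trans ?_ hD
    rw [R162.lintegral_polar_rays (-1) hGm]
    refine le_trans ?_ (lintegral_mono_set (s := Ioo (-h) h)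
      (Ioo_subset_Ioo (by linarith) (by linarith)))
    refine le_trans (le_of_eq ?_) (setLIntegral_mono' measurableSet_Ioo hC)
    rw [setLIntegral_const, Real.volume_Ioo]
    congr 2
    ring
  have hE' : B * (2 * h) ≤ 2 * Real.pi * T := by
    by_cases hB0 : 0 ≤ B
    · rw [← ENNReal.ofReal_mul hB0] at hE
      exact (ENNReal.ofReal_le_ofReal_iff (by positivity)).1 hE
    · have : B * (2 * h) ≤ 0 := mul_nonpos_of_nonpos_of_nonneg (by linarith) (by linarith)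
      have : 0 ≤ 2 * Real.pi * T := by positivity
      linarith
  have hlh : l * h = Real.pi := by rw [hl]; field_simp
  have hfin : T ≤ l * Real.log (c / δ) + 2 * (V0 + 2 * h * L) := by
    have e : B * (2 * h) = 4 * Real.pi * (T - 2 * h * L - V0 - l / 2 * Real.log (c / δ)) := by
      rw [hBdef, ← hlh]; ring
    rw [e] at hE'
    by_contra hcon
    have hcon := not_le.1 hcon
    nlinarith
  have h0 := hmax' _ hp0
  simp only [hΦ, circleMap, ofReal_zero, zero_mul, Complex.exp_zero, mul_one] at h0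
  linarith


lemma exists_K {f : ℂ → ℂ} (hf : DifferentiableOn ℂ f (ball 0 1)) (hinj : InjOn f (ball 0 1)) :
    ∃ K, ∀ z ∈ ball (0 : ℂ) 1, (1 - ‖z‖) * qq f z ≤ K := by
  obtain ⟨K1, hK1⟩ := (isCompact_closedBall (0 : ℂ) (1 / 2)).bddAbove_image
    ((qq_contOn hf).mono (closedBall_subset_ball (by norm_num)))
  refine ⟨max K1 (400 * (1 + ‖f 0‖)), fun z hz => ?_⟩
  have hz1 : ‖z‖ < 1 := mem_ball_zero_iff.1 hz
  by_cases h : ‖z‖ ≤ 1 / 2
  · have h1 : qq f z ≤ K1 := hK1 ⟨z, mem_closedBall_zero_iff.2 h, rfl⟩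
    have h2 := qq_nonneg f z
    refine le_trans ?_ (le_max_left _ _)
    nlinarith [norm_nonneg z]
  · refine le_trans ?_ (le_max_right _ _)
    have hsub : ball z (1 - ‖z‖) ⊆ ball (0 : ℂ) 1 := by
      refine ball_subset_ball' ?_
      simp
    have hw : f 0 ∉ f '' ball z (1 - ‖z‖) := by
      rintro ⟨x, hx, hx'⟩
      have : x = 0 := hinj (hsub hx) (mem_ball_self one_pos) hx'
      rw [this, mem_ball, dist_comm, dist_zero_right] at hx
      linarith
    have h1 := R162.koebe_omit (by linarith) (hf.mono hsub) (hinj.mono hsub) hw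
    have h2 := norm_sub_le (f z) (f 0)
    set w := √(1 + ‖f z‖ ^ 2) with hw
    have hw1 : 1 ≤ w := Real.le_sqrt_of_sq_le (by nlinarith [sq_nonneg ‖f z‖])
    have hw2 : ‖f z‖ ≤ w := Real.le_sqrt_of_sq_le (by linarith)
    unfold qq
    rw [← hw, ← mul_div_assoc, div_le_iff₀ (by linarith)]
    nlinarith [norm_nonneg (f 0)]

/-- Growth of a univalent function: exponent `2 + ε`. -/
theorem grow (f : ℂ → ℂ) (hf : DifferentiableOn ℂ f (ball 0 1)) (hinj : InjOn f (ball 0 1))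
    (k : ℝ) (hk : 2 < k) :
    ∃ C : ℝ, ∀ z ∈ ball (0 : ℂ) 1, (1 - ‖z‖) ^ k * (1 + ‖f z‖ ^ 2) ^ (1 / 2 : ℝ) ≤ C := by
  have hpi := Real.pi_pos
  obtain ⟨K, hK⟩ := exists_K hf hinj
  set h := Real.pi / k with hh
  have hh0 : 0 < h := by positivity
  have hh1 : h < Real.pi / 2 := div_lt_div_of_pos_left hpi two_pos hk
  have hk' : Real.pi / h = k := by rw [hh]; field_simp
  set c := Real.cos h with hc
  have hc0 : 0 < c := Real.cos_pos_of_mem_Ioo ⟨by linarith, hh1⟩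
  have hc1 : c ≤ 1 := Real.cos_le_one h
  have hsub : closedBall (0 : ℂ) (1 - c ^ 2 / 2) ⊆ ball 0 1 :=
    closedBall_subset_ball (by nlinarith)
  obtain ⟨V0, hV0⟩ := (isCompact_closedBall (0 : ℂ) (1 - c ^ 2 / 2)).bddAbove_image
    ((lv_contOn hf).mono hsub)
  have hV : ∀ z : ℂ, ‖z‖ ≤ 1 - c ^ 2 / 2 → lv f z ≤ V0 := fun z hz =>
    hV0 ⟨z, mem_closedBall_zero_iff.2 hz, rfl⟩
  set A := 2 * (V0 + 2 * h * (2 * K / c)) with hA
  refine ⟨max (Real.exp V0) (Real.exp A), fun z hz => ?_⟩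
  have hz1 : ‖z‖ < 1 := mem_ball_zero_iff.1 hz
  have hδ0 : 0 < 1 - ‖z‖ := by linarith
  have e1 : (1 - ‖z‖) ^ k * (1 + ‖f z‖ ^ 2) ^ (1 / 2 : ℝ) =
      Real.exp (k * Real.log (1 - ‖z‖) + lv f z) := by
    rw [Real.rpow_def_of_pos hδ0, Real.rpow_def_of_pos (by positivity), ← Real.exp_add, lv]
    congr 1
    ring
  rw [e1]
  have hlog : Real.log (1 - ‖z‖) ≤ 0 := Real.log_nonpos hδ0.le (by linarith [norm_nonneg z])
  by_cases hzc : ‖z‖ ≤ 1 - c ^ 2 / 2
  · refine le_trans (Real.exp_le_exp.2 ?_) (le_max_left _ _)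
    have := hV z hzc
    nlinarith
  · refine le_trans (Real.exp_le_exp.2 ?_) (le_max_right _ _)
    have hzc := not_le.1 hzc
    have hz0 : 0 < ‖z‖ := by nlinarith
    have hz0' : (‖z‖ : ℂ) ≠ 0 := by exact_mod_cast hz0.ne'
    set a : ℂ := -(z / ‖z‖) with ha
    have ha1 : ‖a‖ = 1 := by
      rw [ha, norm_neg, norm_div, norm_real, norm_norm, div_self hz0.ne']
    have ha0 : a ≠ 0 := by rintro h0; rw [h0] at ha1; simp at ha1
    have hmaps : MapsTo (fun w => a * w) (ball (0 : ℂ) 1) (ball 0 1) := fun w hw => by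
      rw [mem_ball_zero_iff] at hw ⊢
      rwa [norm_mul, ha1, one_mul]
    have hg : DifferentiableOn ℂ (fun w => f (a * w)) (ball 0 1) :=
      hf.comp (by fun_prop) hmaps
    have hginj : InjOn (fun w => f (a * w)) (ball 0 1) :=
      hinj.comp (f := fun w => a * w) (fun x _ y _ hxy => mul_left_cancel₀ ha0 hxy) hmaps
    have hgK : ∀ w ∈ ball (0 : ℂ) 1, (1 - ‖w‖) * qq (fun w => f (a * w)) w ≤ K := by
      intro w hw
      have h1 := hK _ (hmaps hw)
      have h2 : HasDerivAt (fun w => f (a * w)) (deriv f (a * w) * (a * 1)) w :=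
        (hf.differentiableAt (isOpen_ball.mem_nhds (hmaps hw))).hasDerivAt.comp w
          ((hasDerivAt_id w).const_mul a)
      simp only [qq, h2.deriv, norm_mul, ha1, mul_one, one_mul] at h1 ⊢
      exact h1
    have hgV : ∀ w : ℂ, ‖w‖ ≤ 1 - c ^ 2 / 2 → lv (fun w => f (a * w)) w ≤ V0 := fun w hw =>
      hV (a * w) (by rwa [norm_mul, ha1, one_mul])
    have h1 := core hg hginj hh0 hh1 hgK hgV hδ0 (by nlinarith)
    have e2 : a * (-1 + ((1 - ‖z‖ : ℝ) : ℂ)) = z := by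
      rw [ha]; push_cast; field_simp; ring
    have e3 : lv (fun w => f (a * w)) (-1 + ((1 - ‖z‖ : ℝ) : ℂ)) = lv f z := by
      simp only [lv, e2]
    rw [e3, hk', Real.log_div hc0.ne' hδ0.ne', ← hc, ← hA] at h1
    have h2 : Real.log c ≤ 0 := Real.log_nonpos hc0.le hc1
    nlinarith

end Crest.Agent.R131.Grow51
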