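import Mathlib

/-! Row 131, block DEG: first and second order analysis of
`F w x = ‖f x - w‖ / (1 - ‖x‖ ^ 2) ^ c` along lines (saddle directions, local minima). -/

set_option autoImplicit false

noncomputable section

namespace Crest.Agent.R131.Hess

open Set Filter Metric Topology ComplexConjugate

/-- strict second derivative test -/
theorem strict_min {φ ψ : ℝ → ℝ} {q : ℝ} (h1 : ∀ᶠ t in 𝓝 (0:ℝ), HasDerivAt φ (ψ t) t)
    (h0 : ψ 0 = 0) (h2 : HasDerivAt ψ q 0) (hq : 0 < q) :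
    ∀ᶠ t in 𝓝[≠] (0:ℝ), φ 0 < φ t := by
  have hs : Tendsto (slope ψ 0) (𝓝[≠] 0) (𝓝 q) := hasDerivAt_iff_tendsto_slope.1 h2
  have hp : ∀ᶠ t in 𝓝[≠] (0:ℝ), 0 < slope ψ 0 t := hs.eventually (lt_mem_nhds hq)
  rw [eventually_nhdsWithin_iff] at hp ⊢
  obtain ⟨ε, hε, hb⟩ := Metric.eventually_nhds_iff.1 (h1.and hp)
  have key : ∀ s : ℝ, dist s 0 < ε → s ≠ 0 → 0 < ψ s / s := fun s hs hs0 => by
    have := (hb hs).2 hs0
    simpa [slope_def_field, h0] using this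
  refine Metric.eventually_nhds_iff.2 ⟨ε, hε, fun t ht ht0 => ?_⟩
  have ht' : |t| < ε := by simpa [Real.dist_eq] using ht
  have hin : ∀ s : ℝ, |s| ≤ |t| → dist s 0 < ε := fun s hs => by
    simpa [Real.dist_eq] using lt_of_le_of_lt hs ht'
  rcases lt_or_gt_of_ne (show t ≠ 0 from ht0) with hneg | hpos
  · have habs : ∀ s ∈ Icc t 0, |s| ≤ |t| := fun s hs => by
      rw [abs_of_neg hneg, abs_of_nonpos hs.2]; linarith [hs.1]
    obtain ⟨ξ, hξ, he⟩ := exists_hasDerivAt_eq_slope φ ψ hneg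
      (fun s hs => ((hb (hin s (habs s hs))).1.continuousAt.continuousWithinAt))
      (fun s hs => (hb (hin s (habs s (Ioo_subset_Icc_self hs)))).1)
    have h3 := key ξ (hin ξ (habs ξ (Ioo_subset_Icc_self hξ))) hξ.2.ne
    have h4 : ψ ξ < 0 := by
      by_contra h
      push Not at h
      have := div_nonpos_of_nonneg_of_nonpos h hξ.2.le
      linarith
    rw [he, div_neg_iff] at h4
    rcases h4 with ⟨_, h⟩ | ⟨h, _⟩ <;> linarith
  · have habs : ∀ s ∈ Icc 0 t, |s| ≤ |t| := fun s hs => by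
      rw [abs_of_pos hpos, abs_of_nonneg hs.1]; exact hs.2
    obtain ⟨ξ, hξ, he⟩ := exists_hasDerivAt_eq_slope φ ψ hpos
      (fun s hs => ((hb (hin s (habs s hs))).1.continuousAt.continuousWithinAt))
      (fun s hs => (hb (hin s (habs s (Ioo_subset_Icc_self hs)))).1)
    have h3 := key ξ (hin ξ (habs ξ (Ioo_subset_Icc_self hξ))) hξ.1.ne'
    have h4 : 0 < ψ ξ := by
      by_contra h
      push Not at h
      have := div_nonpos_of_nonpos_of_nonneg h hξ.1.le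
      linarith
    rw [he, div_pos_iff] at h4
    rcases h4 with ⟨h, _⟩ | ⟨_, h⟩ <;> linarith

theorem strict_max {φ ψ : ℝ → ℝ} {q : ℝ} (h1 : ∀ᶠ t in 𝓝 (0:ℝ), HasDerivAt φ (ψ t) t)
    (h0 : ψ 0 = 0) (h2 : HasDerivAt ψ q 0) (hq : q < 0) :
    ∀ᶠ t in 𝓝[≠] (0:ℝ), φ t < φ 0 := by
  have := strict_min (φ := fun t => -φ t) (ψ := fun t => -ψ t) (q := -q)
    (h1.mono fun t ht => ht.neg) (by simp [h0]) h2.neg (by linarith)
  exact this.mono fun t ht => by linarith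

theorem hasDerivAt_normSq {g : ℝ → ℂ} {g' : ℂ} {t : ℝ} (h : HasDerivAt g g' t) :
    HasDerivAt (fun s => ‖g s‖ ^ 2) (2 * (conj (g t) * g').re) t := by
  have := h.norm_sq
  convert this using 2
  rw [Complex.inner, mul_comm]

theorem hasDerivAt_log_norm {g : ℝ → ℂ} {g' : ℂ} {t : ℝ} (h : HasDerivAt g g' t)
    (h0 : g t ≠ 0) : HasDerivAt (fun s => Real.log ‖g s‖) ((g' / g t).re) t := by
  have hn : ‖g t‖ ^ 2 ≠ 0 := by simpa using h0
  have h1 := ((hasDerivAt_normSq h).log hn).const_mul (1 / 2 : ℝ)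
  have e : (fun s => (1 / 2 : ℝ) * Real.log (‖g s‖ ^ 2)) = fun s => Real.log ‖g s‖ := by
    funext s; rw [Real.log_pow]; push_cast; ring
  rw [e] at h1
  refine h1.congr_deriv ?_
  rw [Complex.div_re, Complex.normSq_eq_norm_sq]
  simp only [Complex.mul_re, Complex.conj_re, Complex.conj_im]
  field_simp
  ring

/-- the function along a line -/
def phi (f : ℂ → ℂ) (c : ℝ) (w p v : ℂ) (t : ℝ) : ℝ :=
  Real.log ‖f (p + t * v) - w‖ - c * Real.log (1 - ‖p + t * v‖ ^ 2)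

/-- its derivative -/
def psi (f : ℂ → ℂ) (c : ℝ) (w p v : ℂ) (t : ℝ) : ℝ :=
  (deriv f (p + t * v) * v / (f (p + t * v) - w)).re +
    2 * c * ((conj (p + t * v) * v).re / (1 - ‖p + t * v‖ ^ 2))

theorem hasDerivAt_line (p v : ℂ) (t : ℝ) : HasDerivAt (fun s : ℝ => p + s * v) v t := by
  simpa using ((Complex.ofRealCLM.hasDerivAt (x := t)).mul_const v).const_add p

theorem hasDerivAt_comp_line {g : ℂ → ℂ} {p v : ℂ} {t : ℝ}
    (hg : DifferentiableAt ℂ g (p + t * v)) :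
    HasDerivAt (fun s : ℝ => g (p + s * v)) (deriv g (p + t * v) * v) t := by
  have := hg.hasDerivAt.scomp t (hasDerivAt_line p v t)
  simpa [Function.comp_def, mul_comm] using this

theorem ev_line {f : ℂ → ℂ} (hf : DifferentiableOn ℂ f (ball 0 1)) {w p : ℂ} (v : ℂ)
    (hp : p ∈ ball (0:ℂ) 1) (hw : f p ≠ w) :
    ∀ᶠ t : ℝ in 𝓝 0, p + t * v ∈ ball (0:ℂ) 1 ∧ f (p + t * v) ≠ w := by
  have hc : Tendsto (fun s : ℝ => p + s * v) (𝓝 0) (𝓝 p) := by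
    have := (hasDerivAt_line p v 0).continuousAt
    simpa [ContinuousAt] using this
  have h1 : ∀ᶠ z in 𝓝 p, z ∈ ball (0:ℂ) 1 := isOpen_ball.mem_nhds hp
  have h2 : ∀ᶠ z in 𝓝 p, f z ≠ w :=
    (hf.differentiableAt (isOpen_ball.mem_nhds hp)).continuousAt.eventually_ne hw
  exact hc.eventually (h1.and h2)

theorem rho_pos {z : ℂ} (hz : z ∈ ball (0:ℂ) 1) : 0 < 1 - ‖z‖ ^ 2 := by
  have : ‖z‖ < 1 := by simpa using hz
  nlinarith [norm_nonneg z]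

theorem ev_hasDerivAt_phi {f : ℂ → ℂ} (hf : DifferentiableOn ℂ f (ball 0 1)) (c : ℝ) {w p : ℂ}
    (v : ℂ) (hp : p ∈ ball (0:ℂ) 1) (hw : f p ≠ w) :
    ∀ᶠ t in 𝓝 (0:ℝ), HasDerivAt (phi f c w p v) (psi f c w p v t) t := by
  filter_upwards [ev_line hf v hp hw] with t ht
  have h1 := hasDerivAt_log_norm
    ((hasDerivAt_comp_line (hf.differentiableAt (isOpen_ball.mem_nhds ht.1))).sub_const w)
    (sub_ne_zero.2 ht.2)
  have h2 := (((hasDerivAt_normSq (hasDerivAt_line p v t)).const_sub 1).log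
    (rho_pos ht.1).ne').const_mul c
  have := h1.sub h2
  refine HasDerivAt.congr_deriv this ?_
  simp only [psi]
  ring

theorem ev_exp_phi {f : ℂ → ℂ} (hf : DifferentiableOn ℂ f (ball 0 1)) (c : ℝ) {w p : ℂ}
    (v : ℂ) (hp : p ∈ ball (0:ℂ) 1) (hw : f p ≠ w) :
    ∀ᶠ t : ℝ in 𝓝 0, Real.exp (phi f c w p v t) =
      ‖f (p + t * v) - w‖ / (1 - ‖p + t * v‖ ^ 2) ^ c := by
  filter_upwards [ev_line hf v hp hw] with t ht
  rw [phi, Real.exp_sub, Real.exp_log (norm_pos_iff.2 (sub_ne_zero.2 ht.2)),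
    Real.rpow_def_of_pos (rho_pos ht.1), mul_comm c]

theorem psi_zero (f : ℂ → ℂ) (c : ℝ) (w p v : ℂ) :
    psi f c w p v 0 =
      ((deriv f p / (f p - w) + 2 * c * conj p / ((1 - ‖p‖ ^ 2 : ℝ) : ℂ)) * v).re := by
  simp only [psi, Complex.ofReal_zero, zero_mul, add_zero, add_mul, Complex.add_re]
  congr 1
  · congr 1; ring
  · have : 2 * c * conj p / ((1 - ‖p‖ ^ 2 : ℝ) : ℂ) * v =
        ((2 * c / (1 - ‖p‖ ^ 2) : ℝ) : ℂ) * (conj p * v) := by push_cast; ring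
    rw [this, Complex.re_ofReal_mul]; ring

theorem hasDerivAt_psi {f : ℂ → ℂ} (hf : DifferentiableOn ℂ f (ball 0 1)) (c : ℝ) {w p : ℂ}
    (v : ℂ) (hp : p ∈ ball (0:ℂ) 1) (hw : f p ≠ w) :
    HasDerivAt (psi f c w p v)
      (((deriv (deriv f) p * v * v * (f p - w) - deriv f p * v * (deriv f p * v)) /
          (f p - w) ^ 2).re +
        2 * c * ((‖v‖ ^ 2 * (1 - ‖p‖ ^ 2) + 2 * (conj p * v).re ^ 2) / (1 - ‖p‖ ^ 2) ^ 2)) 0 := by
  have hp0 : p + ((0:ℝ):ℂ) * v = p := by simp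
  have hd : DifferentiableAt ℂ f (p + ((0:ℝ):ℂ) * v) := by
    rw [hp0]; exact hf.differentiableAt (isOpen_ball.mem_nhds hp)
  have hd2 : DifferentiableAt ℂ (deriv f) (p + ((0:ℝ):ℂ) * v) := by
    rw [hp0]; exact (hf.deriv isOpen_ball).differentiableAt (isOpen_ball.mem_nhds hp)
  have a1 := ((hasDerivAt_comp_line hd2).mul_const v).div ((hasDerivAt_comp_line hd).sub_const w)
    (by rw [hp0]; exact sub_ne_zero.2 hw)
  have a2 := Complex.reCLM.hasFDerivAt.comp_hasDerivAt (0:ℝ) a1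
  have b0 : HasDerivAt (fun s : ℝ => conj (p + s * v) * v) (conj v * v) 0 := by
    have := (Complex.conjCLE.toContinuousLinearMap.hasFDerivAt.comp_hasDerivAt (0:ℝ)
      (hasDerivAt_line p v 0)).mul_const v
    simpa [Function.comp_def] using this
  have b1 := Complex.reCLM.hasFDerivAt.comp_hasDerivAt (0:ℝ) b0
  have b2 := (hasDerivAt_normSq (hasDerivAt_line p v 0)).const_sub 1
  have b3 := (b1.div b2 (by rw [hp0]; exact (rho_pos hp).ne')).const_mul (2 * c)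
  have := a2.add b3
  have hv : (conj v * v).re = ‖v‖ ^ 2 := by
    rw [Complex.conj_mul', ← Complex.ofReal_pow, Complex.ofReal_re]
  refine HasDerivAt.congr_deriv this ?_
  simp only [Function.comp_def, hp0, Complex.reCLM_apply, hv]
  ring

/-- algebra of the second derivative at a critical point -/
theorem q_eq {f1 f2 F p v : ℂ} {c ρ : ℝ} (hρ : ρ ≠ 0) (hF : F ≠ 0) (h1 : f1 ≠ 0)
    (hρ' : ρ = 1 - ‖p‖ ^ 2) (hc : f1 / F + 2 * c * conj p / (ρ : ℂ) = 0) :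
    ((f2 * v * v * F - f1 * v * (f1 * v)) / F ^ 2).re +
        2 * c * ((‖v‖ ^ 2 * ρ + 2 * (conj p * v).re ^ 2) / ρ ^ 2) =
      2 * c / ρ ^ 2 * (‖v‖ ^ 2 - (conj p * (ρ * (f2 / f1) + (2 * c - 1) * conj p) * v ^ 2).re) := by
  have hρc : (ρ : ℂ) ≠ 0 := by exact_mod_cast hρ
  have hA : f1 / F = -(2 * c * conj p / (ρ : ℂ)) := eq_neg_of_add_eq_zero_left hc
  have e1 : (f2 * v * v * F - f1 * v * (f1 * v)) / F ^ 2 =
      ((f1 / F) * (f2 / f1) - (f1 / F) ^ 2) * v ^ 2 := by field_simp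
  have e2 : ((f1 / F) * (f2 / f1) - (f1 / F) ^ 2) * v ^ 2 =
      ((-(2 * c / ρ ^ 2) : ℝ) : ℂ) * (conj p * (ρ * (f2 / f1) + (2 * c - 1) * conj p) * v ^ 2) +
        ((-(2 * c / ρ ^ 2) : ℝ) : ℂ) * (conj p * v) ^ 2 := by
    rw [hA]; push_cast; field_simp; ring
  have e3 : ((conj p * v) ^ 2).re = 2 * (conj p * v).re ^ 2 - ‖p‖ ^ 2 * ‖v‖ ^ 2 := by
    have : ‖p‖ ^ 2 * ‖v‖ ^ 2 = ‖conj p * v‖ ^ 2 := by rw [norm_mul, Complex.norm_conj, mul_pow]
    rw [this, Complex.sq_norm, Complex.normSq_apply, pow_two, Complex.mul_re]; ring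
  rw [e1, e2, Complex.add_re, Complex.re_ofReal_mul, Complex.re_ofReal_mul, e3]
  have : ‖p‖ ^ 2 = 1 - ρ := by linarith
  rw [this]; field_simp; ring

theorem norm_beta {p h : ℂ} (ρ c : ℝ) :
    ‖conj p * (ρ * h + (2 * c - 1) * conj p)‖ =
      ‖((2 * c - 1 : ℝ) : ℂ) * ((‖p‖ ^ 2 : ℝ) : ℂ) + (ρ : ℂ) * p * h‖ := by
  have e : ((2 * c - 1 : ℝ) : ℂ) * ((‖p‖ ^ 2 : ℝ) : ℂ) + (ρ : ℂ) * p * h =
      p * (ρ * h + (2 * c - 1) * conj p) := by
    have := Complex.mul_conj' p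
    push_cast
    rw [← this]; ring
  rw [e, norm_mul, norm_mul, Complex.norm_conj]

theorem exists_dir (β : ℂ) : ∃ v : ℂ, ‖v‖ ^ 2 = ‖β‖ ∧ (β * v ^ 2).re = ‖β‖ ^ 2 := by
  obtain ⟨v, hv⟩ := IsAlgClosed.exists_pow_nat_eq (conj β) (by norm_num : 0 < 2)
  refine ⟨v, ?_, ?_⟩
  · rw [← norm_pow, hv, Complex.norm_conj]
  · rw [hv, Complex.mul_conj', ← Complex.ofReal_pow, Complex.ofReal_re]

theorem crit_of_eq {f1 F p : ℂ} {c ρ : ℝ} (hc : 0 < c) (hρ : ρ ≠ 0) (hp : p ≠ 0) (h1 : f1 ≠ 0)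
    (h : F = -(f1 * (ρ : ℂ) / (2 * c * conj p))) :
    F ≠ 0 ∧ f1 / F + 2 * c * conj p / (ρ : ℂ) = 0 := by
  have hρc : (ρ : ℂ) ≠ 0 := by exact_mod_cast hρ
  have hcc : (c : ℂ) ≠ 0 := by exact_mod_cast hc.ne'
  have hpc : conj p ≠ 0 := by simpa using hp
  refine ⟨?_, ?_⟩
  · rw [h]; exact neg_ne_zero.2 (div_ne_zero (mul_ne_zero h1 hρc) (mul_ne_zero (mul_ne_zero two_ne_zero hcc) hpc))
  · rw [h]; field_simp; ring

/-- a point with `M p = w` and `Jd p > 0` is a saddle of `F w`. -/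
theorem saddle_dirs {f : ℂ → ℂ} (hf : DifferentiableOn ℂ f (ball 0 1)) {c : ℝ} (hc : 0 < c)
    {w p : ℂ} (hp : p ∈ ball (0:ℂ) 1) (hp0 : p ≠ 0) (h1 : deriv f p ≠ 0)
    (hw : w = f p + deriv f p * ((1 - ‖p‖ ^ 2 : ℝ) : ℂ) / (2 * c * conj p))
    (hJ : 1 < ‖((2 * c - 1 : ℝ) : ℂ) * ((‖p‖ ^ 2 : ℝ) : ℂ) +
      ((1 - ‖p‖ ^ 2 : ℝ) : ℂ) * p * (deriv (deriv f) p / deriv f p)‖) :
    ∃ u v : ℂ,
      (∀ᶠ t : ℝ in 𝓝[≠] 0, ‖f (p + t * u) - w‖ / (1 - ‖p + t * u‖ ^ 2) ^ c <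
        ‖f p - w‖ / (1 - ‖p‖ ^ 2) ^ c) ∧
      (∀ᶠ t : ℝ in 𝓝[≠] 0, ‖f p - w‖ / (1 - ‖p‖ ^ 2) ^ c <
        ‖f (p + t * v) - w‖ / (1 - ‖p + t * v‖ ^ 2) ^ c) := by
  have hρ := rho_pos hp
  obtain ⟨hF, hcr⟩ := crit_of_eq (F := f p - w) hc hρ.ne' hp0 h1 (by rw [hw]; ring)
  have hw' : f p ≠ w := sub_ne_zero.1 hF
  rw [← norm_beta] at hJ
  set β := conj p * (((1 - ‖p‖ ^ 2 : ℝ) : ℂ) * (deriv (deriv f) p / deriv f p) +
    (2 * c - 1) * conj p) with hβ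
  obtain ⟨v, hv1, hv2⟩ := exists_dir β
  have hz : ∀ v, psi f c w p v 0 = 0 := fun v => by rw [psi_zero, hcr]; simp
  have hd := fun v => hasDerivAt_psi hf c v hp hw'
  have h0 : ∀ v, Real.exp (phi f c w p v 0) = ‖f p - w‖ / (1 - ‖p‖ ^ 2) ^ c := fun v => by
    simpa using (ev_exp_phi hf c v hp hw').self_of_nhds
  have hk : 0 < 2 * c / (1 - ‖p‖ ^ 2) ^ 2 := by positivity
  refine ⟨v, Complex.I * v, ?_, ?_⟩
  · have hq := hd v
    rw [q_eq hρ.ne' hF h1 rfl hcr, ← hβ, hv1, hv2] at hq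
    have := strict_max (ev_hasDerivAt_phi hf c v hp hw') (hz v) hq
      (mul_neg_of_pos_of_neg hk (by nlinarith))
    filter_upwards [this, nhdsWithin_le_nhds (ev_exp_phi hf c v hp hw')] with t ht he
    rw [← he, ← h0 v]; exact Real.exp_lt_exp.2 ht
  · have hq := hd (Complex.I * v)
    have e1 : ‖Complex.I * v‖ ^ 2 = ‖β‖ := by rw [norm_mul, Complex.norm_I, one_mul, hv1]
    have e2 : (β * (Complex.I * v) ^ 2).re = -‖β‖ ^ 2 := by
      rw [mul_pow, Complex.I_sq, ← hv2]; simp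
    rw [q_eq hρ.ne' hF h1 rfl hcr, ← hβ, e1, e2] at hq
    have := strict_min (ev_hasDerivAt_phi hf c _ hp hw') (hz _) hq
      (mul_pos hk (by nlinarith))
    filter_upwards [this, nhdsWithin_le_nhds (ev_exp_phi hf c _ hp hw')] with t ht he
    rw [← he, ← h0 (Complex.I * v)]; exact Real.exp_lt_exp.2 ht

/-- a local minimum of `F w` other than the pole solves `M m = w` and has `Jd m ≤ 0`. -/
theorem min_crit {f : ℂ → ℂ} (hf : DifferentiableOn ℂ f (ball 0 1)) {c : ℝ} (hc : 0 < c)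
    {w m : ℂ} (hm : m ∈ ball (0:ℂ) 1) (h1 : deriv f m ≠ 0) (hw : f m ≠ w)
    (hmin : IsLocalMin (fun x => ‖f x - w‖ / (1 - ‖x‖ ^ 2) ^ c) m) :
    m ≠ 0 ∧ w = f m + deriv f m * ((1 - ‖m‖ ^ 2 : ℝ) : ℂ) / (2 * c * conj m) ∧
      ‖((2 * c - 1 : ℝ) : ℂ) * ((‖m‖ ^ 2 : ℝ) : ℂ) +
        ((1 - ‖m‖ ^ 2 : ℝ) : ℂ) * m * (deriv (deriv f) m / deriv f m)‖ ≤ 1 := by
  have hρ := rho_pos hm
  have hF : f m - w ≠ 0 := sub_ne_zero.2 hw
  have h0 : ∀ v, Real.exp (phi f c w m v 0) = ‖f m - w‖ / (1 - ‖m‖ ^ 2) ^ c := fun v => by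
    simpa using (ev_exp_phi hf c v hm hw).self_of_nhds
  have hloc : ∀ v, IsLocalMin (phi f c w m v) 0 := fun v => by
    have hc : Tendsto (fun s : ℝ => m + s * v) (𝓝 0) (𝓝 m) := by
      have := (hasDerivAt_line m v 0).continuousAt
      simpa [ContinuousAt] using this
    filter_upwards [hc.eventually hmin, ev_exp_phi hf c v hm hw] with t ht he
    rw [← Real.exp_le_exp, h0, he]; exact ht
  have hz : ∀ v, psi f c w m v 0 = 0 := fun v =>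
    (hloc v).hasDerivAt_eq_zero (ev_hasDerivAt_phi hf c v hm hw).self_of_nhds
  have hcr : deriv f m / (f m - w) + 2 * c * conj m / ((1 - ‖m‖ ^ 2 : ℝ) : ℂ) = 0 := by
    have a := hz 1
    have b := hz Complex.I
    rw [psi_zero] at a b
    generalize deriv f m / (f m - w) + 2 * c * conj m / ((1 - ‖m‖ ^ 2 : ℝ) : ℂ) = X at a b
    apply Complex.ext
    · simpa using a
    · simpa using b
  have hρc : ((1 - ‖m‖ ^ 2 : ℝ) : ℂ) ≠ 0 := by exact_mod_cast hρ.ne'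
  have hcc : (c : ℂ) ≠ 0 := by exact_mod_cast hc.ne'
  have hm0 : m ≠ 0 := by
    rintro rfl
    simp only [map_zero, mul_zero, zero_div, add_zero, div_eq_zero_iff] at hcr
    exact hcr.elim h1 hF
  have hmc : conj m ≠ 0 := by simpa using hm0
  refine ⟨hm0, ?_, ?_⟩
  · generalize ((1 - ‖m‖ ^ 2 : ℝ) : ℂ) = r at *
    field_simp at hcr ⊢
    linear_combination -hcr
  · rw [← norm_beta]
    set β := conj m * (((1 - ‖m‖ ^ 2 : ℝ) : ℂ) * (deriv (deriv f) m / deriv f m) +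
      (2 * c - 1) * conj m) with hβ
    by_contra hJ
    push Not at hJ
    obtain ⟨v, hv1, hv2⟩ := exists_dir β
    have hq := hasDerivAt_psi hf c v hm hw
    rw [q_eq hρ.ne' hF h1 rfl hcr, ← hβ, hv1, hv2] at hq
    have hk : 0 < 2 * c / (1 - ‖m‖ ^ 2) ^ 2 := by positivity
    have := strict_max (ev_hasDerivAt_phi hf c v hm hw) (hz v) hq
      (mul_neg_of_pos_of_neg hk (by nlinarith))
    obtain ⟨t, ht1, ht2⟩ := (this.and (nhdsWithin_le_nhds (hloc v))).exists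
    exact absurd ht1 (not_lt.2 ht2)

/-- the critical value -/
theorem crit_val {f : ℂ → ℂ} {c : ℝ} (hc : 0 < c) {w p : ℂ} (hp : p ∈ ball (0:ℂ) 1)
    (hw : w = f p + deriv f p * ((1 - ‖p‖ ^ 2 : ℝ) : ℂ) / (2 * c * conj p)) :
    ‖f p - w‖ / (1 - ‖p‖ ^ 2) ^ c = ‖deriv f p‖ * (1 - ‖p‖ ^ 2) ^ (1 - c) / (2 * c * ‖p‖) := by
  have hρ := rho_pos hp
  have : f p - w = -(deriv f p * ((1 - ‖p‖ ^ 2 : ℝ) : ℂ) / (2 * c * conj p)) := by rw [hw]; ring
  rw [this, norm_neg, norm_div, norm_mul, norm_mul, norm_mul, Complex.norm_conj,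
    Complex.norm_real, Complex.norm_real, Real.norm_of_nonneg hρ.le, Real.norm_of_nonneg hc.le,
    Real.rpow_sub hρ, Real.rpow_one]
  simp only [Complex.norm_ofNat]
  ring

end Crest.Agent.R131.Hess
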