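import Crest.Agent.R131.IdentA
import Crest.Agent.R131.Stokes
import Crest.Agent.R131.Defs
set_option autoImplicit false
open MeasureTheory Metric Set
open scoped ComplexConjugate
namespace Crest.Agent.R131.Ident

theorem wt_eq (p : ℂ → ℂ) (s m be : ℝ) (z : ℂ) (hz1 : ‖z‖ < 1) :
    wt p s m be z = base m be z * (1 - ‖z‖ ^ 2) * ‖p z‖ ^ (-s) := by
  have hρ : 0 < 1 - ‖z‖ ^ 2 := by nlinarith [norm_nonneg z]
  unfold wt base
  rw [Real.rpow_sub_one hρ.ne']
  field_simp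

theorem line_congr {f : ℂ → ℂ} {a b z v : ℂ}
    (h : HasLineDerivAt ℝ f a z v) (e : b = a) : HasLineDerivAt ℝ f b z v := e ▸ h

theorem integral_re_C {μ : Measure ℂ} {F : ℂ → ℂ} (h : Integrable F μ) :
    ∫ z, (F z).re ∂μ = (∫ z, F z ∂μ).re := by
  simpa using integral_re h

theorem integral_comb {μ : Measure ℂ} {A B C D : ℂ → ℝ} (hA : Integrable A μ)
    (hB : Integrable B μ) (hC : Integrable C μ) (hD : Integrable D μ)
    (eB : ∫ z, B z ∂μ = 0) (eC : ∫ z, C z ∂μ = 0) (eD : ∫ z, D z ∂μ = 0) (a b c d : ℝ) :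
    ∫ z, (a * A z - b * B z - c * C z - d * D z) ∂μ = a * ∫ z, A z ∂μ := by
  have h1 : Integrable (fun z => a * A z - b * B z) μ := (hA.const_mul a).sub (hB.const_mul b)
  have h2 : Integrable (fun z => a * A z - b * B z - c * C z) μ := h1.sub (hC.const_mul c)
  rw [integral_sub h2 (hD.const_mul d), integral_sub h1 (hC.const_mul c),
    integral_sub (hA.const_mul a) (hB.const_mul b), integral_const_mul, integral_const_mul,
    integral_const_mul, integral_const_mul, eB, eC, eD]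
  ring

/-- continuous part of the directional derivative -/
noncomputable def B1 (p p1 φ φ1 : ℂ → ℂ) (s be : ℝ) (v z : ℂ) : ℂ :=
  ((‖p z‖ ^ (-s) : ℝ) : ℂ) * (conj v * φ z * ((1 - ‖z‖ ^ 2 : ℝ) : ℂ)
    + conj z * (φ1 z * v) * ((1 - ‖z‖ ^ 2 : ℝ) : ℂ)
    - 2 * be * conj z * φ z * (((conj z * v).re : ℝ) : ℂ)
    - s * ((1 - ‖z‖ ^ 2 : ℝ) : ℂ) * conj z * φ z * (((p1 z / p z * v).re : ℝ) : ℂ))

/-- coefficient of the angular part -/
noncomputable def B2 (p φ : ℂ → ℂ) (s m : ℝ) (z : ℂ) : ℂ :=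
  ((‖p z‖ ^ (-s) : ℝ) : ℂ) * (2 * m * ((1 - ‖z‖ ^ 2 : ℝ) : ℂ) * φ z)

theorem parts (p p1 φ φ1 : ℂ → ℂ) (s m be : ℝ) (hm : -1 < m) (hbe : 0 < be)
    (cp : ContinuousOn p (closedBall 0 1)) (cp1 : ContinuousOn p1 (closedBall 0 1))
    (cφ : ContinuousOn φ (closedBall 0 1)) (cφ1 : ContinuousOn φ1 (closedBall 0 1))
    (hp : ∀ z ∈ ball (0 : ℂ) 1, HasDerivAt p (p1 z) z)
    (hφ : ∀ z ∈ ball (0 : ℂ) 1, HasDerivAt φ (φ1 z) z)
    (hp0 : ∀ z ∈ closedBall (0 : ℂ) 1, p z ≠ 0) :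
    ∫ z in ball (0 : ℂ) 1, (base m be z : ℂ) * (((‖p z‖ ^ (-s) : ℝ) : ℂ) * φ z *
      ((1 + m) * ((1 - ‖z‖ ^ 2 : ℝ) : ℂ) - be * ((‖z‖ ^ 2 : ℝ) : ℂ)
        - s / 2 * ((1 - ‖z‖ ^ 2 : ℝ) : ℂ) * conj (z * (p1 z / p z)))) = 0 := by
  have cg : ContinuousOn (fun z => ((‖p z‖ ^ (-s) : ℝ) : ℂ)) (closedBall 0 1) :=
    Complex.continuous_ofReal.comp_continuousOn
      (cp.norm.rpow_const fun z hz => Or.inl (norm_ne_zero_iff.mpr (hp0 z hz)))
  have ch : ContinuousOn (fun z => p1 z / p z) (closedBall 0 1) := cp1.div cp hp0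
  have cρ : Continuous (fun z : ℂ => ((1 - ‖z‖ ^ 2 : ℝ) : ℂ)) := by fun_prop
  have cc : Continuous (fun z : ℂ => conj z) := Complex.continuous_conj
  have cB1 : ∀ v, ContinuousOn (B1 p p1 φ φ1 s be v) (closedBall 0 1) := by
    intro v
    unfold B1
    refine cg.mul (((((continuousOn_const.mul cφ).mul cρ.continuousOn).add
      ((cc.continuousOn.mul (cφ1.mul continuousOn_const)).mul cρ.continuousOn)).sub
      (((continuousOn_const.mul cc.continuousOn).mul cφ).mul ?_)).sub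
      ((((continuousOn_const.mul cρ.continuousOn).mul cc.continuousOn).mul cφ).mul ?_))
    · exact (Complex.continuous_ofReal.comp (Complex.continuous_re.comp
        (cc.mul continuous_const))).continuousOn
    · exact (Complex.continuous_ofReal.comp Complex.continuous_re).comp_continuousOn
        (ch.mul continuousOn_const)
  have cB2 : ContinuousOn (B2 p φ s m) (closedBall 0 1) := by
    unfold B2
    exact cg.mul ((continuousOn_const.mul cρ.continuousOn).mul cφ)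
  set G : ℂ → ℂ := fun z => conj z * φ z * (wt p s m be z : ℂ) with hG
  set G' : ℂ → ℂ → ℂ := fun v z => (base m be z : ℂ) * B1 p p1 φ φ1 s be v z
    + (base m be z : ℂ) * ang v z * B2 p φ s m z with hG'
  have iG : ∀ v, IntegrableOn (G' v) (ball 0 1) := fun v =>
    (base_mul_intC m be hm hbe _ (cB1 v)).add (base_ang_intC m be hm hbe v _ cB2)
  have hc : ContinuousOn G (closedBall 0 1 \ {0}) := by
    refine (cc.continuousOn.mul (cφ.mono diff_subset)).mul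
      (Complex.continuous_ofReal.comp_continuousOn ?_)
    unfold wt
    refine (ContinuousOn.mul (continuous_norm.continuousOn.rpow_const ?_)
      (ContinuousOn.rpow_const (by fun_prop) fun z _ => Or.inr hbe.le)).mul
      ((cp.mono diff_subset).norm.rpow_const
        fun z hz => Or.inl (norm_ne_zero_iff.mpr (hp0 z hz.1)))
    intro z hz
    exact Or.inl (norm_ne_zero_iff.mpr hz.2)
  have h0 : ∀ z ∈ sphere (0 : ℂ) 1, G z = 0 := by
    intro z hz
    have : ‖z‖ = 1 := by simpa using hz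
    simp [hG, wt, this, Real.zero_rpow hbe.ne']
  have hd : ∀ v, ∀ z ∈ ball (0 : ℂ) 1 \ {0}, HasLineDerivAt ℝ G (G' v z) z v := by
    intro v z hz
    have hz0 : z ≠ 0 := hz.2
    have hz1 : ‖z‖ < 1 := by simpa using hz.1
    have hρ : 0 < 1 - ‖z‖ ^ 2 := by nlinarith [norm_nonneg z]
    obtain ⟨D, hD, hDv⟩ := wt_deriv p (p1 z) s m be z hz0 hz1 (hp z hz.1)
      (hp0 z (ball_subset_closedBall hz.1))
    have a1 : HasFDerivAt (fun w : ℂ => conj w) _ z := Complex.conjCLE.hasFDerivAt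
    have a2 := (hφ z hz.1).hasFDerivAt.restrictScalars ℝ
    have a3 : HasFDerivAt (fun w : ℂ => (wt p s m be w : ℂ)) _ z :=
      Complex.ofRealCLM.hasFDerivAt.comp z hD
    have a4 := ((a1.mul a2).mul a3).hasLineDerivAt v
    refine line_congr a4 ?_
    simp only [hG', add_apply, smul_apply, ContinuousLinearMap.comp_apply, smul_eq_mul,
      Pi.mul_apply, ContinuousLinearMap.coe_restrictScalars',
      ContinuousLinearMap.toSpanSingleton_apply, Complex.ofRealCLM_apply, hDv,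
      ContinuousLinearEquiv.coe_coe, Complex.conjCLE_apply]
    rw [wt_eq p s m be z hz1]
    unfold B1 B2 ang
    have hρ' : ((1 - ‖z‖ ^ 2 : ℝ) : ℂ) ≠ 0 := Complex.ofReal_ne_zero.mpr hρ.ne'
    generalize (conj z * v).re / ‖z‖ ^ 2 = q1
    generalize (conj z * v).re = q2
    generalize (p1 z / p z * v).re = q3
    generalize ‖p z‖ ^ (-s) = g
    generalize (1 - ‖z‖ ^ 2) = ρ at hρ' ⊢
    push_cast
    field_simp
    ring
  have s1 := Stokes.stokes_one G (G' 1) hc (hd 1) h0 (iG 1)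
  have s2 := Stokes.stokes_I G (G' Complex.I) hc (hd Complex.I) h0 (iG Complex.I)
  have s3 : ∫ z in ball (0 : ℂ) 1, (1 / 2 : ℂ) * (G' 1 z + Complex.I * G' Complex.I z) = 0 := by
    rw [integral_const_mul, integral_add (iG 1) ((iG _).const_mul _), integral_const_mul, s1, s2]
    simp
  refine Eq.trans (setIntegral_congr_ae measurableSet_ball ?_) s3
  have hne : ∀ᵐ z : ℂ, z ≠ 0 := by
    have : ∀ᵐ z : ℂ, z ∉ ({0} : Set ℂ) := measure_eq_zero_iff_ae_notMem.mp (measure_singleton 0)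
    filter_upwards [this] with z hz using by simpa using hz
  filter_upwards [hne] with z hz0 _
  have k1 : (((conj z * 1).re : ℝ) : ℂ) + Complex.I * (((conj z * Complex.I).re : ℝ) : ℂ) = z := by
    apply Complex.ext <;> simp
  have k2 : ∀ h : ℂ, (((h * 1).re : ℝ) : ℂ) + Complex.I * (((h * Complex.I).re : ℝ) : ℂ)
      = conj h := by
    intro h; apply Complex.ext <;> simp
  have k3 : conj z * z = ((‖z‖ ^ 2 : ℝ) : ℂ) := by
    rw [← Complex.normSq_eq_norm_sq, Complex.normSq_eq_conj_mul_self]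
  have hσ : ((‖z‖ ^ 2 : ℝ) : ℂ) ≠ 0 :=
    Complex.ofReal_ne_zero.mpr (pow_pos (norm_pos_iff.mpr hz0) 2).ne'
  have k4 : ang 1 z + Complex.I * ang Complex.I z = 1 := by
    unfold ang
    rw [Complex.ofReal_div, Complex.ofReal_div]
    generalize (((conj z * 1).re : ℝ) : ℂ) = x1 at k1 ⊢
    generalize (((conj z * Complex.I).re : ℝ) : ℂ) = x2 at k1 ⊢
    generalize ((‖z‖ ^ 2 : ℝ) : ℂ) = σ at k3 hσ ⊢
    field_simp
    linear_combination (conj z) * k1 + k3
  simp only [hG', B1, B2, map_mul, map_one, Complex.conj_I]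
  have k5 := k2 (p1 z / p z)
  have hI : Complex.I * Complex.I = -1 := Complex.I_mul_I
  generalize (((conj z * 1).re : ℝ) : ℂ) = x1 at k1 ⊢
  generalize (((conj z * Complex.I).re : ℝ) : ℂ) = x2 at k1 ⊢
  generalize (((p1 z / p z * 1).re : ℝ) : ℂ) = y1 at k5 ⊢
  generalize (((p1 z / p z * Complex.I).re : ℝ) : ℂ) = y2 at k5 ⊢
  generalize ((‖p z‖ ^ (-s) : ℝ) : ℂ) = g
  generalize ((1 - ‖z‖ ^ 2 : ℝ) : ℂ) = ρ
  generalize (base m be z : ℂ) = b0
  rw [← k3, ← k5]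
  linear_combination (-(b0 * g * m * ρ * φ z)) * k4 + (b0 * g * be * conj z * φ z) * k1
    + (1 / 2 * b0 * g * ρ * (φ z - conj z * φ1 z)) * hI

theorem ident : Crest.Agent.R131.Ident := by
  intro R f s b c hR hf hf0 hs hb hbc
  have hsub : closedBall (0 : ℂ) 1 ⊆ ball 0 R := closedBall_subset_ball hR
  have d1 : DifferentiableOn ℂ (deriv f) (ball 0 R) := hf.deriv isOpen_ball
  have d2 : DifferentiableOn ℂ (deriv (deriv f)) (ball 0 R) := d1.deriv isOpen_ball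
  set p := deriv f with hpdef
  set p1 := deriv p with hp1def
  have dk : DifferentiableOn ℂ (fun z => z * (p1 z / p z)) (ball 0 R) :=
    differentiableOn_id.mul (d2.div d1 hf0)
  set k : ℂ → ℂ := fun z => z * (p1 z / p z) with hk
  have dk1 : DifferentiableOn ℂ (deriv k) (ball 0 R) := dk.deriv isOpen_ball
  have cp : ContinuousOn p (closedBall 0 1) := d1.continuousOn.mono hsub
  have cp1 : ContinuousOn p1 (closedBall 0 1) := d2.continuousOn.mono hsub
  have ck : ContinuousOn k (closedBall 0 1) := dk.continuousOn.mono hsub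
  have ck1 : ContinuousOn (deriv k) (closedBall 0 1) := dk1.continuousOn.mono hsub
  have hmem : ∀ z ∈ ball (0 : ℂ) 1, ball (0 : ℂ) R ∈ nhds z := fun z hz =>
    isOpen_ball.mem_nhds (hsub (ball_subset_closedBall hz))
  have hp : ∀ z ∈ ball (0 : ℂ) 1, HasDerivAt p (p1 z) z := fun z hz =>
    (d1.differentiableAt (hmem z hz)).hasDerivAt
  have hkd : ∀ z ∈ ball (0 : ℂ) 1, HasDerivAt k (deriv k z) z := fun z hz =>
    (dk.differentiableAt (hmem z hz)).hasDerivAt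
  have hp0 : ∀ z ∈ closedBall (0 : ℂ) 1, p z ≠ 0 := fun z hz => hf0 z (hsub hz)
  have m1 : (-1 : ℝ) < s / 2 := by linarith
  have m2 : (-1 : ℝ) < s / 2 - 1 := by linarith
  have b1 : (0 : ℝ) < b + 1 := by linarith
  have E1 := parts p p1 (fun _ => 1) (fun _ => 0) s (s / 2) b m1 hb cp cp1 continuousOn_const
    continuousOn_const hp (fun z _ => hasDerivAt_const z 1) hp0
  have E2 := parts p p1 k (deriv k) s (s / 2 - 1) (b + 1) m2 b1 cp cp1 ck ck1 hp hkd hp0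
  have E3 := parts p p1 (fun _ => 1) (fun _ => 0) s (s / 2 - 1) (b + 1) m2 b1 cp cp1
    continuousOn_const continuousOn_const hp (fun z _ => hasDerivAt_const z 1) hp0
  have cgR : ContinuousOn (fun z => ‖p z‖ ^ (-s)) (closedBall 0 1) :=
    cp.norm.rpow_const fun z hz => Or.inl (norm_ne_zero_iff.mpr (hp0 z hz))
  have cg : ContinuousOn (fun z => ((‖p z‖ ^ (-s) : ℝ) : ℂ)) (closedBall 0 1) :=
    Complex.continuous_ofReal.comp_continuousOn cgR
  have cρ : Continuous (fun z : ℂ => ((1 - ‖z‖ ^ 2 : ℝ) : ℂ)) := by fun_prop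
  have cσ : Continuous (fun z : ℂ => ((‖z‖ ^ 2 : ℝ) : ℂ)) := by fun_prop
  have cck : ContinuousOn (fun z => conj (z * (p1 z / p z))) (closedBall 0 1) :=
    Complex.continuous_conj.comp_continuousOn ck
  have iE : ∀ (m be : ℝ) (φ : ℂ → ℂ), -1 < m → 0 < be → ContinuousOn φ (closedBall 0 1) →
      IntegrableOn (fun z => (base m be z : ℂ) * (((‖p z‖ ^ (-s) : ℝ) : ℂ) * φ z *
      ((1 + m) * ((1 - ‖z‖ ^ 2 : ℝ) : ℂ) - be * ((‖z‖ ^ 2 : ℝ) : ℂ)
        - s / 2 * ((1 - ‖z‖ ^ 2 : ℝ) : ℂ) * conj (z * (p1 z / p z))))) (ball 0 1) := by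
    intro m be φ hm hbe cφ
    exact base_mul_intC m be hm hbe _ ((cg.mul cφ).mul
      (((continuousOn_const.mul cρ.continuousOn).sub (continuousOn_const.mul cσ.continuousOn)).sub
        ((continuousOn_const.mul cρ.continuousOn).mul cck)))
  have i1 := iE (s / 2) b (fun _ => 1) m1 hb continuousOn_const
  have i2 := iE (s / 2 - 1) (b + 1) k m2 b1 ck
  have i3 := iE (s / 2 - 1) (b + 1) (fun _ => 1) m2 b1 continuousOn_const
  have r1 := (integral_re_C i1).trans (congrArg Complex.re E1)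
  have r2 := (integral_re_C i2).trans (congrArg Complex.re E2)
  have r3 := (integral_re_C i3).trans (congrArg Complex.re E3)
  have j1 := i1.re
  have j2 := i2.re
  have j3 := i3.re
  simp only [RCLike.re_to_complex] at j1 j2 j3
  rw [Complex.zero_re] at r1 r2 r3
  have iR : IntegrableOn (fun z : ℂ => ‖z‖ ^ s * (1 - ‖z‖ ^ 2) ^ (b - 1) *
      (4 * c * ‖z‖ ^ 2 - (s + 2)) * ‖p z‖ ^ (-s)) (ball 0 1) := by
    have := base_mul_int (s / 2) b m1 hb (fun z => (4 * c * ‖z‖ ^ 2 - (s + 2)) * ‖p z‖ ^ (-s))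
      (ContinuousOn.mul (by fun_prop) cgR)
    refine this.congr_fun ?_ measurableSet_ball
    intro z _
    simp only [base]
    rw [show 2 * (s / 2) = s by ring]; ring
  have hne : ∀ᵐ z : ℂ, z ≠ 0 := by
    have : ∀ᵐ z : ℂ, z ∉ ({0} : Set ℂ) := measure_eq_zero_iff_ae_notMem.mp (measure_singleton 0)
    filter_upwards [this] with z hz using by simpa using hz
  have key : ∀ᵐ z : ℂ, z ∈ ball (0 : ℂ) 1 → Wt f s b z * Jd f c z =
      (4 * c / s ^ 2) * (‖z‖ ^ s * (1 - ‖z‖ ^ 2) ^ (b - 1) *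
        (4 * c * ‖z‖ ^ 2 - (s + 2)) * ‖p z‖ ^ (-s))
      - (2 / s) * (((base (s / 2 - 1) (b + 1) z : ℂ) * (((‖p z‖ ^ (-s) : ℝ) : ℂ) * k z *
      ((1 + ((s / 2 - 1 : ℝ) : ℂ)) * ((1 - ‖z‖ ^ 2 : ℝ) : ℂ) - ((b + 1 : ℝ) : ℂ) * ((‖z‖ ^ 2 : ℝ) : ℂ)
        - s / 2 * ((1 - ‖z‖ ^ 2 : ℝ) : ℂ) * conj (z * (p1 z / p z))))).re)
      - (2 / s) * (((base (s / 2 - 1) (b + 1) z : ℂ) * (((‖p z‖ ^ (-s) : ℝ) : ℂ) * 1 *
      ((1 + ((s / 2 - 1 : ℝ) : ℂ)) * ((1 - ‖z‖ ^ 2 : ℝ) : ℂ) - ((b + 1 : ℝ) : ℂ) * ((‖z‖ ^ 2 : ℝ) : ℂ)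
        - s / 2 * ((1 - ‖z‖ ^ 2 : ℝ) : ℂ) * conj (z * (p1 z / p z))))).re)
      - (4 * c * (s - 2) / s ^ 2) * (((base (s / 2) b z : ℂ) * (((‖p z‖ ^ (-s) : ℝ) : ℂ) * 1 *
      ((1 + ((s / 2 : ℝ) : ℂ)) * ((1 - ‖z‖ ^ 2 : ℝ) : ℂ) - (b : ℂ) * ((‖z‖ ^ 2 : ℝ) : ℂ)
        - s / 2 * ((1 - ‖z‖ ^ 2 : ℝ) : ℂ) * conj (z * (p1 z / p z))))).re) := by
    filter_upwards [hne] with z hz0 hz
    have hz1 : ‖z‖ < 1 := by simpa using hz
    have h0 : 0 < ‖z‖ := norm_pos_iff.mpr hz0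
    have hρ : 0 < 1 - ‖z‖ ^ 2 := by nlinarith
    have a1 : ‖z‖ ^ s = ‖z‖ ^ (s - 2) * ‖z‖ ^ 2 := by
      rw [← Real.rpow_natCast, ← Real.rpow_add h0]; congr 1; push_cast; ring
    have a2 : base (s / 2 - 1) (b + 1) z =
        ‖z‖ ^ (s - 2) * ((1 - ‖z‖ ^ 2) ^ (b - 1) * (1 - ‖z‖ ^ 2)) := by
      unfold base
      rw [show 2 * (s / 2 - 1) = s - 2 by ring, show b + 1 - 1 = (b - 1) + 1 by ring,
        Real.rpow_add hρ, Real.rpow_one]
    have a3 : base (s / 2) b z = ‖z‖ ^ (s - 2) * ‖z‖ ^ 2 * (1 - ‖z‖ ^ 2) ^ (b - 1) := by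
      unfold base
      rw [show 2 * (s / 2) = s by ring, a1]
    have a4 : Jd f c z = ((2 * c - 1) * ‖z‖ ^ 2 + (1 - ‖z‖ ^ 2) * (k z).re) ^ 2
        + ((1 - ‖z‖ ^ 2) * (k z).im) ^ 2 - 1 := by
      unfold Jd
      rw [Complex.sq_norm, Complex.normSq_apply, mul_assoc]
      simp only [Complex.add_re, Complex.add_im, Complex.ofReal_re, Complex.ofReal_im,
        Complex.re_ofReal_mul, Complex.im_ofReal_mul]
      ring
    rw [a2, a3, a4, a1]
    unfold Wt
    have hkz : z * (p1 z / p z) = k z := rfl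
    rw [hkz]
    have hb' : b = (s + 2) * (c - 1) + 1 := by linarith
    have hs2 : (s : ℂ) / 2 = ((s / 2 : ℝ) : ℂ) := by push_cast; ring
    rw [hs2]
    simp only [Complex.mul_re, Complex.mul_im, Complex.add_re, Complex.add_im, Complex.sub_re,
      Complex.sub_im, Complex.ofReal_re, Complex.ofReal_im, Complex.one_re, Complex.one_im,
      Complex.conj_re, Complex.conj_im]
    generalize ‖z‖ ^ (s - 2) = A
    generalize (1 - ‖z‖ ^ 2) ^ (b - 1) = B
    generalize ‖p z‖ ^ (-s) = g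
    generalize ‖z‖ ^ 2 = σ
    generalize (k z).re = x
    generalize (k z).im = y
    rw [hb']
    field_simp
    ring
  have iS := (((iR.const_mul (4 * c / s ^ 2)).sub (j2.const_mul (2 / s))).sub
    (j3.const_mul (2 / s))).sub (j1.const_mul (4 * c * (s - 2) / s ^ 2))
  refine ⟨?_, iR, ?_⟩
  · refine Integrable.congr iS ?_
    refine (ae_restrict_iff' measurableSet_ball).2 ?_
    filter_upwards [key] with z hz hzm using (hz hzm).symm
  · rw [setIntegral_congr_ae measurableSet_ball key]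
    exact integral_comb iR j2 j3 j1 r2 r3 r1 _ _ _ _

end Crest.Agent.R131.Ident
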