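import Mathlib

/-! Wirtinger calculus by line derivatives and one integration by parts on the unit disc. -/

set_option autoImplicit false
open Complex MeasureTheory Metric Set
open scoped ComplexConjugate

namespace Crest.Agent.R131.Rig

/-- `F` has Wirtinger derivatives `A = ∂F`, `B = ∂̄F` at `z` (as line derivatives). -/
def HW (F : ℂ → ℂ) (z A B : ℂ) : Prop :=
  ∀ v : ℂ, HasDerivAt (fun t : ℝ => F (z + t • v)) (A * v + B * conj v) 0

theorem HW.const (c z : ℂ) : HW (fun _ => c) z 0 0 := by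
  intro v; simpa using hasDerivAt_const (0 : ℝ) c

theorem HW.holo {F : ℂ → ℂ} {z F' : ℂ} (h : HasDerivAt F F' z) : HW F z F' 0 := by
  intro v
  have h1 : HasDerivAt (fun t : ℝ => z + t • v) v 0 := by
    simpa using ((hasDerivAt_id (0 : ℝ)).smul_const v).const_add z
  have h2 : HasDerivAt F F' (z + (0 : ℝ) • v) := by simpa using h
  have h3 := h2.scomp (0 : ℝ) h1
  have e : F' * v + 0 * conj v = v • F' := by simp [mul_comm]
  rw [e]; exact h3

theorem HW.add {F G : ℂ → ℂ} {z A B A' B' : ℂ} (h : HW F z A B) (g : HW G z A' B') :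
    HW (fun w => F w + G w) z (A + A') (B + B') := by
  intro v
  have := (h v).add (g v)
  have e : (A + A') * v + (B + B') * conj v = A * v + B * conj v + (A' * v + B' * conj v) := by ring
  rw [e]; exact this

theorem HW.mul {F G : ℂ → ℂ} {z A B A' B' : ℂ} (h : HW F z A B) (g : HW G z A' B') :
    HW (fun w => F w * G w) z (A * G z + F z * A') (B * G z + F z * B') := by
  intro v
  have := (h v).mul (g v)
  simp only [zero_smul, add_zero] at this
  have e : (A * G z + F z * A') * v + (B * G z + F z * B') * conj v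
      = (A * v + B * conj v) * G z + F z * (A' * v + B' * conj v) := by ring
  rw [e]; exact this

theorem HW.conj {F : ℂ → ℂ} {z A B : ℂ} (h : HW F z A B) :
    HW (fun w => conj (F w)) z (conj B) (conj A) := by
  intro v
  have := (h v).star
  have e : conj B * v + conj A * conj v = star (A * v + B * conj v) := by
    simp [add_comm]
  rw [e]; exact this

theorem HW.rcomp {r : ℂ → ℝ} {z A B : ℂ} (h : HW (fun w => (r w : ℂ)) z A B) {φ : ℝ → ℝ} {φ' : ℝ}
    (hφ : HasDerivAt φ φ' (r z)) : HW (fun w => (φ (r w) : ℂ)) z (φ' * A) (φ' * B) := by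
  intro v
  have h0 := h v
  have hre : HasDerivAt (fun t : ℝ => r (z + t • v)) (A * v + B * (starRingEnd ℂ) v).re 0 := by
    have := Complex.reCLM.hasFDerivAt.comp_hasDerivAt (0 : ℝ) h0
    simpa [Function.comp_def] using this
  have him : (A * v + B * (starRingEnd ℂ) v).im = 0 := by
    have h1 := Complex.imCLM.hasFDerivAt.comp_hasDerivAt (0 : ℝ) h0
    have h2 : HasDerivAt (fun _ : ℝ => (0 : ℝ)) (A * v + B * (starRingEnd ℂ) v).im 0 := by
      simpa [Function.comp_def] using h1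
    exact h2.unique (hasDerivAt_const (0 : ℝ) (0 : ℝ))
  have hφ' : HasDerivAt φ φ' (r (z + (0 : ℝ) • v)) := by simpa using hφ
  have h3 := (hφ'.comp (0 : ℝ) hre).ofReal_comp
  have e : (φ' : ℂ) * A * v + φ' * B * (starRingEnd ℂ) v
      = ((φ' * (A * v + B * (starRingEnd ℂ) v).re : ℝ) : ℂ) := by
    have e2 : (((A * v + B * (starRingEnd ℂ) v).re : ℝ) : ℂ) = A * v + B * (starRingEnd ℂ) v := by
      apply Complex.ext
      · simp
      · rw [him]; simp
    rw [Complex.ofReal_mul, e2]; ring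
  rw [e]; exact h3

theorem HW.congr {F G : ℂ → ℂ} {z A B : ℂ} (h : HW F z A B) (e : G =ᶠ[nhds z] F) : HW G z A B := by
  intro v
  have hc : ContinuousAt (fun t : ℝ => z + t • v) 0 := by fun_prop
  have ht : Filter.Tendsto (fun t : ℝ => z + t • v) (nhds 0) (nhds z) := by
    simpa [ContinuousAt] using hc
  exact (h v).congr_of_eventuallyEq (ht.eventually e)

/-- `C¹` on `U` with continuous Wirtinger derivatives. -/
def C1 (U : Set ℂ) (F A B : ℂ → ℂ) : Prop :=
  ContinuousOn F U ∧ ContinuousOn A U ∧ ContinuousOn B U ∧ ∀ z ∈ U, HW F z (A z) (B z)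

theorem C1.const (U : Set ℂ) (c : ℂ) : C1 U (fun _ => c) (fun _ => 0) (fun _ => 0) :=
  ⟨continuousOn_const, continuousOn_const, continuousOn_const, fun z _ => HW.const c z⟩

theorem C1.holo {U : Set ℂ} (hU : IsOpen U) {F : ℂ → ℂ} (h : DifferentiableOn ℂ F U) :
    C1 U F (deriv F) (fun _ => 0) :=
  ⟨h.continuousOn, (h.deriv hU).continuousOn, continuousOn_const,
    fun _ hz => HW.holo (h.differentiableAt (hU.mem_nhds hz)).hasDerivAt⟩

theorem C1.id (U : Set ℂ) : C1 U (fun w => w) (fun _ => 1) (fun _ => 0) :=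
  ⟨continuousOn_id, continuousOn_const, continuousOn_const,
    fun z _ => HW.holo (hasDerivAt_id z)⟩

theorem C1.add {U : Set ℂ} {F A B G A' B' : ℂ → ℂ} (h : C1 U F A B) (g : C1 U G A' B') :
    C1 U (fun w => F w + G w) (fun w => A w + A' w) (fun w => B w + B' w) :=
  ⟨h.1.add g.1, h.2.1.add g.2.1, h.2.2.1.add g.2.2.1,
    fun z hz => (h.2.2.2 z hz).add (g.2.2.2 z hz)⟩

theorem C1.mul {U : Set ℂ} {F A B G A' B' : ℂ → ℂ} (h : C1 U F A B) (g : C1 U G A' B') :
    C1 U (fun w => F w * G w) (fun w => A w * G w + F w * A' w)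
      (fun w => B w * G w + F w * B' w) :=
  ⟨h.1.mul g.1, (h.2.1.mul g.1).add (h.1.mul g.2.1), (h.2.2.1.mul g.1).add (h.1.mul g.2.2.1),
    fun z hz => (h.2.2.2 z hz).mul (g.2.2.2 z hz)⟩

theorem C1.conj {U : Set ℂ} {F A B : ℂ → ℂ} (h : C1 U F A B) :
    C1 U (fun w => conj (F w)) (fun w => conj (B w)) (fun w => conj (A w)) :=
  ⟨Complex.continuous_conj.comp_continuousOn h.1, Complex.continuous_conj.comp_continuousOn h.2.2.1,
    Complex.continuous_conj.comp_continuousOn h.2.1, fun z hz => (h.2.2.2 z hz).conj⟩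

theorem C1.rcomp {U : Set ℂ} {r : ℂ → ℝ} {A B : ℂ → ℂ} (h : C1 U (fun w => (r w : ℂ)) A B)
    {φ φ' : ℝ → ℝ} (hφ : ∀ z ∈ U, HasDerivAt φ (φ' (r z)) (r z))
    (hφ' : ∀ z ∈ U, ContinuousAt φ' (r z)) :
    C1 U (fun w => (φ (r w) : ℂ)) (fun w => φ' (r w) * A w) (fun w => φ' (r w) * B w) := by
  have hr : ContinuousOn r U := by
    have := Complex.continuous_re.comp_continuousOn h.1
    simpa [Function.comp_def] using this
  have h1 : ContinuousOn (fun w => φ (r w)) U := fun z hz =>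
    (hφ z hz).continuousAt.comp_continuousWithinAt (hr z hz)
  have h2 : ContinuousOn (fun w => φ' (r w)) U := fun z hz =>
    (hφ' z hz).comp_continuousWithinAt (hr z hz)
  have h3 : ContinuousOn (fun w => (φ' (r w) : ℂ)) U := Complex.continuous_ofReal.comp_continuousOn h2
  exact ⟨Complex.continuous_ofReal.comp_continuousOn h1, h3.mul h.2.1, h3.mul h.2.2.1,
    fun z hz => (h.2.2.2 z hz).rcomp (hφ z hz)⟩

theorem C1.of_eq {U : Set ℂ} {F G A B : ℂ → ℂ} (h : C1 U F A B) (e : ∀ w, G w = F w) :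
    C1 U G A B := by
  have : G = F := funext e
  rw [this]; exact h

theorem C1.normSq {U : Set ℂ} {F A B : ℂ → ℂ} (h : C1 U F A B) :
    C1 U (fun w => ((‖F w‖ ^ 2 : ℝ) : ℂ))
      (fun w => A w * (starRingEnd ℂ) (F w) + F w * (starRingEnd ℂ) (B w))
      (fun w => B w * (starRingEnd ℂ) (F w) + F w * (starRingEnd ℂ) (A w)) :=
  (h.mul h.conj).of_eq (fun w => by rw [Complex.mul_conj']; push_cast; rfl)

theorem C1.rho (U : Set ℂ) :
    C1 U (fun w => ((1 - ‖w‖ ^ 2 : ℝ) : ℂ)) (fun w => -(starRingEnd ℂ) w) (fun w => -w) := by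
  have h := (C1.const U 1).add ((C1.const U (-1)).mul (C1.id U).normSq)
  have h2 := h.of_eq (G := fun w => ((1 - ‖w‖ ^ 2 : ℝ) : ℂ)) (fun w => by push_cast; ring)
  refine ⟨h2.1, ?_, ?_, fun z hz => ?_⟩
  · exact (Complex.continuous_conj.neg).continuousOn
  · exact continuous_neg.continuousOn
  · have := h2.2.2.2 z hz
    simpa using this

theorem hasDerivAt_posRpow {p : ℝ} (hp : 1 < p) (x : ℝ) :
    HasDerivAt (fun y : ℝ => (max y 0) ^ p) (p * (max x 0) ^ (p - 1)) x := by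
  rcases lt_trichotomy x 0 with hx | hx | hx
  · have e : (fun y : ℝ => (max y 0) ^ p) =ᶠ[nhds x] fun _ => 0 := by
      filter_upwards [gt_mem_nhds hx] with y hy
      rw [max_eq_right hy.le, Real.zero_rpow (by linarith)]
    rw [max_eq_right hx.le, Real.zero_rpow (by linarith), mul_zero]
    exact (hasDerivAt_const x (0 : ℝ)).congr_of_eventuallyEq e
  · subst hx
    rw [max_self, Real.zero_rpow (by linarith), mul_zero]
    have h := hasDerivAt_abs_rpow 0 hp
    simp only [mul_zero] at h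
    rw [hasDerivAt_iff_isLittleO] at h ⊢
    refine Asymptotics.IsBigO.trans_isLittleO ?_ h
    refine Asymptotics.IsBigO.of_bound 1 (Filter.Eventually.of_forall fun y => ?_)
    have h0 : (0 : ℝ) ^ p = 0 := Real.zero_rpow (by linarith)
    simp only [max_self, abs_zero, h0, sub_zero, smul_zero, one_mul, Real.norm_eq_abs]
    rw [abs_of_nonneg (Real.rpow_nonneg (le_max_right _ _) _),
      abs_of_nonneg (Real.rpow_nonneg (abs_nonneg _) _)]
    exact Real.rpow_le_rpow (le_max_right _ _) (max_le (le_abs_self y) (abs_nonneg y)) (by linarith)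
  · have e : (fun y : ℝ => (max y 0) ^ p) =ᶠ[nhds x] fun y => y ^ p := by
      filter_upwards [lt_mem_nhds hx] with y hy
      rw [max_eq_left hy.le]
    rw [max_eq_left hx.le]
    exact (Real.hasDerivAt_rpow_const (Or.inl hx.ne')).congr_of_eventuallyEq e

theorem integrable_of_disc {R : ℝ} (hR : 1 < R) {G : ℂ → ℂ} (hc : ContinuousOn G (ball 0 R))
    (h0 : ∀ z, z ∉ ball (0 : ℂ) 1 → G z = 0) : Integrable G := by
  have h1 : IntegrableOn G (closedBall (0 : ℂ) 1) :=
    (hc.mono (closedBall_subset_ball hR)).integrableOn_compact (isCompact_closedBall 0 1)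
  refine (integrableOn_iff_integrable_of_support_subset ?_).1 h1
  intro z hz
  by_contra hn
  exact hz (h0 z (fun hb => hn (ball_subset_closedBall hb)))

theorem integral_line_zero {W D : ℂ → ℂ} (v : ℂ) (hW : Integrable W) (hD : Integrable D)
    (h : ∀ z, HasDerivAt (fun t : ℝ => W (z + t • v)) (D z) 0) : ∫ z, D z = 0 := by
  have := integral_bilinear_hasLineDerivAt_right_eq_neg_left_of_integrable
    (μ := (volume : Measure ℂ)) (f := W) (f' := D) (g := fun _ => (1 : ℂ)) (g' := fun _ => (0 : ℂ))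
    (v := v) (B := ContinuousLinearMap.mul ℝ ℂ) (by simpa using hD) (by simp) (by simpa using hW)
    (fun x _ => h x) (fun x _ => hasDerivAt_const (0 : ℝ) (1 : ℂ))
  simpa using this

/-- `∫_D ∂̄(ρ^(b+1) Φ) = 0`. -/
theorem ibp {R b : ℝ} (hR : 1 < R) (hb : 0 < b) {F A B : ℂ → ℂ} (h : C1 (ball 0 R) F A B) :
    IntegrableOn (fun z : ℂ => (((1 - ‖z‖ ^ 2) ^ (b + 1) : ℝ) : ℂ) * B z
        - (((b + 1) * (1 - ‖z‖ ^ 2) ^ b : ℝ) : ℂ) * z * F z) (ball 0 1) ∧
    ∫ z in ball (0 : ℂ) 1, ((((1 - ‖z‖ ^ 2) ^ (b + 1) : ℝ) : ℂ) * B z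
        - (((b + 1) * (1 - ‖z‖ ^ 2) ^ b : ℝ) : ℂ) * z * F z) = 0 := by
  have hp : 1 < b + 1 := by linarith
  have hw := (C1.rho (ball (0 : ℂ) R)).rcomp (φ := fun y => (max y 0) ^ (b + 1))
    (φ' := fun y => (b + 1) * (max y 0) ^ (b + 1 - 1)) (fun z _ => hasDerivAt_posRpow hp _)
    (fun z _ => by
      refine continuousAt_const.mul ?_
      exact (continuous_id.max continuous_const).continuousAt.rpow_const (Or.inr (by linarith)))
  have hW := hw.mul h
  obtain ⟨W, hWd⟩ : ∃ W : ℂ → ℂ, W = fun w => (((max (1 - ‖w‖ ^ 2) 0) ^ (b + 1) : ℝ) : ℂ) * F w :=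
    ⟨_, rfl⟩
  obtain ⟨WA, hWA⟩ : ∃ WA : ℂ → ℂ, WA = fun w =>
      (((b + 1) * (max (1 - ‖w‖ ^ 2) 0) ^ (b + 1 - 1) : ℝ) : ℂ) * (-(starRingEnd ℂ) w) * F w
        + (((max (1 - ‖w‖ ^ 2) 0) ^ (b + 1) : ℝ) : ℂ) * A w := ⟨_, rfl⟩
  obtain ⟨WB, hWB⟩ : ∃ WB : ℂ → ℂ, WB = fun w =>
      (((b + 1) * (max (1 - ‖w‖ ^ 2) 0) ^ (b + 1 - 1) : ℝ) : ℂ) * (-w) * F w
        + (((max (1 - ‖w‖ ^ 2) 0) ^ (b + 1) : ℝ) : ℂ) * B w := ⟨_, rfl⟩
  rw [← hWd, ← hWA, ← hWB] at hW
  have hmax : ∀ z, z ∉ ball (0 : ℂ) 1 → max (1 - ‖z‖ ^ 2) 0 = 0 := by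
    intro z hz
    have : 1 ≤ ‖z‖ := by simpa using hz
    exact max_eq_right (by nlinarith)
  have z1 : (0 : ℝ) ^ (b + 1) = 0 := Real.zero_rpow (by linarith)
  have z2 : (0 : ℝ) ^ (b + 1 - 1) = 0 := Real.zero_rpow (by linarith)
  have W0 : ∀ z, z ∉ ball (0 : ℂ) 1 → W z = 0 := fun z hz => by
    rw [hWd]; beta_reduce; rw [hmax z hz, z1]; simp
  have A0 : ∀ z, z ∉ ball (0 : ℂ) 1 → WA z = 0 := fun z hz => by
    rw [hWA]; beta_reduce; rw [hmax z hz, z1, z2]; simp
  have B0 : ∀ z, z ∉ ball (0 : ℂ) 1 → WB z = 0 := fun z hz => by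
    rw [hWB]; beta_reduce; rw [hmax z hz, z1, z2]; simp
  have iW := integrable_of_disc hR hW.1 W0
  have iA := integrable_of_disc hR hW.2.1 A0
  have iB := integrable_of_disc hR hW.2.2.1 B0
  have hall : ∀ z, HW W z (WA z) (WB z) := by
    intro z
    by_cases hz : z ∈ ball (0 : ℂ) R
    · exact hW.2.2.2 z hz
    · have hz1 : z ∉ closedBall (0 : ℂ) 1 := fun hc => hz (closedBall_subset_ball hR hc)
      have hz2 : z ∉ ball (0 : ℂ) 1 := fun hc => hz1 (ball_subset_closedBall hc)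
      rw [A0 z hz2, B0 z hz2]
      refine (HW.const 0 z).congr ?_
      filter_upwards [isClosed_closedBall.isOpen_compl.mem_nhds hz1] with y hy
      exact W0 y (fun hc => hy (ball_subset_closedBall hc))
  have e1 := integral_line_zero 1 iW ((iA.mul_const 1).add (iB.mul_const ((starRingEnd ℂ) 1)))
    (fun z => hall z 1)
  have e2 := integral_line_zero I iW ((iA.mul_const I).add (iB.mul_const ((starRingEnd ℂ) I)))
    (fun z => hall z I)
  simp only [Pi.add_apply] at e1 e2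
  rw [integral_add (iA.mul_const _) (iB.mul_const _), integral_mul_const, integral_mul_const] at e1 e2
  have hB : ∫ z, WB z = 0 := by
    simp only [map_one, mul_one, conj_I] at e1 e2
    have e3 : ((∫ z, WA z) - ∫ z, WB z) * I = 0 := by linear_combination e2
    have e4 : (∫ z, WA z) - ∫ z, WB z = 0 := (mul_eq_zero.1 e3).resolve_right I_ne_zero
    linear_combination (e1 - e4) / 2
  have heq : EqOn WB (fun z : ℂ => (((1 - ‖z‖ ^ 2) ^ (b + 1) : ℝ) : ℂ) * B z
        - (((b + 1) * (1 - ‖z‖ ^ 2) ^ b : ℝ) : ℂ) * z * F z) (ball 0 1) := by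
    intro z hz
    have hz' : ‖z‖ < 1 := by simpa using hz
    have : max (1 - ‖z‖ ^ 2) 0 = 1 - ‖z‖ ^ 2 := max_eq_left (by nlinarith [norm_nonneg z])
    rw [hWB]; beta_reduce; rw [this, add_sub_cancel_right]; ring
  refine ⟨(iB.integrableOn).congr_fun heq measurableSet_ball, ?_⟩
  rw [← setIntegral_congr_fun measurableSet_ball heq,
    setIntegral_eq_integral_of_forall_compl_eq_zero B0, hB]

end Crest.Agent.R131.Rig
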