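import Crest.Agent.R131.Defs
import Crest.Agent.R131.Stokes
import Crest.Agent.R131.RigW
import Crest.Agent.R131.Asm3

/-! Row 131: the exact identity (block IDENT), from one application of Stokes' theorem. -/

set_option autoImplicit false
open Complex MeasureTheory Metric Set Filter
open scoped ComplexConjugate

namespace Crest.Agent.R131.Ident89

open Crest.Agent.R131.Rig

theorem rho_pos {z : ℂ} (hz : z ∈ ball (0 : ℂ) 1) : 0 < 1 - ‖z‖ ^ 2 := by
  have hz1 : ‖z‖ < 1 := mem_ball_zero_iff.1 hz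
  nlinarith [norm_nonneg z]

theorem norm_split {s : ℝ} (hs : 0 < s) (z : ℂ) : ‖z‖ ^ s = ‖z‖ ^ (s - 2) * ‖z‖ ^ 2 := by
  rcases (norm_nonneg z).eq_or_lt with h | h
  · rw [← h, Real.zero_rpow hs.ne']; simp
  · rw [← Real.rpow_two, ← Real.rpow_add h]; congr 1; ring

theorem rho_split (b : ℝ) {z : ℂ} (hz : z ∈ ball (0 : ℂ) 1) :
    (1 - ‖z‖ ^ 2) ^ b = (1 - ‖z‖ ^ 2) ^ (b - 1) * (1 - ‖z‖ ^ 2) := by
  rw [← Real.rpow_add_one (rho_pos hz).ne']; congr 1; ring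

theorem base_int {s b : ℝ} (hs : 0 < s) (hb : 0 < b) :
    IntegrableOn (fun z : ℂ => ‖z‖ ^ (s - 2) * (1 - ‖z‖ ^ 2) ^ (b - 1)) (ball 0 1) := by
  have h1 : IntegrableOn (fun z : ℂ => (1 - ‖z‖ ^ 2) ^ (b - 1) * ‖z‖ ^ s) (ball 0 1) :=
    (asm_weight_int hb).mul_continuousOn_of_subset
      (continuous_norm.continuousOn.rpow_const fun _ _ => Or.inr hs.le) measurableSet_ball
      (isCompact_closedBall 0 1) ball_subset_closedBall
  have h0 : IntegrableOn (fun z : ℂ => ‖z‖ ^ (s - 2)) (ball 0 1) := by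
    refine integrableOn_ball_of_norm_le_rpow (C := 1) (α := 2 - s) (by simp) (by simpa using hs)
      (Eventually.of_forall fun z => ?_) (measurable_norm.pow_const _).aestronglyMeasurable
    rw [Real.norm_eq_abs, abs_of_nonneg (by positivity), one_mul, neg_sub]
  have h2 : IntegrableOn (fun z : ℂ => ‖z‖ ^ (s - 2) * (1 - ‖z‖ ^ 2) ^ b) (ball 0 1) :=
    h0.mul_continuousOn_of_subset
      ((by fun_prop : Continuous fun z : ℂ => 1 - ‖z‖ ^ 2).continuousOn.rpow_const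
        fun _ _ => Or.inr hb.le) measurableSet_ball
      (isCompact_closedBall 0 1) ball_subset_closedBall
  refine (h1.add h2).congr_fun (fun z hz => ?_) measurableSet_ball
  simp only [Pi.add_apply]
  rw [norm_split hs z, rho_split b hz]
  ring

theorem HW.rpow {r : ℂ → ℝ} {z A B : ℂ} (h : HW (fun w => (r w : ℂ)) z A B) (hr : 0 < r z)
    (p : ℝ) : HW (fun w => ((r w ^ p : ℝ) : ℂ)) z
      (((r z ^ p : ℝ) : ℂ) * (p * A / r z)) (((r z ^ p : ℝ) : ℂ) * (p * B / r z)) := by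
  have h1 := h.rcomp (φ := fun y => y ^ p) (Real.hasDerivAt_rpow_const (p := p) (Or.inl hr.ne'))
  have e : ((p * r z ^ (p - 1) : ℝ) : ℂ) = ((r z ^ p : ℝ) : ℂ) * (p / r z) := by
    rw [Real.rpow_sub_one hr.ne']
    push_cast
    ring
  rw [e] at h1
  convert h1 using 1 <;> ring

theorem HW.normSq {F : ℂ → ℂ} {z F' : ℂ} (h : HasDerivAt F F' z) :
    HW (fun w => ((‖F w‖ ^ 2 : ℝ) : ℂ)) z (F' * conj (F z)) (F z * conj F') := by
  have h1 := (HW.holo h).mul (HW.holo h).conj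
  have e : (fun w => ((‖F w‖ ^ 2 : ℝ) : ℂ)) = fun w => F w * conj (F w) := by
    funext w; rw [Complex.mul_conj']; push_cast; rfl
  rw [e]
  convert h1 using 1 <;> simp

theorem sq_rpow (x : ℝ) (hx : 0 ≤ x) (p : ℝ) : (x ^ 2) ^ (p / 2) = x ^ p := by
  rw [← Real.rpow_two, ← Real.rpow_mul hx]; congr 1; ring

/-- Wirtinger derivatives of the weight `|z|^(s-2) |f'|^(-s) ρ^b`. -/
theorem hw_weight {g : ℂ → ℂ} {g' z : ℂ} (s b : ℝ) (hg : HasDerivAt g g' z) (hg0 : g z ≠ 0)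
    (hz : z ∈ ball (0 : ℂ) 1) (hz0 : z ≠ 0) :
    HW (fun w => ((‖w‖ ^ (s - 2) * ‖g w‖ ^ (-s) * (1 - ‖w‖ ^ 2) ^ b : ℝ) : ℂ)) z
      (((‖z‖ ^ (s - 2) * ‖g z‖ ^ (-s) * (1 - ‖z‖ ^ 2) ^ b : ℝ) : ℂ) *
        ((s - 2) / 2 / z - s / 2 * (g' / g z) - b * conj z / ((1 - ‖z‖ ^ 2 : ℝ) : ℂ)))
      (((‖z‖ ^ (s - 2) * ‖g z‖ ^ (-s) * (1 - ‖z‖ ^ 2) ^ b : ℝ) : ℂ) *
        ((s - 2) / 2 / conj z - s / 2 * conj (g' / g z) - b * z / ((1 - ‖z‖ ^ 2 : ℝ) : ℂ))) := by
  have h1 := HW.rpow (r := fun w => ‖w‖ ^ 2) (HW.normSq (hasDerivAt_id z))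
    (by have := norm_pos_iff.2 hz0; positivity) ((s - 2) / 2)
  have h2 := HW.rpow (r := fun w => ‖g w‖ ^ 2) (HW.normSq hg)
    (by have := norm_pos_iff.2 hg0; positivity) ((-s) / 2)
  have h3 := HW.rpow (r := fun w => 1 - ‖w‖ ^ 2) ((C1.rho univ).2.2.2 z (mem_univ z))
    (rho_pos hz) b
  simp only [sq_rpow _ (norm_nonneg _)] at h1 h2
  have h4 := (h1.mul h2).mul h3
  have e : (fun w => ((‖w‖ ^ (s - 2) * ‖g w‖ ^ (-s) * (1 - ‖w‖ ^ 2) ^ b : ℝ) : ℂ)) =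
      fun w => ((‖w‖ ^ (s - 2) : ℝ) : ℂ) * ((‖g w‖ ^ (-s) : ℝ) : ℂ) *
        (((1 - ‖w‖ ^ 2) ^ b : ℝ) : ℂ) := by
    funext w; push_cast; ring
  rw [e]
  have e1 : ((‖z‖ ^ 2 : ℝ) : ℂ) = z * conj z := by rw [Complex.mul_conj']; push_cast; rfl
  have e2 : ((‖g z‖ ^ 2 : ℝ) : ℂ) = g z * conj (g z) := by rw [Complex.mul_conj']; push_cast; rfl
  have hc0 : conj z ≠ 0 := by simpa using hz0
  have hc1 : conj (g z) ≠ 0 := by simpa using hg0
  have hr : ((1 - ‖z‖ ^ 2 : ℝ) : ℂ) ≠ 0 := by exact_mod_cast (rho_pos hz).ne'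
  rw [e1, e2] at h4
  rw [Complex.ofReal_mul, Complex.ofReal_mul, map_div₀]
  simp only [map_one] at h4
  generalize ((1 - ‖z‖ ^ 2 : ℝ) : ℂ) = ρ at h4 hr ⊢
  generalize ((‖z‖ ^ (s - 2) : ℝ) : ℂ) = u1 at h4 ⊢
  generalize ((‖g z‖ ^ (-s) : ℝ) : ℂ) = u2 at h4 ⊢
  generalize (((1 - ‖z‖ ^ 2) ^ b : ℝ) : ℂ) = u3 at h4 ⊢
  convert h4 using 1
  · push_cast; field_simp; ring
  · push_cast; field_simp; ring

theorem alg (s b c x : ℝ) (ψ : ℂ) (hs : s ≠ 0) (hb : b - 1 = (s + 2) * (c - 1))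
    (a1 a2 : ℝ) (ha1 : a1 = 4 * (b + 1) / s ^ 2 - 4 * (2 * c - 1) / s) (ha2 : a2 = -2 / s) :
    (((1 - x : ℝ) : ℂ) * (a1 + ((1 - x : ℝ) : ℂ) * (a2 * ψ + a2 - a1)) -
      ((1 - x : ℝ) : ℂ) * (x : ℂ) * (a2 * ψ + a2 - a1) +
      (a1 + ((1 - x : ℝ) : ℂ) * (a2 * ψ + a2 - a1)) *
        (((1 - x : ℝ) : ℂ) * (((s - 2) / 2 : ℝ) : ℂ) - ((s / 2 : ℝ) : ℂ) * ((1 - x : ℝ) : ℂ) * conj ψ
          - (b : ℂ) * (x : ℂ))).re =
      (‖(((2 * c - 1) * x : ℝ) : ℂ) + ((1 - x : ℝ) : ℂ) * ψ‖ ^ 2 - 1) -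
        4 * c / s ^ 2 * (x * (4 * c * x - (s + 2))) := by
  have hb' : b = (s + 2) * (c - 1) + 1 := by linarith
  rw [Complex.sq_norm, Complex.normSq_apply]
  simp only [add_re, sub_re, mul_re, add_im, sub_im, mul_im, ofReal_re, ofReal_im, conj_re,
    conj_im]
  subst ha1 ha2 hb'
  field_simp
  ring

theorem ident : Ident := by
  intro R f s b c hR hf hne hs hb hbc
  have hsub : closedBall (0 : ℂ) 1 ⊆ ball 0 R := closedBall_subset_ball hR
  have hsub' : ball (0 : ℂ) 1 ⊆ ball 0 R := ball_subset_ball hR.le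
  have hf1 : DifferentiableOn ℂ (deriv f) (ball 0 R) := hf.deriv isOpen_ball
  have hf2 : DifferentiableOn ℂ (deriv (deriv f)) (ball 0 R) := hf1.deriv isOpen_ball
  set h : ℂ → ℂ := fun z => deriv (deriv f) z / deriv f z with hh
  have hhd : DifferentiableOn ℂ h (ball 0 R) := hf2.div hf1 hne
  set ψ : ℂ → ℂ := fun z => z * h z with hψ
  have hψd : DifferentiableOn ℂ ψ (ball 0 R) := differentiableOn_id.mul hhd
  have hhc : ContinuousOn h (closedBall 0 1) := hhd.continuousOn.mono hsub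
  have hψc : ContinuousOn ψ (closedBall 0 1) := hψd.continuousOn.mono hsub
  have hψ'c : ContinuousOn (deriv ψ) (closedBall 0 1) :=
    (hψd.deriv isOpen_ball).continuousOn.mono hsub
  have huc : ContinuousOn (fun z => ‖deriv f z‖ ^ (-s)) (closedBall (0 : ℂ) 1) :=
    (hf1.continuousOn.mono hsub).norm.rpow_const fun z hz =>
      Or.inl (norm_ne_zero_iff.2 (hne z (hsub hz)))
  have hW : IntegrableOn (Wt f s b) (ball 0 1) := by
    refine ((base_int hs hb).mul_continuousOn_of_subset huc measurableSet_ball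
      (isCompact_closedBall 0 1) ball_subset_closedBall).congr_fun (fun z _ => ?_)
      measurableSet_ball
    simp only [Wt]; ring
  have hmul : ∀ a : ℂ → ℝ, ContinuousOn a (closedBall 0 1) →
      IntegrableOn (fun z => Wt f s b z * a z) (ball 0 1) := fun a ha =>
    hW.mul_continuousOn_of_subset ha measurableSet_ball (isCompact_closedBall 0 1)
      ball_subset_closedBall
  have hWc : IntegrableOn (fun z => ((Wt f s b z : ℝ) : ℂ)) (ball 0 1) := hW.ofReal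
  have hmulc : ∀ a : ℂ → ℂ, ContinuousOn a (closedBall 0 1) →
      IntegrableOn (fun z => ((Wt f s b z : ℝ) : ℂ) * a z) (ball 0 1) := fun a ha =>
    hWc.mul_continuousOn_of_subset ha measurableSet_ball (isCompact_closedBall 0 1)
      ball_subset_closedBall
  have hWr : IntegrableOn (fun z => ((Wt f s b z : ℝ) : ℂ) * (conj z / z)) (ball 0 1) := by
    refine Integrable.mul_bdd (c := 1) hWc
      (Complex.continuous_conj.measurable.div measurable_id).aestronglyMeasurable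
      (Eventually.of_forall fun z => ?_)
    rw [norm_div, Complex.norm_conj]
    exact div_self_le_one _
  have hJ : ∀ z, Jd f c z =
      ‖(((2 * c - 1) * ‖z‖ ^ 2 : ℝ) : ℂ) + ((1 - ‖z‖ ^ 2 : ℝ) : ℂ) * ψ z‖ ^ 2 - 1 := by
    intro z
    simp only [Jd, hψ, hh, mul_assoc]
  have hI1 : IntegrableOn (fun z => Wt f s b z * Jd f c z) (ball 0 1) := by
    refine hmul _ ?_
    rw [show Jd f c = _ from funext hJ]
    fun_prop
  have hR' : ∀ z : ℂ, ‖z‖ ^ s * (1 - ‖z‖ ^ 2) ^ (b - 1) * (4 * c * ‖z‖ ^ 2 - (s + 2)) *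
      ‖deriv f z‖ ^ (-s) = Wt f s b z * (‖z‖ ^ 2 * (4 * c * ‖z‖ ^ 2 - (s + 2))) := by
    intro z
    rw [norm_split hs z]
    simp only [Wt]; ring
  have hI2 : IntegrableOn (fun z => Wt f s b z * (‖z‖ ^ 2 * (4 * c * ‖z‖ ^ 2 - (s + 2))))
      (ball 0 1) := hmul _ (by fun_prop)
  simp only [hR']
  refine ⟨hI1, hI2, ?_⟩
  set a1 : ℝ := 4 * (b + 1) / s ^ 2 - 4 * (2 * c - 1) / s with ha1
  set a2 : ℝ := -2 / s with ha2
  set ρ : ℂ → ℂ := fun z => ((1 - ‖z‖ ^ 2 : ℝ) : ℂ) with hρ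
  have hρc : Continuous ρ := by rw [hρ]; fun_prop
  set Φ : ℂ → ℂ := fun z => a1 + ρ z * (a2 * ψ z + a2 - a1) with hΦ
  have hΦc : ContinuousOn Φ (closedBall 0 1) := by rw [hΦ]; fun_prop
  have hcj : Continuous fun z : ℂ => conj z := Complex.continuous_conj
  have hcψ : ContinuousOn (fun z => conj (ψ z)) (closedBall 0 1) := hcj.comp_continuousOn hψc
  set b1 : ℂ → ℂ := fun z => ρ z * Φ z - ρ z * ((‖z‖ ^ 2 : ℝ) : ℂ) * (a2 * ψ z + a2 - a1) +
    Φ z * (ρ z * (((s - 2) / 2 : ℝ) : ℂ) - ((s / 2 : ℝ) : ℂ) * ρ z * conj (ψ z) -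
      (b : ℂ) * ((‖z‖ ^ 2 : ℝ) : ℂ)) with hb1
  have hb1c : ContinuousOn b1 (closedBall 0 1) := by rw [hb1]; fun_prop
  set d1 : ℂ → ℂ := fun z => ρ z * conj z * (-conj z * (a2 * ψ z + a2 - a1) +
    ρ z * (a2 * deriv ψ z)) + conj z * Φ z * (-(s / 2) * ρ z * h z - b * conj z) with hd1
  have hd1c : ContinuousOn d1 (closedBall 0 1) := by rw [hd1]; fun_prop
  set d2 : ℂ → ℂ := fun z => Φ z * ρ z * ((s - 2) / 2) with hd2
  have hd2c : ContinuousOn d2 (closedBall 0 1) := by rw [hd2]; fun_prop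
  have key := Stokes.stokes_wirtinger
    (fun z => conj z * Φ z *
      ((‖z‖ ^ (s - 2) * ‖deriv f z‖ ^ (-s) * (1 - ‖z‖ ^ 2) ^ b : ℝ) : ℂ))
    (fun z => ((Wt f s b z : ℝ) : ℂ) * d1 z + ((Wt f s b z : ℝ) : ℂ) * (conj z / z) * d2 z)
    (fun z => ((Wt f s b z : ℝ) : ℂ) * b1 z) ?_ ?_ ?_
    ((hmulc d1 hd1c).add (hWr.mul_continuousOn_of_subset hd2c measurableSet_ball
      (isCompact_closedBall 0 1) ball_subset_closedBall)) (hmulc b1 hb1c)
  · have h2 := congrArg Complex.re key.2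
    have h3 := integral_re (μ := (volume : Measure ℂ).restrict (ball 0 1)) (hmulc b1 hb1c)
    simp only [RCLike.re_to_complex] at h3
    rw [← h3, Complex.zero_re] at h2
    rw [← sub_eq_zero, ← integral_const_mul, ← integral_sub hI1 (hI2.const_mul _), ← h2]
    refine integral_congr_ae (Eventually.of_forall fun z => ?_)
    have h4 := alg s b c (‖z‖ ^ 2) (ψ z) hs.ne' hbc a1 a2 ha1 ha2
    simp only [Complex.re_ofReal_mul]
    rw [hJ z]
    have h5 : (b1 z).re = _ := h4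
    rw [h5]
    ring
  · refine ((hcj.continuousOn.mul (hΦc.mono diff_subset))).mul
      (Complex.continuous_ofReal.comp_continuousOn ?_)
    refine ContinuousOn.mul (ContinuousOn.mul ?_ (huc.mono diff_subset)) ?_
    · exact continuous_norm.continuousOn.rpow_const fun z hz =>
        Or.inl (norm_ne_zero_iff.2 hz.2)
    · exact (by fun_prop : Continuous fun z : ℂ => 1 - ‖z‖ ^ 2).continuousOn.rpow_const
        fun _ _ => Or.inr hb.le
  · intro z hz v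
    have hz0 : z ≠ 0 := hz.2
    have hzR := isOpen_ball.mem_nhds (hsub' hz.1)
    have hw := hw_weight s b (hf1.differentiableAt hzR).hasDerivAt (hne z (hsub' hz.1)) hz.1 hz0
    have hp : HW ψ z (deriv ψ z) 0 := HW.holo (hψd.differentiableAt hzR).hasDerivAt
    have hr : HW ρ z (-conj z) (-z) := (C1.rho univ).2.2.2 z (mem_univ z)
    have hq := (((HW.const (a2 : ℂ) z).mul hp).add (HW.const ((a2 : ℂ) - a1) z))
    have hF := (HW.const (a1 : ℂ) z).add (hr.mul hq)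
    have eF : (fun w => (a1 : ℂ) + ρ w * ((a2 : ℂ) * ψ w + ((a2 : ℂ) - a1))) = Φ := by
      funext w; rw [hΦ]; ring
    rw [eF] at hF
    have hG := ((HW.holo (hasDerivAt_id z)).conj.mul hF).mul hw
    have e1 : ((‖z‖ ^ 2 : ℝ) : ℂ) = z * conj z := by rw [Complex.mul_conj']; push_cast; rfl
    have hc0 : conj z ≠ 0 := by simpa using hz0
    have hr0 : ρ z ≠ 0 := Complex.ofReal_ne_zero.2 (rho_pos hz.1).ne'
    have eV : ((‖z‖ ^ (s - 2) * ‖deriv f z‖ ^ (-s) * (1 - ‖z‖ ^ 2) ^ b : ℝ) : ℂ) =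
        ((Wt f s b z : ℝ) : ℂ) * ρ z := by
      rw [rho_split b hz.1, hρ]
      simp only [Wt]
      push_cast
      ring
    have hG' := hG v
    simp only [id, map_one, map_zero] at hG'
    rw [eV] at hG'
    refine HasDerivAt.congr_deriv hG' ?_
    have eψ : conj (ψ z) = conj z * conj (deriv (deriv f) z / deriv f z) := by
      simp only [hψ, hh, map_mul]
    have eh : h z = deriv (deriv f) z / deriv f z := rfl
    simp only [hb1, hd1, hd2]
    rw [eψ, eh, e1]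
    change _ = _
    have eρ : ((1 - ‖z‖ ^ 2 : ℝ) : ℂ) = ρ z := rfl
    rw [eρ]
    generalize deriv (deriv f) z / deriv f z = H
    generalize ρ z = r at hr0
    push_cast
    field_simp
    ring
  · intro z hz
    have : ‖z‖ = 1 := by simpa using hz
    simp [this, Real.zero_rpow hb.ne']

end Crest.Agent.R131.Ident89
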