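import Mathlib
set_option autoImplicit false
open MeasureTheory Metric Set
open scoped ComplexConjugate
namespace Crest.Agent.R131.Ident

theorem base_1d (m be : ℝ) (hm : -1 < m) (hbe : 0 < be) :
    IntegrableOn (fun y : ℝ => y * (y ^ (2 * m) * (1 - y ^ 2) ^ (be - 1))) (Ioo 0 1) := by
  have h1 : IntervalIntegrable (fun y : ℝ => y ^ (2 * m + 1) * (1 - y ^ 2) ^ (be - 1))
      volume 0 (1 / 2) := by
    refine (intervalIntegral.intervalIntegrable_rpow' (by linarith)).mul_continuousOn ?_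
    refine ContinuousOn.rpow_const (by fun_prop) ?_
    intro y hy
    rw [uIcc_of_le (by norm_num)] at hy
    left
    have : y ^ 2 ≤ 1 / 4 := by nlinarith [hy.1, hy.2]
    linarith
  have h2 : IntervalIntegrable
      (fun y : ℝ => (1 - y) ^ (be - 1) * (y ^ (2 * m + 1) * (1 + y) ^ (be - 1)))
      volume (1 / 2) 1 := by
    have h0 : IntervalIntegrable (fun y : ℝ => (1 - y) ^ (be - 1)) volume (1 / 2) 1 := by
      have := (intervalIntegral.intervalIntegrable_rpow' (a := 1 / 2) (b := 0)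
        (r := be - 1) (by linarith)).comp_sub_left 1
      convert this using 1 <;> norm_num
    refine h0.mul_continuousOn ?_
    refine ContinuousOn.mul (ContinuousOn.rpow_const (by fun_prop) ?_)
      (ContinuousOn.rpow_const (by fun_prop) ?_)
    · intro y hy
      rw [uIcc_of_le (by norm_num)] at hy
      left; linarith [hy.1]
    · intro y hy
      rw [uIcc_of_le (by norm_num)] at hy
      left; linarith [hy.1]
  rw [intervalIntegrable_iff_integrableOn_Ioc_of_le (by norm_num)] at h1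
  rw [intervalIntegrable_iff_integrableOn_Ioo_of_le (by norm_num)] at h2
  have hu : Ioo (0 : ℝ) 1 = Ioc 0 (1 / 2) ∪ Ioo (1 / 2) 1 := by
    ext y; simp only [mem_Ioo, mem_union, mem_Ioc]
    constructor
    · rintro ⟨a, b⟩
      by_cases h : y ≤ 1 / 2
      · exact Or.inl ⟨a, h⟩
      · exact Or.inr ⟨not_le.mp h, b⟩
    · rintro (⟨a, b⟩ | ⟨a, b⟩) <;> constructor <;> linarith
  rw [hu]
  refine IntegrableOn.union (h1.congr_fun ?_ measurableSet_Ioc) (h2.congr_fun ?_ measurableSet_Ioo)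
  · intro y hy
    have hy0 : 0 < y := hy.1
    simp only
    rw [Real.rpow_add hy0, Real.rpow_one]; ring
  · intro y hy
    have hy0 : 0 < y := by linarith [hy.1]
    simp only
    have : (1 - y ^ 2) = (1 - y) * (1 + y) := by ring
    rw [Real.rpow_add hy0, Real.rpow_one, this, Real.mul_rpow (by linarith [hy.2]) (by linarith)]
    ring

/-- the radial weight -/
noncomputable def base (m be : ℝ) (z : ℂ) : ℝ := ‖z‖ ^ (2 * m) * (1 - ‖z‖ ^ 2) ^ (be - 1)

theorem base_int (m be : ℝ) (hm : -1 < m) (hbe : 0 < be) :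
    IntegrableOn (base m be) (ball (0 : ℂ) 1) := by
  have := (integrableOn_fun_norm_addHaar (E := ℂ) (volume : Measure ℂ)
    (f := fun y : ℝ => y ^ (2 * m) * (1 - y ^ 2) ^ (be - 1)) (r := 1)).2 (by
      simpa [Complex.finrank_real_complex] using base_1d m be hm hbe)
  exact this

theorem base_mul_int (m be : ℝ) (hm : -1 < m) (hbe : 0 < be) (B : ℂ → ℝ)
    (hB : ContinuousOn B (closedBall 0 1)) :
    IntegrableOn (fun z => base m be z * B z) (ball (0 : ℂ) 1) :=
  (base_int m be hm hbe).mul_continuousOn_of_subset hB measurableSet_ball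
    (isCompact_closedBall 0 1) ball_subset_closedBall

theorem base_mul_intC (m be : ℝ) (hm : -1 < m) (hbe : 0 < be) (B : ℂ → ℂ)
    (hB : ContinuousOn B (closedBall 0 1)) :
    IntegrableOn (fun z => (base m be z : ℂ) * B z) (ball (0 : ℂ) 1) :=
  IntegrableOn.mul_continuousOn_of_subset (Integrable.ofReal (base_int m be hm hbe)) hB
    measurableSet_ball (isCompact_closedBall 0 1) ball_subset_closedBall

/-- the bounded angular factor -/
noncomputable def ang (v z : ℂ) : ℂ := conj z * (((conj z * v).re / ‖z‖ ^ 2 : ℝ) : ℂ)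

theorem ang_norm (v z : ℂ) : ‖ang v z‖ ≤ ‖v‖ := by
  unfold ang
  by_cases hz : z = 0
  · simp [hz]
  have h0 : 0 < ‖z‖ := norm_pos_iff.mpr hz
  have h1 : |(conj z * v).re| ≤ ‖z‖ * ‖v‖ := by
    refine (Complex.abs_re_le_norm _).trans ?_
    rw [norm_mul, Complex.norm_conj]
  rw [norm_mul, Complex.norm_conj, Complex.norm_real, Real.norm_eq_abs, abs_div,
    abs_of_pos (pow_pos h0 2), ← mul_div_assoc, div_le_iff₀ (pow_pos h0 2)]
  nlinarith

theorem ang_meas (v : ℂ) : Measurable (ang v) := by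
  unfold ang
  refine Complex.continuous_conj.measurable.mul (Complex.measurable_ofReal.comp ?_)
  refine Measurable.div ?_ (by fun_prop)
  exact (Complex.continuous_re.comp (Complex.continuous_conj.mul continuous_const)).measurable

theorem base_ang_intC (m be : ℝ) (hm : -1 < m) (hbe : 0 < be) (v : ℂ) (B : ℂ → ℂ)
    (hB : ContinuousOn B (closedBall 0 1)) :
    IntegrableOn (fun z => (base m be z : ℂ) * ang v z * B z) (ball (0 : ℂ) 1) :=
  IntegrableOn.mul_continuousOn_of_subset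
    (Integrable.mul_bdd (c := ‖v‖) (Integrable.ofReal (base_int m be hm hbe))
      (ang_meas v).aestronglyMeasurable (Filter.Eventually.of_forall (ang_norm v))) hB
    measurableSet_ball (isCompact_closedBall 0 1) ball_subset_closedBall

/-- the full weight -/
noncomputable def wt (p : ℂ → ℂ) (s m be : ℝ) (z : ℂ) : ℝ :=
  ‖z‖ ^ (2 * m) * (1 - ‖z‖ ^ 2) ^ be * ‖p z‖ ^ (-s)

theorem wt_deriv (p : ℂ → ℂ) (p1 : ℂ) (s m be : ℝ) (z : ℂ) (hz : z ≠ 0) (hz1 : ‖z‖ < 1)
    (hp : HasDerivAt p p1 z) (hp0 : p z ≠ 0) :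
    ∃ D : ℂ →L[ℝ] ℝ, HasFDerivAt (wt p s m be) D z ∧ ∀ v : ℂ, D v = wt p s m be z *
      (2 * m * ((conj z * v).re / ‖z‖ ^ 2) - 2 * be * (conj z * v).re / (1 - ‖z‖ ^ 2)
        - s * (p1 / p z * v).re) := by
  have h0 : 0 < ‖z‖ := norm_pos_iff.mpr hz
  have hp' : 0 < ‖p z‖ := norm_pos_iff.mpr hp0
  have hρ : 0 < 1 - ‖z‖ ^ 2 := by nlinarith
  have e1 : ∀ w : ℂ, wt p s m be w =
      (‖w‖ ^ 2) ^ m * (1 - ‖w‖ ^ 2) ^ be * (‖p w‖ ^ 2) ^ (-s / 2) := by
    intro w
    unfold wt
    rw [← Real.rpow_natCast, ← Real.rpow_natCast ‖p w‖, ← Real.rpow_mul (norm_nonneg _),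
      ← Real.rpow_mul (norm_nonneg _)]
    congr 2
    push_cast; ring
  have hN : HasFDerivAt (fun w : ℂ => ‖w‖ ^ 2) _ z := (hasFDerivAt_id z).norm_sq
  have hP : HasFDerivAt (fun w : ℂ => ‖p w‖ ^ 2) _ z :=
    (hp.hasFDerivAt.restrictScalars ℝ).norm_sq
  have hA := hN.rpow_const (p := m) (Or.inl (pow_pos h0 2).ne')
  have hB := (hN.const_sub 1).rpow_const (p := be) (Or.inl hρ.ne')
  have hC := hP.rpow_const (p := -s / 2) (Or.inl (pow_pos hp' 2).ne')
  have hT := (hA.mul hB).mul hC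
  refine ⟨_, hT.congr_of_eventuallyEq (Filter.Eventually.of_forall fun w => e1 w), ?_⟩
  intro v
  rw [e1]
  have i1 : (inner ℝ z v : ℝ) = (conj z * v).re := by
    rw [Complex.inner]; simp [mul_comm]
  have i2 : (inner ℝ (p z) (p1 * v) : ℝ) = ‖p z‖ ^ 2 * (p1 / p z * v).re := by
    rw [Complex.inner]
    have : p1 * v * conj (p z) = ((‖p z‖ ^ 2 : ℝ) : ℂ) * (p1 / p z * v) := by
      rw [← Complex.normSq_eq_norm_sq, Complex.normSq_eq_conj_mul_self]
      field_simp
    rw [this, Complex.re_ofReal_mul]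
  rw [Real.rpow_sub_one (pow_pos h0 2).ne', Real.rpow_sub_one hρ.ne',
    Real.rpow_sub_one (pow_pos hp' 2).ne']
  simp only [ContinuousLinearMap.add_apply, ContinuousLinearMap.smul_apply,
    ContinuousLinearMap.neg_apply, ContinuousLinearMap.comp_apply, ContinuousLinearMap.id_apply,
    innerSL_apply_apply, smul_eq_mul, Pi.mul_apply, id, nsmul_eq_mul,
    ContinuousLinearMap.coe_restrictScalars', ContinuousLinearMap.toSpanSingleton_apply,
    ContinuousLinearMap.smulRight_apply, ContinuousLinearMap.one_apply]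
  rw [i1, mul_comm v p1, i2]
  field_simp
  ring

end Crest.Agent.R131.Ident
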