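import Mathlib

/-! Row 131: persistence of a critical point with small pre-Schwarzian (local Taylor estimate). -/

set_option autoImplicit false

open Metric Set

namespace Crest.Agent.R131.Loc

theorem log_lower {s : ℝ} (hs : |s| ≤ 1 / 2) : s - s ^ 2 / 2 - 2 * |s| ^ 3 ≤ Real.log (1 + s) := by
  have h := Real.abs_log_sub_add_sum_range_le (x := -s) (by rw [abs_neg]; linarith) 2
  rw [abs_neg] at h
  simp only [Finset.sum_range_succ, Finset.sum_range_zero] at h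
  have h2 : |s| ^ (2 + 1) / (1 - |s|) ≤ 2 * |s| ^ 3 := by
    rw [div_le_iff₀ (by linarith)]
    have : 0 ≤ |s| ^ 3 := by positivity
    norm_num
    nlinarith
  have h3 := (abs_le.1 (h.trans h2)).1
  norm_num at h3
  nlinarith

theorem log_upper {s : ℝ} (hs : |s| ≤ 1 / 2) : Real.log (1 + s) ≤ s - s ^ 2 / 2 + 2 * |s| ^ 3 := by
  have h := Real.abs_log_sub_add_sum_range_le (x := -s) (by rw [abs_neg]; linarith) 2
  rw [abs_neg] at h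
  simp only [Finset.sum_range_succ, Finset.sum_range_zero] at h
  have h2 : |s| ^ (2 + 1) / (1 - |s|) ≤ 2 * |s| ^ 3 := by
    rw [div_le_iff₀ (by linarith)]
    have : 0 ≤ |s| ^ 3 := by positivity
    norm_num
    nlinarith
  have h3 := (abs_le.1 (h.trans h2)).2
  norm_num at h3
  nlinarith

set_option maxHeartbeats 200000

theorem mul_abs_le {x y A B : ℝ} (hx : |x| ≤ A) (hy : |y| ≤ B) : |x * y| ≤ A * B := by
  rw [abs_mul]; exact mul_le_mul hx hy (abs_nonneg _) ((abs_nonneg _).trans hx)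

theorem core_G {a X2 r1 G e : ℝ} (he1 : e ≤ 1 / 1000) (he : 0 < e) (ha : |a| ≤ 3 / 4 * e)
    (hX : X2 ^ 2 ≤ 4 * e ^ 2) (h1 : |r1| ≤ e ^ 2 / 50) (hG0 : 0 ≤ G)
    (hG : G ^ 2 = (1 - 2 * a + r1) ^ 2 + X2 ^ 2) :
    1 + (-2 * a + (r1 + 49 / 100 * X2 ^ 2)) ≤ G := by
  have he2 : e ^ 2 ≤ e / 1000 := by nlinarith
  obtain ⟨ha1, ha2⟩ := abs_le.1 ha
  obtain ⟨h11, h12⟩ := abs_le.1 h1
  apply (abs_le_of_sq_le_sq' _ hG0).2
  have e2 : (1 + (-2 * a + (r1 + 49 / 100 * X2 ^ 2))) ^ 2 = (1 - 2 * a + r1) ^ 2 +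
      X2 ^ 2 * (2 * (49 / 100) * (1 - 2 * a + r1) + (49 / 100) ^ 2 * X2 ^ 2) := by ring
  have h8 : 2 * (49 / 100) * (1 - 2 * a + r1) + (49 / 100) ^ 2 * X2 ^ 2 ≤ 1 := by linarith
  have h9 := mul_le_mul_of_nonneg_left h8 (sq_nonneg X2)
  rw [e2, hG]; linarith

theorem core_l {a b r1 r2 e : ℝ} (he1 : e ≤ 1 / 1000) (he : 0 < e) (ha : |a| ≤ 3 / 4 * e)
    (hb : |b| ≤ 3 / 4 * e) (h1 : |r1| ≤ e ^ 2 / 50) (h2 : |r2| ≤ e ^ 2 / 50) :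
    (-2 * b + r2) ^ 2 ≤ 4 * e ^ 2 ∧ 0 < 1 + (-2 * a + (r1 + 49 / 100 * (-2 * b + r2) ^ 2)) ∧
    -2 * a - e ^ 2 / 50 + 49 / 100 * (4 * b ^ 2) - 2 * a ^ 2 - 22 * e ^ 3
      ≤ Real.log (1 + (-2 * a + (r1 + 49 / 100 * (-2 * b + r2) ^ 2))) := by
  have he2 : e ^ 2 ≤ e / 1000 := by nlinarith
  have he20 : 0 ≤ e ^ 2 := by positivity
  have he30 : 0 ≤ e ^ 3 := by positivity
  have he4 : e ^ 4 ≤ e ^ 3 / 1000 := by
    have : e ^ 4 = e ^ 3 * e := by ring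
    rw [this]; have := mul_le_mul_of_nonneg_left he1 he30; linarith
  obtain ⟨ha1, ha2⟩ := abs_le.1 ha
  obtain ⟨hb1, hb2⟩ := abs_le.1 hb
  obtain ⟨h11, h12⟩ := abs_le.1 h1
  obtain ⟨h21, h22⟩ := abs_le.1 h2
  have hbr := (abs_le.1 (mul_abs_le hb h2)).2
  have hX2lo : 4 * b ^ 2 - e ^ 3 ≤ (-2 * b + r2) ^ 2 := by
    have e1 : (-2 * b + r2) ^ 2 = 4 * b ^ 2 - 4 * (b * r2) + r2 ^ 2 := by ring
    have e2 : 3 / 4 * e * (e ^ 2 / 50) = 3 / 200 * e ^ 3 := by ring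
    have := sq_nonneg r2
    rw [e1]; rw [e2] at hbr; linarith
  have hXabs : |-2 * b + r2| ≤ 2 * e := abs_le.2 ⟨by linarith, by linarith⟩
  have hX2sq : (-2 * b + r2) ^ 2 ≤ 4 * e ^ 2 := by
    have := (abs_le.1 (mul_abs_le hXabs hXabs)).2
    have e1 : (-2 * b + r2) ^ 2 = (-2 * b + r2) * (-2 * b + r2) := by ring
    rw [e1]; linarith
  have hX0 := sq_nonneg (-2 * b + r2)
  generalize (-2 * b + r2) ^ 2 = Y at hX2lo hX2sq hX0 ⊢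
  have hd : |r1 + 49 / 100 * Y| ≤ 3 * e ^ 2 := abs_le.2 ⟨by linarith, by linarith⟩
  have hlo : -(e ^ 2 / 50) + 49 / 100 * (4 * b ^ 2 - e ^ 3) ≤ r1 + 49 / 100 * Y := by linarith
  generalize r1 + 49 / 100 * Y = d at hd hlo ⊢
  obtain ⟨hd1, hd2⟩ := abs_le.1 hd
  have hvabs : |-2 * a + d| ≤ 2 * e := abs_le.2 ⟨by linarith, by linarith⟩
  have had := (abs_le.1 (mul_abs_le ha hd)).1
  have hdd := (abs_le.1 (mul_abs_le hd hd)).2
  have hvsq : (-2 * a + d) ^ 2 ≤ 4 * a ^ 2 + 10 * e ^ 3 := by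
    have e1 : (-2 * a + d) ^ 2 = 4 * a ^ 2 - 4 * (a * d) + d * d := by ring
    have e2 : 3 / 4 * e * (3 * e ^ 2) = 9 / 4 * e ^ 3 := by ring
    have e3 : 3 * e ^ 2 * (3 * e ^ 2) = 9 * e ^ 4 := by ring
    rw [e1]; rw [e2] at had; rw [e3] at hdd; linarith
  have hl := log_lower (s := -2 * a + d) (by linarith)
  have hv3 : |-2 * a + d| ^ 3 ≤ (2 * e) ^ 3 := pow_le_pow_left₀ (abs_nonneg _) hvabs 3
  have e4 : (2 * e) ^ 3 = 8 * e ^ 3 := by ring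
  rw [e4] at hv3
  refine ⟨hX2sq, by linarith, by linarith⟩

theorem core_u {α ρ e : ℝ} (he1 : e ≤ 1 / 1000) (he : 0 < e) (hα : |α| ≤ e) (hρ : 0 ≤ ρ)
    (hρ1 : ρ ≤ 1) : 0 < 1 - 2 * α - ρ * e ^ 2 ∧
    Real.log (1 - 2 * α - ρ * e ^ 2) ≤ -2 * α - ρ * e ^ 2 - 2 * α ^ 2 + 56 * e ^ 3 := by
  have he2 : e ^ 2 ≤ e / 1000 := by nlinarith
  have he20 : 0 ≤ e ^ 2 := by positivity
  have hρe : 0 ≤ ρ * e ^ 2 := by positivity
  have hρe1 : ρ * e ^ 2 ≤ e ^ 2 := by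
    have := mul_le_mul_of_nonneg_right hρ1 he20; linarith
  generalize ρ * e ^ 2 = k at hρe hρe1 ⊢
  obtain ⟨hα1, hα3⟩ := abs_le.1 hα
  have hk : |k| ≤ e ^ 2 := abs_le.2 ⟨by linarith, hρe1⟩
  have htabs : |-2 * α - k| ≤ 3 * e := abs_le.2 ⟨by linarith, by linarith⟩
  have hak := (abs_le.1 (mul_abs_le hα hk)).1
  have htsq : 4 * α ^ 2 - 4 * e ^ 3 ≤ (-2 * α - k) ^ 2 := by
    have e1 : (-2 * α - k) ^ 2 = 4 * α ^ 2 + 4 * (α * k) + k ^ 2 := by ring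
    have e2 : e * e ^ 2 = e ^ 3 := by ring
    have := sq_nonneg k
    rw [e1]; rw [e2] at hak; linarith
  have hu := log_upper (s := -2 * α - k) (by linarith)
  have ht3 : |-2 * α - k| ^ 3 ≤ (3 * e) ^ 3 := pow_le_pow_left₀ (abs_nonneg _) htabs 3
  have e4 : (3 * e) ^ 3 = 27 * e ^ 3 := by ring
  rw [e4] at ht3
  have e3 : 1 - 2 * α - k = 1 + (-2 * α - k) := by ring
  rw [e3]
  exact ⟨by linarith, by linarith⟩

/-- The real inequality behind the persistence estimate. -/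
theorem core {c e ρ α β r1 r2 G : ℝ} (hc1 : 2 / 3 ≤ c) (hc2 : c ≤ 3 / 4) (he : 0 < e)
    (he1 : e ≤ 1 / 1000) (hρ : 0 ≤ ρ) (hρ1 : ρ ≤ 1) (hab : α ^ 2 + β ^ 2 = (1 - ρ) * e ^ 2)
    (h1 : |r1| ≤ e ^ 2 / 50) (h2 : |r2| ≤ e ^ 2 / 50) (hG0 : 0 ≤ G)
    (hG : G ^ 2 = (1 - 2 * (c * α) + r1) ^ 2 + (-2 * (c * β) + r2) ^ 2) :
    Real.exp (e ^ 2 / 10) * (1 - 2 * α - ρ * e ^ 2) ^ c ≤ G := by
  have he20 : 0 ≤ e ^ 2 := by positivity
  have he30 : 0 ≤ e ^ 3 := by positivity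
  have he3 : e ^ 3 ≤ e ^ 2 / 1000 := by
    have : e ^ 3 = e ^ 2 * e := by ring
    rw [this]; have := mul_le_mul_of_nonneg_left he1 he20; linarith
  have hρe : 0 ≤ ρ * e ^ 2 := by positivity
  have hab' : α ^ 2 + β ^ 2 + ρ * e ^ 2 = e ^ 2 := by rw [hab]; ring
  have hα0 := sq_nonneg α
  have hβ0 := sq_nonneg β
  have hα : |α| ≤ e := abs_le.2 (abs_le_of_sq_le_sq' (by linarith) he.le)
  have hβ : |β| ≤ e := abs_le.2 (abs_le_of_sq_le_sq' (by linarith) he.le)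
  have hc : |c| ≤ 3 / 4 := abs_le.2 ⟨by linarith, hc2⟩
  have ha := mul_abs_le hc hα
  have hb := mul_abs_le hc hβ
  obtain ⟨hX, hpos, hl⟩ := core_l he1 he ha hb h1 h2
  have hGv := core_G he1 he ha hX h1 hG0 hG
  obtain ⟨hpos', hu⟩ := core_u he1 he hα hρ hρ1
  rw [Real.rpow_def_of_pos hpos', ← Real.exp_add]
  refine le_trans ?_ hGv
  rw [← Real.exp_log hpos]
  apply Real.exp_le_exp.2
  refine le_trans ?_ hl
  have hu' := mul_le_mul_of_nonneg_right hu (show 0 ≤ c by linarith)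
  have e1 : (-2 * α - ρ * e ^ 2 - 2 * α ^ 2 + 56 * e ^ 3) * c =
      -2 * (c * α) - c * (ρ * e ^ 2) - 2 * c * α ^ 2 + 56 * (c * e ^ 3) := by ring
  rw [e1] at hu'
  have q0 : c * e ^ 3 ≤ 3 / 4 * e ^ 3 := mul_le_mul_of_nonneg_right hc2 he30
  have q1 : 3 / 8 * α ^ 2 ≤ 2 * c * α ^ 2 - 2 * (c * α) ^ 2 := by
    have h : 3 / 8 ≤ 2 * c - 2 * c ^ 2 := by nlinarith
    have := mul_le_mul_of_nonneg_right h hα0
    have e2 : (2 * c - 2 * c ^ 2) * α ^ 2 = 2 * c * α ^ 2 - 2 * (c * α) ^ 2 := by ring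
    linarith
  have q2 : 3 / 8 * β ^ 2 ≤ 49 / 100 * (4 * (c * β) ^ 2) := by
    have h : 3 / 8 ≤ 49 / 100 * (4 * c ^ 2) := by nlinarith
    have := mul_le_mul_of_nonneg_right h hβ0
    have e2 : 49 / 100 * (4 * c ^ 2) * β ^ 2 = 49 / 100 * (4 * (c * β) ^ 2) := by ring
    linarith
  have q3 : 3 / 8 * (ρ * e ^ 2) ≤ c * (ρ * e ^ 2) :=
    mul_le_mul_of_nonneg_right (by linarith) hρe
  linarith

theorem rho_pos {m : ℂ} (hm : ‖m‖ < 1) : 0 < 1 - ‖m‖ ^ 2 := by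
  have := norm_nonneg m; nlinarith

theorem ball_sub {m : ℂ} {e : ℝ} (hm : ‖m‖ < 1) (he : 0 < e) (he1 : e ≤ 1 / 1000) {x : ℂ}
    (hx : x ∈ closedBall m (e * (1 - ‖m‖ ^ 2))) :
    ‖x‖ < 1 ∧ 9 / 10 * (1 - ‖m‖ ^ 2) ≤ 1 - ‖x‖ ^ 2 := by
  have hρ := rho_pos hm
  have h0 := norm_nonneg m
  have hρ1 : 1 - ‖m‖ ^ 2 ≤ 1 := by nlinarith
  rw [mem_closedBall, dist_eq_norm] at hx
  have h1 : ‖x‖ ≤ ‖m‖ + e * (1 - ‖m‖ ^ 2) := by
    have := norm_add_le m (x - m)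
    rw [add_sub_cancel] at this; linarith
  have h2 : ‖x‖ ^ 2 ≤ (‖m‖ + e * (1 - ‖m‖ ^ 2)) ^ 2 := pow_le_pow_left₀ (norm_nonneg _) h1 2
  have h3 : e * (1 - ‖m‖ ^ 2) ≤ 1 / 1000 * (1 - ‖m‖ ^ 2) := mul_le_mul_of_nonneg_right he1 hρ.le
  have h4 : 0 ≤ e * (1 - ‖m‖ ^ 2) := by positivity
  generalize e * (1 - ‖m‖ ^ 2) = k at h1 h2 h3 h4
  have h5 : 9 / 10 * (1 - ‖m‖ ^ 2) ≤ 1 - ‖x‖ ^ 2 := by nlinarith
  refine ⟨?_, h5⟩
  have := norm_nonneg x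
  nlinarith

theorem taylor {f : ℂ → ℂ} (hf : DifferentiableOn ℂ f (ball 0 1)) {m : ℂ} {e : ℝ} (hm : ‖m‖ < 1)
    (he : 0 < e) (he1 : e ≤ 1 / 1000)
    (hsm : ∀ x ∈ closedBall m (e * (1 - ‖m‖ ^ 2)),
      (1 - ‖x‖ ^ 2) * ‖deriv (deriv f) x‖ ≤ 1 / 100 * ‖deriv f x‖)
    {x : ℂ} (hx : x ∈ closedBall m (e * (1 - ‖m‖ ^ 2))) :
    ‖f x - f m - deriv f m * (x - m)‖ ≤ e ^ 2 * (1 - ‖m‖ ^ 2) * ‖deriv f m‖ / 75 := by
  have hρ := rho_pos hm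
  have hR : 0 ≤ e * (1 - ‖m‖ ^ 2) := by positivity
  have hmem : ∀ y ∈ closedBall m (e * (1 - ‖m‖ ^ 2)), ball (0 : ℂ) 1 ∈ nhds y := fun y hy =>
    isOpen_ball.mem_nhds (by simpa using (ball_sub hm he he1 hy).1)
  have hd1 : ∀ y ∈ closedBall m (e * (1 - ‖m‖ ^ 2)), DifferentiableAt ℂ f y := fun y hy =>
    hf.differentiableAt (hmem y hy)
  have hd2 : ∀ y ∈ closedBall m (e * (1 - ‖m‖ ^ 2)), DifferentiableAt ℂ (deriv f) y := fun y hy =>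
    (hf.deriv isOpen_ball).differentiableAt (hmem y hy)
  have hmm : m ∈ closedBall m (e * (1 - ‖m‖ ^ 2)) := mem_closedBall_self hR
  obtain ⟨x0, hx0, hmax⟩ := (isCompact_closedBall m (e * (1 - ‖m‖ ^ 2))).exists_isMaxOn ⟨m, hmm⟩
    (f := fun y => ‖deriv f y‖) (fun y hy => (hd2 y hy).continuousAt.norm.continuousWithinAt)
  have hS : ∀ y ∈ closedBall m (e * (1 - ‖m‖ ^ 2)), ‖deriv f y‖ ≤ ‖deriv f x0‖ := fun y hy =>
    hmax hy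
  have hS0 := norm_nonneg (deriv f x0)
  have hK : ∀ y ∈ closedBall m (e * (1 - ‖m‖ ^ 2)),
      ‖deriv (deriv f) y‖ ≤ ‖deriv f x0‖ / (90 * (1 - ‖m‖ ^ 2)) := by
    intro y hy
    rw [le_div_iff₀ (by positivity)]
    have h1 := hsm y hy
    have h2 := hS y hy
    have h3 := mul_le_mul_of_nonneg_right (ball_sub hm he he1 hy).2 (norm_nonneg (deriv (deriv f) y))
    linarith
  have hL : ∀ y ∈ closedBall m (e * (1 - ‖m‖ ^ 2)),
      ‖deriv f y - deriv f m‖ ≤ ‖deriv f x0‖ * e / 90 := by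
    intro y hy
    have h1 := (convex_closedBall m _).norm_image_sub_le_of_norm_deriv_le hd2 hK hmm hy
    have h2 : ‖y - m‖ ≤ e * (1 - ‖m‖ ^ 2) := by rwa [mem_closedBall, dist_eq_norm] at hy
    refine h1.trans ((mul_le_mul_of_nonneg_left h2 (by positivity)).trans (le_of_eq ?_))
    field_simp
  have hS1 : ‖deriv f x0‖ ≤ 6 / 5 * ‖deriv f m‖ := by
    have h1 := hL x0 hx0
    have h2 := norm_add_le (deriv f m) (deriv f x0 - deriv f m)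
    rw [add_sub_cancel] at h2
    have h3 := mul_le_mul_of_nonneg_left he1 hS0
    linarith
  have hg : ∀ y ∈ closedBall m (e * (1 - ‖m‖ ^ 2)),
      HasDerivAt (fun y => f y - deriv f m * y) (deriv f y - deriv f m) y := fun y hy => by
    have h := (hd1 y hy).hasDerivAt.fun_sub ((hasDerivAt_id' y).const_mul (deriv f m))
    rwa [mul_one] at h
  have h1 := (convex_closedBall m _).norm_image_sub_le_of_norm_deriv_le
    (f := fun y => f y - deriv f m * y) (C := ‖deriv f x0‖ * e / 90)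
    (fun y hy => (hg y hy).differentiableAt)
    (fun y hy => by rw [(hg y hy).deriv]; exact hL y hy) hmm hx
  have h2 : ‖x - m‖ ≤ e * (1 - ‖m‖ ^ 2) := by rwa [mem_closedBall, dist_eq_norm] at hx
  have e1 : f x - f m - deriv f m * (x - m) = f x - deriv f m * x - (f m - deriv f m * m) := by ring
  rw [e1]
  refine h1.trans ((mul_le_mul_of_nonneg_left h2 (by positivity)).trans ?_)
  have h3 := mul_le_mul_of_nonneg_right hS1 (show 0 ≤ e ^ 2 * (1 - ‖m‖ ^ 2) by positivity)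
  have e2 : ‖deriv f x0‖ * e / 90 * (e * (1 - ‖m‖ ^ 2)) =
      ‖deriv f x0‖ * (e ^ 2 * (1 - ‖m‖ ^ 2)) / 90 := by ring
  rw [e2]; linarith

theorem conj_mul_self (m : ℂ) : (starRingEnd ℂ) m * m = ((‖m‖ ^ 2 : ℝ) : ℂ) := by
  rw [mul_comm, Complex.mul_conj, Complex.normSq_eq_norm_sq]

/-- On the small circle around `m` the function `|f - w| / ρ ^ c` exceeds its value at `m` by the
factor `exp (e ^ 2 / 10)`. -/
theorem loc_sphere {c e : ℝ} (hc1 : 2 / 3 ≤ c) (hc2 : c ≤ 3 / 4) (he : 0 < e) (he1 : e ≤ 1 / 1000)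
    {f : ℂ → ℂ} (hf : DifferentiableOn ℂ f (ball 0 1)) {m : ℂ} (hm : ‖m‖ < 1) (hm0 : m ≠ 0)
    (hsm : ∀ x ∈ closedBall m (e * (1 - ‖m‖ ^ 2)),
      (1 - ‖x‖ ^ 2) * ‖deriv (deriv f) x‖ ≤ 1 / 100 * ‖deriv f x‖)
    {w : ℂ} (hw : w = f m + deriv f m * (((starRingEnd ℂ) m)⁻¹ - m) / (2 * (c : ℂ)))
    {x : ℂ} (hx : x ∈ sphere m (e * (1 - ‖m‖ ^ 2))) :
    Real.exp (e ^ 2 / 10) * (‖f m - w‖ / (1 - ‖m‖ ^ 2) ^ c) ≤ ‖f x - w‖ / (1 - ‖x‖ ^ 2) ^ c := by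
  have hρ := rho_pos hm
  have hx' := sphere_subset_closedBall hx
  have hρx := rho_pos (ball_sub hm he he1 hx').1
  by_cases hp : deriv f m = 0
  · rw [hw, hp]; simp; positivity
  have hT := taylor hf hm he he1 hsm hx'
  have hρ1 : 1 - ‖m‖ ^ 2 ≤ 1 := by have := sq_nonneg ‖m‖; linarith
  have hcm : (starRingEnd ℂ) m ≠ 0 := by simpa using hm0
  have hc0 : (c : ℂ) ≠ 0 := by exact_mod_cast (show c ≠ 0 by linarith)
  have hρc : ((1 - ‖m‖ ^ 2 : ℝ) : ℂ) ≠ 0 := by exact_mod_cast hρ.ne'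
  have hmm := conj_mul_self m
  have hxm : ‖x - m‖ = e * (1 - ‖m‖ ^ 2) := by rwa [mem_sphere, dist_eq_norm] at hx
  obtain ⟨ρ, hρd⟩ : ∃ ρ, ρ = 1 - ‖m‖ ^ 2 := ⟨_, rfl⟩
  rw [← hρd] at hρ hρ1 hρc hT hxm ⊢
  have hmm' : (starRingEnd ℂ) m * m = 1 - (ρ : ℂ) := by rw [hmm, hρd]; push_cast; ring
  obtain ⟨ξ, hξ⟩ : ∃ ξ, ξ = (x - m) / (ρ : ℂ) := ⟨_, rfl⟩
  have hxξ : x = m + ρ * ξ := by rw [hξ]; field_simp; ring
  have hξn : ‖ξ‖ = e := by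
    rw [hξ, norm_div, hxm, Complex.norm_real, Real.norm_eq_abs, abs_of_pos hρ]; field_simp
  obtain ⟨η, hη⟩ : ∃ η, η = (starRingEnd ℂ) m * ξ := ⟨_, rfl⟩
  obtain ⟨A, hA⟩ : ∃ A, A = -(deriv f m * ρ / (2 * c * (starRingEnd ℂ) m)) := ⟨_, rfl⟩
  have hA0 : A ≠ 0 := by
    rw [hA]; exact neg_ne_zero.2 (div_ne_zero (mul_ne_zero hp hρc) (by simp [hc0, hm0]))
  have hfm : f m - w = A := by
    rw [hw, hA]
    have : ((starRingEnd ℂ) m)⁻¹ - m = ρ / (starRingEnd ℂ) m := by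
      field_simp; rw [hmm']; ring
    rw [this]; field_simp; ring
  obtain ⟨R, hR⟩ : ∃ R, R = (f x - f m - deriv f m * (x - m)) / A := ⟨_, rfl⟩
  have hfx : f x - w = A * (1 - 2 * c * η + R) := by
    have e1 : A * R = f x - f m - deriv f m * (x - m) := by rw [hR]; field_simp
    have e2 : A * (2 * c * η) = -(deriv f m * (x - m)) := by
      rw [hA, hη, hxξ]; field_simp; ring
    have e3 : A * (1 - 2 * c * η + R) = A - A * (2 * c * η) + A * R := by ring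
    rw [e3, e1, e2, ← hfm]; ring
  have hRn : ‖R‖ ≤ e ^ 2 / 50 := by
    have hAn : ‖A‖ = ‖deriv f m‖ * ρ / (2 * c * ‖m‖) := by
      rw [hA, norm_neg, norm_div, norm_mul, norm_mul, norm_mul, Complex.norm_real,
        Complex.norm_real, Real.norm_eq_abs, Real.norm_eq_abs, abs_of_pos hρ,
        abs_of_pos (show 0 < c by linarith), Complex.norm_conj]
      simp
    have hmp : 0 < ‖m‖ := norm_pos_iff.2 hm0
    have hcm' : 2 * c * ‖m‖ ≤ 3 / 2 := by nlinarith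
    have hA1 : ‖deriv f m‖ * ρ / (3 / 2) ≤ ‖A‖ := by
      rw [hAn]; exact div_le_div_of_nonneg_left (by positivity) (by positivity) hcm'
    rw [hR, norm_div, div_le_iff₀ (norm_pos_iff.2 hA0)]
    have := mul_le_mul_of_nonneg_left hA1 (show 0 ≤ e ^ 2 / 50 by positivity)
    refine hT.trans (le_trans (le_of_eq ?_) this)
    ring
  have hab : η.re ^ 2 + η.im ^ 2 = (1 - ρ) * e ^ 2 := by
    have h1 : ‖η‖ ^ 2 = η.re ^ 2 + η.im ^ 2 := by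
      rw [Complex.sq_norm, Complex.normSq_apply]; ring
    rw [← h1, hη, norm_mul, Complex.norm_conj, hξn, hρd]; ring
  have hG : ‖1 - 2 * c * η + R‖ ^ 2 =
      (1 - 2 * (c * η.re) + R.re) ^ 2 + (-2 * (c * η.im) + R.im) ^ 2 := by
    rw [Complex.sq_norm, Complex.normSq_apply]; simp; ring
  have hcore := core hc1 hc2 he he1 hρ.le hρ1 hab ((Complex.abs_re_le_norm R).trans hRn)
    ((Complex.abs_im_le_norm R).trans hRn) (norm_nonneg _) hG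
  have hρx' : 1 - ‖x‖ ^ 2 = ρ * (1 - 2 * η.re - ρ * e ^ 2) := by
    have h1 : ‖m‖ ^ 2 = m.re ^ 2 + m.im ^ 2 := by
      rw [Complex.sq_norm, Complex.normSq_apply]; ring
    have h2 : e ^ 2 = ξ.re ^ 2 + ξ.im ^ 2 := by
      rw [← hξn, Complex.sq_norm, Complex.normSq_apply]; ring
    have h3 : ‖x‖ ^ 2 = (m.re + ρ * ξ.re) ^ 2 + (m.im + ρ * ξ.im) ^ 2 := by
      rw [hxξ, Complex.sq_norm, Complex.normSq_apply]; simp; ring
    have h4 : η.re = m.re * ξ.re + m.im * ξ.im := by rw [hη]; simp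
    have h5 : (1 : ℝ) = ρ + (m.re ^ 2 + m.im ^ 2) := by rw [← h1, hρd]; ring
    rw [h3, h2, h4]
    linear_combination h5
  have hT0 : 0 < 1 - 2 * η.re - ρ * e ^ 2 := by
    rw [hρx'] at hρx; exact (pos_iff_pos_of_mul_pos hρx).1 hρ
  rw [hρx', Real.mul_rpow hρ.le hT0.le, hfm, hfx, norm_mul,
    le_div_iff₀ (by positivity)]
  have h6 := mul_le_mul_of_nonneg_left hcore (norm_nonneg A)
  refine le_trans (le_of_eq ?_) h6
  have : ρ ^ c ≠ 0 := by positivity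
  field_simp

/-- Persistence: a preconnected set on which `F ≤ F p` that contains `m` and a point `p` outside
the small ball forces `exp (e ^ 2 / 10) * F m ≤ F p`. -/
theorem loc_persist {c e : ℝ} (hc1 : 2 / 3 ≤ c) (hc2 : c ≤ 3 / 4) (he : 0 < e) (he1 : e ≤ 1 / 1000)
    {f : ℂ → ℂ} (hf : DifferentiableOn ℂ f (ball 0 1)) {m : ℂ} (hm : ‖m‖ < 1) (hm0 : m ≠ 0)
    (hsm : ∀ x ∈ closedBall m (e * (1 - ‖m‖ ^ 2)),
      (1 - ‖x‖ ^ 2) * ‖deriv (deriv f) x‖ ≤ 1 / 100 * ‖deriv f x‖)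
    {w : ℂ} (hw : w = f m + deriv f m * (((starRingEnd ℂ) m)⁻¹ - m) / (2 * (c : ℂ)))
    {C : Set ℂ} (hC : IsPreconnected C) (hmC : m ∈ C) {p : ℂ} (hpC : p ∈ C)
    (hp : p ∉ ball m (e * (1 - ‖m‖ ^ 2))) {T : ℝ}
    (hle : ∀ z ∈ C, ‖f z - w‖ / (1 - ‖z‖ ^ 2) ^ c ≤ T) :
    Real.exp (e ^ 2 / 10) * (‖f m - w‖ / (1 - ‖m‖ ^ 2) ^ c) ≤ T := by
  have hρ := rho_pos hm
  have hcont : ContinuousOn (fun z : ℂ => dist z m) C := (continuous_id.dist continuous_const).continuousOn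
  have hI := hC.intermediate_value hmC hpC hcont
  have hmem : e * (1 - ‖m‖ ^ 2) ∈ Icc (dist m m) (dist p m) :=
    ⟨by rw [dist_self]; positivity, by simpa [mem_ball] using hp⟩
  obtain ⟨x, hxC, hx⟩ := hI hmem
  exact (loc_sphere hc1 hc2 he he1 hf hm hm0 hsm hw (x := x) hx).trans (hle x hxC)

/-- Where the pre-Schwarzian is small the normalised Jacobian is at most `-1/2`. -/
theorem loc_J {c : ℝ} (hc1 : 2 / 3 ≤ c) (hc2 : c ≤ 3 / 4) {x p q : ℂ} (hx : ‖x‖ < 1)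
    (hsm : (1 - ‖x‖ ^ 2) * ‖q‖ ≤ 1 / 100 * ‖p‖) :
    ‖((2 * c - 1) * ‖x‖ ^ 2 : ℝ) + ((1 - ‖x‖ ^ 2 : ℝ) : ℂ) * x * (q / p)‖ ^ 2 - 1 ≤ -1 / 2 := by
  have hρ := rho_pos hx
  have h0 := norm_nonneg x
  have h1 : ‖(((2 * c - 1) * ‖x‖ ^ 2 : ℝ) : ℂ)‖ ≤ 1 / 2 := by
    have : ‖x‖ ^ 2 ≤ 1 := by linarith
    have h3 := sq_nonneg ‖x‖
    rw [Complex.norm_real, Real.norm_eq_abs, abs_of_nonneg (by nlinarith)]; nlinarith
  have h2 : ‖((1 - ‖x‖ ^ 2 : ℝ) : ℂ) * x * (q / p)‖ ≤ 1 / 100 := by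
    rw [norm_mul, norm_mul, Complex.norm_real, Real.norm_eq_abs, abs_of_pos hρ, norm_div]
    by_cases hp : p = 0
    · simp [hp]
    have hp' : 0 < ‖p‖ := norm_pos_iff.2 hp
    have h4 : (1 - ‖x‖ ^ 2) * (‖q‖ / ‖p‖) ≤ 1 / 100 := by
      rw [← mul_div_assoc, div_le_iff₀ hp']; exact hsm
    have h5 : 0 ≤ (1 - ‖x‖ ^ 2) * (‖q‖ / ‖p‖) := by positivity
    nlinarith
  have h3 := (norm_add_le _ _).trans (add_le_add h1 h2)
  have h4 := pow_le_pow_left₀ (norm_nonneg _) h3 2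
  linarith

end Crest.Agent.R131.Loc
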