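import Crest.Agent.R131.Defs
import Crest.Agent.R131.Asm3

/-! Row 131: from the four blocks to the area bounds. -/

open Set Metric MeasureTheory Filter
open scoped ENNReal Topology

namespace Crest.Agent.R131.M42

theorem meas_Jd (f : ℂ → ℂ) (c : ℝ) : Measurable (Jd f c) := by
  have h1 : Measurable (deriv f) := measurable_deriv f
  have h2 : Measurable (deriv (deriv f)) := measurable_deriv _
  unfold Jd
  refine Measurable.sub (Measurable.pow_const (Measurable.norm ?_) 2) measurable_const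
  refine Measurable.add ?_ (Measurable.mul (Measurable.mul ?_ measurable_id) (h2.div h1))
  · exact Complex.measurable_ofReal.comp ((measurable_norm.pow_const 2).const_mul _)
  · exact Complex.measurable_ofReal.comp (measurable_const.sub (measurable_norm.pow_const 2))

theorem meas_qv (f : ℂ → ℂ) (c : ℝ) : Measurable (qv f c) := by
  have h1 : Measurable (deriv f) := measurable_deriv f
  unfold qv
  exact (h1.norm.mul ((measurable_const.sub (measurable_norm.pow_const 2)).pow_const _)).div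
    (measurable_norm.const_mul _)

theorem meas_Wt (f : ℂ → ℂ) (s b : ℝ) : Measurable (Wt f s b) := by
  have h1 : Measurable (deriv f) := measurable_deriv f
  unfold Wt
  exact ((measurable_norm.pow_const _).mul (h1.norm.pow_const _)).mul
    ((measurable_const.sub (measurable_norm.pow_const 2)).pow_const _)

theorem rho_pos {z : ℂ} (hz : z ∈ ball (0 : ℂ) 1) : 0 < 1 - ‖z‖ ^ 2 := by
  have hz1 : ‖z‖ < 1 := mem_ball_zero_iff.1 hz
  nlinarith [norm_nonneg z]

theorem qv_pos {f : ℂ → ℂ} {c : ℝ} (hc : 0 < c) {z : ℂ} (hz : z ∈ ball (0 : ℂ) 1) (h0 : z ≠ 0)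
    (hd : deriv f z ≠ 0) : 0 < qv f c z := by
  have h1 := rho_pos hz
  have h2 : 0 < ‖z‖ := norm_pos_iff.2 h0
  have h3 : 0 < ‖deriv f z‖ := norm_pos_iff.2 hd
  unfold qv
  positivity

theorem Wt_nonneg (f : ℂ → ℂ) (s b : ℝ) {z : ℂ} (hz : z ∈ ball (0 : ℂ) 1) : 0 ≤ Wt f s b z := by
  have h1 := rho_pos hz
  unfold Wt
  positivity

theorem weight_eq {f : ℂ → ℂ} {s b c : ℝ} (hc : 0 < c) (hb : b - 1 = (s + 2) * (c - 1)) {z : ℂ}
    (hz : z ∈ ball (0 : ℂ) 1) (h0 : z ≠ 0) (hd : deriv f z ≠ 0) (J : ℝ) :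
    ‖deriv f z‖ ^ 2 * J / (4 * c ^ 2 * ‖z‖ ^ 4) * qv f c z ^ (-(s + 2)) =
      (2 * c) ^ s * (Wt f s b z * J) := by
  have h1 := rho_pos hz
  have h2 : 0 < ‖z‖ := norm_pos_iff.2 h0
  have h3 : 0 < ‖deriv f z‖ := norm_pos_iff.2 hd
  have h4 : 0 < 2 * c := by positivity
  unfold qv Wt
  set a := ‖deriv f z‖
  set r := ‖z‖
  set ρ := 1 - r ^ 2
  rw [Real.div_rpow (by positivity) (by positivity), Real.mul_rpow h3.le (by positivity),
    Real.mul_rpow h4.le h2.le, ← Real.rpow_mul h1.le, hb]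
  have e1 : (1 - c) * -(s + 2) = (s + 2) * (c - 1) := by ring
  have e2 : a ^ (-(s + 2)) = a ^ (-s) / a ^ 2 := by
    rw [← Real.rpow_natCast, ← Real.rpow_sub h3]; congr 1; push_cast; ring
  have e3 : (2 * c) ^ (-(s + 2)) = 1 / ((2 * c) ^ s * (2 * c) ^ 2) := by
    rw [Real.rpow_neg h4.le, Real.rpow_add h4, one_div]; norm_num
  have e4 : r ^ (-(s + 2)) = 1 / (r ^ (s - 2) * r ^ 4) := by
    rw [Real.rpow_neg h2.le, one_div, ← Real.rpow_natCast, ← Real.rpow_add h2]
    congr 2; push_cast; ring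
  rw [e1, e2, e3, e4]
  have h5 : 0 < (2 * c) ^ s := by positivity
  have h6 : 0 < r ^ (s - 2) := by positivity
  field_simp
  ring

/-- The degree inequality with a gain on a good set. -/
theorem deg_ineq (hD : DegFlex) {R : ℝ} {f : ℂ → ℂ} {s b c kap : ℝ} (hR : 1 < R)
    (hf : DifferentiableOn ℂ f (ball 0 R)) (hi : InjOn f (ball 0 R)) (hs : 0 < s) (hc : 0 < c)
    (hb : b - 1 = (s + 2) * (c - 1))
    (hu : IntegrableOn (fun z => Wt f s b z * Jd f c z) (ball 0 1))
    (G : Set ℂ) (hG : MeasurableSet G) (hk : 0 ≤ kap)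
    (hP : ∀ m ∈ ball (0 : ℂ) 1, m ≠ 0 → m ∈ G → Jd f c m ≤ -(1 / 2) ∧
      ∀ p ∈ ball (0 : ℂ) 1, p ≠ 0 → 0 < Jd f c p → Mm f c m = Mm f c p →
        JoinedIn {z | z ∈ ball (0 : ℂ) 1 ∧ Fw f c (Mm f c p) z ≤ Fw f c (Mm f c p) p} p m →
        Real.exp kap * qv f c m ≤ qv f c p) :
    IntegrableOn (G.indicator (Wt f s b)) (ball 0 1) ∧
    (∫ z in ball (0 : ℂ) 1, Wt f s b z * Jd f c z) +
      (1 - Real.exp kap ^ (-(s + 2))) / 2 * ∫ z in ball (0 : ℂ) 1, G.indicator (Wt f s b) z ≤ 0 := by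
  classical
  have hne : ∀ z ∈ ball (0 : ℂ) 1, deriv f z ≠ 0 := fun z hz =>
    Crest.Agent.Lib.RMT.deriv_ne_zero_of_injOn isOpen_ball hf hi (ball_subset_ball hR.le hz)
  set η := Real.exp kap ^ (-(s + 2)) with hη
  have hη0 : 0 < η := by positivity
  have hη1 : η ≤ 1 := Real.rpow_le_one_of_one_le_of_nonpos (Real.one_le_exp hk) (by linarith)
  set ω : ℂ → ℝ := fun z => if z ∈ G then η else 1 with hω
  have hωm : Measurable ω := Measurable.ite hG measurable_const measurable_const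
  have hω0 : ∀ z, 0 ≤ ω z := fun z => by simp only [hω]; split_ifs <;> positivity
  have hω1 : ∀ z, ω z ≤ 1 := fun z => by simp only [hω]; split_ifs <;> linarith
  set u : ℂ → ℝ := fun z => Wt f s b z * Jd f c z with hudef
  have hum : Measurable u := (meas_Wt f s b).mul (meas_Jd f c)
  have hae : ∀ᵐ z ∂(volume.restrict (ball (0 : ℂ) 1)), z ∈ ball (0 : ℂ) 1 ∧ z ≠ 0 := by
    refine (ae_restrict_mem measurableSet_ball).and (ae_restrict_of_ae ?_)
    simp [ae_iff]
  have hk0 : 0 < (2 * c) ^ s := by positivity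
  have key := hD R f c hR hf hi hc (fun z => ENNReal.ofReal (qv f c z ^ (-(s + 2))))
    (fun z => ENNReal.ofReal (qv f c z ^ (-(s + 2)) * ω z))
    ((meas_qv f c).pow_const _).ennreal_ofReal (((meas_qv f c).pow_const _).mul hωm).ennreal_ofReal
    (by
      intro p hp m hm hp0 hm0 hJp hJm hM hq hj
      refine ENNReal.ofReal_le_ofReal ?_
      have hqm := qv_pos hc hm hm0 (hne m hm)
      simp only [hω]
      split_ifs with hmG
      · have h1 := (hP m hm hm0 hmG).2 p hp hp0 hJp hM hj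
        have h2 := Real.rpow_le_rpow_of_nonpos (by positivity) h1 (by linarith : -(s + 2) ≤ 0)
        rw [Real.mul_rpow (Real.exp_pos _).le hqm.le] at h2
        rw [mul_comm]; exact h2
      · rw [mul_one]
        exact Real.rpow_le_rpow_of_nonpos hqm hq.le (by linarith))
  have hPm : MeasurableSet {z | z ∈ ball (0 : ℂ) 1 ∧ z ≠ 0 ∧ 0 < Jd f c z} :=
    measurableSet_ball.inter ((measurableSet_singleton 0).compl.inter
      (measurableSet_lt measurable_const (meas_Jd f c)))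
  have hNm : MeasurableSet {z | z ∈ ball (0 : ℂ) 1 ∧ z ≠ 0 ∧ Jd f c z < 0} :=
    measurableSet_ball.inter ((measurableSet_singleton 0).compl.inter
      (measurableSet_lt (meas_Jd f c) measurable_const))
  have hA : IntegrableOn (fun z => (2 * c) ^ s * max (u z) 0) (ball (0 : ℂ) 1) :=
    (hu.pos_part).const_mul _
  have hN : IntegrableOn (fun z => (2 * c) ^ s * (max (-u z) 0 * ω z)) (ball (0 : ℂ) 1) := by
    refine Integrable.const_mul ?_ _
    refine Integrable.mul_bdd (c := 1) hu.neg_part hωm.aestronglyMeasurable ?_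
    exact Eventually.of_forall fun z => by
      rw [Real.norm_eq_abs, abs_of_nonneg (hω0 z)]; exact hω1 z
  have h1 : ∫⁻ z in ball (0 : ℂ) 1, ENNReal.ofReal ((2 * c) ^ s * max (u z) 0) ≤
      ∫⁻ z in {z | z ∈ ball (0 : ℂ) 1 ∧ z ≠ 0 ∧ 0 < Jd f c z},
        ENNReal.ofReal (‖deriv f z‖ ^ 2 * |Jd f c z| / (4 * c ^ 2 * ‖z‖ ^ 4)) *
          ENNReal.ofReal (qv f c z ^ (-(s + 2))) := by
    rw [← lintegral_indicator hPm]
    refine le_trans (lintegral_mono_ae ?_) (setLIntegral_le_lintegral (ball (0 : ℂ) 1) _)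
    filter_upwards [hae] with z hz
    by_cases hJ : 0 < Jd f c z
    · rw [indicator_of_mem (show z ∈ {z | z ∈ ball (0 : ℂ) 1 ∧ z ≠ 0 ∧ 0 < Jd f c z} from
        ⟨hz.1, hz.2, hJ⟩), ← ENNReal.ofReal_mul (by positivity),
        weight_eq hc hb hz.1 hz.2 (hne z hz.1), abs_of_pos hJ,
        max_eq_left (mul_nonneg (Wt_nonneg f s b hz.1) hJ.le)]
    · have : u z ≤ 0 := mul_nonpos_of_nonneg_of_nonpos (Wt_nonneg f s b hz.1) (not_lt.1 hJ)
      rw [max_eq_right this]; simp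
  have h2 : ∫⁻ z in {z | z ∈ ball (0 : ℂ) 1 ∧ z ≠ 0 ∧ Jd f c z < 0},
        ENNReal.ofReal (‖deriv f z‖ ^ 2 * |Jd f c z| / (4 * c ^ 2 * ‖z‖ ^ 4)) *
          ENNReal.ofReal (qv f c z ^ (-(s + 2)) * ω z) ≤
      ∫⁻ z in ball (0 : ℂ) 1, ENNReal.ofReal ((2 * c) ^ s * (max (-u z) 0 * ω z)) := by
    refine le_trans (setLIntegral_mono' hNm fun z hz => ?_) (lintegral_mono_set fun z hz => hz.1)
    obtain ⟨hz1, hz0, hJ⟩ := hz
    rw [← ENNReal.ofReal_mul (by positivity), ← mul_assoc, weight_eq hc hb hz1 hz0 (hne z hz1),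
      abs_of_neg hJ]
    have h3 : 0 ≤ -u z := by
      simp only [hudef]
      nlinarith [Wt_nonneg f s b hz1]
    rw [max_eq_left h3]
    refine le_of_eq ?_
    congr 1
    simp only [hudef]; ring
  have h3 := h1.trans (key.trans h2)
  rw [← ofReal_integral_eq_lintegral_ofReal hA (Eventually.of_forall fun z => by positivity),
    ← ofReal_integral_eq_lintegral_ofReal hN (Eventually.of_forall fun z =>
      mul_nonneg hk0.le (mul_nonneg (le_max_right _ _) (hω0 z))),
    ENNReal.ofReal_le_ofReal_iff (integral_nonneg fun z =>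
      mul_nonneg hk0.le (mul_nonneg (le_max_right _ _) (hω0 z)))] at h3
  have hI : IntegrableOn (G.indicator (Wt f s b)) (ball 0 1) := by
    refine Integrable.mono' (hu.norm.const_mul 2)
      ((meas_Wt f s b).indicator hG).aestronglyMeasurable ?_
    filter_upwards [hae] with z hz
    by_cases hzG : z ∈ G
    · have h4 := (hP z hz.1 hz.2 hzG).1
      have h5 := Wt_nonneg f s b hz.1
      rw [indicator_of_mem hzG, Real.norm_eq_abs, abs_of_nonneg h5, Real.norm_eq_abs]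
      have h6 : -u z ≤ |u z| := neg_le_abs _
      simp only [hudef] at h6 ⊢
      nlinarith
    · rw [indicator_of_notMem hzG]; simp
  refine ⟨hI, ?_⟩
  have h4 : ∫ z in ball (0 : ℂ) 1, (2 * c) ^ s * (u z + (1 - η) / 2 * G.indicator (Wt f s b) z) ≤
      ∫ z in ball (0 : ℂ) 1, ((2 * c) ^ s * max (u z) 0 - (2 * c) ^ s * (max (-u z) 0 * ω z)) := by
    refine integral_mono_ae ((hu.add (hI.const_mul _)).const_mul _) (hA.sub hN) ?_
    filter_upwards [hae] with z hz
    rw [← mul_sub]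
    refine mul_le_mul_of_nonneg_left ?_ hk0.le
    by_cases hzG : z ∈ G
    · have h4 := (hP z hz.1 hz.2 hzG).1
      have h5 := Wt_nonneg f s b hz.1
      have h6 : u z ≤ -(1 / 2) * Wt f s b z := by simp only [hudef]; nlinarith
      have h7 : ω z = η := by simp only [hω, if_pos hzG]
      rw [indicator_of_mem hzG, h7, max_eq_right (by nlinarith), max_eq_left (by nlinarith)]
      nlinarith
    · have h7 : ω z = 1 := by simp only [hω, if_neg hzG]
      rw [indicator_of_notMem hzG, h7]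
      rcases le_total (u z) 0 with h | h
      · rw [max_eq_right h, max_eq_left (by linarith)]; linarith
      · rw [max_eq_left h, max_eq_right (by linarith)]; linarith
  rw [integral_sub hA hN, integral_const_mul, integral_add hu (hI.const_mul _),
    integral_const_mul] at h4
  have h5 : (2 * c) ^ s * ((∫ z in ball (0 : ℂ) 1, u z) +
      (1 - η) / 2 * ∫ z in ball (0 : ℂ) 1, G.indicator (Wt f s b) z) ≤ 0 := by linarith
  exact nonpos_of_mul_nonpos_right h5 hk0

theorem area_plain (hD : DegFlex) (hI : Ident) (hP : PreSchw) {s b : ℝ} (hs : 0 < s)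
    (hb : s ^ 2 / 4 < b) : AreaBoundR s b := by
  have hb0 : 0 < b := lt_of_le_of_lt (by positivity) hb
  set c := 1 + (b - 1) / (s + 2) with hc
  have hs2 : 0 < s + 2 := by linarith
  have hbc : b - 1 = (s + 2) * (c - 1) := by rw [hc]; field_simp; ring
  have h4c : s + 2 < 4 * c := by
    have : (s + 2) * (s + 2) < (s + 2) * (4 * c) := by nlinarith
    exact lt_of_mul_lt_mul_left this hs2.le
  have hc0 : 0 < c := by linarith
  refine areaBoundR_of_closed hP (c := c) (α := s + 2) (C0 := 0) hs.le hb0 hs2 h4c ?_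
  intro R f hR hf hi _ _
  have hne : ∀ z ∈ ball (0 : ℂ) R, deriv f z ≠ 0 := fun z hz =>
    Crest.Agent.Lib.RMT.deriv_ne_zero_of_injOn isOpen_ball hf hi hz
  obtain ⟨h1, -, h3⟩ := hI R f s b c hR hf hne hs hb0 hbc
  have h4 := (deg_ineq hD (kap := 0) hR hf hi hs hc0 hbc h1 ∅ MeasurableSet.empty le_rfl
    (fun m _ _ h => absurd h (notMem_empty m))).2
  simp only [indicator_empty, integral_zero, mul_zero, add_zero] at h4
  rw [h3] at h4
  have h5 := nonpos_of_mul_nonpos_right h4 (by positivity : 0 < 4 * c / s ^ 2)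
  refine le_trans (le_of_eq ?_) h5
  congr 1
  funext z
  ring

theorem area_strict (hD : DegFlex) (hI : Ident) (hE : Dens) (hQ : Persist) (hP : PreSchw) :
    ∃ b : ℝ, 0 < b ∧ b < 1 / 4 ∧ AreaBoundR 1 b := by
  obtain ⟨K0, hK0⟩ := id hP
  set K := 2 * max K0 0 + 1 with hK
  have hKp : 0 < K := by have := le_max_right K0 0; linarith
  obtain ⟨th, kap, hth, hkap, hQ⟩ := hQ K hKp
  obtain ⟨C, hC, hE⟩ := hE K th hKp hth
  set η := Real.exp kap ^ (-((1 : ℝ) + 2)) with hη
  have hη1 : η < 1 := Real.rpow_lt_one_of_one_lt_of_neg (Real.one_lt_exp_iff.2 hkap) (by norm_num)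
  set τ := (1 - η) / 2 / C with hτ
  have hτ0 : 0 < τ := div_pos (by linarith) hC
  set e := min (τ / 16) (1 / 10) with he
  have he0 : 0 < e := lt_min (by positivity) (by norm_num)
  have he1 : e ≤ τ / 16 := min_le_left _ _
  have he2 : e ≤ 1 / 10 := min_le_right _ _
  set c := 3 / 4 - e / 3 with hc
  have hb0 : 0 < 1 / 4 - e := by linarith
  refine ⟨1 / 4 - e, hb0, by linarith, ?_⟩
  refine areaBoundR_of_ineq hP (δ := τ / 2) (A := 9 + τ) (r0 := 1 - τ / 72) (C0 := 0) zero_le_one hb0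
    (by positivity) (by linarith) (fun z => 4 * c * (‖z‖ * (4 * c * ‖z‖ ^ 2 - 3)) + τ)
    (((measurable_norm.mul (((measurable_norm.pow_const 2).const_mul _).sub
      measurable_const)).const_mul _).add measurable_const) ?_ ?_ ?_
  · intro z hz
    have hz1 : ‖z‖ < 1 := mem_ball_zero_iff.1 hz
    have hz0 := norm_nonneg z
    have h1 : ‖z‖ ^ 2 ≤ 1 := by nlinarith
    have h2 : 0 ≤ 4 * c * ‖z‖ ^ 2 := by have : 0 ≤ c := by linarith
                                        positivity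
    have h3 : 4 * c * ‖z‖ ^ 2 ≤ 3 := by nlinarith [sq_nonneg ‖z‖]
    have h4 : -3 ≤ ‖z‖ * (4 * c * ‖z‖ ^ 2 - 3) := by nlinarith
    have h5 : ‖z‖ * (4 * c * ‖z‖ ^ 2 - 3) ≤ 0 := by nlinarith
    rw [abs_le]
    constructor <;> nlinarith
  · intro z hz hr
    have hz1 : ‖z‖ < 1 := mem_ball_zero_iff.1 hz
    have hz0 := norm_nonneg z
    have h1 : ‖z‖ ^ 2 ≤ 1 := by nlinarith
    have h2 : -(4 * e / 3) - 6 * (1 - ‖z‖) ≤ 4 * c * ‖z‖ ^ 2 - 3 := by
      rw [hc]; nlinarith [sq_nonneg ‖z‖]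
    have h3 : 4 * c * ‖z‖ ^ 2 - 3 ≤ 0 := by rw [hc]; nlinarith [sq_nonneg ‖z‖]
    have h4 : 4 * c * ‖z‖ ≤ 3 := by rw [hc]; nlinarith
    have h5 : 3 * (4 * c * ‖z‖ ^ 2 - 3) ≤ 4 * c * ‖z‖ * (4 * c * ‖z‖ ^ 2 - 3) := by nlinarith
    nlinarith
  · intro R f hR hf hi _ _
    have hne : ∀ z ∈ ball (0 : ℂ) R, deriv f z ≠ 0 := fun z hz =>
      Crest.Agent.Lib.RMT.deriv_ne_zero_of_injOn isOpen_ball hf hi hz
    have hf1 : DifferentiableOn ℂ f (ball 0 1) := hf.mono (ball_subset_ball hR.le)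
    have hi1 : InjOn f (ball 0 1) := hi.mono (ball_subset_ball hR.le)
    have hp : ∀ z ∈ ball (0 : ℂ) 1, (1 - ‖z‖ ^ 2) * ‖deriv (deriv f) z‖ ≤ K * ‖deriv f z‖ := by
      intro z hz
      have hz1 : ‖z‖ < 1 := mem_ball_zero_iff.1 hz
      have h1 := hK0 f hf1 hi1 z hz
      have h2 := mul_le_mul_of_nonneg_right (le_max_left K0 0) (norm_nonneg (deriv f z))
      have h3 : 1 - ‖z‖ ^ 2 ≤ 2 * (1 - ‖z‖) := by nlinarith
      have h4 := mul_le_mul_of_nonneg_right h3 (norm_nonneg (deriv (deriv f) z))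
      have h5 := norm_nonneg (deriv f z)
      rw [hK]; nlinarith
    have hbc : (1 / 4 - e) - 1 = ((1 : ℝ) + 2) * (c - 1) := by rw [hc]; ring
    have hc0 : 0 < c := by linarith
    obtain ⟨h1, h2, h3⟩ := hI R f 1 (1 / 4 - e) c hR hf hne one_pos hb0 hbc
    set G := {z | z ∈ ball (0 : ℂ) 1 ∧
      (1 - ‖z‖ ^ 2) * ‖deriv (deriv f) z‖ < th * ‖deriv f z‖} with hG
    have hGm : MeasurableSet G := measurableSet_ball.inter (measurableSet_lt
      ((measurable_const.sub (measurable_norm.pow_const 2)).mul (measurable_deriv _).norm)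
      ((measurable_deriv f).norm.const_mul _))
    obtain ⟨h4, h5⟩ := deg_ineq hD (kap := kap) hR hf hi one_pos hc0 hbc h1 G hGm hkap.le
      (fun m hm hm0 hmG => hQ f c hf1 (fun z hz => hne z (ball_subset_ball hR.le hz)) hp
        (by linarith) (by linarith) m hm hm0 hmG.2)
    have hg := asm_g_int (s := 1) hb0 hR hf hi
    set g : ℂ → ℝ := fun z => ‖deriv f z‖ ^ (-(1 : ℝ)) * (1 - ‖z‖ ^ 2) ^ (1 / 4 - e - 1) with hgdef
    have hg0 : ∀ z ∈ ball (0 : ℂ) 1, 0 ≤ g z := fun z hz => by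
      have := rho_pos hz
      simp only [hgdef]; positivity
    have h6 := hE R f (1 / 4 - e) hR hf hne hp hb0 (by linarith)
    have hae : ∀ᵐ z ∂(volume.restrict (ball (0 : ℂ) 1)), z ∈ ball (0 : ℂ) 1 ∧ z ≠ 0 := by
      refine (ae_restrict_mem measurableSet_ball).and (ae_restrict_of_ae ?_)
      simp [ae_iff]
    have hnn : 0 ≤ᵐ[volume.restrict (ball (0 : ℂ) 1)] G.indicator (Wt f 1 (1 / 4 - e)) := by
      filter_upwards [hae] with z hz
      exact indicator_nonneg (fun x hx => Wt_nonneg f _ _ hx.1) z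
    have h7 : ∫⁻ z in G, ENNReal.ofReal (g z) ≤
        ∫⁻ z in ball (0 : ℂ) 1, ENNReal.ofReal (G.indicator (Wt f 1 (1 / 4 - e)) z) := by
      have e1 : ∫⁻ z in G, ENNReal.ofReal (g z) =
          ∫⁻ z in ball (0 : ℂ) 1, G.indicator (fun z => ENNReal.ofReal (g z)) z := by
        rw [lintegral_indicator hGm, Measure.restrict_restrict hGm,
          inter_eq_left.2 fun z hz => hz.1]
      rw [e1]
      refine lintegral_mono_ae ?_
      filter_upwards [hae] with z hz
      by_cases hzG : z ∈ G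
      · rw [indicator_of_mem hzG, indicator_of_mem hzG]
        refine ENNReal.ofReal_le_ofReal ?_
        have hz1 : ‖z‖ < 1 := mem_ball_zero_iff.1 hz.1
        have h8 : 1 ≤ ‖z‖ ^ ((1 : ℝ) - 2) :=
          Real.one_le_rpow_of_pos_of_le_one_of_nonpos (norm_pos_iff.2 hz.2) hz1.le (by norm_num)
        have h9 := hg0 z hz.1
        have e2 : Wt f 1 (1 / 4 - e) z = ‖z‖ ^ ((1 : ℝ) - 2) * g z := by
          simp only [Wt, hgdef]; ring
        rw [e2]; nlinarith
      · rw [indicator_of_notMem hzG]; exact zero_le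
    have h8 := h6.trans (mul_le_mul_right h7 _)
    rw [← ofReal_integral_eq_lintegral_ofReal hg ((ae_restrict_iff' measurableSet_ball).2
      (Eventually.of_forall hg0)), ← ofReal_integral_eq_lintegral_ofReal h4 hnn,
      ← ENNReal.ofReal_mul hC.le, ENNReal.ofReal_le_ofReal_iff
        (mul_nonneg hC.le (integral_nonneg_of_ae hnn))] at h8
    have e3 : ∀ z : ℂ, (4 * c * (‖z‖ * (4 * c * ‖z‖ ^ 2 - 3)) + τ) * g z =
        4 * c / (1 : ℝ) ^ 2 * (‖z‖ ^ (1 : ℝ) * (1 - ‖z‖ ^ 2) ^ (1 / 4 - e - 1) *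
          (4 * c * ‖z‖ ^ 2 - (1 + 2)) * ‖deriv f z‖ ^ (-(1 : ℝ))) + τ * g z := by
      intro z
      rw [Real.rpow_one]; simp only [hgdef]; ring
    have e4 : ∫ z in ball (0 : ℂ) 1, (4 * c * (‖z‖ * (4 * c * ‖z‖ ^ 2 - 3)) + τ) * g z =
        (∫ z in ball (0 : ℂ) 1, Wt f 1 (1 / 4 - e) z * Jd f c z) +
          τ * ∫ z in ball (0 : ℂ) 1, g z := by
      simp only [e3]
      rw [integral_add (h2.const_mul _) (hg.const_mul _), integral_const_mul, integral_const_mul,
        h3]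
    refine le_trans (le_of_eq e4) ?_
    have h9 : τ * ∫ z in ball (0 : ℂ) 1, g z ≤
        (1 - η) / 2 * ∫ z in ball (0 : ℂ) 1, G.indicator (Wt f 1 (1 / 4 - e)) z := by
      have h10 := mul_le_mul_of_nonneg_left h8 hτ0.le
      have e5 : τ * C = (1 - η) / 2 := by rw [hτ]; field_simp
      rw [← mul_assoc, e5] at h10
      exact h10
    rw [← hη] at h5
    linarith

theorem area_two (hD : DegFlex) (hI : Ident) (hP : PreSchw) (e : ℝ) (he : 0 < e) :
    AreaBound 2 (1 + e) :=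
  areaBound_of_R (area_plain hD hI hP two_pos (by norm_num; linarith))

theorem area_one (hD : DegFlex) (hI : Ident) (hE : Dens) (hQ : Persist) (hP : PreSchw) :
    ∃ b : ℝ, 0 < b ∧ b < 1 / 4 ∧ AreaBound 1 b := by
  obtain ⟨b, h0, h1, h⟩ := area_strict hD hI hE hQ hP
  exact ⟨b, h0, h1, areaBound_of_R h⟩

end Crest.Agent.R131.M42
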