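import Mathlib

/-! Row 131: abstract planar Morse count (saddles inject into minima) for functions with no
local maximum.  No Jordan curve theorem, no Morse lemma. -/

set_option autoImplicit false

open Set Filter Topology Metric Complex

namespace Crest.Agent.R131.Morse92

theorem isPreconnected_compl_ball {R : ℝ} : IsPreconnected (ball (0 : ℂ) R)ᶜ := by
  have e : (ball (0 : ℂ) R)ᶜ =
      (fun x : ℝ × ℝ => circleMap 0 x.1 x.2) '' (Ici (max R 0) ×ˢ univ) := by
    ext w
    simp only [mem_compl_iff, mem_ball_zero_iff, not_lt]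
    constructor
    · intro hw
      exact ⟨(‖w‖, w.arg), ⟨max_le hw (norm_nonneg _), trivial⟩, by simp [circleMap]⟩
    · rintro ⟨x, ⟨hx, -⟩, rfl⟩
      rw [norm_circleMap_zero]
      exact le_trans (le_trans (le_max_left _ _) hx) (le_abs_self _)
  rw [e]
  refine (isPreconnected_Ici.prod isPreconnected_univ).image _ (Continuous.continuousOn ?_)
  unfold circleMap
  fun_prop

/-- a continuous function with `exp = 1` on a preconnected set is constant. -/
theorem const_of_exp {α : Type*} [TopologicalSpace α] {C : Set α} (hC : IsPreconnected C)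
    {k : α → ℂ} (hk : ContinuousOn k C) (h : ∀ z ∈ C, exp (k z) = 1) {x y : α} (hx : x ∈ C)
    (hy : y ∈ C) : k x = k y := by
  refine isCoveringMap_exp.constOn_of_comp hC hk ?_ hx hy
  intro a ha a' ha'
  apply Subtype.ext
  simp [h a ha, h a' ha']

/-- Eilenberg's lemma. -/
theorem exists_log {K : Set ℂ} (hK : IsClosed K) {W : Set ℂ} (hW : IsPreconnected W)
    (hWK : ∀ x ∈ W, x ∉ K) {p q : ℂ} (hp : p ∈ W) (hq : q ∈ W) :
    ∃ g : ℂ → ℂ, ContinuousOn g K ∧ ∀ z ∈ K, exp (g z) * (z - q) = z - p := by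
  refine hW.induction₂'
    (fun p q => ∃ g : ℂ → ℂ, ContinuousOn g K ∧ ∀ z ∈ K, exp (g z) * (z - q) = z - p) ?_ ?_ hp hq
  · intro x hx
    obtain ⟨δ, hδ, hb⟩ := Metric.isOpen_iff.1 hK.isOpen_compl x (hWK x hx)
    have hb' : ∀ z ∈ K, δ ≤ ‖z - x‖ := by
      intro z hz
      by_contra h
      exact hb (by rw [mem_ball, dist_eq_norm]; exact not_le.1 h) hz
    have hev : ∀ᶠ y in 𝓝[W] x, y ∈ ball x δ :=
      mem_nhdsWithin_of_mem_nhds (ball_mem_nhds x hδ)
    filter_upwards [hev] with y hy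
    rw [mem_ball, dist_eq_norm] at hy
    have hz0 : ∀ z ∈ K, z - x ≠ 0 := by
      intro z hz h
      have := hb' z hz
      rw [h, norm_zero] at this
      linarith
    have hs : ∀ z ∈ K, (z - y) / (z - x) ∈ slitPlane := by
      intro z hz
      have e : (z - y) / (z - x) = 1 + (x - y) / (z - x) := by
        field_simp [hz0 z hz]
        ring
      rw [e]
      apply mem_slitPlane_of_norm_lt_one
      rw [norm_div, div_lt_one (norm_pos_iff.2 (hz0 z hz)), norm_sub_rev]
      exact lt_of_lt_of_le hy (hb' z hz)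
    have hc : ContinuousOn (fun z => log ((z - y) / (z - x))) K := by
      refine ContinuousOn.clog ?_ hs
      exact (continuousOn_id.sub continuousOn_const).div (continuousOn_id.sub continuousOn_const) hz0
    constructor
    · refine ⟨fun z => - log ((z - y) / (z - x)), hc.neg, fun z hz => ?_⟩
      have h1 := slitPlane_ne_zero (hs z hz)
      have h2 : z - y ≠ 0 := by
        intro h
        apply h1
        rw [h, zero_div]
      rw [exp_neg, exp_log h1]
      field_simp [hz0 z hz]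
    · refine ⟨fun z => log ((z - y) / (z - x)), hc, fun z hz => ?_⟩
      rw [exp_log (slitPlane_ne_zero (hs z hz))]
      field_simp [hz0 z hz]
  · rintro x y w - - - ⟨g₁, hg₁, e₁⟩ ⟨g₂, hg₂, e₂⟩
    refine ⟨fun z => g₁ z + g₂ z, hg₁.add hg₂, fun z hz => ?_⟩
    rw [exp_add, mul_assoc, e₂ z hz, e₁ z hz]

theorem log_sub_log_neg_pos {w : ℂ} (h : 0 < w.im) : log w - log (-w) = Real.pi * I := by
  have := arg_neg_eq_arg_sub_pi_of_im_pos h
  simp only [log, norm_neg, this]
  push_cast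
  ring

theorem log_sub_log_neg_neg {w : ℂ} (h : w.im < 0) : log w - log (-w) = -(Real.pi * I) := by
  have := arg_neg_eq_arg_add_pi_of_im_neg h
  simp only [log, norm_neg, this]
  push_cast
  ring

/-- The crossing lemma at a saddle. -/
theorem not_joined {K : Set ℂ} {σ u v : ℂ} (huv : (u * (starRingEnd ℂ) v).im ≠ 0)
    (hv : ∀ t : ℝ, t ∈ Icc (-1 : ℝ) 1 → σ + t * v ∈ K)
    (hu : ∀ t : ℝ, t ∈ Icc (-1 : ℝ) 1 → t ≠ 0 → σ + t * u ∉ K)
    {g : ℂ → ℂ} (hg : ContinuousOn g K)
    (he : ∀ z ∈ K, exp (g z) * (z - (σ - u)) = z - (σ + u))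
    {C : Set ℂ} (hC : IsPreconnected C) (hCK : C ⊆ K) (hσ : σ ∉ C) (h1 : σ + v ∈ C)
    (h2 : σ - v ∈ C) : False := by
  have hq : ∀ z ∈ K, z - (σ - u) ≠ 0 := by
    intro z hz h
    apply hu (-1) (by constructor <;> norm_num) (by norm_num)
    have : σ + ((-1 : ℝ) : ℂ) * u = z := by
      push_cast
      linear_combination -h
    rwa [this]
  -- on `C` the exponential lies in the slit plane
  have hs : ∀ z ∈ C, exp (g z) ∈ slitPlane := by
    intro z hz
    by_contra hns
    rw [mem_slitPlane_iff, not_or, not_lt, not_not] at hns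
    obtain ⟨hre, him⟩ := hns
    set x : ℝ := -(exp (g z)).re with hx
    have hx0 : 0 ≤ x := by linarith
    have hex : exp (g z) = -(x : ℂ) := by
      apply Complex.ext <;> simp [hx, him]
    have e := he z (hCK hz)
    rw [hex] at e
    have h1x : (1 + x : ℝ) ≠ 0 := by linarith
    have h1x' : (1 + x : ℂ) ≠ 0 := by exact_mod_cast h1x
    have hz' : z = σ + (((1 - x) / (1 + x) : ℝ) : ℂ) * u := by
      push_cast
      field_simp
      linear_combination -e
    have ht : (1 - x) / (1 + x) ∈ Icc (-1 : ℝ) 1 := by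
      constructor
      · rw [le_div_iff₀ (by linarith)]; linarith
      · rw [div_le_iff₀ (by linarith)]; linarith
    by_cases h0 : (1 - x) / (1 + x) = 0
    · rw [h0] at hz'
      apply hσ
      have : z = σ := by simpa using hz'
      rwa [← this]
    · exact hu _ ht h0 (hz' ▸ hCK hz)
  have hA : g (σ + v) - log (exp (g (σ + v))) = g (σ - v) - log (exp (g (σ - v))) := by
    refine const_of_exp (k := fun z => g z - log (exp (g z))) hC ?_ ?_ h1 h2
    · exact (hg.mono hCK).sub (ContinuousOn.clog (hg.mono hCK).cexp hs)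
    · intro z _
      rw [exp_sub, exp_log (exp_ne_zero _), div_self (exp_ne_zero _)]
  -- the imaginary part along the segment
  have him : ∀ t : ℝ, t ∈ Icc (-1 : ℝ) 1 →
      (exp (g (σ + t * v))).im * normSq (t * v + u) = -(2 * t * (u * (starRingEnd ℂ) v).im) := by
    intro t ht
    have e := he _ (hv t ht)
    have e' : exp (g (σ + t * v)) * (normSq (t * v + u) : ℂ) =
        (t * v - u) * (starRingEnd ℂ) (t * v + u) := by
      rw [← mul_conj]
      have : t * v - u = exp (g (σ + t * v)) * (t * v + u) := by linear_combination -e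
      rw [this]
      ring
    have := congrArg Complex.im e'
    simp only [mul_im, ofReal_re, ofReal_im, mul_zero, zero_add, conj_re, conj_im, sub_re, sub_im,
      add_re, add_im, mul_re, zero_mul, sub_zero, add_zero] at this ⊢
    linear_combination this
  have hne : ∀ t : ℝ, t ∈ Icc (-1 : ℝ) 1 → 0 < normSq (t * v + u) := by
    intro t ht
    apply normSq_pos.2
    have := hq _ (hv t ht)
    intro h
    apply this
    linear_combination h
  have hs' : ∀ t : ℝ, t ∈ Icc (-1 : ℝ) 1 → -exp (g (σ + t * v)) ∈ slitPlane := by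
    intro t ht
    by_cases h0 : t = 0
    · have e := he _ (hv t ht)
      have hq' := hq _ (hv t ht)
      subst h0
      simp only [ofReal_zero, zero_mul, add_zero] at e hq' ⊢
      have : -exp (g σ) = 1 := by
        apply mul_right_cancel₀ hq'
        linear_combination -e
      rw [this]
      exact one_mem_slitPlane
    · rw [mem_slitPlane_iff]
      right
      intro h
      have h' : (exp (g (σ + t * v))).im = 0 := by simpa using h
      have := him t ht
      rw [h', zero_mul] at this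
      have h3 : 2 * t * (u * (starRingEnd ℂ) v).im = 0 := by linarith
      rcases mul_eq_zero.1 h3 with h4 | h4
      · exact h0 (by linarith)
      · exact huv h4
  have hgc : ContinuousOn (fun t : ℝ => g (σ + t * v)) (Icc (-1 : ℝ) 1) := by
    refine hg.comp (Continuous.continuousOn (by fun_prop)) hv
  have hB : g (σ + ((1 : ℝ) : ℂ) * v) - log (-exp (g (σ + ((1 : ℝ) : ℂ) * v))) - Real.pi * I =
      g (σ + ((-1 : ℝ) : ℂ) * v) - log (-exp (g (σ + ((-1 : ℝ) : ℂ) * v))) - Real.pi * I := by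
    refine const_of_exp (k := fun t : ℝ => g (σ + t * v) - log (-exp (g (σ + t * v))) - Real.pi * I)
      (isPreconnected_Icc (a := (-1 : ℝ)) (b := 1)) ?_ ?_ (by constructor <;> norm_num)
      (by constructor <;> norm_num)
    · exact (hgc.sub (ContinuousOn.clog hgc.cexp.neg hs')).sub continuousOn_const
    · intro t _
      rw [exp_sub, exp_sub, exp_log (neg_ne_zero.2 (exp_ne_zero _)), exp_pi_mul_I]
      field_simp [exp_ne_zero]
  have e1 : σ + ((1 : ℝ) : ℂ) * v = σ + v := by simp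
  have e2 : σ + ((-1 : ℝ) : ℂ) * v = σ - v := by push_cast; ring
  have i1 := him 1 (by constructor <;> norm_num)
  have i2 := him (-1) (by constructor <;> norm_num)
  have n1 := hne 1 (by constructor <;> norm_num)
  have n2 := hne (-1) (by constructor <;> norm_num)
  rw [e1, e2] at hB
  rw [e1] at i1
  rw [e2] at i2
  have hpi : (Real.pi : ℂ) * I ≠ 0 :=
    mul_ne_zero (by exact_mod_cast Real.pi_ne_zero) I_ne_zero
  rcases lt_or_gt_of_ne huv with hlt | hgt
  · have a1 : 0 < (exp (g (σ + v))).im := by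
      by_contra h
      nlinarith [mul_nonneg (neg_nonneg.2 (not_lt.1 h)) n1.le]
    have a2 : (exp (g (σ - v))).im < 0 := by
      by_contra h
      nlinarith [mul_nonneg (not_lt.1 h) n2.le]
    have b1 := log_sub_log_neg_pos a1
    have b2 := log_sub_log_neg_neg a2
    apply hpi
    linear_combination (1 / 2 : ℂ) * (hB - hA - b1 + b2)
  · have a1 : (exp (g (σ + v))).im < 0 := by
      by_contra h
      nlinarith [mul_nonneg (not_lt.1 h) n1.le]
    have a2 : 0 < (exp (g (σ - v))).im := by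
      by_contra h
      nlinarith [mul_nonneg (neg_nonneg.2 (not_lt.1 h)) n2.le]
    have b1 := log_sub_log_neg_neg a1
    have b2 := log_sub_log_neg_pos a2
    apply hpi
    linear_combination (1 / 2 : ℂ) * (hA - hB + b1 - b2)

/-- the complement of a compact sublevel set of a function without local maxima is connected. -/
theorem compl_preconnected {U : Set ℂ} (hUc : IsPreconnected Uᶜ)
    (hUb : ¬ Bornology.IsBounded Uᶜ) {E : ℂ → ℝ} (hE : ContinuousOn E U) {c : ℝ}
    (hK : IsCompact {z | z ∈ U ∧ E z ≤ c})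
    (hmax : ∀ z ∈ U, c < E z → ¬ IsLocalMax E z) :
    IsPreconnected {z | z ∈ U ∧ E z ≤ c}ᶜ := by
  set K := {z | z ∈ U ∧ E z ≤ c} with hKdef
  obtain ⟨R, hR⟩ := hK.isBounded.subset_ball (0 : ℂ)
  obtain ⟨x0, hx0U, hx0B⟩ : ∃ x0 ∈ Uᶜ, x0 ∈ (ball (0 : ℂ) R)ᶜ := by
    by_contra h
    push Not at h
    apply hUb
    refine (isBounded_ball (x := (0 : ℂ)) (r := R)).subset fun x hx => ?_
    simpa using h x hx
  have hX : IsPreconnected (Uᶜ ∪ (ball (0 : ℂ) R)ᶜ) :=
    hUc.union x0 hx0U hx0B isPreconnected_compl_ball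
  have hXK : Uᶜ ∪ (ball (0 : ℂ) R)ᶜ ⊆ Kᶜ := by
    rintro z (hz | hz) hzK
    · exact hz hzK.1
    · exact hz (hR hzK)
  have hx0X : x0 ∈ Uᶜ ∪ (ball (0 : ℂ) R)ᶜ := Or.inl hx0U
  refine isPreconnected_of_forall x0 fun p hp => ?_
  set W := connectedComponentIn Kᶜ p with hW
  have hWo : IsOpen W := hK.isClosed.isOpen_compl.connectedComponentIn
  have hWK : W ⊆ Kᶜ := connectedComponentIn_subset _ _
  have hpW : p ∈ W := mem_connectedComponentIn hp
  have hWc : IsPreconnected W := isPreconnected_connectedComponentIn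
  by_cases hd : ∃ y ∈ W, y ∈ Uᶜ ∪ (ball (0 : ℂ) R)ᶜ
  · obtain ⟨y, hyW, hyX⟩ := hd
    exact ⟨W ∪ (Uᶜ ∪ (ball (0 : ℂ) R)ᶜ), union_subset hWK hXK, Or.inr hx0X, Or.inl hpW,
      hWc.union y hyW hyX hX⟩
  exfalso
  push Not at hd
  have hWU : ∀ y ∈ W, y ∈ U ∧ y ∈ ball (0 : ℂ) R := by
    intro y hy
    have := hd y hy
    simp only [mem_union, mem_compl_iff, not_or, not_not] at this
    exact this
  have hcl : ∀ y ∈ closure W, y ∉ K → y ∈ W := by
    intro y hy hyK
    have h1 : IsPreconnected (insert y W) :=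
      hWc.subset_closure (subset_insert _ _) (insert_subset hy subset_closure)
    exact h1.subset_connectedComponentIn (mem_insert_of_mem _ hpW) (insert_subset hyK hWK)
      (mem_insert _ _)
  have hclU : closure W ⊆ U := by
    intro y hy
    by_cases hyK : y ∈ K
    · exact hyK.1
    · exact (hWU y (hcl y hy hyK)).1
  have hcomp : IsCompact (closure W) :=
    ((isBounded_ball (x := (0 : ℂ)) (r := R)).subset fun y hy => (hWU y hy).2).isCompact_closure
  obtain ⟨m, hm, hmax'⟩ := hcomp.exists_isMaxOn ⟨p, subset_closure hpW⟩ (hE.mono hclU)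
  have hpc : c < E p := by
    by_contra h
    exact hp ⟨(hWU p hpW).1, not_lt.1 h⟩
  have hmc : c < E m := lt_of_lt_of_le hpc (hmax' (subset_closure hpW))
  have hmW : m ∈ W := hcl m hm fun h => absurd h.2 (not_le.2 hmc)
  refine hmax m (hclU hm) hmc ?_
  exact hmax'.isLocalMax (mem_of_superset (hWo.mem_nhds hmW) subset_closure)

/-- every component of an open sublevel set contains a local minimum. -/
theorem exists_min {U : Set ℂ} (hU : IsOpen U) {E : ℂ → ℝ} (hE : ContinuousOn E U) {c : ℝ}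
    (hK : IsCompact {z | z ∈ U ∧ E z ≤ c}) {x : ℂ} (hxU : x ∈ U) (hx : E x < c) :
    ∃ m ∈ connectedComponentIn {z | z ∈ U ∧ E z < c} x, IsLocalMin E m ∧ E m ≤ E x := by
  set S := {z | z ∈ U ∧ E z < c} with hS
  have hSo : IsOpen S := hE.isOpen_inter_preimage hU isOpen_Iio
  set W := connectedComponentIn S x with hW
  have hWo : IsOpen W := hSo.connectedComponentIn
  have hWS : W ⊆ S := connectedComponentIn_subset _ _
  have hxW : x ∈ W := mem_connectedComponentIn (show x ∈ S from ⟨hxU, hx⟩)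
  have hWc : IsPreconnected W := isPreconnected_connectedComponentIn
  have hclK : closure W ⊆ {z | z ∈ U ∧ E z ≤ c} :=
    closure_minimal (fun z hz => ⟨(hWS hz).1, (hWS hz).2.le⟩) hK.isClosed
  have hcomp : IsCompact (closure W) := hK.of_isClosed_subset isClosed_closure hclK
  obtain ⟨m, hm, hmin⟩ := hcomp.exists_isMinOn ⟨x, subset_closure hxW⟩
    (hE.mono fun z hz => (hclK hz).1)
  have hmx : E m ≤ E x := hmin (subset_closure hxW)
  have hmc : E m < c := lt_of_le_of_lt hmx hx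
  have hmW : m ∈ W := by
    have h1 : IsPreconnected (insert m W) :=
      hWc.subset_closure (subset_insert _ _) (insert_subset hm subset_closure)
    exact h1.subset_connectedComponentIn (mem_insert_of_mem _ hxW)
      (insert_subset (show m ∈ S from ⟨(hclK hm).1, hmc⟩) hWS) (mem_insert _ _)
  exact ⟨m, hmW, hmin.isLocalMin (mem_of_superset (hWo.mem_nhds hmW) subset_closure), hmx⟩

/-- the combinatorial forest count. -/
theorem forest_count {α β : Type*} (T : Set α) (Q : Set β) (a b : α → β) (c : α → ℝ)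
    (h : ∀ σ ∈ T, ∃ C : Set β, C ⊆ Q ∧ ¬ (a σ ∈ C ↔ b σ ∈ C) ∧
      ∀ τ ∈ T, τ ≠ σ → c τ ≤ c σ → (a τ ∈ C ↔ b τ ∈ C)) :
    T.encard ≤ Q.encard := by
  classical
  by_cases hQ : Q.Finite
  swap
  · rw [Set.Infinite.encard_eq hQ]; exact le_top
  have := hQ.fintype
  let e : β → (Q → ℚ) := fun x y => if x = y then 1 else 0
  let w : T → (Q → ℚ) := fun σ => e (a σ) - e (b σ)
  have hli : LinearIndependent ℚ w := by
    rw [linearIndependent_iff']
    intro s g hg
    by_contra hne
    push Not at hne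
    obtain ⟨σ, hσ, hmax⟩ := (s.filter fun i => g i ≠ 0).exists_max_image (fun i => c i)
      (by obtain ⟨i, hi, hi'⟩ := hne; exact ⟨i, Finset.mem_filter.2 ⟨hi, hi'⟩⟩)
    obtain ⟨hσs, hσg⟩ := Finset.mem_filter.1 hσ
    obtain ⟨C, hCQ, hC1, hC2⟩ := h σ σ.2
    let ℓ : (Q → ℚ) →ₗ[ℚ] ℚ := ∑ y : Q, if (y : β) ∈ C then LinearMap.proj y else 0
    have hℓ : ∀ x, ℓ (e x) = if x ∈ C then 1 else 0 := by
      intro x
      simp only [ℓ, LinearMap.coe_sum, Finset.sum_apply]
      by_cases hx : x ∈ C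
      · rw [if_pos hx, Finset.sum_eq_single ⟨x, hCQ hx⟩]
        · simp [hx, e]
        · intro y _ hy
          have : x ≠ y := fun h => hy (Subtype.ext h.symm)
          split_ifs <;> simp [e, this]
        · simp
      · rw [if_neg hx]
        refine Finset.sum_eq_zero fun y _ => ?_
        split_ifs with hy
        · have : x ≠ y := fun h => hx (h ▸ hy)
          simp [e, this]
        · simp
    have h0 := congrArg ℓ hg
    rw [map_sum, map_zero, Finset.sum_eq_single σ] at h0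
    · simp only [w, map_smul, map_sub, hℓ, smul_eq_mul] at h0
      rcases mul_eq_zero.1 h0 with h1 | h1
      · exact hσg h1
      · by_cases h2 : a σ ∈ C <;> by_cases h3 : b σ ∈ C <;> simp_all
    · intro τ hτ hτσ
      by_cases hg0 : g τ = 0
      · simp [hg0]
      · have := hC2 τ τ.2 (fun h => hτσ (Subtype.ext h)) (hmax τ (Finset.mem_filter.2 ⟨hτ, hg0⟩))
        simp only [w, map_smul, map_sub, hℓ, smul_eq_mul]
        by_cases h2 : a τ ∈ C
        · simp [h2, this.1 h2]
        · have h3 : b τ ∉ C := fun h => h2 (this.2 h)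
          simp [h2, h3]
    · intro h; exact absurd hσs h
  have hfin : Finite T := hli.finite
  have := Fintype.ofFinite T
  have hcard := hli.fintype_card_le_finrank
  rw [Module.finrank_fintype_fun_eq_card] at hcard
  rw [Set.encard_eq_coe_toFinset_card, Set.encard_eq_coe_toFinset_card, Set.toFinset_card,
    Set.toFinset_card]
  exact_mod_cast hcard

/-- **Morse count, quantitative form.**  `T`: saddles below `lam`, with descending segment
`σ + [-1,1] v σ` and ascending segment `σ + [-1,1] u σ`; `V` contains every local minimum `m` with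
`E m ≤ E (σ ± v σ)` for some saddle; the points of `P` lie in pairwise different components of
`{E < lam}`.  Then `#T ≤ #(V \ P)`. -/
theorem saddles_le_seg {U : Set ℂ} (hU : IsOpen U) (hUc : IsPreconnected Uᶜ)
    (hUb : ¬ Bornology.IsBounded Uᶜ) {E : ℂ → ℝ} (hE : ContinuousOn E U) {lam : ℝ}
    {T V P : Set ℂ} (u v : ℂ → ℂ)
    (hK : ∀ σ ∈ T, IsCompact {z | z ∈ U ∧ E z ≤ E σ})
    (hmax : ∀ σ ∈ T, ∀ z ∈ U, E σ < E z → ¬ IsLocalMax E z)
    (hT : ∀ σ ∈ T, E σ < lam)
    (huv : ∀ σ ∈ T, (u σ * (starRingEnd ℂ) (v σ)).im ≠ 0)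
    (hseg : ∀ σ ∈ T, ∀ t : ℝ, t ∈ Icc (-1 : ℝ) 1 → σ + t * v σ ∈ U ∧ (t ≠ 0 →
        E (σ + t * v σ) < E σ ∧ E σ < E (σ + t * u σ)))
    (hV : ∀ σ ∈ T, ∀ m ∈ U, E m ≤ max (E (σ + v σ)) (E (σ - v σ)) → IsLocalMin E m → m ∈ V)
    (hP : ∀ x ∈ P, ∀ y ∈ P, y ∈ connectedComponentIn {z | z ∈ U ∧ E z < lam} x → x = y) :
    T.encard ≤ (V \ P).encard := by
  classical
  have hTU : ∀ σ ∈ T, σ ∈ U := fun σ hσ => by
    simpa using (hseg σ hσ 0 (by constructor <;> norm_num)).1
  have one_mem : (1 : ℝ) ∈ Icc (-1 : ℝ) 1 := by constructor <;> norm_num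
  have neg_mem : (-1 : ℝ) ∈ Icc (-1 : ℝ) 1 := by constructor <;> norm_num
  have hp : ∀ σ ∈ T, σ + v σ ∈ U ∧ E (σ + v σ) < E σ := by
    intro σ hσ
    have := hseg σ hσ 1 one_mem
    simp only [ofReal_one, one_mul] at this
    exact ⟨this.1, (this.2 one_ne_zero).1⟩
  have hm : ∀ σ ∈ T, σ - v σ ∈ U ∧ E (σ - v σ) < E σ := by
    intro σ hσ
    have := hseg σ hσ (-1) neg_mem
    have e : σ + ((-1 : ℝ) : ℂ) * v σ = σ - v σ := by push_cast; ring
    rw [e] at this
    exact ⟨this.1, (this.2 (by norm_num)).1⟩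
  have ha : ∀ σ ∈ T, ∃ m ∈ connectedComponentIn {z | z ∈ U ∧ E z < E σ} (σ + v σ),
      IsLocalMin E m ∧ E m ≤ E (σ + v σ) := fun σ hσ =>
    exists_min hU hE (hK σ hσ) (hp σ hσ).1 (hp σ hσ).2
  have hb : ∀ σ ∈ T, ∃ m ∈ connectedComponentIn {z | z ∈ U ∧ E z < E σ} (σ - v σ),
      IsLocalMin E m ∧ E m ≤ E (σ - v σ) := fun σ hσ =>
    exists_min hU hE (hK σ hσ) (hm σ hσ).1 (hm σ hσ).2
  choose! a haC hamin hale using ha
  choose! b hbC hbmin hble using hb
  have haS : ∀ σ ∈ T, a σ ∈ U ∧ E (a σ) < E σ := fun σ hσ =>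
    connectedComponentIn_subset {z | z ∈ U ∧ E z < E σ} _ (haC σ hσ)
  have hbS : ∀ σ ∈ T, b σ ∈ U ∧ E (b σ) < E σ := fun σ hσ =>
    connectedComponentIn_subset {z | z ∈ U ∧ E z < E σ} _ (hbC σ hσ)
  have haV : ∀ σ ∈ T, a σ ∈ V := fun σ hσ =>
    hV σ hσ _ (haS σ hσ).1 ((hale σ hσ).trans (le_max_left _ _)) (hamin σ hσ)
  have hbV : ∀ σ ∈ T, b σ ∈ V := fun σ hσ =>
    hV σ hσ _ (hbS σ hσ).1 ((hble σ hσ).trans (le_max_right _ _)) (hbmin σ hσ)
  -- the bridge through a saddle
  have hbridge : ∀ σ ∈ T, ∃ B : Set ℂ, IsPreconnected B ∧ a σ ∈ B ∧ b σ ∈ B ∧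
      ∀ z ∈ B, z = σ ∨ (z ∈ U ∧ E z < E σ) := by
    intro σ hσ
    let Sg : Set ℂ := (fun t : ℝ => σ + t * v σ) '' Icc (-1 : ℝ) 1
    have hSg : IsPreconnected Sg :=
      isPreconnected_Icc.image _ (Continuous.continuousOn (by fun_prop))
    have h1 : σ + v σ ∈ Sg := ⟨1, one_mem, by simp⟩
    have h2 : σ - v σ ∈ Sg := ⟨-1, neg_mem, by push_cast; ring⟩
    refine ⟨(connectedComponentIn {z | z ∈ U ∧ E z < E σ} (σ + v σ) ∪ Sg) ∪
      connectedComponentIn {z | z ∈ U ∧ E z < E σ} (σ - v σ), ?_, Or.inl (Or.inl (haC σ hσ)),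
      Or.inr (hbC σ hσ), ?_⟩
    · refine IsPreconnected.union (σ - v σ) (Or.inr h2) (mem_connectedComponentIn (hm σ hσ))
        ?_ isPreconnected_connectedComponentIn
      exact IsPreconnected.union (σ + v σ) (mem_connectedComponentIn (hp σ hσ)) h1
        isPreconnected_connectedComponentIn hSg
    · rintro z ((hz | ⟨t, ht, rfl⟩) | hz)
      · exact Or.inr (connectedComponentIn_subset {z | z ∈ U ∧ E z < E σ} _ hz)
      · by_cases h0 : t = 0
        · left; simp [h0]
        · exact Or.inr ⟨(hseg σ hσ t ht).1, ((hseg σ hσ t ht).2 h0).1⟩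
      · exact Or.inr (connectedComponentIn_subset {z | z ∈ U ∧ E z < E σ} _ hz)
  refine forest_count T (V \ P) a b E fun σ hσ => ?_
  set K := {z | z ∈ U ∧ E z ≤ E σ} with hKdef
  have hKc : IsCompact K := hK σ hσ
  have hσU := hTU σ hσ
  have hcompl : IsPreconnected Kᶜ := compl_preconnected hUc hUb hE hKc (hmax σ hσ)
  have huK : ∀ t : ℝ, t ∈ Icc (-1 : ℝ) 1 → t ≠ 0 → σ + t * u σ ∉ K := fun t ht h0 hz =>
    absurd hz.2 (not_le.2 ((hseg σ hσ t ht).2 h0).2)
  have hvK : ∀ t : ℝ, t ∈ Icc (-1 : ℝ) 1 → σ + t * v σ ∈ K := by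
    intro t ht
    refine ⟨(hseg σ hσ t ht).1, ?_⟩
    by_cases h0 : t = 0
    · simp [h0]
    · exact ((hseg σ hσ t ht).2 h0).1.le
  obtain ⟨g, hg, hge⟩ := exists_log hKc.isClosed hcompl (fun x hx => hx) (p := σ + u σ)
    (q := σ - u σ) (by simpa using huK 1 one_mem one_ne_zero)
    (by
      have := huK (-1) neg_mem (by norm_num)
      have e : σ + ((-1 : ℝ) : ℂ) * u σ = σ - u σ := by push_cast; ring
      rwa [e] at this)
  set Z := K \ {σ} with hZ
  have hSZ : {z | z ∈ U ∧ E z < E σ} ⊆ Z := fun z hz =>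
    ⟨⟨hz.1, hz.2.le⟩, fun h => absurd hz.2 (by rw [mem_singleton_iff.1 h]; exact lt_irrefl _)⟩
  have haZ : a σ ∈ Z := hSZ (haS σ hσ)
  have hbZ : b σ ∈ Z := hSZ (hbS σ hσ)
  -- `a σ` and `b σ` lie in different components of `Z`
  have hsep : b σ ∉ connectedComponentIn Z (a σ) := by
    intro h
    have e1 : σ + v σ ∈ connectedComponentIn Z (a σ) :=
      (isPreconnected_connectedComponentIn (x := σ + v σ) (F := {z | z ∈ U ∧ E z < E σ})
        ).subset_connectedComponentIn (haC σ hσ)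
        ((connectedComponentIn_subset _ _).trans hSZ) (mem_connectedComponentIn (hp σ hσ))
    have e2 : σ - v σ ∈ connectedComponentIn Z (b σ) :=
      (isPreconnected_connectedComponentIn (x := σ - v σ) (F := {z | z ∈ U ∧ E z < E σ})
        ).subset_connectedComponentIn (hbC σ hσ)
        ((connectedComponentIn_subset _ _).trans hSZ) (mem_connectedComponentIn (hm σ hσ))
    rw [← connectedComponentIn_eq h] at e2
    exact not_joined (huv σ hσ) hvK huK hg hge isPreconnected_connectedComponentIn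
      ((connectedComponentIn_subset Z (a σ)).trans fun z hz => hz.1)
      (fun h => (connectedComponentIn_subset Z (a σ) h).2 rfl) e1 e2
  have hsep' : a σ ∉ connectedComponentIn Z (b σ) := by
    intro h
    apply hsep
    rw [← connectedComponentIn_eq h]
    exact mem_connectedComponentIn hbZ
  -- components of `Z` do not separate the ends of a lower saddle
  have hlow : ∀ x : ℂ, ∀ τ ∈ T, τ ≠ σ → E τ ≤ E σ →
      (a τ ∈ connectedComponentIn Z x ∩ V ↔ b τ ∈ connectedComponentIn Z x ∩ V) := by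
    intro x τ hτ hτσ hle
    obtain ⟨B, hB, haB, hbB, hBs⟩ := hbridge τ hτ
    have hBZ : B ⊆ Z := by
      intro z hz
      rcases hBs z hz with rfl | hz'
      · exact ⟨⟨hTU z hτ, hle⟩, hτσ⟩
      · exact hSZ ⟨hz'.1, hz'.2.trans_le hle⟩
    constructor
    · rintro ⟨h, -⟩
      refine ⟨?_, hbV τ hτ⟩
      rw [connectedComponentIn_eq h]
      exact hB.subset_connectedComponentIn haB hBZ hbB
    · rintro ⟨h, -⟩
      refine ⟨?_, haV τ hτ⟩
      rw [connectedComponentIn_eq h]
      exact hB.subset_connectedComponentIn hbB hBZ haB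
  -- at most one of the two components meets `P`
  have hZS : Z ⊆ {z | z ∈ U ∧ E z < lam} := fun z hz =>
    ⟨hz.1.1, lt_of_le_of_lt hz.1.2 (hT σ hσ)⟩
  have hone : ∀ x ∈ P, ∀ y ∈ P, x ∈ connectedComponentIn Z (a σ) →
      y ∈ connectedComponentIn Z (b σ) → False := by
    intro x hx y hy hxa hyb
    obtain ⟨B, hB, haB, hbB, hBs⟩ := hbridge σ hσ
    have hBS : B ⊆ {z | z ∈ U ∧ E z < lam} := by
      intro z hz
      rcases hBs z hz with rfl | hz'
      · exact ⟨hσU, hT z hσ⟩
      · exact ⟨hz'.1, hz'.2.trans (hT σ hσ)⟩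
    have hbig : IsPreconnected ((connectedComponentIn Z (a σ) ∪ B) ∪
        connectedComponentIn Z (b σ)) :=
      IsPreconnected.union (b σ) (Or.inr hbB) (mem_connectedComponentIn hbZ)
        (IsPreconnected.union (a σ) (mem_connectedComponentIn haZ) haB
          isPreconnected_connectedComponentIn hB) isPreconnected_connectedComponentIn
    have hxy : x = y := hP x hx y hy (hbig.subset_connectedComponentIn (Or.inl (Or.inl hxa))
      (union_subset (union_subset ((connectedComponentIn_subset _ _).trans hZS) hBS)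
        ((connectedComponentIn_subset _ _).trans hZS)) (Or.inr hyb))
    subst hxy
    apply hsep
    rw [connectedComponentIn_eq hxa, ← connectedComponentIn_eq hyb]
    exact mem_connectedComponentIn hbZ
  by_cases hPa : ∃ x ∈ P, x ∈ connectedComponentIn Z (a σ)
  · obtain ⟨x, hx, hxa⟩ := hPa
    refine ⟨connectedComponentIn Z (b σ) ∩ V, fun y hy => ⟨hy.2, fun hyP =>
      hone x hx y hyP hxa hy.1⟩, fun h => ?_, hlow _⟩
    exact hsep' (h.2 ⟨mem_connectedComponentIn hbZ, hbV σ hσ⟩).1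
  · refine ⟨connectedComponentIn Z (a σ) ∩ V, fun y hy => ⟨hy.2, fun hyP =>
      hPa ⟨y, hyP, hy.1⟩⟩, fun h => ?_, hlow _⟩
    exact hsep (h.1 ⟨mem_connectedComponentIn haZ, haV σ hσ⟩).1

/-- **Morse count.**  `T`: saddles below `lam`; `V` contains all local minima below `lam`; the
points of `P` lie in pairwise different components of `{E < lam}`.  Then `#T ≤ #(V \ P)`. -/
theorem saddles_le {U : Set ℂ} (hU : IsOpen U) (hUc : IsPreconnected Uᶜ)
    (hUb : ¬ Bornology.IsBounded Uᶜ) {E : ℂ → ℝ} (hE : ContinuousOn E U) {lam : ℝ}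
    (hK : ∀ c < lam, IsCompact {z | z ∈ U ∧ E z ≤ c})
    {T V P : Set ℂ}
    (hmax : ∀ σ ∈ T, ∀ z ∈ U, E σ < E z → ¬ IsLocalMax E z)
    (hT : ∀ σ ∈ T, σ ∈ U ∧ E σ < lam ∧ ∃ u v : ℂ, (u * (starRingEnd ℂ) v).im ≠ 0 ∧
      ∀ᶠ t : ℝ in 𝓝[≠] 0, E (σ + t * v) < E σ ∧ E σ < E (σ + t * u))
    (hV : ∀ m ∈ U, E m < lam → IsLocalMin E m → m ∈ V)
    (hP : ∀ x ∈ P, ∀ y ∈ P, y ∈ connectedComponentIn {z | z ∈ U ∧ E z < lam} x → x = y) :
    T.encard ≤ (V \ P).encard := by
  classical
  -- normalise the saddle data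
  have hT' : ∀ σ ∈ T, ∃ u v : ℂ, (u * (starRingEnd ℂ) v).im ≠ 0 ∧
      ∀ t : ℝ, t ∈ Icc (-1 : ℝ) 1 → σ + t * v ∈ U ∧ (t ≠ 0 →
        E (σ + t * v) < E σ ∧ E σ < E (σ + t * u)) := by
    intro σ hσ
    obtain ⟨hσU, -, u, v, huv, hev⟩ := hT σ hσ
    have h1 : ∀ᶠ t : ℝ in 𝓝 0, σ + t * v ∈ U := by
      have hc : Continuous fun t : ℝ => σ + t * v := by fun_prop
      exact hc.continuousAt.preimage_mem_nhds (hU.mem_nhds (by simpa using hσU))
    rw [eventually_nhdsWithin_iff] at hev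
    obtain ⟨ε, hε, hb⟩ := Metric.eventually_nhds_iff.1 (h1.and hev)
    refine ⟨(ε / 2 : ℝ) * u, (ε / 2 : ℝ) * v, ?_, fun t ht => ?_⟩
    · have : (((ε / 2 : ℝ) : ℂ) * u * (starRingEnd ℂ) (((ε / 2 : ℝ) : ℂ) * v)).im =
          (ε / 2) ^ 2 * (u * (starRingEnd ℂ) v).im := by
        simp only [mul_im, mul_re, ofReal_re, ofReal_im, conj_re, conj_im]
        ring
      rw [this]
      exact mul_ne_zero (by positivity) huv
    · have hd : dist (t * (ε / 2)) 0 < ε := by
        rw [Real.dist_eq, sub_zero, abs_mul, abs_of_pos (half_pos hε)]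
        have : |t| ≤ 1 := abs_le.2 ht
        nlinarith
      obtain ⟨h2, h3⟩ := hb hd
      have e1 : ∀ x : ℂ, (t : ℂ) * (((ε / 2 : ℝ) : ℂ) * x) = ((t * (ε / 2) : ℝ) : ℂ) * x := by
        intro x; push_cast; ring
      rw [e1, e1]
      exact ⟨h2, fun h0 => h3 (mul_ne_zero h0 (half_pos hε).ne')⟩
  choose! u v huv hseg using hT'
  refine saddles_le_seg hU hUc hUb hE u v (fun σ hσ => hK _ (hT σ hσ).2.1) hmax
    (fun σ hσ => (hT σ hσ).2.1) huv hseg (fun σ hσ m hm hle hmin => hV m hm ?_ hmin) hP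
  have h1 := ((hseg σ hσ 1 (by constructor <;> norm_num)).2 one_ne_zero).1
  have h2 := ((hseg σ hσ (-1) (by constructor <;> norm_num)).2 (by norm_num)).1
  have e1 : σ + ((1 : ℝ) : ℂ) * v σ = σ + v σ := by simp
  have e2 : σ + ((-1 : ℝ) : ℂ) * v σ = σ - v σ := by push_cast; ring
  rw [e1] at h1
  rw [e2] at h2
  exact lt_of_le_of_lt hle ((max_lt h1 h2).trans (hT σ hσ).2.1)

end Crest.Agent.R131.Morse92
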