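import Crest.Agent.R131.Morse92

/-! Row 131: the elder rule (injection of saddles into minima), from the forest count and Hall's
theorem. -/

set_option autoImplicit false

open Set Filter Topology Metric Complex

namespace Crest.Agent.R131.Morse92

/-- the forest count as an injection (Hall's marriage theorem). -/
theorem forest_inj {α β : Type*} [Nonempty β] (T : Set α) (Q : Set β) (a b : α → β) (c : α → ℝ)
    (h : ∀ σ ∈ T, ∃ C : Set β, C ⊆ Q ∧ ¬ (a σ ∈ C ↔ b σ ∈ C) ∧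
      ∀ τ ∈ T, τ ≠ σ → c τ ≤ c σ → (a τ ∈ C ↔ b τ ∈ C)) :
    ∃ io : α → β, InjOn io T ∧ ∀ σ ∈ T, (io σ = a σ ∨ io σ = b σ) ∧ io σ ∈ Q := by
  classical
  let t : T → Finset β := fun σ => ({a σ, b σ} : Finset β).filter (· ∈ Q)
  have hall : ∀ s : Finset T, s.card ≤ (s.biUnion t).card := by
    intro s
    have key := forest_count (α := T) (s : Set T) ((s.biUnion t : Finset β) : Set β)
      (fun σ => a σ) (fun σ => b σ) (fun σ => c σ) (by
        intro σ hσ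
        obtain ⟨C, hCQ, hC1, hC2⟩ := h σ σ.2
        have hin : ∀ τ ∈ s, ∀ x, (x = a τ ∨ x = b τ) →
            (x ∈ C ∩ ((s.biUnion t : Finset β) : Set β) ↔ x ∈ C) := by
          intro τ hτ x hx
          refine ⟨fun h => h.1, fun h => ⟨h, ?_⟩⟩
          simp only [Finset.coe_biUnion, mem_iUnion, Finset.mem_coe]
          refine ⟨τ, hτ, Finset.mem_filter.2 ⟨?_, hCQ h⟩⟩
          simpa using hx
        refine ⟨C ∩ ((s.biUnion t : Finset β) : Set β), inter_subset_right, ?_, ?_⟩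
        · rw [hin σ hσ _ (Or.inl rfl), hin σ hσ _ (Or.inr rfl)]
          exact hC1
        · intro τ hτ hne hle
          rw [hin τ hτ _ (Or.inl rfl), hin τ hτ _ (Or.inr rfl)]
          exact hC2 τ τ.2 (fun h => hne (Subtype.ext h)) hle)
    rw [encard_coe_eq_coe_finsetCard, encard_coe_eq_coe_finsetCard] at key
    exact_mod_cast key
  obtain ⟨f, hf, hft⟩ := (Finset.all_card_le_biUnion_card_iff_exists_injective t).1 hall
  refine ⟨fun x => if hx : x ∈ T then f ⟨x, hx⟩ else Classical.arbitrary β, ?_, ?_⟩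
  · intro x hx y hy hxy
    simp only [dif_pos hx, dif_pos hy] at hxy
    exact congrArg Subtype.val (hf hxy)
  · intro σ hσ
    simp only [dif_pos hσ]
    have := Finset.mem_filter.1 (hft ⟨σ, hσ⟩)
    exact ⟨by simpa using this.1, this.2⟩

/-- **Elder rule**, segment form. -/
theorem elder_seg {U : Set ℂ} (hU : IsOpen U) (hUc : IsPreconnected Uᶜ)
    (hUb : ¬ Bornology.IsBounded Uᶜ) {E : ℂ → ℝ} (hE : ContinuousOn E U) {lam : ℝ}
    {T P : Set ℂ} (u v : ℂ → ℂ)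
    (hK : ∀ σ ∈ T, IsCompact {z | z ∈ U ∧ E z ≤ E σ})
    (hmax : ∀ σ ∈ T, ∀ z ∈ U, E σ < E z → ¬ IsLocalMax E z)
    (hT : ∀ σ ∈ T, E σ < lam)
    (huv : ∀ σ ∈ T, (u σ * (starRingEnd ℂ) (v σ)).im ≠ 0)
    (hseg : ∀ σ ∈ T, ∀ t : ℝ, t ∈ Icc (-1 : ℝ) 1 → σ + t * v σ ∈ U ∧ (t ≠ 0 →
        E (σ + t * v σ) < E σ ∧ E σ < E (σ + t * u σ)))
    (hP : ∀ x ∈ P, ∀ y ∈ P, y ∈ connectedComponentIn {z | z ∈ U ∧ E z < lam} x → x = y) :
    ∃ io : ℂ → ℂ, InjOn io T ∧ ∀ σ ∈ T, io σ ∈ U ∧ IsLocalMin E (io σ) ∧ io σ ∉ P ∧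
      E (io σ) < E σ ∧ E (io σ) ≤ max (E (σ + v σ)) (E (σ - v σ)) ∧
      JoinedIn {z | z ∈ U ∧ E z ≤ E σ} σ (io σ) := by
  classical
  have hTU : ∀ σ ∈ T, σ ∈ U := fun σ hσ => by
    simpa using (hseg σ hσ 0 (by constructor <;> norm_num)).1
  have one_mem : (1 : ℝ) ∈ Icc (-1 : ℝ) 1 := by constructor <;> norm_num
  have neg_mem : (-1 : ℝ) ∈ Icc (-1 : ℝ) 1 := by constructor <;> norm_num
  have hp : ∀ σ ∈ T, σ + v σ ∈ U ∧ E (σ + v σ) < E σ := by
    intro σ hσ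
    have := hseg σ hσ 1 one_mem
    simp only [ofReal_one, one_mul] at this
    exact ⟨this.1, (this.2 one_ne_zero).1⟩
  have hm : ∀ σ ∈ T, σ - v σ ∈ U ∧ E (σ - v σ) < E σ := by
    intro σ hσ
    have := hseg σ hσ (-1) neg_mem
    have e : σ + ((-1 : ℝ) : ℂ) * v σ = σ - v σ := by push_cast; ring
    rw [e] at this
    exact ⟨this.1, (this.2 (by norm_num)).1⟩
  have ha : ∀ σ ∈ T, ∃ m ∈ connectedComponentIn {z | z ∈ U ∧ E z < E σ} (σ + v σ),
      IsLocalMin E m ∧ E m ≤ E (σ + v σ) := fun σ hσ =>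
    exists_min hU hE (hK σ hσ) (hp σ hσ).1 (hp σ hσ).2
  have hb : ∀ σ ∈ T, ∃ m ∈ connectedComponentIn {z | z ∈ U ∧ E z < E σ} (σ - v σ),
      IsLocalMin E m ∧ E m ≤ E (σ - v σ) := fun σ hσ =>
    exists_min hU hE (hK σ hσ) (hm σ hσ).1 (hm σ hσ).2
  choose! a haC hamin hale using ha
  choose! b hbC hbmin hble using hb
  have haS : ∀ σ ∈ T, a σ ∈ U ∧ E (a σ) < E σ := fun σ hσ =>
    connectedComponentIn_subset {z | z ∈ U ∧ E z < E σ} _ (haC σ hσ)
  have hbS : ∀ σ ∈ T, b σ ∈ U ∧ E (b σ) < E σ := fun σ hσ =>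
    connectedComponentIn_subset {z | z ∈ U ∧ E z < E σ} _ (hbC σ hσ)
  set V : Set ℂ := univ with hVdef
  have haV : ∀ σ ∈ T, a σ ∈ V := fun σ hσ => mem_univ _
  have hbV : ∀ σ ∈ T, b σ ∈ V := fun σ hσ => mem_univ _
  have hjoin : ∀ σ ∈ T, ∀ (s : ℝ), s ∈ Icc (-1 : ℝ) 1 → s ≠ 0 →
      ∀ m ∈ connectedComponentIn {z | z ∈ U ∧ E z < E σ} (σ + s * v σ),
      JoinedIn {z | z ∈ U ∧ E z ≤ E σ} σ m := by
    intro σ hσ s hs hs0 m hmC
    have hSo : IsOpen {z | z ∈ U ∧ E z < E σ} := hE.isOpen_inter_preimage hU isOpen_Iio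
    have hx : σ + s * v σ ∈ {z | z ∈ U ∧ E z < E σ} :=
      ⟨(hseg σ hσ s hs).1, ((hseg σ hσ s hs).2 hs0).1⟩
    have hpc : IsPathConnected (connectedComponentIn {z | z ∈ U ∧ E z < E σ} (σ + s * v σ)) :=
      hSo.connectedComponentIn.isConnected_iff_isPathConnected.1
        (isConnected_connectedComponentIn_iff.2 hx)
    have j2 : JoinedIn {z | z ∈ U ∧ E z ≤ E σ} (σ + s * v σ) m :=
      (hpc.joinedIn _ (mem_connectedComponentIn hx) _ hmC).mono fun z hz =>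
        have := connectedComponentIn_subset {z | z ∈ U ∧ E z < E σ} _ hz
        ⟨this.1, this.2.le⟩
    have hpi : IsPathConnected ((fun t : ℝ => σ + t * v σ) '' Icc (-1 : ℝ) 1) :=
      ((convex_Icc (-1 : ℝ) 1).isPathConnected ⟨1, one_mem⟩).image (by fun_prop)
    have j1 : JoinedIn {z | z ∈ U ∧ E z ≤ E σ} σ (σ + s * v σ) := by
      refine (hpi.joinedIn σ ⟨0, by constructor <;> norm_num, by simp⟩ _ ⟨s, hs, rfl⟩).mono ?_
      rintro z ⟨t, ht, rfl⟩
      refine ⟨(hseg σ hσ t ht).1, ?_⟩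
      by_cases h0 : t = 0
      · simp [h0]
      · exact ((hseg σ hσ t ht).2 h0).1.le
    exact j1.trans j2
  suffices H : ∃ io : ℂ → ℂ, InjOn io T ∧ ∀ σ ∈ T, (io σ = a σ ∨ io σ = b σ) ∧ io σ ∈ V \ P by
    obtain ⟨io, hinj, hio⟩ := H
    refine ⟨io, hinj, fun σ hσ => ?_⟩
    obtain ⟨h1, h2⟩ := hio σ hσ
    have e1 : σ + ((1 : ℝ) : ℂ) * v σ = σ + v σ := by simp
    have e2 : σ + ((-1 : ℝ) : ℂ) * v σ = σ - v σ := by push_cast; ring
    rcases h1 with h1 | h1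
    · rw [h1] at h2 ⊢
      exact ⟨(haS σ hσ).1, hamin σ hσ, h2.2, (haS σ hσ).2,
        (hale σ hσ).trans (le_max_left _ _),
        hjoin σ hσ 1 one_mem one_ne_zero _ (by rw [e1]; exact haC σ hσ)⟩
    · rw [h1] at h2 ⊢
      exact ⟨(hbS σ hσ).1, hbmin σ hσ, h2.2, (hbS σ hσ).2,
        (hble σ hσ).trans (le_max_right _ _),
        hjoin σ hσ (-1) neg_mem (by norm_num) _ (by rw [e2]; exact hbC σ hσ)⟩
  -- the bridge through a saddle
  have hbridge : ∀ σ ∈ T, ∃ B : Set ℂ, IsPreconnected B ∧ a σ ∈ B ∧ b σ ∈ B ∧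
      ∀ z ∈ B, z = σ ∨ (z ∈ U ∧ E z < E σ) := by
    intro σ hσ
    let Sg : Set ℂ := (fun t : ℝ => σ + t * v σ) '' Icc (-1 : ℝ) 1
    have hSg : IsPreconnected Sg :=
      isPreconnected_Icc.image _ (Continuous.continuousOn (by fun_prop))
    have h1 : σ + v σ ∈ Sg := ⟨1, one_mem, by simp⟩
    have h2 : σ - v σ ∈ Sg := ⟨-1, neg_mem, by push_cast; ring⟩
    refine ⟨(connectedComponentIn {z | z ∈ U ∧ E z < E σ} (σ + v σ) ∪ Sg) ∪
      connectedComponentIn {z | z ∈ U ∧ E z < E σ} (σ - v σ), ?_, Or.inl (Or.inl (haC σ hσ)),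
      Or.inr (hbC σ hσ), ?_⟩
    · refine IsPreconnected.union (σ - v σ) (Or.inr h2) (mem_connectedComponentIn (hm σ hσ))
        ?_ isPreconnected_connectedComponentIn
      exact IsPreconnected.union (σ + v σ) (mem_connectedComponentIn (hp σ hσ)) h1
        isPreconnected_connectedComponentIn hSg
    · rintro z ((hz | ⟨t, ht, rfl⟩) | hz)
      · exact Or.inr (connectedComponentIn_subset {z | z ∈ U ∧ E z < E σ} _ hz)
      · by_cases h0 : t = 0
        · left; simp [h0]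
        · exact Or.inr ⟨(hseg σ hσ t ht).1, ((hseg σ hσ t ht).2 h0).1⟩
      · exact Or.inr (connectedComponentIn_subset {z | z ∈ U ∧ E z < E σ} _ hz)
  refine forest_inj T (V \ P) a b E fun σ hσ => ?_
  set K := {z | z ∈ U ∧ E z ≤ E σ} with hKdef
  have hKc : IsCompact K := hK σ hσ
  have hσU := hTU σ hσ
  have hcompl : IsPreconnected Kᶜ := compl_preconnected hUc hUb hE hKc (hmax σ hσ)
  have huK : ∀ t : ℝ, t ∈ Icc (-1 : ℝ) 1 → t ≠ 0 → σ + t * u σ ∉ K := fun t ht h0 hz =>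
    absurd hz.2 (not_le.2 ((hseg σ hσ t ht).2 h0).2)
  have hvK : ∀ t : ℝ, t ∈ Icc (-1 : ℝ) 1 → σ + t * v σ ∈ K := by
    intro t ht
    refine ⟨(hseg σ hσ t ht).1, ?_⟩
    by_cases h0 : t = 0
    · simp [h0]
    · exact ((hseg σ hσ t ht).2 h0).1.le
  obtain ⟨g, hg, hge⟩ := exists_log hKc.isClosed hcompl (fun x hx => hx) (p := σ + u σ)
    (q := σ - u σ) (by simpa using huK 1 one_mem one_ne_zero)
    (by
      have := huK (-1) neg_mem (by norm_num)
      have e : σ + ((-1 : ℝ) : ℂ) * u σ = σ - u σ := by push_cast; ring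
      rwa [e] at this)
  set Z := K \ {σ} with hZ
  have hSZ : {z | z ∈ U ∧ E z < E σ} ⊆ Z := fun z hz =>
    ⟨⟨hz.1, hz.2.le⟩, fun h => absurd hz.2 (by rw [mem_singleton_iff.1 h]; exact lt_irrefl _)⟩
  have haZ : a σ ∈ Z := hSZ (haS σ hσ)
  have hbZ : b σ ∈ Z := hSZ (hbS σ hσ)
  -- `a σ` and `b σ` lie in different components of `Z`
  have hsep : b σ ∉ connectedComponentIn Z (a σ) := by
    intro h
    have e1 : σ + v σ ∈ connectedComponentIn Z (a σ) :=
      (isPreconnected_connectedComponentIn (x := σ + v σ) (F := {z | z ∈ U ∧ E z < E σ})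
        ).subset_connectedComponentIn (haC σ hσ)
        ((connectedComponentIn_subset _ _).trans hSZ) (mem_connectedComponentIn (hp σ hσ))
    have e2 : σ - v σ ∈ connectedComponentIn Z (b σ) :=
      (isPreconnected_connectedComponentIn (x := σ - v σ) (F := {z | z ∈ U ∧ E z < E σ})
        ).subset_connectedComponentIn (hbC σ hσ)
        ((connectedComponentIn_subset _ _).trans hSZ) (mem_connectedComponentIn (hm σ hσ))
    rw [← connectedComponentIn_eq h] at e2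
    exact not_joined (huv σ hσ) hvK huK hg hge isPreconnected_connectedComponentIn
      ((connectedComponentIn_subset Z (a σ)).trans fun z hz => hz.1)
      (fun h => (connectedComponentIn_subset Z (a σ) h).2 rfl) e1 e2
  have hsep' : a σ ∉ connectedComponentIn Z (b σ) := by
    intro h
    apply hsep
    rw [← connectedComponentIn_eq h]
    exact mem_connectedComponentIn hbZ
  -- components of `Z` do not separate the ends of a lower saddle
  have hlow : ∀ x : ℂ, ∀ τ ∈ T, τ ≠ σ → E τ ≤ E σ →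
      (a τ ∈ connectedComponentIn Z x ∩ V ↔ b τ ∈ connectedComponentIn Z x ∩ V) := by
    intro x τ hτ hτσ hle
    obtain ⟨B, hB, haB, hbB, hBs⟩ := hbridge τ hτ
    have hBZ : B ⊆ Z := by
      intro z hz
      rcases hBs z hz with rfl | hz'
      · exact ⟨⟨hTU z hτ, hle⟩, hτσ⟩
      · exact hSZ ⟨hz'.1, hz'.2.trans_le hle⟩
    constructor
    · rintro ⟨h, -⟩
      refine ⟨?_, hbV τ hτ⟩
      rw [connectedComponentIn_eq h]
      exact hB.subset_connectedComponentIn haB hBZ hbB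
    · rintro ⟨h, -⟩
      refine ⟨?_, haV τ hτ⟩
      rw [connectedComponentIn_eq h]
      exact hB.subset_connectedComponentIn hbB hBZ haB
  -- at most one of the two components meets `P`
  have hZS : Z ⊆ {z | z ∈ U ∧ E z < lam} := fun z hz =>
    ⟨hz.1.1, lt_of_le_of_lt hz.1.2 (hT σ hσ)⟩
  have hone : ∀ x ∈ P, ∀ y ∈ P, x ∈ connectedComponentIn Z (a σ) →
      y ∈ connectedComponentIn Z (b σ) → False := by
    intro x hx y hy hxa hyb
    obtain ⟨B, hB, haB, hbB, hBs⟩ := hbridge σ hσ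
    have hBS : B ⊆ {z | z ∈ U ∧ E z < lam} := by
      intro z hz
      rcases hBs z hz with rfl | hz'
      · exact ⟨hσU, hT z hσ⟩
      · exact ⟨hz'.1, hz'.2.trans (hT σ hσ)⟩
    have hbig : IsPreconnected ((connectedComponentIn Z (a σ) ∪ B) ∪
        connectedComponentIn Z (b σ)) :=
      IsPreconnected.union (b σ) (Or.inr hbB) (mem_connectedComponentIn hbZ)
        (IsPreconnected.union (a σ) (mem_connectedComponentIn haZ) haB
          isPreconnected_connectedComponentIn hB) isPreconnected_connectedComponentIn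
    have hxy : x = y := hP x hx y hy (hbig.subset_connectedComponentIn (Or.inl (Or.inl hxa))
      (union_subset (union_subset ((connectedComponentIn_subset _ _).trans hZS) hBS)
        ((connectedComponentIn_subset _ _).trans hZS)) (Or.inr hyb))
    subst hxy
    apply hsep
    rw [connectedComponentIn_eq hxa, ← connectedComponentIn_eq hyb]
    exact mem_connectedComponentIn hbZ
  by_cases hPa : ∃ x ∈ P, x ∈ connectedComponentIn Z (a σ)
  · obtain ⟨x, hx, hxa⟩ := hPa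
    refine ⟨connectedComponentIn Z (b σ) ∩ V, fun y hy => ⟨hy.2, fun hyP =>
      hone x hx y hyP hxa hy.1⟩, fun h => ?_, hlow _⟩
    exact hsep' (h.2 ⟨mem_connectedComponentIn hbZ, hbV σ hσ⟩).1
  · refine ⟨connectedComponentIn Z (a σ) ∩ V, fun y hy => ⟨hy.2, fun hyP =>
      hPa ⟨y, hyP, hy.1⟩⟩, fun h => ?_, hlow _⟩
    exact hsep (h.1 ⟨mem_connectedComponentIn haZ, haV σ hσ⟩).1

/-- **Elder rule**, filter form. -/
theorem elder_ev {U : Set ℂ} (hU : IsOpen U) (hUc : IsPreconnected Uᶜ)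
    (hUb : ¬ Bornology.IsBounded Uᶜ) {E : ℂ → ℝ} (hE : ContinuousOn E U) {lam : ℝ}
    (hK : ∀ c < lam, IsCompact {z | z ∈ U ∧ E z ≤ c})
    {T P : Set ℂ}
    (hmax : ∀ σ ∈ T, ∀ z ∈ U, E σ < E z → ¬ IsLocalMax E z)
    (hT : ∀ σ ∈ T, σ ∈ U ∧ E σ < lam ∧ ∃ u v : ℂ, (u * (starRingEnd ℂ) v).im ≠ 0 ∧
      ∀ᶠ t : ℝ in 𝓝[≠] 0, E (σ + t * v) < E σ ∧ E σ < E (σ + t * u))
    (hP : ∀ x ∈ P, ∀ y ∈ P, y ∈ connectedComponentIn {z | z ∈ U ∧ E z < lam} x → x = y) :
    ∃ io : ℂ → ℂ, InjOn io T ∧ ∀ σ ∈ T, io σ ∈ U ∧ IsLocalMin E (io σ) ∧ io σ ∉ P ∧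
      E (io σ) < E σ ∧ JoinedIn {z | z ∈ U ∧ E z ≤ E σ} σ (io σ) := by
  classical
  -- normalise the saddle data
  have hT' : ∀ σ ∈ T, ∃ u v : ℂ, (u * (starRingEnd ℂ) v).im ≠ 0 ∧
      ∀ t : ℝ, t ∈ Icc (-1 : ℝ) 1 → σ + t * v ∈ U ∧ (t ≠ 0 →
        E (σ + t * v) < E σ ∧ E σ < E (σ + t * u)) := by
    intro σ hσ
    obtain ⟨hσU, -, u, v, huv, hev⟩ := hT σ hσ
    have h1 : ∀ᶠ t : ℝ in 𝓝 0, σ + t * v ∈ U := by
      have hc : Continuous fun t : ℝ => σ + t * v := by fun_prop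
      exact hc.continuousAt.preimage_mem_nhds (hU.mem_nhds (by simpa using hσU))
    rw [eventually_nhdsWithin_iff] at hev
    obtain ⟨ε, hε, hb⟩ := Metric.eventually_nhds_iff.1 (h1.and hev)
    refine ⟨(ε / 2 : ℝ) * u, (ε / 2 : ℝ) * v, ?_, fun t ht => ?_⟩
    · have : (((ε / 2 : ℝ) : ℂ) * u * (starRingEnd ℂ) (((ε / 2 : ℝ) : ℂ) * v)).im =
          (ε / 2) ^ 2 * (u * (starRingEnd ℂ) v).im := by
        simp only [mul_im, mul_re, ofReal_re, ofReal_im, conj_re, conj_im]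
        ring
      rw [this]
      exact mul_ne_zero (by positivity) huv
    · have hd : dist (t * (ε / 2)) 0 < ε := by
        rw [Real.dist_eq, sub_zero, abs_mul, abs_of_pos (half_pos hε)]
        have : |t| ≤ 1 := abs_le.2 ht
        nlinarith
      obtain ⟨h2, h3⟩ := hb hd
      have e1 : ∀ x : ℂ, (t : ℂ) * (((ε / 2 : ℝ) : ℂ) * x) = ((t * (ε / 2) : ℝ) : ℂ) * x := by
        intro x; push_cast; ring
      rw [e1, e1]
      exact ⟨h2, fun h0 => h3 (mul_ne_zero h0 (half_pos hε).ne')⟩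
  choose! u v huv hseg using hT'
  obtain ⟨io, h1, h2⟩ := elder_seg hU hUc hUb hE u v (fun σ hσ => hK _ (hT σ hσ).2.1) hmax
    (fun σ hσ => (hT σ hσ).2.1) huv hseg hP
  exact ⟨io, h1, fun σ hσ => ⟨(h2 σ hσ).1, (h2 σ hσ).2.1, (h2 σ hσ).2.2.1, (h2 σ hσ).2.2.2.1,
    (h2 σ hσ).2.2.2.2.2⟩⟩

/-- a descending and an ascending direction are independent. -/
theorem im_ne_zero_of_dirs {F : ℂ → ℝ} {p u v : ℂ}
    (hu : ∀ᶠ t : ℝ in 𝓝[≠] 0, F (p + t * u) < F p)
    (hv : ∀ᶠ t : ℝ in 𝓝[≠] 0, F p < F (p + t * v)) : (v * (starRingEnd ℂ) u).im ≠ 0 := by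
  intro h
  have hu0 : u ≠ 0 := by
    rintro rfl
    obtain ⟨t, ht⟩ := hu.exists
    simp at ht
  have hv0 : v ≠ 0 := by
    rintro rfl
    obtain ⟨t, ht⟩ := hv.exists
    simp at ht
  set r : ℝ := (v * (starRingEnd ℂ) u).re / normSq u with hr
  have hn : (normSq u : ℂ) ≠ 0 := by exact_mod_cast (normSq_pos.2 hu0).ne'
  have hvr : v = r * u := by
    have e : v * (starRingEnd ℂ) u = ((v * (starRingEnd ℂ) u).re : ℂ) :=
      Complex.ext (by simp) (by rw [h]; simp)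
    rw [hr]
    push_cast
    rw [← e]
    field_simp
    rw [← mul_conj]
    ring
  have hr0 : r ≠ 0 := by
    intro h0
    rw [h0] at hvr
    exact hv0 (by simpa using hvr)
  have ht : Tendsto (fun t : ℝ => t * r) (𝓝[≠] 0) (𝓝[≠] 0) := by
    refine tendsto_nhdsWithin_iff.2 ⟨?_, ?_⟩
    · have : Tendsto (fun t : ℝ => t * r) (𝓝 0) (𝓝 (0 * r)) :=
        (continuous_id.mul continuous_const).tendsto 0
      rw [zero_mul] at this
      exact this.mono_left nhdsWithin_le_nhds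
    · filter_upwards [self_mem_nhdsWithin] with t ht
      exact mul_ne_zero ht hr0
  obtain ⟨t, h1, h2⟩ := ((ht.eventually hu).and hv).exists
  have e : p + ((t * r : ℝ) : ℂ) * u = p + t * v := by rw [hvr]; push_cast; ring
  rw [e] at h1
  exact lt_asymm h1 h2

/-- the complement of a bounded convex set is connected. -/
theorem isPreconnected_compl_convex {U : Set ℂ} (hc : Convex ℝ U) (hb : Bornology.IsBounded U) :
    IsPreconnected Uᶜ := by
  rcases U.eq_empty_or_nonempty with rfl | ⟨q, hq⟩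
  · simpa using isPreconnected_univ
  obtain ⟨R, hR⟩ := hb.subset_ball (0 : ℂ)
  have hR0 : 0 < R := lt_of_le_of_lt (norm_nonneg q) (mem_ball_zero_iff.1 (hR hq))
  have hx0 : (R : ℂ) ∈ (ball (0 : ℂ) R)ᶜ := by
    simp [abs_of_pos hR0]
  refine isPreconnected_of_forall (R : ℂ) fun p hp => ?_
  have hpq : 0 < ‖p - q‖ := norm_pos_iff.2 (sub_ne_zero.2 fun h => hp (h ▸ hq))
  let ray : Set ℂ := (fun t : ℝ => p + t * (p - q)) '' Ici 0
  have hray : IsPreconnected ray :=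
    isPreconnected_Ici.image _ (Continuous.continuousOn (by fun_prop))
  have hrayU : ray ⊆ Uᶜ := by
    rintro z ⟨t, ht, rfl⟩ hz
    have ht0 : (0 : ℝ) ≤ t := ht
    have h1 : (0 : ℝ) < 1 + t := by linarith
    have := hc hz hq (a := 1 / (1 + t)) (b := t / (1 + t)) (by positivity) (by positivity)
      (by field_simp)
    apply hp
    convert this using 1
    have h1' : (1 + (t : ℂ)) ≠ 0 := by exact_mod_cast h1.ne'
    simp only [real_smul]
    push_cast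
    field_simp
    ring
  set t0 : ℝ := (R + ‖p‖) / ‖p - q‖ with ht0
  have hfar : p + t0 * (p - q) ∈ (ball (0 : ℂ) R)ᶜ := by
    simp only [mem_compl_iff, mem_ball_zero_iff, not_lt]
    have h1 : ‖(t0 : ℂ) * (p - q)‖ = R + ‖p‖ := by
      rw [norm_mul, norm_real, Real.norm_eq_abs, abs_of_nonneg (by positivity), ht0]
      field_simp
    have h2 : ‖(t0 : ℂ) * (p - q)‖ ≤ ‖p + t0 * (p - q)‖ + ‖p‖ := by
      have := norm_sub_le (p + t0 * (p - q)) p
      rwa [add_sub_cancel_left] at this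
    linarith
  refine ⟨(ball (0 : ℂ) R)ᶜ ∪ ray, union_subset (compl_subset_compl.2 hR) hrayU, Or.inl hx0,
    Or.inr ⟨0, mem_Ici.2 le_rfl, by simp⟩, ?_⟩
  exact isPreconnected_compl_ball.union _ hfar ⟨t0, by rw [mem_Ici]; positivity, rfl⟩ hray

/-- **Elder rule**, in the form announced by helper43. -/
theorem elder (Om Q Sd Mn Po : Set ℂ) (F : ℂ → ℝ) (lam : ℝ) (hO : IsOpen Om)
    (hF : ContinuousOn F Om) (hQ : IsCompact Q) (hQc : Convex ℝ Q) (hQO : Q ⊆ Om)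
    (hsub : ∀ z ∈ Om, F z ≤ lam → z ∈ Q) (hmax : ∀ z ∈ Om, ¬ IsLocalMax F z)
    (hSd : ∀ p ∈ Sd, p ∈ Om ∧ ∃ u v : ℂ, (∀ᶠ t : ℝ in 𝓝[≠] 0, F (p + t * u) < F p) ∧
      (∀ᶠ t : ℝ in 𝓝[≠] 0, F p < F (p + t * v)))
    (hMn : ∀ z ∈ Om, F z < lam → IsLocalMin F z → z ∈ Mn ∨ z ∈ Po) (hPo : Po.Subsingleton) :
    ∃ io : ℂ → ℂ, InjOn io {p ∈ Sd | F p < lam} ∧ ∀ p ∈ Sd, F p < lam →
      io p ∈ Mn ∧ io p ∉ Po ∧ F (io p) < F p ∧ JoinedIn {z ∈ Om | F z ≤ F p} p (io p) := by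
  obtain ⟨δ, hδ, hth⟩ := hQ.exists_thickening_subset_open hO hQO
  set U := thickening δ Q with hUdef
  have hU : IsOpen U := isOpen_thickening
  have hUb : Bornology.IsBounded U := hQ.isBounded.thickening
  have hQU : Q ⊆ U := self_subset_thickening hδ Q
  have hUc : IsPreconnected Uᶜ := isPreconnected_compl_convex (hQc.thickening δ) hUb
  have hUb' : ¬ Bornology.IsBounded Uᶜ := by
    intro h
    have := hUb.union h
    rw [union_compl_self] at this
    exact NormedSpace.unbounded_univ ℝ ℂ this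
  have hK : ∀ c < lam, IsCompact {z | z ∈ U ∧ F z ≤ c} := by
    intro c hc
    have e : {z | z ∈ U ∧ F z ≤ c} = Q ∩ F ⁻¹' Iic c := by
      ext z
      exact ⟨fun h => ⟨hsub z (hth h.1) (h.2.trans hc.le), h.2⟩, fun h => ⟨hQU h.1, h.2⟩⟩
    rw [e]
    exact hQ.of_isClosed_subset
      ((hF.mono hQO).preimage_isClosed_of_isClosed hQ.isClosed isClosed_Iic) inter_subset_left
  obtain ⟨io, h1, h2⟩ := elder_ev (T := {p ∈ Sd | F p < lam}) (P := Po) hU hUc hUb'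
    (hF.mono hth) hK (fun σ _ z hz _ => hmax z (hth hz))
    (fun σ hσ => by
      obtain ⟨hσO, u, v, hu, hv⟩ := hSd σ hσ.1
      exact ⟨hQU (hsub σ hσO hσ.2.le), hσ.2, v, u, im_ne_zero_of_dirs hu hv, hu.and hv⟩)
    (fun x hx y hy _ => hPo hx hy)
  refine ⟨io, h1, fun p hp hlt => ?_⟩
  obtain ⟨a1, a2, a3, a4, a5⟩ := h2 p ⟨hp, hlt⟩
  refine ⟨(hMn _ (hth a1) (a4.trans hlt) a2).resolve_right a3, a3, a4, a5.mono ?_⟩
  exact fun z hz => ⟨hth hz.1, hz.2⟩

end Crest.Agent.R131.Morse92
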