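import Mathlib

/-! Row 131: persistence of almost linear minima (no third order terms). -/

open Set Metric
open scoped ComplexConjugate

namespace Crest.Agent.R131.Persist15

theorem h15_real {c e μ α β N δ : ℝ} (hc1 : 7 / 10 ≤ c) (hc2 : c ≤ 8 / 10) (he0 : 0 < e)
    (he : e ≤ 1 / 10) (hμ1 : 1 / 2 ≤ μ) (hμ2 : μ ≤ 1) (hab : α ^ 2 + β ^ 2 = μ ^ 2 * e ^ 2)
    (hN0 : 0 ≤ N) (hN : N ^ 2 = (1 - 2 * c * α) ^ 2 + (2 * c * β) ^ 2) (hδ0 : 0 ≤ δ)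
    (hδ : δ ≤ 162 / 10000 * μ * e ^ 2) :
    Real.exp (e ^ 2 / 400) * (1 - 2 * α) ^ c ≤ N - δ := by
  have he2 : e ^ 2 ≤ 1 / 100 := by nlinarith
  have he2' : 0 < e ^ 2 := by positivity
  have hμe : μ ^ 2 * e ^ 2 ≤ 1 / 100 := by
    have : μ ^ 2 ≤ 1 := by nlinarith
    nlinarith
  have hα2 : α ^ 2 ≤ 1 / 100 := by nlinarith [sq_nonneg β]
  have hβ2 : β ^ 2 ≤ 1 / 100 := by nlinarith [sq_nonneg α]
  have hα1 : α ≤ 1 / 10 := by nlinarith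
  have hα0 : -(1 / 10) ≤ α := by nlinarith
  have hu : 0 < 1 - 2 * α := by linarith
  set T := (1 - 2 * α) ^ c with hT
  have hT0 : 0 ≤ T := Real.rpow_nonneg hu.le c
  set B := 1 - 4 * c * α + 4 * (2 * c - 1) * α ^ 2 with hB
  have hTB : T ^ 2 ≤ B := by
    have h1 : T ^ 2 = (1 - 2 * α) * (1 - 2 * α) ^ (2 * c - 1) := by
      rw [hT, ← Real.rpow_natCast, ← Real.rpow_mul hu.le]
      conv_rhs => rw [← Real.rpow_one (1 - 2 * α), ← Real.rpow_mul hu.le]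
      rw [← Real.rpow_add hu]
      congr 1
      push_cast
      ring
    have h2 : (1 + (-2 * α)) ^ (2 * c - 1) ≤ 1 + (2 * c - 1) * (-2 * α) :=
      rpow_one_add_le_one_add_mul_self (by linarith) (by linarith) (by linarith)
    have h3 : (1 + (-2 * α)) = 1 - 2 * α := by ring
    rw [h3] at h2
    calc T ^ 2 = (1 - 2 * α) * (1 - 2 * α) ^ (2 * c - 1) := h1
      _ ≤ (1 - 2 * α) * (1 + (2 * c - 1) * (-2 * α)) := mul_le_mul_of_nonneg_left h2 hu.le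
      _ = B := by rw [hB]; ring
  have hB2 : B ≤ 2 := by
    have h1 : -(4 * c * α) ≤ 4 / 10 := by nlinarith
    have h2 : 4 * (2 * c - 1) * α ^ 2 ≤ 4 * (6 / 10) * (1 / 100) := by
      have : (2 * c - 1) * α ^ 2 ≤ 6 / 10 * (1 / 100) :=
        mul_le_mul (by linarith) hα2 (sq_nonneg α) (by norm_num)
      linarith
    rw [hB]; linarith
  have hgain : B + 16 / 100 * (μ ^ 2 * e ^ 2) ≤ N ^ 2 := by
    rw [hN, hB, ← hab]
    have h1 : 4 / 100 * α ^ 2 ≤ (1 - c) ^ 2 * α ^ 2 :=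
      mul_le_mul_of_nonneg_right (by nlinarith) (sq_nonneg α)
    have h2 : 4 / 100 * β ^ 2 ≤ c ^ 2 * β ^ 2 :=
      mul_le_mul_of_nonneg_right (by nlinarith) (sq_nonneg β)
    nlinarith
  have hN2 : N ≤ 116 / 100 := by
    have hcc : c ^ 2 ≤ 64 / 100 := by nlinarith
    have h1 : c ^ 2 * (α ^ 2 + β ^ 2) ≤ 64 / 100 * (1 / 100) :=
      mul_le_mul hcc (by linarith) (by positivity) (by norm_num)
    have h2 : -(c * α) ≤ 8 / 100 := by nlinarith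
    have h3 : N ^ 2 ≤ (116 / 100) ^ 2 := by rw [hN]; nlinarith
    exact abs_le_of_sq_le_sq' h3 (by norm_num) |>.2
  have hN1 : 1 / 2 ≤ N := by
    have h2 : c * α ≤ 8 / 100 := by nlinarith
    have h3 : (1 / 2 : ℝ) ^ 2 ≤ N ^ 2 := by rw [hN]; nlinarith [sq_nonneg (2 * c * β)]
    exact abs_le_of_sq_le_sq' h3 hN0 |>.2
  have hδ1 : δ ≤ 1 / 100 := by nlinarith
  have hsq : B + 2 / 100 * e ^ 2 ≤ (N - δ) ^ 2 := by
    have h1 : N * δ ≤ 116 / 100 * (162 / 10000 * μ * e ^ 2) :=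
      mul_le_mul hN2 hδ hδ0 (by norm_num)
    have h2 : 2 / 100 ≤ 16 / 100 * μ ^ 2 - 2 * (116 / 100 * (162 / 10000)) * μ := by nlinarith
    have h3 := mul_le_mul_of_nonneg_right h2 he2'.le
    nlinarith [sq_nonneg δ]
  have hexp : Real.exp (e ^ 2 / 400) ^ 2 ≤ 1 + e ^ 2 / 100 := by
    rw [← Real.exp_nat_mul]
    have h0 : ((2 : ℕ) : ℝ) * (e ^ 2 / 400) = e ^ 2 / 200 := by push_cast; ring
    rw [h0]
    have h1 : |e ^ 2 / 200| ≤ 1 := by rw [abs_of_nonneg (by positivity)]; linarith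
    have h2 := Real.abs_exp_sub_one_le h1
    rw [abs_of_nonneg (by positivity : (0 : ℝ) ≤ e ^ 2 / 200)] at h2
    have := (abs_le.1 h2).2
    linarith
  have hfin : (Real.exp (e ^ 2 / 400) * T) ^ 2 ≤ (N - δ) ^ 2 := by
    rw [mul_pow]
    have hB0 : 0 ≤ B := le_trans (sq_nonneg T) hTB
    calc Real.exp (e ^ 2 / 400) ^ 2 * T ^ 2 ≤ (1 + e ^ 2 / 100) * B :=
          mul_le_mul hexp hTB (sq_nonneg T) (by positivity)
      _ ≤ B + 2 / 100 * e ^ 2 := by nlinarith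
      _ ≤ _ := hsq
  exact abs_le_of_sq_le_sq' hfin (by linarith) |>.2

theorem h15_sub {m : ℂ} {e : ℝ} (hm1 : ‖m‖ < 1) (he : e ≤ 1 / 10) :
    closedBall m (e * (1 - ‖m‖ ^ 2)) ⊆ ball 0 1 := by
  intro y hy
  rw [mem_closedBall, dist_eq_norm] at hy
  rw [mem_ball_zero_iff]
  have h0 := norm_nonneg m
  have h1 : ‖y‖ ≤ ‖m‖ + ‖y - m‖ := by
    calc ‖y‖ = ‖m + (y - m)‖ := by congr 1; ring
      _ ≤ _ := norm_add_le _ _
  have h2 : 0 < 1 - ‖m‖ ^ 2 := by nlinarith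
  have h3 : e * (1 - ‖m‖ ^ 2) ≤ 1 / 10 * (1 - ‖m‖ ^ 2) := mul_le_mul_of_nonneg_right he h2.le
  nlinarith

/-- second order Taylor remainder on the small ball -/
theorem h15_taylor {f : ℂ → ℂ} {m : ℂ} {e : ℝ} (hf : DifferentiableOn ℂ f (ball 0 1))
    (hm1 : ‖m‖ < 1) (he0 : 0 < e) (he : e ≤ 1 / 10)
    (hsm : ∀ y ∈ closedBall m (e * (1 - ‖m‖ ^ 2)),
      (1 - ‖m‖ ^ 2) * ‖deriv (deriv f) y‖ ≤ (1 / 100) * ‖deriv f y‖) :
    ∀ y ∈ closedBall m (e * (1 - ‖m‖ ^ 2)),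
      ‖f y - f m - deriv f m * (y - m)‖ ≤
        101 / 10000 * ‖deriv f m‖ * e ^ 2 * (1 - ‖m‖ ^ 2) := by
  set ρ := 1 - ‖m‖ ^ 2 with hρ
  have hρ0 : 0 < ρ := by have := norm_nonneg m; rw [hρ]; nlinarith
  set K := closedBall m (e * ρ) with hK
  have hKs : K ⊆ ball 0 1 := h15_sub hm1 he
  have hmK : m ∈ K := mem_closedBall_self (by positivity)
  have hd1 : ∀ y ∈ K, DifferentiableAt ℂ f y := fun y hy =>
    hf.differentiableAt (isOpen_ball.mem_nhds (hKs hy))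
  have hf' : DifferentiableOn ℂ (deriv f) (ball 0 1) := hf.deriv isOpen_ball
  have hd2 : ∀ y ∈ K, DifferentiableAt ℂ (deriv f) y := fun y hy =>
    hf'.differentiableAt (isOpen_ball.mem_nhds (hKs hy))
  obtain ⟨y0, hy0, hmax⟩ := (isCompact_closedBall m (e * ρ)).exists_isMaxOn ⟨m, hmK⟩
    ((hf'.continuousOn.mono hKs).norm)
  set S := ‖deriv f y0‖ with hS
  have hS0 : 0 ≤ S := norm_nonneg _
  have hbd : ∀ y ∈ K, ‖deriv (deriv f) y‖ ≤ 1 / 100 * S / ρ := fun y hy => by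
    rw [le_div_iff₀ hρ0]
    have h1 := hsm y hy
    have h2 : ‖deriv f y‖ ≤ S := hmax hy
    nlinarith
  have hlip : ∀ y ∈ K, ‖deriv f y - deriv f m‖ ≤ 1 / 100 * S * e := fun y hy => by
    have h1 := (convex_closedBall m (e * ρ)).norm_image_sub_le_of_norm_deriv_le hd2 hbd hmK hy
    have h2 : ‖y - m‖ ≤ e * ρ := by rw [← dist_eq_norm]; exact hy
    calc ‖deriv f y - deriv f m‖ ≤ 1 / 100 * S / ρ * ‖y - m‖ := h1
      _ ≤ 1 / 100 * S / ρ * (e * ρ) := mul_le_mul_of_nonneg_left h2 (by positivity)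
      _ = 1 / 100 * S * e := by field_simp
  have hSle : S ≤ 101 / 100 * ‖deriv f m‖ := by
    have h1 := hlip y0 hy0
    have h2 : S ≤ ‖deriv f m‖ + ‖deriv f y0 - deriv f m‖ := by
      calc S = ‖deriv f m + (deriv f y0 - deriv f m)‖ := by rw [hS]; congr 1; ring
        _ ≤ _ := norm_add_le _ _
    have h3 : S * e ≤ S * (1 / 10) := mul_le_mul_of_nonneg_left he hS0
    nlinarith [norm_nonneg (deriv f m)]
  intro y hy
  have hg : ∀ z ∈ K, HasDerivWithinAt (fun z => f z - deriv f m * z) (deriv f z - deriv f m) K z :=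
    fun z hz => by
      have h1 := (hd1 z hz).hasDerivAt
      have h2 : HasDerivAt (fun z => deriv f m * z) (deriv f m) z := by
        simpa using (hasDerivAt_id z).const_mul (deriv f m)
      exact (h1.sub h2).hasDerivWithinAt
  have h1 := (convex_closedBall m (e * ρ)).norm_image_sub_le_of_norm_hasDerivWithin_le hg hlip
    hmK hy
  have h2 : ‖y - m‖ ≤ e * ρ := by rw [← dist_eq_norm]; exact hy
  have h3 : f y - f m - deriv f m * (y - m) = f y - deriv f m * y - (f m - deriv f m * m) := by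
    ring
  rw [h3]
  calc _ ≤ 1 / 100 * S * e * ‖y - m‖ := h1
    _ ≤ 1 / 100 * S * e * (e * ρ) := mul_le_mul_of_nonneg_left h2 (by positivity)
    _ = 1 / 100 * S * (e ^ 2 * ρ) := by ring
    _ ≤ 1 / 100 * (101 / 100 * ‖deriv f m‖) * (e ^ 2 * ρ) := by gcongr
    _ = _ := by ring

/-- the level rises by a fixed factor on the small circle -/
theorem h15_sphere {f : ℂ → ℂ} {m w : ℂ} {c e : ℝ} (hf : DifferentiableOn ℂ f (ball 0 1))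
    (hm1 : ‖m‖ < 1) (hm : 1 / 2 ≤ ‖m‖) (hc1 : 7 / 10 ≤ c) (hc2 : c ≤ 8 / 10) (he0 : 0 < e)
    (he : e ≤ 1 / 10)
    (hsm : ∀ y ∈ closedBall m (e * (1 - ‖m‖ ^ 2)),
      (1 - ‖m‖ ^ 2) * ‖deriv (deriv f) y‖ ≤ (1 / 100) * ‖deriv f y‖)
    (hw : w = f m + deriv f m * ((1 - ‖m‖ ^ 2 : ℝ) : ℂ) / (2 * (c : ℂ) * conj m)) :
    ∀ y ∈ sphere m (e * (1 - ‖m‖ ^ 2)),
      Real.exp (e ^ 2 / 400) * (‖f m - w‖ / (1 - ‖m‖ ^ 2) ^ c) ≤
        ‖f y - w‖ / (1 - ‖y‖ ^ 2) ^ c := by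
  intro y hy
  have hyK : y ∈ closedBall m (e * (1 - ‖m‖ ^ 2)) := sphere_subset_closedBall hy
  have hT := h15_taylor hf hm1 he0 he hsm y hyK
  have hy1 : ‖y‖ < 1 := by simpa using h15_sub hm1 he hyK
  set ρ := 1 - ‖m‖ ^ 2 with hρ
  have hρ0 : 0 < ρ := by have := norm_nonneg m; rw [hρ]; nlinarith
  have hρy : 0 < 1 - ‖y‖ ^ 2 := by have := norm_nonneg y; nlinarith
  have hm0 : m ≠ 0 := by
    intro h; rw [h, norm_zero] at hm; norm_num at hm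
  have hcm : (conj m : ℂ) ≠ 0 := by simpa using hm0
  have hc0 : (0 : ℝ) < c := by linarith
  have hcC : (c : ℂ) ≠ 0 := by exact_mod_cast hc0.ne'
  have hρC : (ρ : ℂ) ≠ 0 := by exact_mod_cast hρ0.ne'
  have hyn : ‖y - m‖ = e * ρ := by rw [← dist_eq_norm]; exact hy
  set η : ℂ := conj m * (y - m) / (ρ : ℂ) with hη
  have hηn : ‖η‖ = ‖m‖ * e := by
    rw [hη, norm_div, norm_mul, Complex.norm_conj, hyn, Complex.norm_real, Real.norm_eq_abs,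
      abs_of_pos hρ0]
    field_simp
  have hab : η.re ^ 2 + η.im ^ 2 = ‖m‖ ^ 2 * e ^ 2 := by
    rw [← mul_pow, ← hηn, Complex.sq_norm, Complex.normSq_apply]; ring
  set A : ℂ := f m - w with hA
  have hA' : A = -(deriv f m * (ρ : ℂ) / (2 * (c : ℂ) * conj m)) := by rw [hA, hw]; ring
  have hAn : ‖A‖ * (2 * c * ‖m‖) = ‖deriv f m‖ * ρ := by
    have hmn : ‖m‖ ≠ 0 := by simpa using hm0
    rw [hA', norm_neg, norm_div, norm_mul, norm_mul, norm_mul, Complex.norm_conj,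
      Complex.norm_real, Complex.norm_real, Real.norm_eq_abs, Real.norm_eq_abs, abs_of_pos hρ0,
      abs_of_pos hc0]
    simp only [Complex.norm_ofNat]
    field_simp
  set r : ℂ := f y - f m - deriv f m * (y - m) with hr
  have hdec : f y - w = A * (1 - 2 * (c : ℂ) * η) + r := by
    have h1 : f y - w = A + deriv f m * (y - m) + r := by rw [hA, hr]; ring
    rw [h1, hA', hη]
    field_simp
    ring
  set N := ‖1 - 2 * (c : ℂ) * η‖ with hN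
  set δ := 101 / 10000 * (2 * c * ‖m‖) * e ^ 2 with hδ
  have hrn : ‖r‖ ≤ ‖A‖ * δ := by
    calc ‖r‖ ≤ 101 / 10000 * ‖deriv f m‖ * e ^ 2 * ρ := hT
      _ = 101 / 10000 * (‖deriv f m‖ * ρ) * e ^ 2 := by ring
      _ = ‖A‖ * δ := by rw [← hAn, hδ]; ring
  have hlow : ‖A‖ * (N - δ) ≤ ‖f y - w‖ := by
    have h1 : ‖A * (1 - 2 * (c : ℂ) * η)‖ ≤ ‖f y - w‖ + ‖r‖ := by
      calc ‖A * (1 - 2 * (c : ℂ) * η)‖ = ‖(f y - w) - r‖ := by rw [hdec]; congr 1; ring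
        _ ≤ _ := norm_sub_le _ _
    rw [norm_mul] at h1
    nlinarith
  have hNsq : N ^ 2 = (1 - 2 * c * η.re) ^ 2 + (2 * c * η.im) ^ 2 := by
    rw [hN, Complex.sq_norm, Complex.normSq_apply]
    simp
    ring
  have hδle : δ ≤ 162 / 10000 * ‖m‖ * e ^ 2 := by
    rw [hδ]
    have h1 : 0 ≤ ‖m‖ * e ^ 2 := by positivity
    nlinarith
  have hreal := h15_real hc1 hc2 he0 he hm hm1.le hab (norm_nonneg _) hNsq
    (by rw [hδ]; positivity) hδle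
  -- the weight
  have hre : ρ * η.re = (conj m * (y - m)).re := by
    have : conj m * (y - m) = (ρ : ℂ) * η := by rw [hη]; field_simp
    rw [this]; simp
  have hwt : 1 - ‖y‖ ^ 2 ≤ ρ * (1 - 2 * η.re) := by
    have h1 : ‖y‖ ^ 2 = ‖m‖ ^ 2 + 2 * (conj m * (y - m)).re + ‖y - m‖ ^ 2 := by
      rw [Complex.sq_norm, Complex.sq_norm, Complex.sq_norm]
      simp only [Complex.normSq_apply, Complex.mul_re, Complex.sub_re, Complex.sub_im,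
        Complex.conj_re, Complex.conj_im]
      ring
    have h2 : ρ * (1 - 2 * η.re) = ρ - 2 * (ρ * η.re) := by ring
    rw [h2, hre, h1, hρ]
    nlinarith [sq_nonneg ‖y - m‖]
  have hu : 0 < 1 - 2 * η.re := by
    by_contra h
    push Not at h
    nlinarith
  have hpow : (1 - ‖y‖ ^ 2) ^ c ≤ ρ ^ c * (1 - 2 * η.re) ^ c := by
    rw [← Real.mul_rpow hρ0.le hu.le]
    exact Real.rpow_le_rpow hρy.le hwt hc0.le
  have hp1 : 0 < ρ ^ c := Real.rpow_pos_of_pos hρ0 c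
  have hp2 : 0 < (1 - ‖y‖ ^ 2) ^ c := Real.rpow_pos_of_pos hρy c
  rw [le_div_iff₀ hp2]
  calc Real.exp (e ^ 2 / 400) * (‖A‖ / ρ ^ c) * (1 - ‖y‖ ^ 2) ^ c
      ≤ Real.exp (e ^ 2 / 400) * (‖A‖ / ρ ^ c) * (ρ ^ c * (1 - 2 * η.re) ^ c) := by gcongr
    _ = ‖A‖ * (Real.exp (e ^ 2 / 400) * (1 - 2 * η.re) ^ c) := by field_simp
    _ ≤ ‖A‖ * (N - δ) := mul_le_mul_of_nonneg_left hreal (norm_nonneg _)
    _ ≤ _ := hlow

/-- no saddle in the small ball -/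
theorem h15_J {f : ℂ → ℂ} {m : ℂ} {c e : ℝ}
    (hm1 : ‖m‖ < 1) (hm : 1 / 2 ≤ ‖m‖) (hc1 : 7 / 10 ≤ c) (hc2 : c ≤ 8 / 10) (he0 : 0 < e)
    (he : e ≤ 1 / 10)
    (hsm : ∀ y ∈ closedBall m (e * (1 - ‖m‖ ^ 2)),
      (1 - ‖m‖ ^ 2) * ‖deriv (deriv f) y‖ ≤ (1 / 100) * ‖deriv f y‖) :
    ∀ y ∈ closedBall m (e * (1 - ‖m‖ ^ 2)),
      ‖(((2 * c - 1) * ‖y‖ ^ 2 : ℝ) : ℂ) +
          ((1 - ‖y‖ ^ 2 : ℝ) : ℂ) * y * (deriv (deriv f) y / deriv f y)‖ ^ 2 - 1 ≤ -(1 / 2) := by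
  intro y hy
  have hy1 : ‖y‖ < 1 := by simpa using h15_sub hm1 he hy
  have h0 := hsm y hy
  set ρ := 1 - ‖m‖ ^ 2 with hρ
  have hρ0 : 0 < ρ := by have := norm_nonneg m; rw [hρ]; nlinarith
  have hρ1 : ρ ≤ 1 := by rw [hρ]; nlinarith [sq_nonneg ‖m‖]
  have hyn := norm_nonneg y
  have hρy : 0 < 1 - ‖y‖ ^ 2 := by nlinarith
  have hd : ‖y - m‖ ≤ e * ρ := by rw [← dist_eq_norm]; exact hy
  have hd' : e * ρ ≤ 1 / 10 * ρ := mul_le_mul_of_nonneg_right he hρ0.le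
  have hml : ‖m‖ ≤ ‖y‖ + ‖y - m‖ := by
    calc ‖m‖ = ‖y - (y - m)‖ := by congr 1; ring
      _ ≤ _ := norm_sub_le _ _
  have hρ2 : 1 - ‖y‖ ^ 2 ≤ 2 * ρ := by
    have h1 : ‖m‖ - 1 / 10 * ρ ≤ ‖y‖ := by linarith
    have h2 : 0 ≤ ‖m‖ - 1 / 10 * ρ := by linarith
    have h3 : (‖m‖ - 1 / 10 * ρ) ^ 2 ≤ ‖y‖ ^ 2 := pow_le_pow_left₀ h2 h1 2
    have h4 : ‖m‖ * ρ ≤ 1 * ρ := mul_le_mul_of_nonneg_right hm1.le hρ0.le
    nlinarith [sq_nonneg ρ]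
  have hq : ρ * ‖deriv (deriv f) y / deriv f y‖ ≤ 1 / 100 := by
    rw [norm_div]
    rcases eq_or_lt_of_le (norm_nonneg (deriv f y)) with h | h
    · rw [← h]; simp
    · rw [← mul_div_assoc, div_le_iff₀ h]; exact h0
  have hq0 := norm_nonneg (deriv (deriv f) y / deriv f y)
  have h1 : ‖(((2 * c - 1) * ‖y‖ ^ 2 : ℝ) : ℂ)‖ ≤ 6 / 10 := by
    rw [Complex.norm_real, Real.norm_eq_abs, abs_of_nonneg (by nlinarith [sq_nonneg ‖y‖])]
    have : ‖y‖ ^ 2 ≤ 1 := by nlinarith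
    nlinarith [sq_nonneg ‖y‖]
  have h2 : ‖((1 - ‖y‖ ^ 2 : ℝ) : ℂ) * y * (deriv (deriv f) y / deriv f y)‖ ≤ 2 / 100 := by
    rw [norm_mul, norm_mul, Complex.norm_real, Real.norm_eq_abs, abs_of_pos hρy]
    calc (1 - ‖y‖ ^ 2) * ‖y‖ * ‖deriv (deriv f) y / deriv f y‖
        ≤ (2 * ρ) * 1 * ‖deriv (deriv f) y / deriv f y‖ := by gcongr
      _ = 2 * (ρ * ‖deriv (deriv f) y / deriv f y‖) := by ring
      _ ≤ 2 / 100 := by linarith
  have h3 := norm_add_le (((2 * c - 1) * ‖y‖ ^ 2 : ℝ) : ℂ)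
    (((1 - ‖y‖ ^ 2 : ℝ) : ℂ) * y * (deriv (deriv f) y / deriv f y))
  have h4 := norm_nonneg ((((2 * c - 1) * ‖y‖ ^ 2 : ℝ) : ℂ) +
    ((1 - ‖y‖ ^ 2 : ℝ) : ℂ) * y * (deriv (deriv f) y / deriv f y))
  nlinarith

/-- a path from outside a ball to its centre meets the sphere -/
theorem h15_cross {S : Set ℂ} {p m : ℂ} {r : ℝ} (hr : 0 ≤ r) (hp : p ∉ ball m r)
    (hj : JoinedIn S p m) : ∃ y ∈ S, y ∈ sphere m r := by
  obtain ⟨γ, hγ⟩ := hj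
  have hc : Continuous fun t => dist (γ t) m := γ.continuous.dist continuous_const
  have h0 : r ≤ dist (γ 0) m := by
    rw [γ.source]; exact not_lt.1 (fun h => hp (mem_ball.2 h))
  have h1 : dist (γ 1) m ≤ r := by rw [γ.target, dist_self]; exact hr
  obtain ⟨t, ht⟩ := intermediate_value_univ (1 : unitInterval) 0 hc ⟨h1, h0⟩
  exact ⟨γ t, hγ t, ht⟩

/-- persistence: a point with positive `J` joined to `m` below its own level lies a fixed factor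
above `m` -/
theorem h15_persist {f : ℂ → ℂ} {m w p : ℂ} {c e : ℝ} {S : Set ℂ}
    (hf : DifferentiableOn ℂ f (ball 0 1))
    (hm1 : ‖m‖ < 1) (hm : 1 / 2 ≤ ‖m‖) (hc1 : 7 / 10 ≤ c) (hc2 : c ≤ 8 / 10) (he0 : 0 < e)
    (he : e ≤ 1 / 10)
    (hsm : ∀ y ∈ closedBall m (e * (1 - ‖m‖ ^ 2)),
      (1 - ‖m‖ ^ 2) * ‖deriv (deriv f) y‖ ≤ (1 / 100) * ‖deriv f y‖)
    (hw : w = f m + deriv f m * ((1 - ‖m‖ ^ 2 : ℝ) : ℂ) / (2 * (c : ℂ) * conj m))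
    (hJ : 0 < ‖(((2 * c - 1) * ‖p‖ ^ 2 : ℝ) : ℂ) +
          ((1 - ‖p‖ ^ 2 : ℝ) : ℂ) * p * (deriv (deriv f) p / deriv f p)‖ ^ 2 - 1)
    (hS : ∀ z ∈ S, ‖f z - w‖ / (1 - ‖z‖ ^ 2) ^ c ≤ ‖f p - w‖ / (1 - ‖p‖ ^ 2) ^ c)
    (hj : JoinedIn S p m) :
    Real.exp (e ^ 2 / 400) * (‖f m - w‖ / (1 - ‖m‖ ^ 2) ^ c) ≤
      ‖f p - w‖ / (1 - ‖p‖ ^ 2) ^ c := by
  have hρ0 : 0 < 1 - ‖m‖ ^ 2 := by have := norm_nonneg m; nlinarith
  have hp : p ∉ ball m (e * (1 - ‖m‖ ^ 2)) := fun h => by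
    have := h15_J hm1 hm hc1 hc2 he0 he hsm p (ball_subset_closedBall h)
    linarith
  obtain ⟨y, hyS, hy⟩ := h15_cross (by positivity) hp hj
  exact (h15_sphere hf hm1 hm hc1 hc2 he0 he hsm hw y hy).trans (hS y hyS)

end Crest.Agent.R131.Persist15
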