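import Crest.Agent.R131.Defs

/-! Row 131: block PERSIST exactly as stated in `Defs`. -/

set_option autoImplicit false

open Set Metric

namespace Crest.Agent.R131.P66

theorem alg {c x e a n r : ℝ} (hc1 : 7 / 10 ≤ c) (hc2 : c ≤ 3 / 4) (hx0 : 0 ≤ x) (hx1 : x ≤ 1)
    (he0 : 0 < e) (he1 : e ≤ 1 / 20) (ha : |a| ≤ x * e) (hn0 : 0 ≤ n)
    (hn : n ^ 2 = 1 - 4 * c * a + 4 * c ^ 2 * x ^ 2 * e ^ 2) (hr0 : 0 ≤ r)
    (hr : r ≤ 3 / 100 * e ^ 2) :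
    r ≤ n ∧ (1 + e ^ 2 / 100) ^ 2 * ((1 - (2 * a + (1 - x ^ 2) * e ^ 2)) *
      (1 - (2 * c - 1) * (2 * a + (1 - x ^ 2) * e ^ 2))) ≤ (n - r) ^ 2 := by
  set u := 2 * a + (1 - x ^ 2) * e ^ 2 with hu
  have hxe : x * e ≤ e := by nlinarith
  have ha1 : a ≤ e := (le_abs_self a).trans (ha.trans hxe)
  have ha2 : -e ≤ a := by have := neg_abs_le a; linarith
  have ha3 : a ^ 2 ≤ x ^ 2 * e ^ 2 := by
    have := sq_le_sq' (by have := abs_nonneg a; linarith [neg_abs_le a]) ((le_abs_self a).trans ha)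
    calc a ^ 2 ≤ (x * e) ^ 2 := this
      _ = x ^ 2 * e ^ 2 := by ring
  have hd0 : 0 ≤ 1 - x ^ 2 := by nlinarith
  have hd1 : 1 - x ^ 2 ≤ 1 := by nlinarith
  have he2 : 0 < e ^ 2 := by positivity
  have he3 : e ^ 3 ≤ e ^ 2 / 20 := by nlinarith
  have he2' : e ^ 2 ≤ 1 / 400 := by nlinarith
  have hde0 : 0 ≤ (1 - x ^ 2) * e ^ 2 := by positivity
  have hde1 : (1 - x ^ 2) * e ^ 2 ≤ e ^ 2 := by nlinarith
  have hu2 : u ^ 2 ≤ 4 * (x ^ 2 * e ^ 2) + 5 * e ^ 3 := by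
    have h1 : a * ((1 - x ^ 2) * e ^ 2) ≤ e * e ^ 2 :=
      (mul_le_mul_of_nonneg_right ha1 hde0).trans (mul_le_mul_of_nonneg_left hde1 he0.le)
    have h2 : ((1 - x ^ 2) * e ^ 2) ^ 2 ≤ (e ^ 2) ^ 2 := pow_le_pow_left₀ hde0 hde1 2
    have h3 : (e ^ 2) ^ 2 ≤ e ^ 3 := by nlinarith
    have h4 : u ^ 2 = 4 * a ^ 2 + 4 * (a * ((1 - x ^ 2) * e ^ 2)) + ((1 - x ^ 2) * e ^ 2) ^ 2 := by
      rw [hu]; ring
    nlinarith
  have hX0 : 0 ≤ x ^ 2 * e ^ 2 := by positivity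
  have hB : (1 - u) * (1 - (2 * c - 1) * u) + e ^ 2 / 8 ≤ n ^ 2 := by
    have h1 : (2 * c - 1) * u ^ 2 ≤ (2 * c - 1) * (4 * (x ^ 2 * e ^ 2) + 5 * e ^ 3) :=
      mul_le_mul_of_nonneg_left hu2 (by linarith)
    have h2 : (2 * c - 1) * e ^ 3 ≤ 1 / 2 * e ^ 3 :=
      mul_le_mul_of_nonneg_right (by linarith) (by positivity)
    have h3 : 1 / 4 * (x ^ 2 * e ^ 2) ≤ 4 * (1 - c) ^ 2 * (x ^ 2 * e ^ 2) :=
      mul_le_mul_of_nonneg_right (by nlinarith) hX0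
    have h4 : 1 / 4 * ((1 - x ^ 2) * e ^ 2) ≤ 2 * c * ((1 - x ^ 2) * e ^ 2) :=
      mul_le_mul_of_nonneg_right (by linarith) hde0
    have h5 : n ^ 2 - (1 - u) * (1 - (2 * c - 1) * u) =
        4 * c ^ 2 * (x ^ 2 * e ^ 2) + 2 * c * ((1 - x ^ 2) * e ^ 2) - (2 * c - 1) * u ^ 2 := by
      rw [hn]; simp only [hu]; ring
    nlinarith
  have hca : c * a ≤ 3 / 4 * e := by nlinarith
  have hca' : -(3 / 4 * e) ≤ c * a := by nlinarith
  have hcx : 4 * c ^ 2 * x ^ 2 * e ^ 2 ≤ 4 * e ^ 2 := by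
    have h1 : c ^ 2 ≤ 1 := by nlinarith
    have h2 : x ^ 2 * e ^ 2 ≤ e ^ 2 := by nlinarith
    have h3 : c ^ 2 * (x ^ 2 * e ^ 2) ≤ 1 * e ^ 2 := mul_le_mul h1 h2 hX0 zero_le_one
    nlinarith
  have hcx0 : 0 ≤ 4 * c ^ 2 * x ^ 2 * e ^ 2 := by positivity
  have hn2 : n ^ 2 ≤ (11 / 10) ^ 2 := by rw [hn]; linarith
  have hn1 : n ≤ 11 / 10 := (pow_le_pow_iff_left₀ hn0 (by norm_num) two_ne_zero).1 hn2
  have hn3 : (1 / 2) ^ 2 ≤ n ^ 2 := by rw [hn]; linarith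
  have hn4 : 1 / 2 ≤ n := (pow_le_pow_iff_left₀ (by norm_num) hn0 two_ne_zero).1 hn3
  refine ⟨by linarith, ?_⟩
  generalize (1 - u) * (1 - (2 * c - 1) * u) = B at hB ⊢
  have hB2 : B ≤ 2 := by linarith
  generalize e ^ 2 = E at he2 he2' hB hr ⊢
  have hG0 : 0 ≤ (1 + E / 100) ^ 2 - 1 := by nlinarith only [he2]
  have hG1 : (1 + E / 100) ^ 2 - 1 ≤ E / 40 := by nlinarith only [he2, he2']
  have h1 : ((1 + E / 100) ^ 2 - 1) * B ≤ ((1 + E / 100) ^ 2 - 1) * 2 :=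
    mul_le_mul_of_nonneg_left hB2 hG0
  have h2 : n * r ≤ 11 / 10 * (3 / 100 * E) := mul_le_mul hn1 hr hr0 (by norm_num)
  have h3 : (n - r) ^ 2 = n ^ 2 - 2 * (n * r) + r ^ 2 := by ring
  have h4 : (1 + E / 100) ^ 2 * B = ((1 + E / 100) ^ 2 - 1) * B + B := by ring
  have h5 := sq_nonneg r
  rw [h3, h4]
  linarith

theorem near {m y : ℂ} (hm : ‖m‖ < 1) (hy : ‖y - m‖ ≤ (1 - ‖m‖ ^ 2) / 4) :
    ‖y‖ < 1 ∧ (1 - ‖m‖ ^ 2) / 4 ≤ 1 - ‖y‖ ^ 2 ∧ 1 - ‖y‖ ^ 2 ≤ 2 * (1 - ‖m‖ ^ 2) := by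
  have h0 := norm_nonneg m
  have h0' := norm_nonneg y
  have h1 : ‖y‖ ≤ ‖m‖ + (1 - ‖m‖ ^ 2) / 4 := by
    have := norm_le_norm_add_norm_sub' y m
    linarith
  have h2 : ‖m‖ - (1 - ‖m‖ ^ 2) / 4 ≤ ‖y‖ := by
    have := norm_sub_norm_le m y
    rw [norm_sub_rev] at this
    linarith
  have h3 : ‖y‖ < 1 := by nlinarith
  refine ⟨h3, by nlinarith, ?_⟩
  have h4 : 1 - ‖y‖ ≤ (1 - ‖m‖) + (1 - ‖m‖ ^ 2) / 4 := by linarith
  have h5 : 1 + ‖y‖ ≤ 1 + ‖m‖ + (1 - ‖m‖ ^ 2) / 4 := by linarith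
  have h6 : (1 - ‖y‖) * (1 + ‖y‖) ≤
      ((1 - ‖m‖) + (1 - ‖m‖ ^ 2) / 4) * (1 + ‖m‖ + (1 - ‖m‖ ^ 2) / 4) :=
    mul_le_mul h4 h5 (by linarith) (by nlinarith)
  have h7 : 0 ≤ 1 - ‖m‖ ^ 2 := by nlinarith
  have h8 : 1 - ‖m‖ ^ 2 ≤ 1 := by nlinarith
  nlinarith

theorem spread {f : ℂ → ℂ} {K e : ℝ} (hK : 0 < K) (hf : DifferentiableOn ℂ f (ball 0 1))
    (hne : ∀ z ∈ ball (0 : ℂ) 1, deriv f z ≠ 0)
    (hb : ∀ z ∈ ball (0 : ℂ) 1, (1 - ‖z‖ ^ 2) * ‖deriv (deriv f) z‖ ≤ K * ‖deriv f z‖)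
    (he1 : e ≤ 1 / 20) (heK : e ≤ 1 / (6400 * K)) {m : ℂ} (hm : ‖m‖ < 1)
    (hs : (1 - ‖m‖ ^ 2) * ‖deriv (deriv f) m‖ < 1 / 200 * ‖deriv f m‖) {y : ℂ}
    (hy : ‖y - m‖ ≤ e * (1 - ‖m‖ ^ 2)) :
    (1 - ‖m‖ ^ 2) * ‖deriv (deriv f) y‖ ≤ 1 / 100 * ‖deriv f y‖ := by
  set ρ := 1 - ‖m‖ ^ 2 with hρ
  have hρ0 : 0 < ρ := by have := norm_nonneg m; rw [hρ]; nlinarith
  have hf1 : DifferentiableOn ℂ (deriv f) (ball 0 1) := hf.deriv isOpen_ball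
  have hf2 : DifferentiableOn ℂ (deriv (deriv f)) (ball 0 1) := hf1.deriv isOpen_ball
  set φ : ℂ → ℂ := fun z => deriv (deriv f) z / deriv f z with hφ
  have hsub : ball m (ρ / 4) ⊆ ball (0 : ℂ) 1 := fun z hz => by
    rw [mem_ball_zero_iff]
    exact (near hm (by rw [← dist_eq_norm]; exact (mem_ball.1 hz).le)).1
  have hφd : DifferentiableOn ℂ φ (ball m (ρ / 4)) := (hf2.div hf1 hne).mono hsub
  have hφb : ∀ z ∈ ball m (ρ / 4), ‖φ z‖ ≤ 4 * K / ρ := fun z hz => by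
    have h1 := near hm (y := z) (by rw [← dist_eq_norm]; exact (mem_ball.1 hz).le)
    have h2 := hb z (hsub hz)
    have h3 : 0 < ‖deriv f z‖ := norm_pos_iff.2 (hne z (hsub hz))
    simp only [hφ, norm_div]
    rw [div_le_div_iff₀ h3 hρ0]
    have h4 : ρ / 4 * ‖deriv (deriv f) z‖ ≤ (1 - ‖z‖ ^ 2) * ‖deriv (deriv f) z‖ :=
      mul_le_mul_of_nonneg_right h1.2.1 (norm_nonneg _)
    nlinarith
  have hmm : m ∈ ball m (ρ / 4) := mem_ball_self (by positivity)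
  have hmaps : MapsTo φ (ball m (ρ / 4)) (closedBall (φ m) (8 * K / ρ)) := fun z hz => by
    rw [mem_closedBall, dist_eq_norm]
    have := norm_sub_le (φ z) (φ m)
    have h1 := hφb z hz
    have h2 := hφb m hmm
    have h3 : 8 * K / ρ = 4 * K / ρ + 4 * K / ρ := by ring
    linarith
  have hyb : y ∈ ball m (ρ / 4) := by
    rw [mem_ball, dist_eq_norm]
    have : e * ρ ≤ 1 / 20 * ρ := mul_le_mul_of_nonneg_right he1 hρ0.le
    linarith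
  have h1 := Complex.dist_le_div_mul_dist_of_mapsTo_ball hφd hmaps hyb
  rw [dist_eq_norm, dist_eq_norm] at h1
  have h2 : 8 * K / ρ / (ρ / 4) * ‖y - m‖ ≤ 8 * K / ρ / (ρ / 4) * (1 / (6400 * K) * ρ) :=
    mul_le_mul_of_nonneg_left (hy.trans (mul_le_mul_of_nonneg_right heK hρ0.le)) (by positivity)
  have h3 : 8 * K / ρ / (ρ / 4) * (1 / (6400 * K) * ρ) = 1 / 200 / ρ := by
    field_simp
    norm_num
  have hm1 : 0 < ‖deriv f m‖ := norm_pos_iff.2 (hne m (hsub hmm))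
  have hy1 : 0 < ‖deriv f y‖ := norm_pos_iff.2 (hne y (hsub hyb))
  have h4 : ‖φ m‖ ≤ 1 / 200 / ρ := by
    simp only [hφ, norm_div]
    rw [div_le_div_iff₀ hm1 hρ0]
    linarith
  have h5 : ‖φ y‖ ≤ 1 / 100 / ρ := by
    have := norm_le_norm_add_norm_sub' (φ y) (φ m)
    have h6 : 1 / 100 / ρ = 1 / 200 / ρ + 1 / 200 / ρ := by ring
    linarith
  simp only [hφ, norm_div] at h5
  rw [div_le_div_iff₀ hy1 hρ0] at h5
  linarith

theorem taylor {f : ℂ → ℂ} {e : ℝ} (hf : DifferentiableOn ℂ f (ball 0 1))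
    (he0 : 0 < e) (he1 : e ≤ 1 / 20) {m : ℂ} (hm : ‖m‖ < 1)
    (hs : ∀ y, ‖y - m‖ ≤ e * (1 - ‖m‖ ^ 2) →
      (1 - ‖m‖ ^ 2) * ‖deriv (deriv f) y‖ ≤ 1 / 100 * ‖deriv f y‖) {y : ℂ}
    (hy : ‖y - m‖ ≤ e * (1 - ‖m‖ ^ 2)) :
    ‖f y - f m - deriv f m * (y - m)‖ ≤ 1 / 50 * e ^ 2 * (1 - ‖m‖ ^ 2) * ‖deriv f m‖ := by
  set ρ := 1 - ‖m‖ ^ 2 with hρ
  have hρ0 : 0 < ρ := by have := norm_nonneg m; rw [hρ]; nlinarith
  have hf1 : DifferentiableOn ℂ (deriv f) (ball 0 1) := hf.deriv isOpen_ball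
  set D := closedBall m (e * ρ) with hD
  have hmem : ∀ z, z ∈ D ↔ ‖z - m‖ ≤ e * ρ := fun z => by rw [hD, mem_closedBall, dist_eq_norm]
  have hsub : D ⊆ ball (0 : ℂ) 1 := fun z hz => by
    rw [mem_ball_zero_iff]
    refine (near hm ?_).1
    have : e * ρ ≤ 1 / 20 * ρ := mul_le_mul_of_nonneg_right he1 hρ0.le
    have := (hmem z).1 hz
    linarith
  have hmD : m ∈ D := mem_closedBall_self (by positivity)
  obtain ⟨y0, hy0, hmax⟩ := (isCompact_closedBall m (e * ρ)).exists_isMaxOn ⟨m, hmD⟩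
    ((hf1.continuousOn.mono hsub).norm)
  set S := ‖deriv f y0‖ with hS
  have hS0 : 0 ≤ S := norm_nonneg _
  have hb2 : ∀ z ∈ D, ‖deriv (deriv f) z‖ ≤ S / (100 * ρ) := fun z hz => by
    have h1 := hs z ((hmem z).1 hz)
    have h2 : ‖deriv f z‖ ≤ S := hmax hz
    rw [le_div_iff₀ (by positivity)]
    linarith
  have hlip : ∀ z ∈ D, ‖deriv f z - deriv f m‖ ≤ e / 100 * S := fun z hz => by
    have h1 := (convex_closedBall m (e * ρ)).norm_image_sub_le_of_norm_deriv_le (𝕜 := ℂ)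
      (f := deriv f) (fun x hx => hf1.differentiableAt (isOpen_ball.mem_nhds (hsub hx))) hb2 hmD hz
    have h2 : S / (100 * ρ) * ‖z - m‖ ≤ S / (100 * ρ) * (e * ρ) :=
      mul_le_mul_of_nonneg_left ((hmem z).1 hz) (by positivity)
    have h3 : S / (100 * ρ) * (e * ρ) = e / 100 * S := by field_simp
    linarith
  have hS2 : S ≤ 2 * ‖deriv f m‖ := by
    have h1 := hlip y0 hy0
    have h2 := norm_le_norm_add_norm_sub' (deriv f y0) (deriv f m)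
    have h3 : e / 100 * S ≤ 1 / 2 * S := mul_le_mul_of_nonneg_right (by linarith) hS0
    linarith
  have h1 := (convex_closedBall m (e * ρ)).norm_image_sub_le_of_norm_hasDerivWithin_le (𝕜 := ℂ)
    (f := fun z => f z - deriv f m * z) (f' := fun z => deriv f z - deriv f m)
    (fun x hx => by
      have h := ((hf.differentiableAt (isOpen_ball.mem_nhds (hsub hx))).hasDerivAt.sub
        ((hasDerivAt_id x).const_mul (deriv f m))).hasDerivWithinAt (s := closedBall m (e * ρ))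
      rw [mul_one] at h
      exact h) hlip hmD ((hmem y).2 hy)
  have h2 : f y - deriv f m * y - (f m - deriv f m * m) = f y - f m - deriv f m * (y - m) := by ring
  rw [h2] at h1
  have h3 : e / 100 * S * ‖y - m‖ ≤ e / 100 * (2 * ‖deriv f m‖) * (e * ρ) :=
    mul_le_mul (mul_le_mul_of_nonneg_left hS2 (by positivity)) hy (norm_nonneg _) (by positivity)
  calc _ ≤ _ := h1
    _ ≤ _ := h3
    _ = _ := by ring

theorem crit_val {f : ℂ → ℂ} {c : ℝ} (hc : 0 < c) {z : ℂ} (hz : ‖z‖ < 1) :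
    Fw f c (Mm f c z) z = qv f c z := by
  have hρ0 : 0 < 1 - ‖z‖ ^ 2 := by have := norm_nonneg z; nlinarith
  unfold Fw Mm qv
  rw [sub_add_cancel_left, norm_neg, norm_div, norm_mul, norm_mul, norm_mul, Complex.norm_real,
    Complex.norm_real, Complex.norm_conj, Real.norm_eq_abs, Real.norm_eq_abs, abs_of_pos hρ0,
    abs_of_pos hc, Real.rpow_sub hρ0, Real.rpow_one, Complex.norm_ofNat]
  ring

theorem sphere_bd {f : ℂ → ℂ} {c e : ℝ} (hc1 : 7 / 10 ≤ c) (hc2 : c ≤ 3 / 4)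
    (he0 : 0 < e) (he1 : e ≤ 1 / 20) {m : ℂ} (hm : ‖m‖ < 1) (hm0 : m ≠ 0) {y : ℂ}
    (hy : ‖y - m‖ = e * (1 - ‖m‖ ^ 2))
    (ht : ‖f y - f m - deriv f m * (y - m)‖ ≤ 1 / 50 * e ^ 2 * (1 - ‖m‖ ^ 2) * ‖deriv f m‖) :
    (1 + e ^ 2 / 100) * qv f c m ≤ Fw f c (Mm f c m) y := by
  have hc : 0 < c := by linarith
  rw [← crit_val hc hm]
  set ρ := 1 - ‖m‖ ^ 2 with hρ
  have hρ0 : 0 < ρ := by have := norm_nonneg m; rw [hρ]; nlinarith
  have hx0 : 0 < ‖m‖ := norm_pos_iff.2 hm0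
  have hcm : (starRingEnd ℂ) m ≠ 0 := by simpa using hm0
  have hcc : (c : ℂ) ≠ 0 := by exact_mod_cast hc.ne'
  have hρc : (ρ : ℂ) ≠ 0 := by exact_mod_cast hρ0.ne'
  set ξ : ℂ := (y - m) / ρ with hξ
  have hξn : ‖ξ‖ = e := by
    rw [hξ, norm_div, hy, Complex.norm_real, Real.norm_eq_abs, abs_of_pos hρ0]
    field_simp
  have hyξ : y = m + ρ * ξ := by rw [hξ]; field_simp; ring
  set η : ℂ := (starRingEnd ℂ) m * ξ with hη
  have hηn : ‖η‖ = ‖m‖ * e := by rw [hη, norm_mul, Complex.norm_conj, hξn]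
  set a := η.re with ha
  have haa : |a| ≤ ‖m‖ * e := hηn ▸ Complex.abs_re_le_norm η
  set N : ℂ := 1 - 2 * c * η with hN
  have hNn : ‖N‖ ^ 2 = 1 - 4 * c * a + 4 * c ^ 2 * ‖m‖ ^ 2 * e ^ 2 := by
    have h1 : ‖η‖ ^ 2 = η.re ^ 2 + η.im ^ 2 := by
      rw [Complex.sq_norm, Complex.normSq_apply]; ring
    have h2 : ‖N‖ ^ 2 = (1 - 2 * c * η.re) ^ 2 + (2 * c * η.im) ^ 2 := by
      rw [Complex.sq_norm, Complex.normSq_apply, hN]
      simp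
      ring
    rw [hηn] at h1
    rw [h2, ha]
    linear_combination (-4 * c ^ 2) * h1
  have hρy : 1 - ‖y‖ ^ 2 = ρ * (1 - (2 * a + (1 - ‖m‖ ^ 2) * e ^ 2)) := by
    have h1 : ‖y‖ ^ 2 = ‖m‖ ^ 2 + 2 * ρ * a + ρ ^ 2 * ‖ξ‖ ^ 2 := by
      rw [hyξ, Complex.sq_norm, Complex.sq_norm, Complex.sq_norm, Complex.normSq_apply,
        Complex.normSq_apply, Complex.normSq_apply, ha, hη]
      simp
      ring
    rw [h1, hξn, ← hρ]
    linear_combination (-1 : ℝ) * hρ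
  set A : ℝ := ‖deriv f m‖ * ρ / (2 * c * ‖m‖) with hA
  have hA0 : 0 ≤ A := by positivity
  set P : ℂ := deriv f m * (ρ : ℂ) / (2 * (c : ℂ) * (starRingEnd ℂ) m) with hP
  have hPn : ‖P‖ = A := by
    rw [hP, hA, norm_div, norm_mul, norm_mul, norm_mul, Complex.norm_real,
      Complex.norm_real, Complex.norm_conj, Real.norm_eq_abs, Real.norm_eq_abs, abs_of_pos hρ0,
      abs_of_pos hc, Complex.norm_ofNat]
  have hM : Mm f c m = f m + P := rfl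
  have hfm : ‖f m - Mm f c m‖ = A := by rw [hM, sub_add_cancel_left, norm_neg, hPn]
  set r : ℝ := 3 / 100 * e ^ 2 with hr
  have hfy : A * (‖N‖ - r) ≤ ‖f y - Mm f c m‖ := by
    have h1 : f y - Mm f c m = (f y - f m - deriv f m * (y - m)) - P * N := by
      rw [hM, hP, hN, hη, hξ]
      field_simp
      ring
    have h2 : ‖P * N‖ - ‖f y - f m - deriv f m * (y - m)‖ ≤ ‖f y - Mm f c m‖ := by
      rw [h1, norm_sub_rev (f y - f m - deriv f m * (y - m)) (P * N)]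
      exact norm_sub_norm_le _ _
    rw [norm_mul, hPn] at h2
    have h3 : 1 / 50 * e ^ 2 * ρ * ‖deriv f m‖ ≤ A * r := by
      rw [hA, hr, div_mul_eq_mul_div (‖deriv f m‖ * ρ), le_div_iff₀ (by positivity)]
      have h4 : 2 * c * ‖m‖ ≤ 3 / 2 := by nlinarith
      have h5 : 1 / 50 * e ^ 2 * ρ * ‖deriv f m‖ * (2 * c * ‖m‖) ≤
          1 / 50 * e ^ 2 * ρ * ‖deriv f m‖ * (3 / 2) :=
        mul_le_mul_of_nonneg_left h4 (by positivity)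
      nlinarith
    nlinarith
  obtain ⟨hrn, hal⟩ := alg hc1 hc2 hx0.le hm.le he0 he1 haa (norm_nonneg N) hNn
    (r := r) (by positivity) le_rfl
  set u := 2 * a + (1 - ‖m‖ ^ 2) * e ^ 2 with hu
  have hy1 : ‖y‖ < 1 := by
    refine (near hm ?_).1
    have : e * ρ ≤ 1 / 20 * ρ := mul_le_mul_of_nonneg_right he1 hρ0.le
    linarith
  have hρy0 : 0 < 1 - ‖y‖ ^ 2 := by have := norm_nonneg y; nlinarith
  have hu0 : 0 < 1 - u := by
    rw [hρy] at hρy0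
    exact (mul_pos_iff_of_pos_left hρ0).1 hρy0
  have hpow : ((1 - u) ^ c) ^ 2 ≤ (1 - u) * (1 - (2 * c - 1) * u) := by
    have h1 : ((1 - u) ^ c) ^ 2 = (1 - u) * (1 - u) ^ (2 * c - 1) := by
      rw [← Real.rpow_natCast, ← Real.rpow_mul hu0.le, Real.rpow_sub hu0, Real.rpow_one]
      rw [show c * ((2 : ℕ) : ℝ) = 2 * c by push_cast; ring]
      field_simp
    have h2 := rpow_one_add_le_one_add_mul_self (s := -u) (by linarith) (p := 2 * c - 1)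
      (by linarith) (by linarith)
    rw [h1]
    refine mul_le_mul_of_nonneg_left ?_ hu0.le
    simpa [sub_eq_add_neg] using h2
  have hT0 : 0 < (1 - u) ^ c := Real.rpow_pos_of_pos hu0 c
  have hkey : (1 + e ^ 2 / 100) * (1 - u) ^ c ≤ ‖N‖ - r := by
    refine (pow_le_pow_iff_left₀ (by positivity) (by linarith) two_ne_zero).1 ?_
    rw [mul_pow]
    exact (mul_le_mul_of_nonneg_left hpow (by positivity)).trans hal
  unfold Fw
  rw [hfm, hρy, Real.mul_rpow hρ0.le hu0.le, ← hρ]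
  have hρc0 : 0 < ρ ^ c := Real.rpow_pos_of_pos hρ0 c
  rw [le_div_iff₀ (by positivity)]
  have h1 : (1 + e ^ 2 / 100) * (A / ρ ^ c) * (ρ ^ c * (1 - u) ^ c) =
      A * ((1 + e ^ 2 / 100) * (1 - u) ^ c) := by field_simp
  rw [h1]
  exact (mul_le_mul_of_nonneg_left hkey hA0).trans hfy

theorem jd_bd {f : ℂ → ℂ} {c : ℝ} (hc1 : 7 / 10 ≤ c) (hc2 : c ≤ 3 / 4) {y : ℂ} (hy : ‖y‖ < 1)
    (hne : deriv f y ≠ 0)
    (hs : (1 - ‖y‖ ^ 2) * ‖deriv (deriv f) y‖ ≤ 1 / 50 * ‖deriv f y‖) :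
    Jd f c y ≤ -(1 / 2) := by
  have h0 := norm_nonneg y
  have hρ0 : 0 < 1 - ‖y‖ ^ 2 := by nlinarith
  have h1 : 0 < ‖deriv f y‖ := norm_pos_iff.2 hne
  unfold Jd
  have h2 : ‖(((2 * c - 1) * ‖y‖ ^ 2 : ℝ) : ℂ)‖ ≤ 1 / 2 := by
    rw [Complex.norm_real, Real.norm_eq_abs, abs_of_nonneg (by
      have : 0 ≤ 2 * c - 1 := by linarith
      positivity)]
    nlinarith
  have h3 : ‖((1 - ‖y‖ ^ 2 : ℝ) : ℂ) * y * (deriv (deriv f) y / deriv f y)‖ ≤ 1 / 50 := by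
    rw [norm_mul, norm_mul, norm_div, Complex.norm_real, Real.norm_eq_abs, abs_of_pos hρ0,
      ← mul_div_assoc, div_le_iff₀ h1]
    have h4 : (1 - ‖y‖ ^ 2) * ‖y‖ * ‖deriv (deriv f) y‖ ≤
        (1 - ‖y‖ ^ 2) * 1 * ‖deriv (deriv f) y‖ :=
      mul_le_mul_of_nonneg_right (mul_le_mul_of_nonneg_left hy.le hρ0.le) (norm_nonneg _)
    linarith
  have h4 := (norm_add_le _ _).trans (add_le_add h2 h3)
  have h5 := pow_le_pow_left₀ (norm_nonneg _) h4 2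
  linarith

end Crest.Agent.R131.P66

namespace Crest.Agent.R131

open P66 in
theorem persist66 : Persist := by
  intro K hK
  set e : ℝ := min (1 / 20) (1 / (6400 * K)) with he
  have he0 : 0 < e := lt_min (by norm_num) (by positivity)
  have he1 : e ≤ 1 / 20 := min_le_left _ _
  have heK : e ≤ 1 / (6400 * K) := min_le_right _ _
  have hG : 1 < 1 + e ^ 2 / 100 := by have : 0 < e ^ 2 / 100 := by positivity
                                      linarith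
  refine ⟨1 / 200, Real.log (1 + e ^ 2 / 100), by norm_num, Real.log_pos hG, ?_⟩
  intro f c hf hne hb hc1 hc2 m hm hm0 hs
  rw [Real.exp_log (by linarith)]
  have hm1 : ‖m‖ < 1 := mem_ball_zero_iff.1 hm
  have hρ0 : 0 < 1 - ‖m‖ ^ 2 := by have := norm_nonneg m; nlinarith
  have hsp : ∀ y, ‖y - m‖ ≤ e * (1 - ‖m‖ ^ 2) →
      (1 - ‖m‖ ^ 2) * ‖deriv (deriv f) y‖ ≤ 1 / 100 * ‖deriv f y‖ :=
    fun y hy => spread hK hf hne hb he1 heK hm1 hs hy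
  have hJ : ∀ y, ‖y - m‖ ≤ e * (1 - ‖m‖ ^ 2) → Jd f c y ≤ -(1 / 2) := fun y hy => by
    have h1 := near hm1 (y := y) (by
      have : e * (1 - ‖m‖ ^ 2) ≤ 1 / 20 * (1 - ‖m‖ ^ 2) := mul_le_mul_of_nonneg_right he1 hρ0.le
      linarith)
    refine jd_bd hc1 hc2 h1.1 (hne y (mem_ball_zero_iff.2 h1.1)) ?_
    have h2 := hsp y hy
    have h3 : (1 - ‖y‖ ^ 2) * ‖deriv (deriv f) y‖ ≤ 2 * (1 - ‖m‖ ^ 2) * ‖deriv (deriv f) y‖ :=
      mul_le_mul_of_nonneg_right h1.2.2 (norm_nonneg _)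
    linarith
  refine ⟨hJ m (by rw [sub_self, norm_zero]; positivity), ?_⟩
  intro p hp _ hJp hM hjoin
  have hp1 : e * (1 - ‖m‖ ^ 2) ≤ ‖p - m‖ := by
    by_contra h
    have := hJ p (not_le.1 h).le
    linarith
  obtain ⟨γ, hγ⟩ := hjoin
  have hcont : Continuous fun t => ‖γ t - m‖ := by fun_prop
  obtain ⟨t, ht⟩ : e * (1 - ‖m‖ ^ 2) ∈ range fun t => ‖γ t - m‖ := by
    refine intermediate_value_univ 1 0 hcont ⟨?_, ?_⟩
    · simp only [Path.target, sub_self, norm_zero]; positivity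
    · simpa only [Path.source] using hp1
  have h1 := sphere_bd (f := f) hc1 hc2 he0 he1 hm1 hm0 (y := γ t) ht
    (taylor hf he0 he1 hm1 hsp ht.le)
  have h2 := (hγ t).2
  rw [crit_val (by linarith) (mem_ball_zero_iff.1 hp)] at h2
  rw [hM] at h1
  exact h1.trans h2

end Crest.Agent.R131
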