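import Mathlib

/-!
Row 131: the positive range `0 ≤ t < 2/3` of the area integral of `‖f'‖^t`, from a growth bound
(Hardy inequality on rays, area formula for injective maps, Young's inequality).
-/

open MeasureTheory Set Metric Real
open scoped ENNReal

namespace Crest.Agent.R131.Pos45

/-- area formula: `∫ |f'|² (1+|f|²)^{-γ} < ∞` for `γ > 1`. -/
theorem area_fin {f : ℂ → ℂ} (hf : DifferentiableOn ℂ f (ball 0 1)) (hinj : InjOn f (ball 0 1))
    {γ : ℝ} (hγ : 1 < γ) :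
    ∫⁻ z in ball (0:ℂ) 1, ENNReal.ofReal (‖deriv f z‖ ^ 2 * (1 + ‖f z‖ ^ 2) ^ (-γ)) < ⊤ := by
  have hd : ∀ z ∈ ball (0:ℂ) 1, HasFDerivWithinAt f
      ((ContinuousLinearMap.toSpanSingleton ℂ (deriv f z)).restrictScalars ℝ) (ball 0 1) z := by
    intro z hz
    have h1 : HasDerivAt f (deriv f z) z :=
      (hf.differentiableAt (isOpen_ball.mem_nhds hz)).hasDerivAt
    exact (h1.hasFDerivAt.restrictScalars ℝ).hasFDerivWithinAt
  have hdet : ∀ c : ℂ, ((ContinuousLinearMap.toSpanSingleton ℂ c).restrictScalars ℝ).det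
      = ‖c‖ ^ 2 := by
    intro c
    simp [ContinuousLinearMap.det, LinearMap.det_restrictScalars, Algebra.norm_complex_eq,
      Complex.normSq_eq_norm_sq]
  have key := lintegral_image_eq_lintegral_abs_det_fderiv_mul volume measurableSet_ball hd hinj
    (fun w => ENNReal.ofReal ((1 + ‖w‖ ^ 2) ^ (-γ)))
  have hI : Integrable (fun w : ℂ => ((1:ℝ) + ‖w‖ ^ 2) ^ (-(2 * γ) / 2)) volume :=
    integrable_rpow_neg_one_add_norm_sq (by simp; linarith)
  have he : -(2 * γ) / 2 = -γ := by ring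
  rw [he] at hI
  have hfin : ∫⁻ w : ℂ, ENNReal.ofReal ((1 + ‖w‖ ^ 2) ^ (-γ)) < ⊤ := by
    refine lt_of_le_of_lt (lintegral_mono fun w => ?_) hI.2
    exact Real.ofReal_le_enorm _
  calc _ = ∫⁻ x in ball (0:ℂ) 1, ENNReal.ofReal
        |((ContinuousLinearMap.toSpanSingleton ℂ (deriv f x)).restrictScalars ℝ).det|
          * ENNReal.ofReal ((1 + ‖f x‖ ^ 2) ^ (-γ)) := by
        refine lintegral_congr fun z => ?_
        rw [hdet, abs_of_nonneg (by positivity), ENNReal.ofReal_mul (by positivity)]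
    _ = ∫⁻ w in f '' ball 0 1, ENNReal.ofReal ((1 + ‖w‖ ^ 2) ^ (-γ)) := key.symm
    _ ≤ ∫⁻ w : ℂ, ENNReal.ofReal ((1 + ‖w‖ ^ 2) ^ (-γ)) := setLIntegral_le_lintegral _ _
    _ < ⊤ := hfin

/-- Young-type inequality by cases. -/
theorem young {x V γ t : ℝ} (hx : 0 ≤ x) (hV : 0 < V) (ht0 : 0 ≤ t) (ht : t < 2) :
    x ^ t ≤ x ^ 2 * V ^ (-γ) + V ^ (γ * t / (2 - t)) := by
  have h2 : 0 < 2 - t := by linarith
  set x0 := V ^ (γ / (2 - t)) with hx0
  have hx0p : 0 < x0 := Real.rpow_pos_of_pos hV _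
  rcases le_or_gt x x0 with h | h
  · have : x ^ t ≤ V ^ (γ * t / (2 - t)) := by
      calc x ^ t ≤ x0 ^ t := Real.rpow_le_rpow hx h ht0
        _ = V ^ (γ * t / (2 - t)) := by
          rw [hx0, ← Real.rpow_mul hV.le]; congr 1; ring
    have h3 : 0 ≤ x ^ 2 * V ^ (-γ) := by positivity
    linarith
  · have hxp : 0 < x := hx0p.trans h
    have : x ^ t ≤ x ^ 2 * V ^ (-γ) := by
      have e1 : x ^ t = x ^ 2 * x ^ (t - 2) := by
        rw [← Real.rpow_two, ← Real.rpow_add hxp]; congr 1; ring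
      have e2 : x ^ (t - 2) ≤ x0 ^ (t - 2) :=
        Real.rpow_le_rpow_of_nonpos hx0p h.le (by linarith)
      have e3 : x0 ^ (t - 2) = V ^ (-γ) := by
        rw [hx0, ← Real.rpow_mul hV.le]; congr 1; field_simp; ring
      rw [e1, ← e3]
      exact mul_le_mul_of_nonneg_left e2 (by positivity)
    have h3 : 0 ≤ V ^ (γ * t / (2 - t)) := by positivity
    linarith

/-- the half-open annulus `1/2 < |z| < 1`. -/
def Ann : Set ℂ := {z | 1 / 2 < ‖z‖ ∧ ‖z‖ < 1}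

theorem isOpen_Ann : IsOpen Ann :=
  (isOpen_lt continuous_const continuous_norm).inter (isOpen_lt continuous_norm continuous_const)

theorem Ann_sub : Ann ⊆ ball (0:ℂ) 1 := fun z hz => by simpa using hz.2

theorem polar_ann (g : ℂ → ℝ) (hg : ContinuousOn g Ann) :
    ∫⁻ z in Ann, ENNReal.ofReal (g z) = ∫⁻ θ in Ioo (-π) π, ∫⁻ r in Ioo (1 / 2 : ℝ) 1,
      ENNReal.ofReal r * ENNReal.ofReal (g (Complex.polarCoord.symm (r, θ))) := by
  have hS : MeasurableSet (Ioo (1 / 2 : ℝ) 1 ×ˢ Ioo (-π) π) := measurableSet_Ioo.prod measurableSet_Ioo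
  have hmem : ∀ p : ℝ × ℝ, p ∈ Ioo (1 / 2 : ℝ) 1 ×ˢ Ioo (-π) π →
      Complex.polarCoord.symm p ∈ Ann := by
    intro p hp
    have h0 : 0 < p.1 := lt_trans (by norm_num) hp.1.1
    have : ‖Complex.polarCoord.symm p‖ = p.1 := by
      rw [Complex.norm_polarCoord_symm, abs_of_pos h0]
    exact ⟨this ▸ hp.1.1, this ▸ hp.1.2⟩
  rw [← lintegral_indicator isOpen_Ann.measurableSet, ← Complex.lintegral_comp_polarCoord_symm]
  have e1 : ∫⁻ p in polarCoord.target, ENNReal.ofReal p.1 •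
      Ann.indicator (fun z => ENNReal.ofReal (g z)) (Complex.polarCoord.symm p)
      = ∫⁻ p in Ioo (1 / 2 : ℝ) 1 ×ˢ Ioo (-π) π,
        ENNReal.ofReal p.1 * ENNReal.ofReal (g (Complex.polarCoord.symm p)) := by
    rw [← lintegral_indicator hS, ← lintegral_indicator polarCoord.open_target.measurableSet]
    refine lintegral_congr fun p => ?_
    by_cases hp : p ∈ Ioo (1 / 2 : ℝ) 1 ×ˢ Ioo (-π) π
    · have ht : p ∈ polarCoord.target := ⟨lt_trans (by norm_num : (0:ℝ) < 1 / 2) hp.1.1, hp.2⟩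
      rw [indicator_of_mem ht, indicator_of_mem hp, indicator_of_mem (hmem p hp), smul_eq_mul]
    · rw [indicator_of_notMem hp]
      by_cases ht : p ∈ polarCoord.target
      · rw [indicator_of_mem ht, indicator_of_notMem, smul_zero]
        intro hA
        have h0 : 0 < p.1 := ht.1
        have : ‖Complex.polarCoord.symm p‖ = p.1 := by
          rw [Complex.norm_polarCoord_symm, abs_of_pos h0]
        exact hp ⟨⟨this ▸ hA.1, this ▸ hA.2⟩, ht.2⟩
      · rw [indicator_of_notMem ht]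
  rw [e1, Measure.volume_eq_prod, ← Measure.prod_restrict, lintegral_prod_symm]
  rw [Measure.prod_restrict]
  have hc : Continuous (fun p : ℝ × ℝ => Complex.polarCoord.symm p) := by
    simp only [Complex.polarCoord_symm_apply]
    fun_prop
  have h1 : ContinuousOn (fun p : ℝ × ℝ => g (Complex.polarCoord.symm p))
      (Ioo (1 / 2 : ℝ) 1 ×ˢ Ioo (-π) π) := hg.comp hc.continuousOn hmem
  exact (measurable_fst.ennreal_ofReal.aemeasurable).mul
    ((h1.aemeasurable hS).ennreal_ofReal)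

/-- Hardy inequality on a ray, real form. -/
theorem hardy_real {f : ℂ → ℂ} (hf : DifferentiableOn ℂ f (ball 0 1)) {e : ℂ} (he : ‖e‖ = 1)
    {p : ℝ} (hp : 0 ≤ p) {b : ℝ} (hb : 1 / 2 ≤ b) (hb1 : b < 1) :
    ∫ r in (1 / 2 : ℝ)..b, (1 + ‖f (r * e)‖ ^ 2) ^ p ≤ (1 + ‖f (((1 / 2 : ℝ) : ℂ) * e)‖ ^ 2) ^ p
      + ∫ r in (1 / 2 : ℝ)..b, 4 * p ^ 2 * ((1 - r) ^ 2 * (1 + ‖f (r * e)‖ ^ 2) ^ (p - 1)
        * ‖deriv f (r * e)‖ ^ 2) := by
  have hin : ∀ r ∈ Icc (1 / 2 : ℝ) b, (r : ℂ) * e ∈ ball (0:ℂ) 1 := by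
    intro r hr
    have : 0 ≤ r := le_trans (by norm_num) hr.1
    simp only [mem_ball, dist_zero_right, norm_mul, Complex.norm_real, he, mul_one,
      Real.norm_eq_abs, abs_of_nonneg this]
    exact lt_of_le_of_lt hr.2 hb1
  have hline : Continuous (fun r : ℝ => (r : ℂ) * e) := by fun_prop
  have hfc : ContinuousOn (fun r : ℝ => f (r * e)) (Icc (1 / 2 : ℝ) b) :=
    hf.continuousOn.comp hline.continuousOn hin
  have hdc : ContinuousOn (fun r : ℝ => deriv f (r * e)) (Icc (1 / 2 : ℝ) b) :=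
    (hf.deriv isOpen_ball).continuousOn.comp hline.continuousOn hin
  have hVc : ContinuousOn (fun r : ℝ => 1 + ‖f (r * e)‖ ^ 2) (Icc (1 / 2 : ℝ) b) :=
    continuousOn_const.add (hfc.norm.pow 2)
  have hGc : ∀ q : ℝ, ContinuousOn (fun r : ℝ => (1 + ‖f (r * e)‖ ^ 2) ^ q) (Icc (1 / 2 : ℝ) b) :=
    fun q => hVc.rpow_const fun r _ => Or.inl (by positivity)
  set D : ℝ → ℝ := fun r => 2 * inner ℝ (f (r * e)) (deriv f (r * e) * e) with hD
  have hDc : ContinuousOn D (Icc (1 / 2 : ℝ) b) :=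
    continuousOn_const.mul (ContinuousOn.inner (𝕜 := ℝ) hfc (hdc.mul continuousOn_const))
  have hder : ∀ r ∈ Icc (1 / 2 : ℝ) b, HasDerivAt
      (fun r : ℝ => (1 - r) * (1 + ‖f (r * e)‖ ^ 2) ^ p)
      (-(1 + ‖f (r * e)‖ ^ 2) ^ p + (1 - r) * (D r * p * (1 + ‖f (r * e)‖ ^ 2) ^ (p - 1))) r := by
    intro r hr
    have h1 : HasDerivAt f (deriv f (r * e)) (r * e) :=
      (hf.differentiableAt (isOpen_ball.mem_nhds (hin r hr))).hasDerivAt
    have h2 : HasDerivAt (fun z : ℂ => z * e) e (r : ℂ) := by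
      simpa using (hasDerivAt_id (r : ℂ)).mul_const e
    have h3 : HasDerivAt (fun r : ℝ => f (r * e)) (deriv f (r * e) * e) r :=
      (h1.comp (r : ℂ) h2).comp_ofReal
    have h4 : HasDerivAt (fun r : ℝ => 1 + ‖f (r * e)‖ ^ 2) (D r) r := by
      simpa [hD] using h3.norm_sq.const_add 1
    have h5 := h4.rpow_const (p := p) (Or.inl (by positivity))
    have h6 : HasDerivAt (fun r : ℝ => 1 - r) (-1) r := by
      simpa using (hasDerivAt_id r).const_sub 1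
    have := h6.mul h5
    refine this.congr_deriv ?_
    ring
  have hU : uIcc (1 / 2 : ℝ) b = Icc (1 / 2) b := uIcc_of_le hb
  have hc1 : ContinuousOn (fun r : ℝ => -(1 + ‖f (r * e)‖ ^ 2) ^ p
      + (1 - r) * (D r * p * (1 + ‖f (r * e)‖ ^ 2) ^ (p - 1))) (Icc (1 / 2 : ℝ) b) :=
    (hGc p).neg.add ((continuousOn_const.sub continuousOn_id).mul
      ((hDc.mul continuousOn_const).mul (hGc _)))
  have hK : ContinuousOn (fun r : ℝ => 4 * p ^ 2 * ((1 - r) ^ 2 * (1 + ‖f (r * e)‖ ^ 2) ^ (p - 1)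
        * ‖deriv f (r * e)‖ ^ 2)) (Icc (1 / 2 : ℝ) b) :=
    continuousOn_const.mul ((((continuousOn_const.sub continuousOn_id).pow 2).mul (hGc _)).mul
      (hdc.norm.pow 2))
  have ftc := intervalIntegral.integral_eq_sub_of_hasDerivAt (fun r hr => hder r (hU ▸ hr))
    ((hU ▸ hc1).intervalIntegrable)
  have hi1 : IntervalIntegrable (fun r : ℝ => (1 + ‖f (r * e)‖ ^ 2) ^ p) volume (1 / 2) b :=
    (hU ▸ hGc p).intervalIntegrable
  have hi2 := (hU ▸ hK : ContinuousOn _ (uIcc (1 / 2 : ℝ) b)).intervalIntegrable (μ := volume)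
  have hmono : ∫ r in (1 / 2 : ℝ)..b, (-(1 + ‖f (r * e)‖ ^ 2) ^ p
      + (1 - r) * (D r * p * (1 + ‖f (r * e)‖ ^ 2) ^ (p - 1)))
      ≤ ∫ r in (1 / 2 : ℝ)..b, ((-1 / 2) * (1 + ‖f (r * e)‖ ^ 2) ^ p
        + (1 / 2) * (4 * p ^ 2 * ((1 - r) ^ 2 * (1 + ‖f (r * e)‖ ^ 2) ^ (p - 1)
        * ‖deriv f (r * e)‖ ^ 2))) := by
    refine intervalIntegral.integral_mono_on hb ((hU ▸ hc1).intervalIntegrable)
      ((hi1.const_mul _).add (hi2.const_mul _)) fun r hr => ?_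
    set a := ‖f (r * e)‖ with ha
    set d := ‖deriv f (r * e)‖ with hd
    have hV : 0 < 1 + a ^ 2 := by positivity
    have hDle : D r ≤ 2 * (a * d) := by
      have := real_inner_le_norm (f (r * e)) (deriv f (r * e) * e)
      rw [norm_mul, he, mul_one] at this
      simp only [hD]; linarith
    have hW : 0 < (1 + a ^ 2) ^ (p - 1) := Real.rpow_pos_of_pos hV _
    have hpe : (1 + a ^ 2) ^ p = (1 + a ^ 2) * (1 + a ^ 2) ^ (p - 1) := by
      rw [Real.rpow_sub_one hV.ne']; field_simp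
    have hr1 : 0 ≤ 1 - r := by linarith [hr.2]
    rw [hpe]
    set W := (1 + a ^ 2) ^ (p - 1)
    have h7 : (1 - r) * (D r * p) ≤ (1 + a ^ 2) / 2 + 2 * p ^ 2 * ((1 - r) ^ 2 * d ^ 2) := by
      have h8 : (1 - r) * (D r * p) ≤ (1 - r) * (2 * (a * d) * p) :=
        mul_le_mul_of_nonneg_left (mul_le_mul_of_nonneg_right hDle hp) hr1
      nlinarith [sq_nonneg (a - 2 * p * (1 - r) * d)]
    have h9 := mul_le_mul_of_nonneg_right h7 hW.le
    nlinarith
  rw [ftc, intervalIntegral.integral_add (hi1.const_mul _) (hi2.const_mul _),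
    intervalIntegral.integral_const_mul, intervalIntegral.integral_const_mul] at hmono
  have h10 : 0 ≤ (1 - b) * (1 + ‖f (b * e)‖ ^ 2) ^ p :=
    mul_nonneg (by linarith) (by positivity)
  linarith

/-- Hardy inequality on a ray, `lintegral` form on `(1/2, 1)`. -/
theorem hardy_lin {f : ℂ → ℂ} (hf : DifferentiableOn ℂ f (ball 0 1)) {e : ℂ} (he : ‖e‖ = 1)
    {p : ℝ} (hp : 0 ≤ p) :
    ∫⁻ r in Ioo (1 / 2 : ℝ) 1, ENNReal.ofReal ((1 + ‖f (r * e)‖ ^ 2) ^ p)
      ≤ ENNReal.ofReal ((1 + ‖f (((1 / 2 : ℝ) : ℂ) * e)‖ ^ 2) ^ p)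
      + ∫⁻ r in Ioo (1 / 2 : ℝ) 1, ENNReal.ofReal (4 * p ^ 2 * ((1 - r) ^ 2
        * (1 + ‖f (r * e)‖ ^ 2) ^ (p - 1) * ‖deriv f (r * e)‖ ^ 2)) := by
  set b : ℕ → ℝ := fun n => 1 - 1 / ((n:ℝ) + 2) with hb
  have hb1 : ∀ n, b n < 1 := fun n => by
    have : 0 < 1 / ((n:ℝ) + 2) := by positivity
    simp only [hb]; linarith
  have hb0 : ∀ n, 1 / 2 ≤ b n := fun n => by
    have : 1 / ((n:ℝ) + 2) ≤ 1 / 2 :=
      one_div_le_one_div_of_le (by norm_num) (by linarith [(Nat.cast_nonneg n : (0:ℝ) ≤ n)])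
    simp only [hb]; linarith
  have hmono : Monotone b := fun m n hmn => by
    have : 1 / ((n:ℝ) + 2) ≤ 1 / ((m:ℝ) + 2) :=
      one_div_le_one_div_of_le (by positivity) (by simpa using hmn)
    simp only [hb]; linarith
  have hU : Ioo (1 / 2 : ℝ) 1 = ⋃ n, Ioc (1 / 2) (b n) := by
    ext x
    simp only [mem_Ioo, mem_iUnion, mem_Ioc]
    constructor
    · rintro ⟨h1, h2⟩
      obtain ⟨n, hn⟩ := exists_nat_one_div_lt (show 0 < 1 - x by linarith)
      refine ⟨n, h1, ?_⟩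
      have : 1 / ((n:ℝ) + 2) ≤ 1 / ((n:ℝ) + 1) :=
        one_div_le_one_div_of_le (by positivity) (by linarith)
      simp only [hb]; linarith
    · rintro ⟨n, h1, h2⟩
      exact ⟨h1, lt_of_le_of_lt h2 (hb1 n)⟩
  conv_lhs => rw [hU]
  rw [setLIntegral_iUnion_of_directed _
    (Monotone.directed_le (fun m n hmn => Ioc_subset_Ioc_right (hmono hmn)))]
  refine iSup_le fun n => ?_
  have hin : ∀ r ∈ Icc (1 / 2 : ℝ) (b n), (r : ℂ) * e ∈ ball (0:ℂ) 1 := by
    intro r hr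
    have : 0 ≤ r := le_trans (by norm_num) hr.1
    simp only [mem_ball, dist_zero_right, norm_mul, Complex.norm_real, he, mul_one,
      Real.norm_eq_abs, abs_of_nonneg this]
    exact lt_of_le_of_lt hr.2 (hb1 n)
  have hline : Continuous (fun r : ℝ => (r : ℂ) * e) := by fun_prop
  have hfc : ContinuousOn (fun r : ℝ => f (r * e)) (Icc (1 / 2 : ℝ) (b n)) :=
    hf.continuousOn.comp hline.continuousOn hin
  have hdc : ContinuousOn (fun r : ℝ => deriv f (r * e)) (Icc (1 / 2 : ℝ) (b n)) :=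
    (hf.deriv isOpen_ball).continuousOn.comp hline.continuousOn hin
  have hVc : ContinuousOn (fun r : ℝ => 1 + ‖f (r * e)‖ ^ 2) (Icc (1 / 2 : ℝ) (b n)) :=
    continuousOn_const.add (hfc.norm.pow 2)
  have hGc : ∀ q : ℝ, ContinuousOn (fun r : ℝ => (1 + ‖f (r * e)‖ ^ 2) ^ q)
      (Icc (1 / 2 : ℝ) (b n)) :=
    fun q => hVc.rpow_const fun r _ => Or.inl (by positivity)
  have hK : ContinuousOn (fun r : ℝ => 4 * p ^ 2 * ((1 - r) ^ 2 * (1 + ‖f (r * e)‖ ^ 2) ^ (p - 1)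
        * ‖deriv f (r * e)‖ ^ 2)) (Icc (1 / 2 : ℝ) (b n)) :=
    continuousOn_const.mul ((((continuousOn_const.sub continuousOn_id).pow 2).mul (hGc _)).mul
      (hdc.norm.pow 2))
  have i1 : IntegrableOn (fun r : ℝ => (1 + ‖f (r * e)‖ ^ 2) ^ p) (Ioc (1 / 2 : ℝ) (b n)) :=
    ((hGc p).integrableOn_Icc).mono_set Ioc_subset_Icc_self
  have i2 := (hK.integrableOn_Icc (μ := volume)).mono_set (Ioc_subset_Icc_self)
  have H := hardy_real hf he hp (hb0 n) (hb1 n)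
  rw [intervalIntegral.integral_of_le (hb0 n), intervalIntegral.integral_of_le (hb0 n)] at H
  rw [← ofReal_integral_eq_lintegral_ofReal i1 (Filter.Eventually.of_forall fun r => by positivity)]
  refine (ENNReal.ofReal_le_ofReal H).trans (ENNReal.ofReal_add_le.trans ?_)
  rw [ofReal_integral_eq_lintegral_ofReal i2 (Filter.Eventually.of_forall fun r => by positivity)]
  exact add_le_add le_rfl
    (lintegral_mono_set fun x hx => ⟨hx.1, lt_of_le_of_lt hx.2 (hb1 n)⟩)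

theorem V_cont {f : ℂ → ℂ} (hf : DifferentiableOn ℂ f (ball 0 1)) (q : ℝ) :
    ContinuousOn (fun z : ℂ => (1 + ‖f z‖ ^ 2) ^ q) (ball 0 1) := by
  have hVc : ContinuousOn (fun z : ℂ => 1 + ‖f z‖ ^ 2) (ball 0 1) :=
    continuousOn_const.add (hf.continuousOn.norm.pow 2)
  exact hVc.rpow_const fun r _ => Or.inl (by positivity)

/-- `∫_D (1+|f|²)^p < ∞` for `p < 1/2`, from the growth bound. -/
theorem pow_fin {f : ℂ → ℂ} (hf : DifferentiableOn ℂ f (ball 0 1)) (hinj : InjOn f (ball 0 1))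
    (hg : ∀ k : ℝ, 2 < k → ∃ C : ℝ, ∀ z ∈ ball (0:ℂ) 1,
      (1 - ‖z‖) ^ k * (1 + ‖f z‖ ^ 2) ^ (1 / 2 : ℝ) ≤ C)
    {p : ℝ} (hp : 0 ≤ p) (hp2 : p < 1 / 2) :
    ∫⁻ z in ball (0:ℂ) 1, ENNReal.ofReal ((1 + ‖f z‖ ^ 2) ^ p) < ⊤ := by
  set κ : ℝ := (p + 1 / 2) / 2 with hκ
  have hκ0 : 0 < κ := by simp only [hκ]; linarith
  have hκp : p < κ := by simp only [hκ]; linarith
  have hκ2 : κ < 1 / 2 := by simp only [hκ]; linarith
  obtain ⟨C, hC⟩ := hg (1 / κ) (by rw [lt_div_iff₀ hκ0]; linarith)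
  have hGc : ∀ q : ℝ, ContinuousOn (fun z : ℂ => (1 + ‖f z‖ ^ 2) ^ q) (ball 0 1) := fun q =>
    V_cont hf q
  obtain ⟨B, hB⟩ := (isCompact_closedBall (0:ℂ) (1 / 2)).exists_bound_of_continuousOn
    ((hGc p).mono (closedBall_subset_ball (by norm_num)))
  have hB' : ∀ z ∈ closedBall (0:ℂ) (1 / 2), (1 + ‖f z‖ ^ 2) ^ p ≤ B := fun z hz =>
    le_trans (le_abs_self _) (hB z hz)
  have hsub : ball (0:ℂ) 1 ⊆ closedBall 0 (1 / 2) ∪ Ann := by
    intro z hz
    rcases le_or_gt ‖z‖ (1 / 2) with h | h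
    · exact Or.inl (by simpa using h)
    · exact Or.inr ⟨h, by simpa using hz⟩
  refine lt_of_le_of_lt ((lintegral_mono_set hsub).trans (lintegral_union_le _ _ _)) ?_
  refine ENNReal.add_lt_top.2 ⟨?_, ?_⟩
  · calc _ ≤ ∫⁻ _ in closedBall (0:ℂ) (1 / 2), ENNReal.ofReal B :=
          setLIntegral_mono' measurableSet_closedBall fun z hz => ENNReal.ofReal_le_ofReal (hB' z hz)
      _ < ⊤ := by
          rw [setLIntegral_const]
          exact ENNReal.mul_lt_top ENNReal.ofReal_lt_top measure_closedBall_lt_top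
  · set K : ℂ → ℝ := fun z => 8 * p ^ 2 * ((1 - ‖z‖) ^ 2 * (1 + ‖f z‖ ^ 2) ^ (p - 1)
        * ‖deriv f z‖ ^ 2) with hK
    have hKc : ContinuousOn K Ann :=
      continuousOn_const.mul ((((continuousOn_const.sub continuous_norm.continuousOn).pow 2).mul
        ((hGc _).mono Ann_sub)).mul
        ((((hf.deriv isOpen_ball).continuousOn.mono Ann_sub).norm).pow 2))
    have hKfin : ∫⁻ z in Ann, ENNReal.ofReal (K z) < ⊤ := by
      have hA := area_fin hf hinj (γ := 1 + κ - p) (by linarith)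
      have hle : ∀ z ∈ Ann, ENNReal.ofReal (K z) ≤ ENNReal.ofReal (8 * p ^ 2 * C ^ (2 * κ)) *
          ENNReal.ofReal (‖deriv f z‖ ^ 2 * (1 + ‖f z‖ ^ 2) ^ (-(1 + κ - p))) := by
        intro z hz
        have hV : 0 < 1 + ‖f z‖ ^ 2 := by positivity
        have h1 : 0 < 1 - ‖z‖ := by linarith [hz.2]
        have h2 := hC z (Ann_sub hz)
        have h3 : ((1 - ‖z‖) ^ (1 / κ) * (1 + ‖f z‖ ^ 2) ^ (1 / 2 : ℝ)) ^ (2 * κ) ≤ C ^ (2 * κ) :=
          Real.rpow_le_rpow (by positivity) h2 (by positivity)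
        have h4 : ((1 - ‖z‖) ^ (1 / κ) * (1 + ‖f z‖ ^ 2) ^ (1 / 2 : ℝ)) ^ (2 * κ)
            = (1 - ‖z‖) ^ 2 * (1 + ‖f z‖ ^ 2) ^ κ := by
          have e1 : 1 / κ * (2 * κ) = 2 := by field_simp
          have e2 : 1 / 2 * (2 * κ) = κ := by ring
          rw [Real.mul_rpow (by positivity) (by positivity), ← Real.rpow_mul h1.le,
            ← Real.rpow_mul hV.le, e1, e2, Real.rpow_two]
        have h5 : (1 + ‖f z‖ ^ 2) ^ (p - 1)
            = (1 + ‖f z‖ ^ 2) ^ κ * (1 + ‖f z‖ ^ 2) ^ (-(1 + κ - p)) := by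
          rw [← Real.rpow_add hV]; congr 1; ring
        have hC0 : 0 ≤ C ^ (2 * κ) := le_trans (by positivity) h3
        rw [← ENNReal.ofReal_mul (by positivity)]
        refine ENNReal.ofReal_le_ofReal ?_
        rw [h4] at h3
        simp only [hK]
        rw [h5]
        have h6 : 0 ≤ 8 * p ^ 2 * (‖deriv f z‖ ^ 2 * (1 + ‖f z‖ ^ 2) ^ (-(1 + κ - p))) := by
          positivity
        nlinarith [mul_le_mul_of_nonneg_left h3 h6]
      calc _ ≤ ∫⁻ z in Ann, ENNReal.ofReal (8 * p ^ 2 * C ^ (2 * κ)) *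
          ENNReal.ofReal (‖deriv f z‖ ^ 2 * (1 + ‖f z‖ ^ 2) ^ (-(1 + κ - p))) :=
            setLIntegral_mono' isOpen_Ann.measurableSet hle
        _ = ENNReal.ofReal (8 * p ^ 2 * C ^ (2 * κ)) * ∫⁻ z in Ann,
          ENNReal.ofReal (‖deriv f z‖ ^ 2 * (1 + ‖f z‖ ^ 2) ^ (-(1 + κ - p))) :=
            lintegral_const_mul' _ _ ENNReal.ofReal_ne_top
        _ < ⊤ := ENNReal.mul_lt_top ENNReal.ofReal_lt_top
            (lt_of_le_of_lt (lintegral_mono_set Ann_sub) hA)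
    rw [polar_ann K hKc] at hKfin
    rw [polar_ann _ ((hGc p).mono Ann_sub)]
    have hθ : ∀ θ : ℝ, ∫⁻ r in Ioo (1 / 2 : ℝ) 1, ENNReal.ofReal r *
        ENNReal.ofReal ((1 + ‖f (Complex.polarCoord.symm (r, θ))‖ ^ 2) ^ p)
        ≤ ENNReal.ofReal B + ∫⁻ r in Ioo (1 / 2 : ℝ) 1, ENNReal.ofReal r *
          ENNReal.ofReal (K (Complex.polarCoord.symm (r, θ))) := by
      intro θ
      set e : ℂ := Real.cos θ + Real.sin θ * Complex.I with he
      have hen : ‖e‖ = 1 := by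
        have := Complex.norm_polarCoord_symm (1, θ)
        rw [Complex.polarCoord_symm_apply] at this
        simpa only [Complex.ofReal_one, one_mul, abs_one] using this
      have hps : ∀ r : ℝ, Complex.polarCoord.symm (r, θ) = r * e := fun r =>
        Complex.polarCoord_symm_apply (r, θ)
      simp only [hps]
      calc _ ≤ ∫⁻ r in Ioo (1 / 2 : ℝ) 1, ENNReal.ofReal ((1 + ‖f (r * e)‖ ^ 2) ^ p) := by
            refine setLIntegral_mono' measurableSet_Ioo fun r hr => ?_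
            exact mul_le_of_le_one_left' (ENNReal.ofReal_le_one.2 hr.2.le)
        _ ≤ _ := (hardy_lin hf hen hp).trans ?_
      refine add_le_add (ENNReal.ofReal_le_ofReal (hB' _ ?_)) ?_
      · simp [hen]
      · refine setLIntegral_mono' measurableSet_Ioo fun r hr => ?_
        have h0 : 0 < r := lt_trans (by norm_num) hr.1
        have hn : ‖(r : ℂ) * e‖ = r := by
          rw [norm_mul, hen, mul_one, Complex.norm_real, Real.norm_eq_abs, abs_of_pos h0]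
        rw [← ENNReal.ofReal_mul h0.le]
        refine ENNReal.ofReal_le_ofReal ?_
        simp only [hK, hn]
        have h7 : 0 ≤ 4 * p ^ 2 * ((1 - r) ^ 2 * (1 + ‖f (r * e)‖ ^ 2) ^ (p - 1)
          * ‖deriv f (r * e)‖ ^ 2) := by positivity
        nlinarith [hr.1]
    refine lt_of_le_of_lt (lintegral_mono hθ) ?_
    rw [lintegral_add_left measurable_const, setLIntegral_const]
    exact ENNReal.add_lt_top.2 ⟨ENNReal.mul_lt_top ENNReal.ofReal_lt_top measure_Ioo_lt_top, hKfin⟩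

/-- The positive range of S0176 from the growth bound. -/
theorem pos_of_grow {f : ℂ → ℂ} (hf : DifferentiableOn ℂ f (ball 0 1))
    (hinj : InjOn f (ball 0 1))
    (hg : ∀ k : ℝ, 2 < k → ∃ C : ℝ, ∀ z ∈ ball (0:ℂ) 1,
      (1 - ‖z‖) ^ k * (1 + ‖f z‖ ^ 2) ^ (1 / 2 : ℝ) ≤ C)
    {t : ℝ} (ht0 : 0 ≤ t) (ht : t < 2 / 3) :
    ∫⁻ w in ball (0:ℂ) 1, ‖deriv f w‖ₑ ^ t < ⊤ := by
  have h2 : 0 < 2 - t := by linarith
  set τ : ℝ := t / (2 - t) with hτ
  have hτ0 : 0 ≤ τ := by positivity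
  have hτ2 : τ < 1 / 2 := by rw [hτ, div_lt_iff₀ h2]; linarith
  set γ : ℝ := 1 / (τ + 1 / 2) with hγ
  have hγ1 : 1 < γ := by rw [hγ, lt_div_iff₀ (by positivity)]; linarith
  have hp : γ * t / (2 - t) = τ / (τ + 1 / 2) := by
    rw [mul_div_assoc, ← hτ, hγ]; ring
  have hp0 : 0 ≤ γ * t / (2 - t) := by rw [hp]; positivity
  have hp2 : γ * t / (2 - t) < 1 / 2 := by rw [hp, div_lt_iff₀ (by positivity)]; linarith
  have hA := area_fin hf hinj hγ1
  have hB := pow_fin hf hinj hg hp0 hp2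
  have hm : AEMeasurable (fun z : ℂ => ENNReal.ofReal ((1 + ‖f z‖ ^ 2) ^ (γ * t / (2 - t))))
      (volume.restrict (ball (0:ℂ) 1)) :=
    ((V_cont hf _).aemeasurable measurableSet_ball).ennreal_ofReal
  refine lt_of_le_of_lt ?_ (ENNReal.add_lt_top.2 ⟨hA, hB⟩)
  rw [← lintegral_add_right' _ hm]
  refine lintegral_mono fun z => ?_
  rw [← ofReal_norm, ENNReal.ofReal_rpow_of_nonneg (norm_nonneg _) ht0,
    ← ENNReal.ofReal_add (by positivity) (by positivity)]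
  exact ENNReal.ofReal_le_ofReal (young (norm_nonneg _) (by positivity) ht0 (by linarith))

end Crest.Agent.R131.Pos45
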