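import Mathlib
import Crest.Agent.Lib.RMT.Basic

/-!
Row 131: the range `0 ≤ t < 2/3` of the area integrability of `‖f'‖ ^ t` follows from the range
`-2 < t < 0`, applied to `1 / (f - w₀)` for an omitted value `w₀`.
-/

open Set Filter Metric MeasureTheory
open scoped Topology ENNReal

namespace Crest.Agent.R131.Pos89

/-- An injective holomorphic map of the unit disc omits a value. -/
theorem pos_exists_omitted {f : ℂ → ℂ} (hf : DifferentiableOn ℂ f (ball 0 1))
    (hinj : InjOn f (ball 0 1)) : ∃ w : ℂ, ∀ z ∈ ball (0 : ℂ) 1, f z ≠ w := by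
  by_contra hcon
  push Not at hcon
  have hd : Differentiable ℂ (Function.invFunOn f (ball 0 1)) := by
    intro w
    obtain ⟨z, hz, rfl⟩ := hcon w
    exact (Lib.RMT.hasStrictDerivAt_invFunOn isOpen_ball hf hinj hz).hasDerivAt.differentiableAt
  have hb : Bornology.IsBounded (range (Function.invFunOn f (ball 0 1))) := by
    refine (isBounded_ball (x := (0 : ℂ)) (r := 1)).subset ?_
    rintro _ ⟨w, rfl⟩
    obtain ⟨z, hz, hw⟩ := hcon w
    exact Function.invFunOn_mem ⟨z, hz, hw⟩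
  have h0 : (0 : ℂ) ∈ ball (0 : ℂ) 1 := mem_ball_self one_pos
  have h1 : (1 / 2 : ℂ) ∈ ball (0 : ℂ) 1 := by
    simp only [mem_ball, dist_zero_right]
    norm_num
  have h := hd.apply_eq_apply_of_bounded hb (f 0) (f (1 / 2))
  rw [hinj.leftInvOn_invFunOn h0, hinj.leftInvOn_invFunOn h1] at h
  norm_num at h

/-- The pointwise inequality. -/
theorem pos_pointwise {a b t th s r : ℝ} (ha : 0 < a) (hb : 0 < b) (ht : 0 ≤ t) (ht2 : t ≤ 2)
    (hth0 : 0 ≤ th) (hth1 : th ≤ 1) (hr : 0 ≤ r) (hs : s * (1 - th) = 2 * th - t)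
    (hrth : r * th = 2 * (2 * th - t)) :
    a ^ t ≤ 1 + 2 ^ r * (a ^ 2 * (1 + b) ^ (-r)) + (a / b ^ 2) ^ (-s) := by
  have hY : 0 ≤ (a / b ^ 2) ^ (-s) := by positivity
  rcases lt_or_ge b 1 with hb1 | hb1
  · have h1 : a ^ t ≤ 1 + a ^ 2 := by
      rcases le_total a 1 with h | h
      · have := Real.rpow_le_one ha.le h ht
        nlinarith [sq_nonneg a]
      · have := Real.rpow_le_rpow_of_exponent_le h ht2
        rw [Real.rpow_two] at this
        linarith
    have h2 : 1 ≤ 2 ^ r * (1 + b) ^ (-r) := by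
      rw [Real.rpow_neg (by positivity), ← div_eq_mul_inv, one_le_div (by positivity)]
      exact Real.rpow_le_rpow (by positivity) (by linarith) hr
    have h3 : a ^ 2 ≤ 2 ^ r * (a ^ 2 * (1 + b) ^ (-r)) := by
      have := mul_le_mul_of_nonneg_left h2 (sq_nonneg a)
      nlinarith
    linarith
  · have hX : 0 ≤ a ^ 2 * b ^ (-r) := by positivity
    have hid : a ^ t = (a ^ 2 * b ^ (-r)) ^ th * ((a / b ^ 2) ^ (-s)) ^ (1 - th) := by
      have e1 : a ^ 2 * b ^ (-r) = Real.exp (2 * Real.log a - r * Real.log b) := by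
        rw [Real.rpow_def_of_pos hb, ← Real.exp_log (pow_pos ha 2), ← Real.exp_add, Real.log_pow]
        congr 1
        push_cast
        ring
      have e2 : (a / b ^ 2) ^ (-s) = Real.exp (-s * (Real.log a - 2 * Real.log b)) := by
        rw [Real.rpow_def_of_pos (by positivity), Real.log_div ha.ne' (by positivity),
          Real.log_pow]
        congr 1
        push_cast
        ring
      rw [e1, e2, ← Real.exp_mul, ← Real.exp_mul, ← Real.exp_add, Real.rpow_def_of_pos ha]
      congr 1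
      have e3 : (2 * Real.log a - r * Real.log b) * th +
          -s * (Real.log a - 2 * Real.log b) * (1 - th) =
          Real.log a * (2 * th - s * (1 - th)) +
            Real.log b * (2 * (s * (1 - th)) - r * th) := by ring
      rw [e3, hs, hrth]
      ring
    have hgm := Real.geom_mean_le_arith_mean2_weighted hth0 (sub_nonneg.2 hth1) hX hY
      (by ring)
    have h2 : b ^ (-r) ≤ 2 ^ r * (1 + b) ^ (-r) := by
      rw [Real.rpow_neg (by positivity), Real.rpow_neg (by positivity), ← div_eq_mul_inv,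
        le_div_iff₀ (by positivity), inv_mul_le_iff₀ (by positivity),
        ← Real.mul_rpow hb.le (by norm_num)]
      exact Real.rpow_le_rpow (by positivity) (by linarith) hr
    have h3 : a ^ 2 * b ^ (-r) ≤ 2 ^ r * (a ^ 2 * (1 + b) ^ (-r)) := by
      have := mul_le_mul_of_nonneg_left h2 (sq_nonneg a)
      nlinarith
    have h4 : th * (a ^ 2 * b ^ (-r)) ≤ a ^ 2 * b ^ (-r) := by nlinarith
    have h5 : (1 - th) * (a / b ^ 2) ^ (-s) ≤ (a / b ^ 2) ^ (-s) := by nlinarith
    rw [hid]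
    linarith

/-- Weighted area formula for an injective holomorphic map of the disc. -/
theorem pos_area {h : ℂ → ℂ} (hh : DifferentiableOn ℂ h (ball 0 1))
    (hinj : InjOn h (ball 0 1)) {r : ℝ} (hr : 2 < r) :
    ∫⁻ z in ball (0 : ℂ) 1, ENNReal.ofReal (‖deriv h z‖ ^ 2 * (1 + ‖h z‖) ^ (-r)) < ⊤ := by
  have h1 := lintegral_image_eq_lintegral_abs_det_fderiv_mul (volume : Measure ℂ)
    measurableSet_ball (f := h)
    (f' := fun z => (ContinuousLinearMap.toSpanSingleton ℂ (deriv h z)).restrictScalars ℝ)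
    (fun z hz => ((hh.differentiableAt (isOpen_ball.mem_nhds hz)).hasDerivAt.hasFDerivAt.restrictScalars
      ℝ).hasFDerivWithinAt) hinj (fun w => ENNReal.ofReal ((1 + ‖w‖) ^ (-r)))
  have h2 : ∫⁻ w : ℂ, ENNReal.ofReal ((1 + ‖w‖) ^ (-r)) < ⊤ :=
    finite_integral_one_add_norm (μ := (volume : Measure ℂ)) (by simpa using hr)
  refine lt_of_le_of_lt (le_of_eq ?_) ((h1 ▸ setLIntegral_le_lintegral _ _).trans_lt h2)
  refine lintegral_congr fun z => ?_
  rw [ENNReal.ofReal_mul (by positivity)]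
  congr 2
  simp [ContinuousLinearMap.det, LinearMap.det_restrictScalars, Algebra.norm_complex_eq,
    Complex.normSq_eq_norm_sq]

/-- The range `0 ≤ t < 2/3` from the range `-2 < t < 0`. -/
theorem pos_of_neg
    (hneg : ∀ g : ℂ → ℂ, DifferentiableOn ℂ g (ball 0 1) → InjOn g (ball 0 1) →
      ∀ t : ℝ, -2 < t → t < 0 → ∫⁻ w in ball (0 : ℂ) 1, ‖deriv g w‖ₑ ^ t < ⊤)
    (f : ℂ → ℂ) (hf : DifferentiableOn ℂ f (ball 0 1)) (hinj : InjOn f (ball 0 1))
    (t : ℝ) (ht0 : 0 ≤ t) (ht : t < 2 / 3) :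
    ∫⁻ w in ball (0 : ℂ) 1, ‖deriv f w‖ₑ ^ t < ⊤ := by
  obtain ⟨w₀, hw₀⟩ := pos_exists_omitted hf hinj
  set h : ℂ → ℂ := fun z => f z - w₀ with hh
  have hhd : DifferentiableOn ℂ h (ball 0 1) := hf.sub_const w₀
  have hhi : InjOn h (ball 0 1) := fun x hx y hy hxy => hinj hx hy (sub_left_injective hxy)
  have hh0 : ∀ z ∈ ball (0 : ℂ) 1, h z ≠ 0 := fun z hz => sub_ne_zero.2 (hw₀ z hz)
  set g : ℂ → ℂ := fun z => (h z)⁻¹ with hg
  have hgd : DifferentiableOn ℂ g (ball 0 1) := hhd.inv hh0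
  have hgi : InjOn g (ball 0 1) := fun x hx y hy hxy => hhi hx hy (inv_injective hxy)
  set th : ℝ := (2 + 5 * t) / 8 with hth
  have hth0 : 0 < th := by rw [hth]; linarith
  have hth1 : th < 1 := by rw [hth]; linarith
  have htth : t < th := by rw [hth]; linarith
  set s : ℝ := (2 * th - t) / (1 - th) with hs
  set r : ℝ := 2 * (2 * th - t) / th with hr
  have hs1 : s * (1 - th) = 2 * th - t := by
    rw [hs]; exact div_mul_cancel₀ _ (by linarith)
  have hr1 : r * th = 2 * (2 * th - t) := by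
    rw [hr]; exact div_mul_cancel₀ _ hth0.ne'
  have hs0 : 0 < s := by rw [hs]; exact div_pos (by linarith) (by linarith)
  have hs2 : s < 2 := by
    rw [hs, div_lt_iff₀ (by linarith), hth]; linarith
  have hr2 : 2 < r := by
    rw [hr, lt_div_iff₀ hth0]; linarith
  have hA := pos_area hhd hhi hr2
  have hN := hneg g hgd hgi (-s) (by linarith) (by linarith)
  have hpt : ∀ z ∈ ball (0 : ℂ) 1, ‖deriv f z‖ₑ ^ t ≤
      (1 + ENNReal.ofReal (2 ^ r) * ENNReal.ofReal (‖deriv h z‖ ^ 2 * (1 + ‖h z‖) ^ (-r))) +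
        ‖deriv g z‖ₑ ^ (-s) := by
    intro z hz
    have hdh : deriv h z = deriv f z := by simp [hh, deriv_sub_const]
    have ha : 0 < ‖deriv h z‖ :=
      norm_pos_iff.2 (Lib.RMT.deriv_ne_zero_of_injOn isOpen_ball hhd hhi hz)
    have hb : 0 < ‖h z‖ := norm_pos_iff.2 (hh0 z hz)
    have hdg : ‖deriv g z‖ = ‖deriv h z‖ / ‖h z‖ ^ 2 := by
      have := ((hhd.differentiableAt (isOpen_ball.mem_nhds hz)).hasDerivAt.inv (hh0 z hz)).deriv
      have e : deriv g z = -deriv h z / h z ^ 2 := this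
      rw [e, norm_div, norm_neg, norm_pow]
    have hp := pos_pointwise ha hb ht0 (by linarith) hth0.le hth1.le (by linarith) hs1 hr1
    rw [← hdh, ← ofReal_norm, ← ofReal_norm,
      ENNReal.ofReal_rpow_of_pos ha, hdg, ENNReal.ofReal_rpow_of_pos (by positivity),
      ← ENNReal.ofReal_mul (by positivity), ← ENNReal.ofReal_one,
      ← ENNReal.ofReal_add (by positivity) (by positivity),
      ← ENNReal.ofReal_add (by positivity) (by positivity)]
    exact ENNReal.ofReal_le_ofReal hp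
  have hmeas : Measurable fun z => ‖deriv g z‖ₑ ^ (-s) :=
    (measurable_deriv g).enorm.pow_const _
  refine lt_of_le_of_lt (setLIntegral_mono' measurableSet_ball hpt) ?_
  rw [lintegral_add_right _ hmeas, lintegral_add_left measurable_const,
    lintegral_const_mul' _ _ ENNReal.ofReal_ne_top]
  refine ENNReal.add_lt_top.2 ⟨ENNReal.add_lt_top.2 ⟨?_, ?_⟩, hN⟩
  · simp only [lintegral_const, one_mul, Measure.restrict_apply_univ]
    exact measure_ball_lt_top
  · exact ENNReal.mul_lt_top ENNReal.ofReal_lt_top hA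

end Crest.Agent.R131.Pos89
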