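import Crest.Agent.R162.Koebe
import Crest.Agent.R131.Asm

/-! Row 131: a crude bound for the pre-Schwarzian derivative of a univalent map. -/

open Set Filter Metric Function Complex
open scoped Topology

namespace Crest.Agent.R131.PreS76

/-- A univalent map of a disc omits a value near the image of the centre. -/
theorem exists_omit {f : ℂ → ℂ} {c : ℂ} {r : ℝ} (hr : 0 < r)
    (hf : DifferentiableOn ℂ f (ball c r)) (hinj : InjOn f (ball c r)) :
    ∃ p, p ∉ f '' ball c r ∧ ‖f c - p‖ < 2 * (r * ‖deriv f c‖) := by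
  have hc : c ∈ ball c r := mem_ball_self hr
  have hd : 0 < ‖deriv f c‖ :=
    norm_pos_iff.2 (Lib.RMT.deriv_ne_zero_of_injOn isOpen_ball hf hinj hc)
  by_contra h
  push Not at h
  have hsub : ball (f c) (2 * (r * ‖deriv f c‖)) ⊆ f '' ball c r := fun p hp => by
    by_contra hp'
    have := h p hp'
    rw [mem_ball, dist_comm, dist_eq_norm] at hp
    linarith
  have h1 : DifferentiableOn ℂ (invFunOn f (ball c r)) (ball (f c) (2 * (r * ‖deriv f c‖))) := by
    intro w hw
    obtain ⟨a, ha, rfl⟩ := hsub hw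
    exact (Lib.RMT.hasStrictDerivAt_invFunOn isOpen_ball hf hinj
      ha).hasDerivAt.differentiableAt.differentiableWithinAt
  have h2 : MapsTo (invFunOn f (ball c r)) (ball (f c) (2 * (r * ‖deriv f c‖)))
      (closedBall (invFunOn f (ball c r) (f c)) r) := by
    intro w hw
    obtain ⟨a, ha, rfl⟩ := hsub hw
    rw [hinj.leftInvOn_invFunOn ha, hinj.leftInvOn_invFunOn hc]
    exact ball_subset_closedBall ha
  have h3 := norm_deriv_le_div_of_mapsTo_ball h1 h2 (by positivity)
  rw [(Lib.RMT.hasStrictDerivAt_invFunOn isOpen_ball hf hinj hc).hasDerivAt.deriv, norm_inv,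
    le_div_iff₀ (by positivity)] at h3
  have h4 : ‖deriv f c‖⁻¹ * (2 * (r * ‖deriv f c‖)) = 2 * r := by field_simp
  linarith

/-- Local form of the crude pre-Schwarzian bound. -/
theorem local_bound {f : ℂ → ℂ} {c : ℂ} {r : ℝ} (hr : 0 < r)
    (hf : DifferentiableOn ℂ f (ball c r)) (hinj : InjOn f (ball c r)) :
    r * ‖deriv (deriv f) c‖ ≤ 400000 * ‖deriv f c‖ := by
  obtain ⟨p, hp, hpc⟩ := exists_omit hr hf hinj
  have hc : c ∈ ball c r := mem_ball_self hr
  have hne : ∀ z ∈ ball c r, f z - p ≠ 0 := fun z hz h => hp ⟨z, hz, sub_eq_zero.1 h⟩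
  have hf' : DifferentiableOn ℂ (deriv f) (ball c r) := hf.deriv isOpen_ball
  set k : ℂ → ℂ := fun z => deriv f z / (f z - p) with hk
  have hkd : DifferentiableOn ℂ k (ball c r) := hf'.div (hf.sub_const p) hne
  have hsub : closedBall c (r / 2) ⊆ ball c r := closedBall_subset_ball (by linarith)
  have hkb : ∀ z ∈ closedBall c (r / 2), ‖k z‖ ≤ 800 / r := by
    intro z hz
    have hz' : ball z (r / 2) ⊆ ball c r := by
      intro w hw
      rw [mem_ball] at hw ⊢
      rw [mem_closedBall] at hz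
      linarith [dist_triangle w z c]
    have h1 := R162.koebe_omit (by positivity : 0 < r / 2) (hf.mono hz') (hinj.mono hz')
      (fun h => hp (image_mono hz' h))
    have h2 : 0 < ‖f z - p‖ := norm_pos_iff.2 (hne z (hsub hz))
    simp only [hk, norm_div]
    rw [div_le_div_iff₀ h2 hr]
    linarith
  have hk' : ‖deriv k c‖ ≤ 800 / r / (r / 2) :=
    norm_deriv_le_of_forall_mem_sphere_norm_le (by positivity)
      ((hkd.mono (closure_ball_subset_closedBall.trans hsub)).diffContOnCl)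
      fun z hz => hkb z (sphere_subset_closedBall hz)
  have hk0 : ‖k c‖ ≤ 400 / r := by
    have h1 := R162.koebe_omit hr hf hinj hp
    have h2 : 0 < ‖f c - p‖ := norm_pos_iff.2 (hne c hc)
    simp only [hk, norm_div]
    rw [div_le_div_iff₀ h2 hr]
    linarith
  have hfc : HasDerivAt f (deriv f c) c :=
    (hf.differentiableAt (isOpen_ball.mem_nhds hc)).hasDerivAt
  have hfc' : HasDerivAt (deriv f) (deriv (deriv f) c) c :=
    (hf'.differentiableAt (isOpen_ball.mem_nhds hc)).hasDerivAt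
  have hkc : deriv k c =
      (deriv (deriv f) c * (f c - p) - deriv f c * deriv f c) / (f c - p) ^ 2 :=
    (hfc'.div (hfc.sub_const p) (hne c hc)).deriv
  have hid : deriv (deriv f) c = (f c - p) * (deriv k c + k c ^ 2) := by
    have := hne c hc
    rw [hkc]
    simp only [hk]
    field_simp
    ring
  have h5 : ‖deriv k c + k c ^ 2‖ ≤ 200000 / r ^ 2 := by
    have h6 : ‖k c ^ 2‖ ≤ (400 / r) ^ 2 := by
      rw [norm_pow]; exact pow_le_pow_left₀ (norm_nonneg _) hk0 2
    have h7 : 800 / r / (r / 2) + (400 / r) ^ 2 = 161600 / r ^ 2 := by field_simp; ring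
    have h8 : (161600 : ℝ) / r ^ 2 ≤ 200000 / r ^ 2 := by gcongr; norm_num
    linarith [norm_add_le (deriv k c) (k c ^ 2)]
  rw [hid, norm_mul]
  calc r * (‖f c - p‖ * ‖deriv k c + k c ^ 2‖)
      ≤ r * (2 * (r * ‖deriv f c‖) * (200000 / r ^ 2)) := by gcongr
    _ = 400000 * ‖deriv f c‖ := by field_simp; ring

/-- Crude pre-Schwarzian bound on the unit disc, explicit constant. -/
theorem disc_bound {f : ℂ → ℂ} (hf : DifferentiableOn ℂ f (ball 0 1))
    (hinj : InjOn f (ball 0 1)) {z : ℂ} (hz : z ∈ ball (0 : ℂ) 1) :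
    (1 - ‖z‖) * ‖deriv (deriv f) z‖ ≤ 400000 * ‖deriv f z‖ := by
  have hz1 : ‖z‖ < 1 := by simpa using hz
  have hsub : ball z (1 - ‖z‖) ⊆ ball (0 : ℂ) 1 := by
    intro w hw
    rw [mem_ball, dist_eq_norm] at hw
    rw [mem_ball, dist_zero_right]
    linarith [norm_sub_norm_le w z]
  exact local_bound (by linarith) (hf.mono hsub) (hinj.mono hsub)

/-- The same with the weight `1 - |z|²`. -/
theorem disc_bound_sq {f : ℂ → ℂ} (hf : DifferentiableOn ℂ f (ball 0 1))
    (hinj : InjOn f (ball 0 1)) {z : ℂ} (hz : z ∈ ball (0 : ℂ) 1) :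
    (1 - ‖z‖ ^ 2) * ‖deriv (deriv f) z‖ ≤ 800000 * ‖deriv f z‖ := by
  have hz1 : ‖z‖ < 1 := by simpa using hz
  have h := disc_bound hf hinj hz
  have h0 := norm_nonneg z
  have h1 := norm_nonneg (deriv (deriv f) z)
  have h2 : (1 - ‖z‖ ^ 2) * ‖deriv (deriv f) z‖ =
      (1 + ‖z‖) * ((1 - ‖z‖) * ‖deriv (deriv f) z‖) := by ring
  have h3 : 0 ≤ (1 - ‖z‖) * ‖deriv (deriv f) z‖ := mul_nonneg (by linarith) h1
  rw [h2]
  nlinarith

theorem preSchw76 : PreSchw := ⟨400000, fun _ hf hinj _ hz => disc_bound hf hinj hz⟩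

end Crest.Agent.R131.PreS76
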