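import Crest.Agent.R131.RigW

/-! Rigidity: a fixed share of the measure `|f'|^(-s) ρ^(b-1) dA` sits where `ρ |f''/f'|` is small. -/

set_option autoImplicit false
open Complex MeasureTheory Metric Set
open scoped ComplexConjugate

namespace Crest.Agent.R131.Rig

theorem C1.congrB {U : Set ℂ} {F A B B' : ℂ → ℂ} (h : C1 U F A B) (e : ∀ z ∈ U, B' z = B z) :
    C1 U F A B' :=
  ⟨h.1, h.2.1, h.2.2.1.congr e, fun z hz => by rw [e z hz]; exact h.2.2.2 z hz⟩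

theorem lint_cmp {D S : Set ℂ} (hD : MeasurableSet D) (hS : MeasurableSet S) {G g : ℂ → ℝ}
    (hG : IntegrableOn G D) (h0 : ∫ z in D, G z = 0) {c C : ℝ} (hc : 0 < c) (hC : 0 ≤ C)
    (hg : ∀ z ∈ D, 0 ≤ g z)
    (h1 : ∀ z ∈ D, z ∉ S → G z ≤ -(c * g z)) (h2 : ∀ z ∈ D, z ∈ S → G z ≤ C * g z) :
    ∫⁻ z in D, ENNReal.ofReal (g z)
      ≤ ENNReal.ofReal (C / c + 1) * ∫⁻ z in D ∩ S, ENNReal.ofReal (g z) := by
  have hpn : ∫⁻ z in D, ENNReal.ofReal (G z) = ∫⁻ z in D, ENNReal.ofReal (-G z) := by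
    have e := integral_eq_lintegral_pos_part_sub_lintegral_neg_part hG
    rw [h0] at e
    have f1 : ∫⁻ z in D, ENNReal.ofReal (G z) ≠ ⊤ := hG.lintegral_lt_top.ne
    have f2 : ∫⁻ z in D, ENNReal.ofReal (-G z) ≠ ⊤ := hG.neg.lintegral_lt_top.ne
    exact (ENNReal.toReal_eq_toReal_iff' f1 f2).1 (by linarith)
  have hpos : ∫⁻ z in D, ENNReal.ofReal (G z)
      ≤ ENNReal.ofReal C * ∫⁻ z in D ∩ S, ENNReal.ofReal (g z) := by
    rw [← lintegral_inter_add_sdiff _ D hS, ← lintegral_const_mul' _ _ ENNReal.ofReal_ne_top]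
    have z0 : ∫⁻ z in D \ S, ENNReal.ofReal (G z) = 0 := by
      refine le_antisymm ?_ zero_le
      calc ∫⁻ z in D \ S, ENNReal.ofReal (G z) ≤ ∫⁻ _ in D \ S, 0 :=
            setLIntegral_mono' (hD.diff hS) fun z hz => by
              have := h1 z hz.1 hz.2
              have := mul_nonneg hc.le (hg z hz.1)
              exact (ENNReal.ofReal_of_nonpos (by linarith)).le
        _ = 0 := by simp
    rw [z0, add_zero]
    refine setLIntegral_mono' (hD.inter hS) fun z hz => ?_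
    rw [← ENNReal.ofReal_mul hC]
    exact ENNReal.ofReal_le_ofReal (h2 z hz.1 hz.2)
  have hneg : ∫⁻ z in D \ S, ENNReal.ofReal (g z)
      ≤ ENNReal.ofReal (1 / c) * ∫⁻ z in D, ENNReal.ofReal (-G z) := by
    rw [← lintegral_const_mul' _ _ ENNReal.ofReal_ne_top]
    refine le_trans (setLIntegral_mono' (hD.diff hS) fun z hz => ?_)
      (lintegral_mono_set sdiff_subset)
    rw [← ENNReal.ofReal_mul (by positivity)]
    refine ENNReal.ofReal_le_ofReal ?_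
    have := h1 z hz.1 hz.2
    rw [one_div, ← div_eq_inv_mul, le_div_iff₀ hc]
    linarith
  rw [← lintegral_inter_add_sdiff _ D hS, ENNReal.ofReal_add (by positivity) zero_le_one,
    ENNReal.ofReal_one, add_mul, one_mul, add_comm]
  refine add_le_add ?_ le_rfl
  refine hneg.trans ?_
  rw [← hpn, div_eq_mul_one_div C c, mul_comm C, ENNReal.ofReal_mul (by positivity), mul_assoc]
  exact mul_le_mul_right hpos _

theorem pw_ineq (κ Q z : ℂ) {K s b L : ℝ} (hs : 0 ≤ s) (hz : ‖z‖ ≤ 1) (hκ : ‖κ‖ ≤ K)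
    (hb : 0 < b) (hb1 : b ≤ 1) :
    (Q * conj Q - 2 * (κ * conj κ) - L * (κ * conj κ) * (Q * conj Q)
      - (((b + 1 : ℝ) : ℂ) * z + ((s / 2 : ℝ) : ℂ) * conj κ) * (conj κ * Q)).re
      ≤ ‖Q‖ ^ 2 * (1 + (2 + s * K / 2) ^ 2 / 4 - L * ‖κ‖ ^ 2) - ‖κ‖ ^ 2 := by
  obtain ⟨T, hT⟩ : ∃ T : ℂ, T = (((b + 1 : ℝ) : ℂ) * z + ((s / 2 : ℝ) : ℂ) * conj κ) * (conj κ * Q) :=
    ⟨_, rfl⟩
  have hTn : ‖T‖ ≤ (2 + s * K / 2) * (‖κ‖ * ‖Q‖) := by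
    rw [hT, norm_mul, norm_mul, RCLike.norm_conj]
    refine mul_le_mul_of_nonneg_right ?_ (by positivity)
    refine (norm_add_le _ _).trans ?_
    rw [norm_mul, norm_mul, RCLike.norm_conj, Complex.norm_real, Complex.norm_real,
      Real.norm_of_nonneg (by linarith), Real.norm_of_nonneg (by linarith)]
    have := norm_nonneg z
    nlinarith [mul_le_mul_of_nonneg_left hκ hs]
  rw [← hT, Complex.mul_conj', Complex.mul_conj']
  have e : ((‖Q‖ : ℂ) ^ 2 - 2 * (‖κ‖ : ℂ) ^ 2 - L * (‖κ‖ : ℂ) ^ 2 * (‖Q‖ : ℂ) ^ 2 - T).re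
      = ‖Q‖ ^ 2 - 2 * ‖κ‖ ^ 2 - L * ‖κ‖ ^ 2 * ‖Q‖ ^ 2 - T.re := by
    have : ((‖Q‖ : ℂ) ^ 2 - 2 * (‖κ‖ : ℂ) ^ 2 - L * (‖κ‖ : ℂ) ^ 2 * (‖Q‖ : ℂ) ^ 2)
        = ((‖Q‖ ^ 2 - 2 * ‖κ‖ ^ 2 - L * ‖κ‖ ^ 2 * ‖Q‖ ^ 2 : ℝ) : ℂ) := by push_cast; ring
    rw [this, Complex.sub_re, Complex.ofReal_re]
  rw [e]
  have h1 : -T.re ≤ ‖T‖ := by
    have := Complex.abs_re_le_norm T
    have := neg_abs_le T.re
    linarith
  nlinarith [sq_nonneg (‖κ‖ - (2 + s * K / 2) * ‖Q‖ / 2)]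

theorem deriv_bound {h : ℂ → ℂ} {K : ℝ} (hd : DifferentiableOn ℂ h (ball 0 1))
    (hK : ∀ z ∈ ball (0 : ℂ) 1, (1 - ‖z‖ ^ 2) * ‖h z‖ ≤ K) {z : ℂ} (hz : z ∈ ball (0 : ℂ) 1) :
    (1 - ‖z‖ ^ 2) ^ 2 * ‖deriv h z‖ ≤ 16 * K := by
  have hz' : ‖z‖ < 1 := by simpa using hz
  have hn := norm_nonneg z
  obtain ⟨r, hr⟩ : ∃ r : ℝ, r = (1 - ‖z‖) / 2 := ⟨_, rfl⟩
  have hr0 : 0 < r := by rw [hr]; linarith
  have hw : ∀ w ∈ closedBall z r, ‖w‖ ≤ 1 - r := by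
    intro w hw
    have h1 : ‖w - z‖ ≤ r := by simpa [dist_eq_norm] using hw
    have h2 : ‖w‖ ≤ ‖z‖ + ‖w - z‖ := by
      have := norm_add_le z (w - z)
      simpa using this
    linarith
  have hsub : closedBall z r ⊆ ball (0 : ℂ) 1 := fun w hw' => by
    have := hw w hw'
    simp only [mem_ball, dist_zero_right]; linarith
  have := Complex.norm_deriv_le_of_forall_mem_sphere_norm_le (C := K / r) hr0
    (hd.diffContOnCl_ball hsub) (fun w hw' => by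
      have h1 := hw w (sphere_subset_closedBall hw')
      have h2 := hK w (hsub (sphere_subset_closedBall hw'))
      have h3 := norm_nonneg w
      have h4 : r ≤ 1 - ‖w‖ ^ 2 := by nlinarith
      rw [le_div_iff₀ hr0]
      nlinarith [norm_nonneg (h w)])
  have h5 : ‖deriv h z‖ * r ^ 2 ≤ K := by
    rw [div_div, le_div_iff₀ (by positivity)] at this
    nlinarith
  have h6 : (1 - ‖z‖ ^ 2) ≤ 4 * r := by rw [hr]; nlinarith
  have h7 : (1 - ‖z‖ ^ 2) ^ 2 ≤ (4 * r) ^ 2 := pow_le_pow_left₀ (by nlinarith) h6 2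
  nlinarith [norm_nonneg (deriv h z)]

end Crest.Agent.R131.Rig

namespace Crest.Agent.R131
open Rig

theorem rig (K s th : ℝ) (hK : 0 ≤ K) (hs : 0 ≤ s) (hth : 0 < th) :
    ∃ C : ℝ, 0 ≤ C ∧ ∀ (f : ℂ → ℂ) (R b : ℝ), 1 < R → DifferentiableOn ℂ f (ball 0 R) →
      (∀ z ∈ ball (0 : ℂ) R, deriv f z ≠ 0) →
      (∀ z ∈ ball (0 : ℂ) 1, (1 - ‖z‖ ^ 2) * ‖deriv (deriv f) z‖ ≤ K * ‖deriv f z‖) →
      0 < b → b ≤ 1 →
      ∫⁻ z in ball (0 : ℂ) 1, ENNReal.ofReal (‖deriv f z‖ ^ (-s) * (1 - ‖z‖ ^ 2) ^ (b - 1))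
        ≤ ENNReal.ofReal C * ∫⁻ z in ball (0 : ℂ) 1 ∩
            {z | (1 - ‖z‖ ^ 2) * ‖deriv (deriv f) z‖ < th * ‖deriv f z‖},
            ENNReal.ofReal (‖deriv f z‖ ^ (-s) * (1 - ‖z‖ ^ 2) ^ (b - 1)) := by
  obtain ⟨M, hM⟩ : ∃ M : ℝ, M = 1 + (2 + s * K / 2) ^ 2 / 4 := ⟨_, rfl⟩
  have hM0 : 0 < M := by rw [hM]; positivity
  obtain ⟨L, hL⟩ : ∃ L : ℝ, L = M / th ^ 2 := ⟨_, rfl⟩
  have hL0 : 0 < L := by rw [hL]; positivity
  refine ⟨(18 * K) ^ 2 * M / (th ^ 2 * Real.exp (-(L * K ^ 2))) + 1, by positivity, ?_⟩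
  intro f R b hR hf hne hps hb hb1
  obtain ⟨p, hp⟩ : ∃ p : ℂ → ℂ, p = deriv f := ⟨_, rfl⟩
  rw [← hp] at hne hps ⊢
  have hpd : DifferentiableOn ℂ p (ball 0 R) := by rw [hp]; exact hf.deriv isOpen_ball
  have hpm : Measurable p := by rw [hp]; exact measurable_deriv f
  obtain ⟨h, hh⟩ : ∃ h : ℂ → ℂ, h = fun z => deriv p z / p z := ⟨_, rfl⟩
  have hhd : DifferentiableOn ℂ h (ball 0 R) := by
    rw [hh]; exact (hpd.deriv isOpen_ball).div hpd hne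
  have hsub : ball (0 : ℂ) 1 ⊆ ball 0 R := ball_subset_ball hR.le
  have hκn : ∀ z ∈ ball (0 : ℂ) 1, (1 - ‖z‖ ^ 2) * ‖h z‖
      = (1 - ‖z‖ ^ 2) * ‖deriv p z‖ / ‖p z‖ := by
    intro z _; rw [hh]; beta_reduce; rw [norm_div, mul_div_assoc]
  have hκK : ∀ z ∈ ball (0 : ℂ) 1, (1 - ‖z‖ ^ 2) * ‖h z‖ ≤ K := by
    intro z hz
    rw [hκn z hz, div_le_iff₀ (norm_pos_iff.2 (hne z (hsub hz)))]
    exact hps z hz
  have cp := C1.holo isOpen_ball hpd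
  have ch := C1.holo isOpen_ball hhd
  have ch1 := C1.holo isOpen_ball (hhd.deriv isOpen_ball)
  have cr := C1.rho (ball (0 : ℂ) R)
  have cz := C1.id (ball (0 : ℂ) R)
  have hzz : ∀ z : ℂ, ((1 - ‖z‖ ^ 2 : ℝ) : ℂ) = 1 - z * conj z := by
    intro z; rw [Complex.mul_conj']; push_cast; ring
  obtain ⟨P, hP⟩ : ∃ P : ℂ → ℂ,
      P = fun w => ((1 - ‖w‖ ^ 2 : ℝ) : ℂ) * deriv h w + (-2 * conj w) * h w := ⟨_, rfl⟩
  obtain ⟨E, hE⟩ : ∃ E : ℂ → ℂ, E = fun w => ((1 - ‖w‖ ^ 2 : ℝ) : ℂ) * conj (h w) * P w := ⟨_, rfl⟩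
  obtain ⟨u, hu⟩ : ∃ u : ℂ → ℝ, u = fun w => (‖p w‖ ^ 2) ^ (-s / 2) := ⟨_, rfl⟩
  obtain ⟨e, he⟩ : ∃ e : ℂ → ℝ,
      e = fun w => Real.exp (-(L * ‖((1 - ‖w‖ ^ 2 : ℝ) : ℂ) * h w‖ ^ 2)) := ⟨_, rfl⟩
  obtain ⟨AE, cE⟩ : ∃ A, C1 (ball (0 : ℂ) R) E A
      (fun w => P w * conj (P w) - 2 * (h w * conj (h w))) := by
    have c0 := (cr.mul ch.conj).mul ((cr.mul ch1).add (((C1.const _ (-2)).mul cz.conj).mul ch))
    refine ⟨_, (c0.of_eq (G := E) (fun w => by rw [hE, hP])).congrB (fun w _ => ?_)⟩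
    rw [hP]
    simp only [map_add, map_mul, map_neg, map_ofNat, Complex.conj_conj, Complex.conj_ofReal,
      map_one]
    rw [hzz]; ring
  obtain ⟨Au, cu⟩ : ∃ A, C1 (ball (0 : ℂ) R) (fun w => (u w : ℂ)) A
      (fun w => -((s / 2 : ℝ) : ℂ) * conj (h w) * u w) := by
    have c0 := cp.normSq.rcomp (φ := fun x => x ^ (-s / 2))
      (φ' := fun x => (-s / 2) * x ^ (-s / 2 - 1))
      (fun z hz => Real.hasDerivAt_rpow_const (Or.inl (pow_ne_zero 2 (norm_ne_zero_iff.2 (hne z hz)))))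
      (fun z hz => continuousAt_const.mul (continuousAt_id.rpow_const
        (Or.inl (pow_ne_zero 2 (norm_ne_zero_iff.2 (hne z hz))))))
    refine ⟨_, (c0.of_eq (G := fun w => (u w : ℂ)) (fun w => by rw [hu])).congrB (fun w hw => ?_)⟩
    have h0 : (0 : ℝ) < ‖p w‖ ^ 2 := pow_pos (norm_pos_iff.2 (hne w hw)) 2
    have h1 : ((‖p w‖ ^ 2 : ℝ) : ℂ) = p w * conj (p w) := by rw [Complex.mul_conj']; push_cast; rfl
    have h2 : conj (p w) ≠ 0 := by simpa using hne w hw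
    have h3 := hne w hw
    rw [Real.rpow_sub_one h0.ne', hu, hh]
    simp only [map_div₀]
    rw [Complex.ofReal_mul, Complex.ofReal_div ((‖p w‖ ^ 2) ^ (-s / 2)), h1]
    push_cast
    field_simp
    ring
  obtain ⟨Ae, ce⟩ : ∃ A, C1 (ball (0 : ℂ) R) (fun w => (e w : ℂ)) A
      (fun w => -(L : ℂ) * e w * conj (E w)) := by
    have c0 := (cr.mul ch).normSq.rcomp (φ := fun x => Real.exp (-(L * x)))
      (φ' := fun x => -L * Real.exp (-(L * x)))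
      (fun z _ => by
        have := (((hasDerivAt_id (‖((1 - ‖z‖ ^ 2 : ℝ) : ℂ) * h z‖ ^ 2)).const_mul L).neg).exp
        simpa [mul_comm] using this)
      (fun z _ => by fun_prop)
    refine ⟨_, (c0.of_eq (G := fun w => (e w : ℂ)) (fun w => by rw [he])).congrB (fun w _ => ?_)⟩
    rw [he, hE, hP]
    simp only [map_add, map_mul, map_neg, map_ofNat, Complex.conj_conj, Complex.conj_ofReal,
      Complex.ofReal_mul, Complex.ofReal_neg]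
    ring
  obtain ⟨hI, hI0⟩ := ibp hR hb (cu.mul (ce.mul cE))
  have hS : MeasurableSet {z : ℂ | (1 - ‖z‖ ^ 2) * ‖deriv p z‖ < th * ‖p z‖} :=
    measurableSet_lt ((measurable_const.sub (measurable_norm.pow_const 2)).mul
      (measurable_deriv p).norm) (measurable_const.mul hpm.norm)
  have hre := integral_re hI
  rw [hI0] at hre
  have key : ∀ z ∈ ball (0 : ℂ) 1, ∃ κ Q : ℂ, ‖κ‖ = (1 - ‖z‖ ^ 2) * ‖h z‖ ∧ ‖Q‖ ≤ 18 * K ∧
      RCLike.re ((((1 - ‖z‖ ^ 2) ^ (b + 1) : ℝ) : ℂ) *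
          (-((s / 2 : ℝ) : ℂ) * conj (h z) * u z * (e z * E z) +
            u z * (-(L : ℂ) * e z * conj (E z) * E z +
              e z * (P z * conj (P z) - 2 * (h z * conj (h z)))))
        - (((b + 1) * (1 - ‖z‖ ^ 2) ^ b : ℝ) : ℂ) * z * (u z * (e z * E z)))
        ≤ ‖p z‖ ^ (-s) * (1 - ‖z‖ ^ 2) ^ (b - 1) * Real.exp (-(L * ‖κ‖ ^ 2)) *
          (‖Q‖ ^ 2 * (M - L * ‖κ‖ ^ 2) - ‖κ‖ ^ 2) := by
    intro z hz
    have hz' : ‖z‖ < 1 := by simpa using hz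
    have hρ : 0 < 1 - ‖z‖ ^ 2 := by nlinarith [norm_nonneg z]
    have hκ : ‖((1 - ‖z‖ ^ 2 : ℝ) : ℂ) * h z‖ = (1 - ‖z‖ ^ 2) * ‖h z‖ := by
      rw [norm_mul, Complex.norm_real, Real.norm_of_nonneg hρ.le]
    refine ⟨((1 - ‖z‖ ^ 2 : ℝ) : ℂ) * h z, ((1 - ‖z‖ ^ 2 : ℝ) : ℂ) * P z, hκ, ?_, ?_⟩
    · have h1 := deriv_bound (hhd.mono hsub) hκK hz
      have h2 := hκK z hz
      have h3 : ‖P z‖ ≤ (1 - ‖z‖ ^ 2) * ‖deriv h z‖ + 2 * ‖h z‖ := by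
        rw [hP]
        refine (norm_add_le _ _).trans (add_le_add ?_ ?_)
        · rw [norm_mul, Complex.norm_real, Real.norm_of_nonneg hρ.le]
        · rw [norm_mul, norm_mul, RCLike.norm_conj, norm_neg, Complex.norm_ofNat]
          nlinarith [norm_nonneg (h z), norm_nonneg z]
      rw [norm_mul, Complex.norm_real, Real.norm_of_nonneg hρ.le]
      nlinarith [mul_le_mul_of_nonneg_left h3 hρ.le]
    · have hpw := pw_ineq (((1 - ‖z‖ ^ 2 : ℝ) : ℂ) * h z) (((1 - ‖z‖ ^ 2 : ℝ) : ℂ) * P z) z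
        (K := K) (L := L) hs hz'.le (by rw [hκ]; exact hκK z hz) hb hb1
      rw [← hM] at hpw
      have huz : u z = ‖p z‖ ^ (-s) := by
        rw [hu]; beta_reduce
        rw [← Real.rpow_natCast, ← Real.rpow_mul (norm_nonneg _)]
        congr 1; push_cast; ring
      have hez : e z = Real.exp (-(L * ‖((1 - ‖z‖ ^ 2 : ℝ) : ℂ) * h z‖ ^ 2)) := by rw [he]
      have r1 : (1 - ‖z‖ ^ 2) ^ (b + 1) = (1 - ‖z‖ ^ 2) ^ (b - 1) * (1 - ‖z‖ ^ 2) ^ 2 := by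
        rw [← Real.rpow_natCast (1 - ‖z‖ ^ 2) 2, ← Real.rpow_add hρ]; congr 1; push_cast; ring
      have r2 : (1 - ‖z‖ ^ 2) ^ b = (1 - ‖z‖ ^ 2) ^ (b - 1) * (1 - ‖z‖ ^ 2) := by
        rw [← Real.rpow_add_one hρ.ne']; congr 1; ring
      rw [← huz, ← hez, r1, r2]
      have hg0 : 0 ≤ u z * (1 - ‖z‖ ^ 2) ^ (b - 1) * e z := by
        rw [huz, hez]; positivity
      refine le_trans (le_of_eq ?_) (mul_le_mul_of_nonneg_left hpw hg0)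
      rw [← Complex.re_ofReal_mul]
      rw [RCLike.re_to_complex]
      congr 1
      rw [hE]
      simp only [map_mul, Complex.conj_conj, Complex.conj_ofReal, Complex.ofReal_mul,
        Complex.ofReal_pow (1 - ‖z‖ ^ 2)]
      ring
  refine lint_cmp measurableSet_ball hS (c := th ^ 2 * Real.exp (-(L * K ^ 2)))
    (C := (18 * K) ^ 2 * M) hI.re (by simpa using hre) (by positivity) (by positivity) ?_ ?_ ?_
  · intro z hz
    have hz' : ‖z‖ < 1 := by simpa using hz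
    have hρ : 0 < 1 - ‖z‖ ^ 2 := by nlinarith [norm_nonneg z]
    positivity
  · intro z hz hzS
    have hz' : ‖z‖ < 1 := by simpa using hz
    have hρ : 0 < 1 - ‖z‖ ^ 2 := by nlinarith [norm_nonneg z]
    obtain ⟨κ, Q, hκ, -, hle⟩ := key z hz
    refine hle.trans ?_
    have h1 : th ≤ ‖κ‖ := by
      rw [hκ, hκn z hz, le_div_iff₀ (norm_pos_iff.2 (hne z (hsub hz)))]
      exact not_lt.1 hzS
    have h2 : ‖κ‖ ≤ K := by rw [hκ]; exact hκK z hz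
    have h3 : th ^ 2 ≤ ‖κ‖ ^ 2 := pow_le_pow_left₀ hth.le h1 2
    have h4 : ‖κ‖ ^ 2 ≤ K ^ 2 := pow_le_pow_left₀ (norm_nonneg _) h2 2
    have h5 : M ≤ L * ‖κ‖ ^ 2 := by
      have : L * th ^ 2 = M := by rw [hL]; field_simp
      nlinarith
    have h6 : ‖Q‖ ^ 2 * (M - L * ‖κ‖ ^ 2) - ‖κ‖ ^ 2 ≤ -th ^ 2 := by
      nlinarith [mul_nonneg (sq_nonneg ‖Q‖) (sub_nonneg.2 h5)]
    have h7 : Real.exp (-(L * K ^ 2)) ≤ Real.exp (-(L * ‖κ‖ ^ 2)) :=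
      Real.exp_le_exp.2 (by nlinarith)
    have hg : 0 ≤ ‖p z‖ ^ (-s) * (1 - ‖z‖ ^ 2) ^ (b - 1) := by positivity
    generalize ‖p z‖ ^ (-s) * (1 - ‖z‖ ^ 2) ^ (b - 1) = g at hg ⊢
    have h8 := Real.exp_pos (-(L * ‖κ‖ ^ 2))
    have h9 := mul_le_mul_of_nonneg_left h6 (mul_nonneg hg h8.le)
    have h10 := mul_le_mul_of_nonneg_left h7 (mul_nonneg hg (sq_nonneg th))
    nlinarith
  · intro z hz _
    have hz' : ‖z‖ < 1 := by simpa using hz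
    have hρ : 0 < 1 - ‖z‖ ^ 2 := by nlinarith [norm_nonneg z]
    obtain ⟨κ, Q, -, hQ, hle⟩ := key z hz
    refine hle.trans ?_
    have h4 : ‖Q‖ ^ 2 ≤ (18 * K) ^ 2 := pow_le_pow_left₀ (norm_nonneg _) hQ 2
    have h6 : ‖Q‖ ^ 2 * (M - L * ‖κ‖ ^ 2) - ‖κ‖ ^ 2 ≤ (18 * K) ^ 2 * M := by
      nlinarith [mul_nonneg (sq_nonneg ‖Q‖) (mul_nonneg hL0.le (sq_nonneg ‖κ‖)), sq_nonneg ‖κ‖,
        mul_le_mul_of_nonneg_right h4 hM0.le]
    have h7 : Real.exp (-(L * ‖κ‖ ^ 2)) ≤ 1 :=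
      Real.exp_le_one_iff.2 (by nlinarith [mul_nonneg hL0.le (sq_nonneg ‖κ‖)])
    have hg : 0 ≤ ‖p z‖ ^ (-s) * (1 - ‖z‖ ^ 2) ^ (b - 1) := by positivity
    generalize ‖p z‖ ^ (-s) * (1 - ‖z‖ ^ 2) ^ (b - 1) = g at hg ⊢
    have h8 := Real.exp_pos (-(L * ‖κ‖ ^ 2))
    have h9 := mul_le_mul_of_nonneg_left h6 (mul_nonneg hg h8.le)
    have h10 := mul_le_mul_of_nonneg_left h7
      (mul_nonneg hg (mul_nonneg (sq_nonneg (18 * K)) hM0.le))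
    nlinarith

/-- smallness of `ρ |f''/f'|` spreads to a small hyperbolic disc -/
theorem rig_spread (K th : ℝ) (hK : 0 ≤ K) (hth : 0 < th) :
    ∃ e0 : ℝ, 0 < e0 ∧ ∀ (f : ℂ → ℂ), DifferentiableOn ℂ f (ball 0 1) →
      (∀ z ∈ ball (0 : ℂ) 1, deriv f z ≠ 0) →
      (∀ z ∈ ball (0 : ℂ) 1, (1 - ‖z‖ ^ 2) * ‖deriv (deriv f) z‖ ≤ K * ‖deriv f z‖) →
      ∀ e : ℝ, 0 ≤ e → e ≤ e0 → ∀ m : ℂ, ‖m‖ < 1 →
        (1 - ‖m‖ ^ 2) * ‖deriv (deriv f) m‖ < th * ‖deriv f m‖ →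
        ∀ x ∈ closedBall m (e * (1 - ‖m‖ ^ 2)),
          ‖x‖ < 1 ∧ (1 - ‖x‖ ^ 2) * ‖deriv (deriv f) x‖ ≤ 2 * th * ‖deriv f x‖ := by
  refine ⟨min (1 / 8) (th / (512 * (K + 1))), lt_min (by norm_num) (by positivity), ?_⟩
  intro f hf hne hps e he0 he m hm hmS
  have he1 : e ≤ 1 / 8 := he.trans (min_le_left _ _)
  have he2 : e * (512 * (K + 1)) ≤ th := by
    have := he.trans (min_le_right _ _)
    rwa [le_div_iff₀ (by positivity)] at this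
  obtain ⟨p, hp⟩ : ∃ p : ℂ → ℂ, p = deriv f := ⟨_, rfl⟩
  rw [← hp] at hne hps hmS ⊢
  have hpd : DifferentiableOn ℂ p (ball 0 1) := by rw [hp]; exact hf.deriv isOpen_ball
  obtain ⟨h, hh⟩ : ∃ h : ℂ → ℂ, h = fun z => deriv p z / p z := ⟨_, rfl⟩
  have hhd : DifferentiableOn ℂ h (ball 0 1) := by
    rw [hh]; exact (hpd.deriv isOpen_ball).div hpd hne
  have hκn : ∀ z, (1 - ‖z‖ ^ 2) * ‖h z‖ = (1 - ‖z‖ ^ 2) * ‖deriv p z‖ / ‖p z‖ := by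
    intro z; rw [hh]; beta_reduce; rw [norm_div, mul_div_assoc]
  have hκK : ∀ z ∈ ball (0 : ℂ) 1, (1 - ‖z‖ ^ 2) * ‖h z‖ ≤ K := by
    intro z hz
    rw [hκn z, div_le_iff₀ (norm_pos_iff.2 (hne z hz))]
    exact hps z hz
  have hm0 := norm_nonneg m
  have hmb : m ∈ ball (0 : ℂ) 1 := by simpa using hm
  obtain ⟨r, hr⟩ : ∃ r : ℝ, r = 1 - ‖m‖ ^ 2 := ⟨_, rfl⟩
  have hr0 : 0 < r := by rw [hr]; nlinarith
  have hr2 : r ≤ 2 * (1 - ‖m‖) := by rw [hr]; nlinarith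
  have hm1 : r * ‖h m‖ < th := by
    rw [hr, hκn m, div_lt_iff₀ (norm_pos_iff.2 (hne m hmb))]
    exact hmS
  rw [← hr]
  have hb : ∀ y ∈ closedBall m (e * r), ‖y‖ < 1 ∧ r ≤ 4 * (1 - ‖y‖ ^ 2) ∧
      1 - ‖y‖ ^ 2 ≤ 5 / 4 * r := by
    intro y hy
    have h1 : ‖y - m‖ ≤ e * r := by simpa [dist_eq_norm] using hy
    have h2 : ‖y‖ ≤ ‖m‖ + ‖y - m‖ := by simpa using norm_add_le m (y - m)
    have h3 : ‖m‖ ≤ ‖y‖ + ‖y - m‖ := by
      have := norm_sub_le y (y - m)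
      simpa using this
    have h4 : e * r ≤ r / 8 := by nlinarith
    have h5 := norm_nonneg y
    have h6 : ‖y‖ < 1 := by linarith
    refine ⟨h6, by nlinarith, ?_⟩
    have h7 : ‖m‖ ^ 2 - ‖y‖ ^ 2 ≤ 2 * ‖y - m‖ := by nlinarith [norm_nonneg (y - m)]
    linarith
  intro x hx
  obtain ⟨hx1, hx2, hx3⟩ := hb x hx
  have hxb : x ∈ ball (0 : ℂ) 1 := by simpa using hx1
  refine ⟨hx1, ?_⟩
  have hmv : ‖h x - h m‖ ≤ 256 * K / r ^ 2 * ‖x - m‖ := by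
    refine (convex_closedBall m (e * r)).norm_image_sub_le_of_norm_deriv_le (𝕜 := ℂ)
      (fun y hy => hhd.differentiableAt (isOpen_ball.mem_nhds (by simpa using (hb y hy).1)))
      (fun y hy => ?_) (mem_closedBall_self (by positivity)) hx
    obtain ⟨y1, y2, -⟩ := hb y hy
    have := deriv_bound hhd hκK (z := y) (by simpa using y1)
    rw [le_div_iff₀ (by positivity)]
    have h7 : r ^ 2 ≤ (4 * (1 - ‖y‖ ^ 2)) ^ 2 := pow_le_pow_left₀ hr0.le y2 2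
    nlinarith [norm_nonneg (deriv h y)]
  have h1 : ‖x - m‖ ≤ e * r := by simpa [dist_eq_norm] using hx
  have h2 : r * ‖h x - h m‖ ≤ 256 * K * e := by
    calc r * ‖h x - h m‖ ≤ r * (256 * K / r ^ 2 * (e * r)) :=
          mul_le_mul_of_nonneg_left (hmv.trans (mul_le_mul_of_nonneg_left h1 (by positivity))) hr0.le
      _ = 256 * K * e := by field_simp
  have h3 : ‖h x‖ ≤ ‖h m‖ + ‖h x - h m‖ := by simpa using norm_add_le (h m) (h x - h m)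
  have h4 : r * ‖h x‖ ≤ 3 / 2 * th := by nlinarith
  have h5 : (1 - ‖x‖ ^ 2) * ‖h x‖ ≤ 2 * th := by nlinarith [norm_nonneg (h x)]
  rw [hκn x, div_le_iff₀ (norm_pos_iff.2 (hne x hxb))] at h5
  exact h5

end Crest.Agent.R131
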