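import Mathlib

/-! Row 131: measure-theoretic core of the strict bound. -/

open Set Metric MeasureTheory Filter
open scoped ENNReal Topology

namespace Crest.Agent.R131.Strict

open Classical in
theorem signed_le {u : ℂ → ℝ} {D G : Set ℂ} (hD : MeasurableSet D) (hG : MeasurableSet G)
    (hGD : G ⊆ D) (hu : IntegrableOn u D) {t : ℝ} (ht0 : 0 ≤ t)
    (h : ∫⁻ z in D, ENNReal.ofReal (u z) ≤
      ∫⁻ z in D, ENNReal.ofReal (-(u z) * (if z ∈ G then t else 1))) :
    ∫ z in D, u z ≤ -(1 - t) * ∫ z in G, max (-(u z)) 0 := by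
  have hp : IntegrableOn (fun z => max (u z) 0) D := hu.pos_part
  have hn : IntegrableOn (fun z => max (-(u z)) 0) D := hu.neg_part
  have hnG : IntegrableOn (G.indicator fun z => max (-(u z)) 0) D := hn.indicator hG
  have hq : IntegrableOn (fun z => max (-(u z)) 0 - (1 - t) *
      G.indicator (fun z => max (-(u z)) 0) z) D := hn.sub (hnG.const_mul _)
  have e1 : ∫⁻ z in D, ENNReal.ofReal (u z) = ENNReal.ofReal (∫ z in D, max (u z) 0) := by
    rw [ofReal_integral_eq_lintegral_ofReal hp (ae_of_all _ fun z => le_max_right _ _)]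
    refine lintegral_congr fun z => ?_
    rcases le_total (u z) 0 with h0 | h0
    · rw [max_eq_right h0, ENNReal.ofReal_of_nonpos h0, ENNReal.ofReal_zero]
    · rw [max_eq_left h0]
  have hq0 : ∀ z, 0 ≤ max (-(u z)) 0 - (1 - t) * G.indicator (fun z => max (-(u z)) 0) z := by
    intro z
    by_cases hz : z ∈ G
    · rw [indicator_of_mem hz]
      have := mul_nonneg ht0 (le_max_right (-(u z)) 0)
      linarith
    · rw [indicator_of_notMem hz]
      have := le_max_right (-(u z)) 0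
      linarith
  have e2 : ∫⁻ z in D, ENNReal.ofReal (-(u z) * (if z ∈ G then t else 1)) =
      ENNReal.ofReal (∫ z in D, (max (-(u z)) 0 - (1 - t) *
        G.indicator (fun z => max (-(u z)) 0) z)) := by
    rw [ofReal_integral_eq_lintegral_ofReal hq (ae_of_all _ hq0)]
    refine lintegral_congr fun z => ?_
    by_cases hz : z ∈ G
    · rw [indicator_of_mem hz, if_pos hz]
      rcases le_total (-(u z)) 0 with h0 | h0
      · rw [max_eq_right h0, ENNReal.ofReal_of_nonpos (mul_nonpos_of_nonpos_of_nonneg h0 ht0)]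
        simp
      · rw [max_eq_left h0]; congr 1; ring
    · rw [indicator_of_notMem hz, if_neg hz]
      rcases le_total (-(u z)) 0 with h0 | h0
      · rw [max_eq_right h0, ENNReal.ofReal_of_nonpos (by linarith)]
        simp
      · rw [max_eq_left h0]; congr 1; ring
  rw [e1, e2, ENNReal.ofReal_le_ofReal_iff (integral_nonneg hq0)] at h
  rw [integral_sub hn (hnG.const_mul _), integral_const_mul, integral_indicator hG,
    Measure.restrict_restrict hG, inter_eq_left.2 hGD] at h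
  have e3 : ∫ z in D, u z = (∫ z in D, max (u z) 0) - ∫ z in D, max (-(u z)) 0 := by
    rw [← integral_sub hp hn]
    refine integral_congr_ae (ae_of_all _ fun z => ?_)
    rcases le_total (u z) 0 with h0 | h0
    · simp only [max_eq_right h0, max_eq_left (neg_nonneg.2 h0)]; ring
    · simp only [max_eq_left h0, max_eq_right (neg_nonpos.2 h0)]; ring
  rw [e3]
  linarith

open Classical in
/-- The algebra of the strict bound. -/
theorem core {g u : ℂ → ℝ} {G : Set ℂ} {c t C η M : ℝ} (hG : MeasurableSet G)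
    (hGD : G ⊆ ball (0 : ℂ) 1) (hg0 : ∀ z ∈ ball (0 : ℂ) 1, 0 ≤ g z)
    (hgi : IntegrableOn g (ball 0 1)) (hu : IntegrableOn u (ball 0 1))
    (hid : ∫ z in ball (0 : ℂ) 1, u z =
      4 * c * ∫ z in ball (0 : ℂ) 1, ‖z‖ * g z * (4 * c * ‖z‖ ^ 2 - 3))
    (ht0 : 0 ≤ t) (ht1 : t ≤ 1)
    (hdeg : ∫⁻ z in ball (0 : ℂ) 1, ENNReal.ofReal (u z) ≤
      ∫⁻ z in ball (0 : ℂ) 1, ENNReal.ofReal (-(u z) * (if z ∈ G then t else 1)))
    (hGu : ∀ z ∈ G, u z ≤ -(g z / 2)) (hC : 0 < C)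
    (hcov : ∫ z in ball (0 : ℂ) 1, g z ≤ C * (∫ z in G, g z) + C)
    (hη : 0 ≤ η) (hM0 : 0 ≤ M)
    (hM : ∀ z ∈ ball (0 : ℂ) 1, η ≤ 1 - ‖z‖ ^ 2 → g z ≤ M) (hc0 : 0 ≤ c) (hc1 : 4 * c ≤ 3) :
    ((1 - t) / (2 * C) - 3 * (3 - 4 * c) - 9 * η) * ∫ z in ball (0 : ℂ) 1, g z ≤
      (1 - t) / 2 + 9 * M * Real.pi := by
  have h1 := signed_le measurableSet_ball hG hGD hu ht0 hdeg
  have hgG : IntegrableOn g G := hgi.mono_set hGD
  have h2 : ∫ z in G, g z / 2 ≤ ∫ z in G, max (-(u z)) 0 := by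
    refine setIntegral_mono_on (hgG.div_const 2) ((hu.mono_set hGD).neg_part) hG fun z hz => ?_
    exact le_max_of_le_left (by linarith [hGu z hz])
  rw [integral_div] at h2
  have hvol : (volume : Measure ℂ).real (ball (0 : ℂ) 1) = Real.pi := by
    simp [Measure.real, Complex.volume_ball]
  have hci : IntegrableOn (fun _ : ℂ => M) (ball (0 : ℂ) 1) :=
    integrableOn_const measure_ball_lt_top.ne
  have hri : IntegrableOn (fun z : ℂ => ‖z‖ * g z * (4 * c * ‖z‖ ^ 2 - 3)) (ball (0 : ℂ) 1) := by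
    have hm : AEStronglyMeasurable (fun z : ℂ => ‖z‖ * (4 * c * ‖z‖ ^ 2 - 3))
        (volume.restrict (ball (0 : ℂ) 1)) := by
      have : Continuous (fun z : ℂ => ‖z‖ * (4 * c * ‖z‖ ^ 2 - 3)) := by fun_prop
      exact this.aestronglyMeasurable
    have hb : ∀ᵐ z ∂(volume.restrict (ball (0 : ℂ) 1)),
        ‖‖z‖ * (4 * c * ‖z‖ ^ 2 - 3)‖ ≤ 3 := by
      refine (ae_restrict_iff' measurableSet_ball).2 (ae_of_all _ fun z hz => ?_)
      rw [mem_ball_zero_iff] at hz
      have h0 := norm_nonneg z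
      have h3 : ‖z‖ ^ 2 ≤ 1 := by nlinarith
      have h4 : 4 * c * ‖z‖ ^ 2 ≤ 3 := by nlinarith
      have h5 : 0 ≤ 4 * c * ‖z‖ ^ 2 := by positivity
      rw [Real.norm_eq_abs, abs_le]
      constructor <;> nlinarith
    have := Integrable.bdd_mul hgi hm hb
    refine this.congr (ae_of_all _ fun z => ?_)
    simp only
    ring
  have h3 : ∫ z in ball (0 : ℂ) 1, (-((3 - 4 * c) + 3 * η) * g z - 3 * M) ≤
      ∫ z in ball (0 : ℂ) 1, ‖z‖ * g z * (4 * c * ‖z‖ ^ 2 - 3) := by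
    refine setIntegral_mono_on ((hgi.const_mul _).sub (hci.const_mul _)) hri measurableSet_ball
      fun z hz => ?_
    have hgz := hg0 z hz
    have hMz := hM z hz
    rw [mem_ball_zero_iff] at hz
    have h0 := norm_nonneg z
    have h3 : ‖z‖ ^ 2 ≤ 1 := by nlinarith
    have h4 : g z * (1 - ‖z‖ ^ 2) ≤ η * g z + M := by
      rcases le_total η (1 - ‖z‖ ^ 2) with h5 | h5
      · have h6 := hMz h5
        have h7 : g z * (1 - ‖z‖ ^ 2) ≤ g z := by nlinarith [sq_nonneg ‖z‖]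
        nlinarith [mul_nonneg hη hgz]
      · nlinarith
    have h5 : ‖z‖ * (4 * c * ‖z‖ ^ 2 - 3) = -(‖z‖ * (3 - 4 * c)) - 4 * c * ‖z‖ * (1 - ‖z‖ ^ 2) := by
      ring
    have h6 : ‖z‖ * (3 - 4 * c) ≤ 3 - 4 * c := by nlinarith
    have h7 : 4 * c * ‖z‖ ≤ 3 := by nlinarith
    have h8 : 4 * c * ‖z‖ * (1 - ‖z‖ ^ 2) ≤ 3 * (1 - ‖z‖ ^ 2) :=
      mul_le_mul_of_nonneg_right h7 (by linarith)
    have h9 : -(3 - 4 * c) - 3 * (1 - ‖z‖ ^ 2) ≤ ‖z‖ * (4 * c * ‖z‖ ^ 2 - 3) := by linarith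
    have h10 := mul_le_mul_of_nonneg_left h9 hgz
    nlinarith
  rw [integral_sub (hgi.const_mul _) (hci.const_mul _), integral_const_mul, integral_const_mul,
    setIntegral_const, hvol, smul_eq_mul] at h3
  set Z := ∫ z in ball (0 : ℂ) 1, g z with hZ
  set Y := ∫ z in G, g z with hY
  set X := ∫ z in ball (0 : ℂ) 1, ‖z‖ * g z * (4 * c * ‖z‖ ^ 2 - 3) with hX
  set N := ∫ z in G, max (-(u z)) 0 with hN
  have hZ0 : 0 ≤ Z := setIntegral_nonneg measurableSet_ball hg0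
  have hpi := Real.pi_pos
  have h4 : 4 * c * X ≤ -(1 - t) * (Y / 2) := by
    rw [← hid]
    have := mul_le_mul_of_nonneg_left h2 (sub_nonneg.2 ht1)
    linarith
  have h5 : Z / C - 1 ≤ Y := by
    rw [sub_le_iff_le_add, div_le_iff₀ hC]; linarith
  have h6 : (1 - t) * ((Z / C - 1) / 2) ≤ (1 - t) * (Y / 2) :=
    mul_le_mul_of_nonneg_left (by linarith) (sub_nonneg.2 ht1)
  have h7 : 0 ≤ ((3 - 4 * c) + 3 * η) * Z + 3 * (Real.pi * M) := by
    have : 0 ≤ (3 - 4 * c) + 3 * η := by linarith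
    positivity
  have h8 : -(3 * (((3 - 4 * c) + 3 * η) * Z + 3 * (Real.pi * M))) ≤ 4 * c * X := by
    have h9 : 4 * c * (-(((3 - 4 * c) + 3 * η) * Z + 3 * (Real.pi * M))) ≤ 4 * c * X :=
      mul_le_mul_of_nonneg_left (by linarith) (by linarith)
    have h10 := mul_le_mul_of_nonneg_right hc1 h7
    linarith
  have e : (1 - t) / (2 * C) * Z = (1 - t) * (Z / C / 2) := by field_simp
  nlinarith

end Crest.Agent.R131.Strict
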