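import Mathlib
import Crest.Agent.R131.Close2
import Crest.Agent.R131.StrictA77

/-! Row 131: the strict area bound at `s = 1` from the four blocks. -/

open Set Metric MeasureTheory
open scoped ENNReal

namespace Crest.Agent.R131.Strict31

theorem strict_of (hD : DegFlex) (hI : Ident) (hC : Dens) (hQ : Persist) (hP : PreSchw) :
    ∃ b : ℝ, 0 < b ∧ b < 1 / 4 ∧ AreaBound 1 b := by
  classical
  obtain ⟨K0, hK0⟩ := id hP
  set K : ℝ := 2 * max K0 1 with hK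
  have hKpos : 0 < K := by
    have : (1 : ℝ) ≤ max K0 1 := le_max_right _ _
    rw [hK]; linarith
  have hKb : ∀ f : ℂ → ℂ, DifferentiableOn ℂ f (ball 0 1) → InjOn f (ball 0 1) →
      ∀ z ∈ ball (0 : ℂ) 1, (1 - ‖z‖ ^ 2) * ‖deriv (deriv f) z‖ ≤ K * ‖deriv f z‖ := by
    intro f hf hi z hz
    have h1 := hK0 f hf hi z hz
    have hz1 : ‖z‖ < 1 := mem_ball_zero_iff.1 hz
    have h2 : K0 * ‖deriv f z‖ ≤ max K0 1 * ‖deriv f z‖ :=
      mul_le_mul_of_nonneg_right (le_max_left _ _) (norm_nonneg _)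
    have h3 : (1 - ‖z‖ ^ 2) ≤ 2 * (1 - ‖z‖) := by nlinarith [norm_nonneg z]
    have h4 := mul_le_mul_of_nonneg_right h3 (norm_nonneg (deriv (deriv f) z))
    rw [hK]
    nlinarith
  obtain ⟨th, κ, hth, hκ, hper⟩ := hQ K hKpos
  obtain ⟨C, hCpos, hden⟩ := hC K th hKpos hth
  set t : ℝ := Real.exp (-(1 + 2) * κ) with ht
  have ht0 : 0 < t := Real.exp_pos _
  have ht1 : t < 1 := by
    rw [ht, Real.exp_lt_one_iff]
    nlinarith
  set δ : ℝ := (1 - t) / (6 * C) with hδ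
  have hδ0 : 0 < δ := by
    rw [hδ]
    have : 0 < 1 - t := by linarith
    positivity
  set c : ℝ := 3 / 4 - min (δ / 8) (1 / 20) with hc
  have hm0 : 0 < min (δ / 8) (1 / 20) := lt_min (by linarith) (by norm_num)
  have hm1 : min (δ / 8) (1 / 20) ≤ δ / 8 := min_le_left _ _
  have hm2 : min (δ / 8) (1 / 20) ≤ 1 / 20 := min_le_right _ _
  have hc1 : 7 / 10 ≤ c := by rw [hc]; linarith
  have hc2 : c < 3 / 4 := by rw [hc]; linarith
  have hc3 : 0 < 4 * c - (1 + 2) + δ := by rw [hc]; linarith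
  have hc0 : 0 < c := by linarith
  set b : ℝ := 3 * c - 2 with hb
  have hb0 : 0 < b := by rw [hb]; linarith
  have hb1 : b < 1 / 4 := by rw [hb]; linarith
  have hbc : b - 1 = (1 + 2) * (c - 1) := by rw [hb]; ring
  refine ⟨b, hb0, hb1, areaBound_of_R ?_⟩
  refine Close.close (δ := δ) (C₀ := 0) hP one_pos hb0 hc0.le hc3 fun R f hR hf hi _ _ => ?_
  have hd : ∀ z ∈ ball (0 : ℂ) R, deriv f z ≠ 0 := fun z hz =>
    Crest.Agent.Lib.RMT.deriv_ne_zero_of_injOn isOpen_ball hf hi hz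
  have hsub : ball (0 : ℂ) 1 ⊆ ball 0 R := ball_subset_ball hR.le
  have hf1 : DifferentiableOn ℂ f (ball 0 1) := hf.mono hsub
  have hi1 : InjOn f (ball 0 1) := hi.mono hsub
  have hd1 : ∀ z ∈ ball (0 : ℂ) 1, deriv f z ≠ 0 := fun z hz => hd z (hsub hz)
  have hKf := hKb f hf1 hi1
  obtain ⟨i1, -, i3⟩ := hI R f 1 b c hR hf hd one_pos hb0 hbc
  set G0 : Set ℂ :=
    {z | z ∈ ball (0 : ℂ) 1 ∧ (1 - ‖z‖ ^ 2) * ‖deriv (deriv f) z‖ < th * ‖deriv f z‖} with hG0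
  have m1 : Measurable (deriv f) := measurable_deriv f
  have m2 : Measurable (deriv (deriv f)) := measurable_deriv _
  have mG0 : MeasurableSet G0 :=
    measurableSet_ball.inter (measurableSet_lt
      ((measurable_const.sub (measurable_norm.pow_const 2)).mul m2.norm)
      (measurable_const.mul m1.norm))
  set G : Set ℂ := G0 \ {0} with hG
  have mG : MeasurableSet G := mG0.diff (measurableSet_singleton 0)
  have hGD : G ⊆ ball (0 : ℂ) 1 := fun z hz => hz.1.1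
  have hpz : ∀ m ∈ G, _ := fun m hm =>
    hper f c hf1 hd1 hKf hc1 hc2.le m hm.1.1 (fun h => hm.2 h) hm.1.2
  have h1 := Close.deg_weight hD (κ := κ) (t := t) (G := G) hR hf hi hc0 zero_le_one hbc mG
    le_rfl (fun m hm _ _ => (hpz m hm).2)
  have h2 := Strict.signed_le measurableSet_ball mG hGD i1 ht0.le (by convert h1)
  set g : ℂ → ℝ := fun z => ‖deriv f z‖ ^ (-(1 : ℝ)) * (1 - ‖z‖ ^ 2) ^ (b - 1) with hg
  have hgi : IntegrableOn g (ball 0 1) := Close.integrableOn_mu hR hf hi 1 hb0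
  have hg0 : ∀ z ∈ ball (0 : ℂ) 1, 0 ≤ g z := fun z hz => by
    have hz1 : ‖z‖ < 1 := mem_ball_zero_iff.1 hz
    have : 0 < 1 - ‖z‖ ^ 2 := by nlinarith [norm_nonneg z]
    simp only [hg]
    positivity
  have hGu : ∀ z ∈ G, g z / 2 ≤ max (-(Wt f 1 b z * Jd f c z)) 0 := fun z hz => by
    refine le_max_of_le_left ?_
    have hz1 : ‖z‖ < 1 := mem_ball_zero_iff.1 hz.1.1
    have hz0 : 0 < ‖z‖ := norm_pos_iff.2 (fun h => hz.2 h)
    have hJ := (hpz z hz).1
    have hw : g z ≤ Wt f 1 b z := by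
      have h3 : (1 : ℝ) ≤ ‖z‖ ^ ((1 : ℝ) - 2) :=
        Real.one_le_rpow_of_pos_of_le_one_of_nonpos hz0 hz1.le (by norm_num)
      have h4 : Wt f 1 b z = ‖z‖ ^ ((1 : ℝ) - 2) * g z := by
        simp only [hg, Wt]; ring
      rw [h4]
      nlinarith [hg0 z hz.1.1]
    nlinarith [hg0 z hz.1.1]
  have hgG : IntegrableOn g G := hgi.mono_set hGD
  have h3 : ∫ z in G, g z / 2 ≤ ∫ z in G, max (-(Wt f 1 b z * Jd f c z)) 0 :=
    setIntegral_mono_on (hgG.div_const 2) ((i1.mono_set hGD).neg_part) mG hGu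
  rw [integral_div] at h3
  have h4 := hden R f b hR hf hd hKf hb0 (by linarith)
  have hae : G0 =ᵐ[volume] G := by
    rw [hG]
    exact (diff_null_ae_eq_self (measure_singleton 0)).symm
  rw [setLIntegral_congr hae] at h4
  have e1 : ∫⁻ z in ball (0 : ℂ) 1, ENNReal.ofReal (g z) =
      ENNReal.ofReal (∫ z in ball (0 : ℂ) 1, g z) :=
    (ofReal_integral_eq_lintegral_ofReal hgi
      ((ae_restrict_iff' measurableSet_ball).2 (ae_of_all _ hg0))).symm
  have e2 : ∫⁻ z in G, ENNReal.ofReal (g z) = ENNReal.ofReal (∫ z in G, g z) :=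
    (ofReal_integral_eq_lintegral_ofReal hgG
      ((ae_restrict_iff' mG).2 (ae_of_all _ fun z hz => hg0 z (hGD hz)))).symm
  have hY0 : 0 ≤ ∫ z in G, g z := setIntegral_nonneg mG fun z hz => hg0 z (hGD hz)
  have h5 : ∫ z in ball (0 : ℂ) 1, g z ≤ C * ∫ z in G, g z := by
    have h6 : ENNReal.ofReal (∫ z in ball (0 : ℂ) 1, g z) ≤
        ENNReal.ofReal C * ENNReal.ofReal (∫ z in G, g z) := by
      rw [← e1, ← e2]; exact h4
    rw [← ENNReal.ofReal_mul hCpos.le] at h6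
    exact (ENNReal.ofReal_le_ofReal_iff (by positivity)).1 h6
  have hZ0 : 0 ≤ ∫ z in ball (0 : ℂ) 1, g z := setIntegral_nonneg measurableSet_ball hg0
  rw [i3] at h2
  set Z := ∫ z in ball (0 : ℂ) 1, g z with hZ
  set Y := ∫ z in G, g z with hY
  set N := ∫ z in G, max (-(Wt f 1 b z * Jd f c z)) 0 with hN
  set X := ∫ z in ball (0 : ℂ) 1, ‖z‖ ^ (1 : ℝ) * (1 - ‖z‖ ^ 2) ^ (b - 1) *
    (4 * c * ‖z‖ ^ 2 - (1 + 2)) * ‖deriv f z‖ ^ (-(1 : ℝ)) with hX
  show X ≤ -δ * Z + 0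
  have h7 : 4 * c * X ≤ -(1 - t) * (Y / 2) := by
    have h8 := mul_le_mul_of_nonneg_left h3 (sub_nonneg.2 ht1.le)
    have h9 : 4 * c / 1 ^ 2 * X = 4 * c * X := by ring
    linarith
  have h10 : 3 * (δ * Z) ≤ (1 - t) * (Y / 2) := by
    have h11 : δ * Z ≤ δ * (C * Y) := mul_le_mul_of_nonneg_left h5 hδ0.le
    have h12 : δ * (C * Y) = (1 - t) * Y / 6 := by rw [hδ]; field_simp
    linarith
  have h13 : 0 ≤ δ * Z := by positivity
  have h14 : 4 * c * X ≤ 4 * c * (-(δ * Z)) := by nlinarith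
  have h15 := le_of_mul_le_mul_left h14 (by linarith)
  linarith

end Crest.Agent.R131.Strict31
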