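import Crest.Agent.R131.Defs
import Crest.Agent.R131.Asm2
import Crest.Agent.R131.Gron
import Crest.Agent.R131.StrictA77

/-! Row 131: the strict bound at `t = -1` from the four blocks. -/

open Set Metric MeasureTheory Filter
open scoped ENNReal Topology

namespace Crest.Agent.R131.Strict

theorem meas_Jd (f : ℂ → ℂ) (c : ℝ) : Measurable (Jd f c) := by
  have h1 : Measurable (deriv f) := measurable_deriv f
  have h2 : Measurable (deriv (deriv f)) := measurable_deriv _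
  unfold Jd
  fun_prop

theorem meas_qv (f : ℂ → ℂ) (c : ℝ) : Measurable (qv f c) := by
  have h1 : Measurable (deriv f) := measurable_deriv f
  unfold qv
  fun_prop

theorem qv_pos {f : ℂ → ℂ} {c : ℝ} {z : ℂ} (hc : 0 < c) (hz : z ∈ ball (0 : ℂ) 1) (hz0 : z ≠ 0)
    (hd : deriv f z ≠ 0) : 0 < qv f c z := by
  rw [mem_ball_zero_iff] at hz
  have h1 : 0 < ‖z‖ := norm_pos_iff.2 hz0
  have h2 : 0 < 1 - ‖z‖ ^ 2 := by nlinarith
  have h3 : 0 < ‖deriv f z‖ := norm_pos_iff.2 hd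
  unfold qv
  positivity

theorem weight_eq {f : ℂ → ℂ} {s b c : ℝ} {z : ℂ} (hc : 0 < c) (hz : z ∈ ball (0 : ℂ) 1)
    (hz0 : z ≠ 0) (hd : deriv f z ≠ 0) (hb : b - 1 = (s + 2) * (c - 1)) :
    ‖deriv f z‖ ^ 2 / (4 * c ^ 2 * ‖z‖ ^ 4) * (qv f c z ^ (-(s + 2)) / (2 * c) ^ s) =
      Wt f s b z := by
  rw [mem_ball_zero_iff] at hz
  have h1 : 0 < ‖z‖ := norm_pos_iff.2 hz0
  have h2 : 0 < 1 - ‖z‖ ^ 2 := by nlinarith
  have h3 : 0 < ‖deriv f z‖ := norm_pos_iff.2 hd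
  have h4 : 0 < 2 * c := by linarith
  unfold qv Wt
  set r := ‖z‖ with hr
  set p := ‖deriv f z‖ with hp
  set ρ := 1 - r ^ 2 with hρ
  rw [Real.div_rpow (by positivity) (by positivity), Real.mul_rpow h3.le (by positivity),
    Real.mul_rpow h4.le h1.le, ← Real.rpow_mul h2.le]
  have e1 : (1 - c) * -(s + 2) = b - 1 := by rw [hb]; ring
  have e2 : p ^ (-(s + 2)) = p ^ (-s) / p ^ 2 := by
    rw [show -(s + 2) = -s - (2 : ℕ) by push_cast; ring, Real.rpow_sub_natCast h3.ne']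
  have e3 : r ^ (-(s + 2)) = (r ^ (s - 2) * r ^ 4)⁻¹ := by
    rw [Real.rpow_neg h1.le, show s + 2 = (s - 2) + (4 : ℕ) by push_cast; ring,
      Real.rpow_add_natCast h1.ne']
  have e4 : (2 * c) ^ (-(s + 2)) = ((2 * c) ^ s * (2 * c) ^ 2)⁻¹ := by
    rw [Real.rpow_neg h4.le, show s + 2 = s + (2 : ℕ) by push_cast; ring,
      Real.rpow_add_natCast h4.ne']
  rw [e1, e2, e3, e4]
  have h5 : 0 < r ^ (s - 2) := Real.rpow_pos_of_pos h1 _
  have h6 : 0 < (2 * c) ^ s := Real.rpow_pos_of_pos h4 _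
  field_simp
  ring

theorem Wt_nonneg (f : ℂ → ℂ) (s b : ℝ) {z : ℂ} (hz : z ∈ ball (0 : ℂ) 1) : 0 ≤ Wt f s b z := by
  rw [mem_ball_zero_iff] at hz
  have h1 := norm_nonneg z
  have h2 : 0 ≤ 1 - ‖z‖ ^ 2 := by nlinarith
  unfold Wt
  positivity

open Classical in
/-- The Morse inequality with a gain on a good set. -/
theorem deg_good (hD : DegFlex) {R : ℝ} {f : ℂ → ℂ} {s b c kap : ℝ} {G : Set ℂ} (hR : 1 < R)
    (hf : DifferentiableOn ℂ f (ball 0 R)) (hi : InjOn f (ball 0 R))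
    (hne : ∀ z ∈ ball (0 : ℂ) 1, deriv f z ≠ 0) (hc : 0 < c) (hs : 0 < s)
    (hb : b - 1 = (s + 2) * (c - 1)) (hG : MeasurableSet G)
    (hP : ∀ m ∈ G, m ∈ ball (0 : ℂ) 1 → m ≠ 0 → ∀ p ∈ ball (0 : ℂ) 1, p ≠ 0 → 0 < Jd f c p →
      Mm f c m = Mm f c p →
      JoinedIn {z | z ∈ ball (0 : ℂ) 1 ∧ Fw f c (Mm f c p) z ≤ Fw f c (Mm f c p) p} p m →
      Real.exp kap * qv f c m ≤ qv f c p) :
    ∫⁻ z in ball (0 : ℂ) 1, ENNReal.ofReal (Wt f s b z * Jd f c z) ≤
      ∫⁻ z in ball (0 : ℂ) 1, ENNReal.ofReal (-(Wt f s b z * Jd f c z) *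
        (if z ∈ G then Real.exp (-((s + 2) * kap)) else 1)) := by
  have hq := meas_qv f c
  have hJ := meas_Jd f c
  have h2c : 0 < (2 * c) ^ s := Real.rpow_pos_of_pos (by linarith) _
  have hgm : Measurable fun z => ENNReal.ofReal (qv f c z ^ (-(s + 2)) / (2 * c) ^ s) := by
    fun_prop
  have hhm : Measurable fun z => ENNReal.ofReal (qv f c z ^ (-(s + 2)) / (2 * c) ^ s *
      (if z ∈ G then Real.exp (-((s + 2) * kap)) else 1)) := by
    refine Measurable.ennreal_ofReal (Measurable.mul (by fun_prop) ?_)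
    exact Measurable.ite hG measurable_const measurable_const
  have key := hD R f c hR hf hi hc _ _ hgm hhm (by
    intro p hp m hm hp0 hm0 hJp hJm hM hqv hj
    refine ENNReal.ofReal_le_ofReal ?_
    have hqm := qv_pos hc hm hm0 (hne m hm)
    by_cases hmG : m ∈ G
    · rw [if_pos hmG]
      have h1 := hP m hmG hm hm0 p hp hp0 hJp hM hj
      have h2 : qv f c p ^ (-(s + 2)) ≤ (Real.exp kap * qv f c m) ^ (-(s + 2)) :=
        Real.rpow_le_rpow_of_nonpos (by positivity) h1 (by linarith)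
      rw [Real.mul_rpow (Real.exp_pos _).le hqm.le, ← Real.exp_mul] at h2
      have e : kap * -(s + 2) = -((s + 2) * kap) := by ring
      rw [e] at h2
      rw [div_mul_eq_mul_div]
      exact div_le_div_of_nonneg_right (by linarith) h2c.le
    · rw [if_neg hmG, mul_one]
      exact div_le_div_of_nonneg_right
        (Real.rpow_le_rpow_of_nonpos hqm hqv.le (by linarith)) h2c.le)
  have hSp : MeasurableSet {z | z ∈ ball (0 : ℂ) 1 ∧ z ≠ 0 ∧ 0 < Jd f c z} :=
    measurableSet_ball.inter ((measurableSet_singleton (0 : ℂ)).compl.inter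
      (measurableSet_lt measurable_const hJ))
  have hSm : MeasurableSet {z | z ∈ ball (0 : ℂ) 1 ∧ z ≠ 0 ∧ Jd f c z < 0} :=
    measurableSet_ball.inter ((measurableSet_singleton (0 : ℂ)).compl.inter
      (measurableSet_lt hJ measurable_const))
  refine le_trans ?_ (key.trans ?_)
  · rw [← lintegral_indicator measurableSet_ball, ← lintegral_indicator hSp]
    refine lintegral_mono_ae ?_
    have h0 : ∀ᵐ z : ℂ, z ≠ 0 := by
      rw [ae_iff]; simp
    filter_upwards [h0] with z hz0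
    by_cases hz : z ∈ ball (0 : ℂ) 1
    · rw [indicator_of_mem hz]
      by_cases hJz : 0 < Jd f c z
      · rw [indicator_of_mem (show z ∈ {z | z ∈ ball (0 : ℂ) 1 ∧ z ≠ 0 ∧ 0 < Jd f c z} from
          ⟨hz, hz0, hJz⟩), ← ENNReal.ofReal_mul (by positivity)]
        refine ENNReal.ofReal_le_ofReal (le_of_eq ?_)
        rw [← weight_eq hc hz hz0 (hne z hz) hb, abs_of_pos hJz]
        ring
      · rw [ENNReal.ofReal_of_nonpos
          (mul_nonpos_of_nonneg_of_nonpos (Wt_nonneg f s b hz) (not_lt.1 hJz))]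
        exact zero_le
    · rw [indicator_of_notMem hz]
      exact zero_le
  · refine le_trans (le_of_eq ?_) (lintegral_mono_set (fun z hz => hz.1 :
      {z | z ∈ ball (0 : ℂ) 1 ∧ z ≠ 0 ∧ Jd f c z < 0} ⊆ ball (0 : ℂ) 1))
    refine setLIntegral_congr_fun hSm fun z hz => ?_
    obtain ⟨hz, hz0, hJz⟩ := hz
    rw [← ENNReal.ofReal_mul (by positivity)]
    congr 1
    rw [← weight_eq hc hz hz0 (hne z hz) hb, abs_of_neg hJz]
    ring

theorem g_integrable {R : ℝ} {f : ℂ → ℂ} {b : ℝ} (hR : 1 < R)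
    (hf : DifferentiableOn ℂ f (ball 0 R)) (hne : ∀ z ∈ ball (0 : ℂ) R, deriv f z ≠ 0)
    (hb0 : 0 < b) (hb1 : b ≤ 1) :
    IntegrableOn (fun z : ℂ => ‖deriv f z‖ ^ (-(1 : ℝ)) * (1 - ‖z‖ ^ 2) ^ (b - 1)) (ball 0 1) := by
  have hsub : closedBall (0 : ℂ) 1 ⊆ ball 0 R := closedBall_subset_ball hR
  have hc : ContinuousOn (fun z => ‖deriv f z‖ ^ (-(1 : ℝ))) (closedBall (0 : ℂ) 1) := by
    refine ContinuousOn.rpow_const ?_ fun z hz => Or.inl (norm_ne_zero_iff.2 (hne z (hsub hz)))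
    exact ((hf.deriv isOpen_ball).continuousOn.mono hsub).norm
  obtain ⟨B, hB⟩ := (isCompact_closedBall (0 : ℂ) 1).exists_bound_of_continuousOn hc
  have hw : IntegrableOn (fun z : ℂ => (1 - ‖z‖ ^ 2) ^ (b - 1)) (ball 0 1) := by
    refine ⟨(by fun_prop : Measurable fun z : ℂ => (1 - ‖z‖ ^ 2) ^ (b - 1)).aestronglyMeasurable,
      ?_⟩
    have h1 := asm_weight_fin (θ := 1 - b) (by linarith) (by linarith)
    rw [hasFiniteIntegral_iff_ofReal]
    · simpa only [neg_sub] using h1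
    · refine (ae_restrict_iff' measurableSet_ball).2 (ae_of_all _ fun z hz => ?_)
      rw [mem_ball_zero_iff] at hz
      have := norm_nonneg z
      exact Real.rpow_nonneg (by nlinarith) _
  have h1 : Measurable (deriv f) := measurable_deriv f
  refine Integrable.bdd_mul (c := B) hw
    (by fun_prop : Measurable fun z : ℂ => ‖deriv f z‖ ^ (-(1 : ℝ))).aestronglyMeasurable ?_
  exact (ae_restrict_iff' measurableSet_ball).2
    (ae_of_all _ fun z hz => hB z (ball_subset_closedBall hz))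

/-- The strict bound. -/
theorem strict (hD : DegFlex) (hI : Ident) (hDe : Dens) (hPe : Persist) (hP : PreSchw) :
    ∃ b : ℝ, 0 < b ∧ b < 1 / 4 ∧ AreaBoundR 1 b := by
  classical
  obtain ⟨K0, hK0⟩ := hP
  set K : ℝ := 2 * max K0 1 with hKdef
  have hK : 0 < K := by have := le_max_right K0 1; linarith
  obtain ⟨th, kap, hth, hkap, hPe⟩ := hPe K hK
  obtain ⟨C, hC, hDe⟩ := hDe K th hK hth
  set t : ℝ := Real.exp (-((1 + 2) * kap)) with ht
  have ht0 : 0 < t := Real.exp_pos _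
  have ht1 : t < 1 := by
    rw [ht, Real.exp_lt_one_iff]; linarith
  set θ : ℝ := (1 - t) / (2 * C) with hθ
  have hθ0 : 0 < θ := div_pos (by linarith) (by linarith)
  set ε : ℝ := min (θ / 16) (1 / 10) with hε
  have hε0 : 0 < ε := lt_min (by linarith) (by norm_num)
  have hε1 : ε ≤ θ / 16 := min_le_left _ _
  have hε2 : ε ≤ 1 / 10 := min_le_right _ _
  set η : ℝ := min (θ / 36) 1 with hη
  have hη0 : 0 < η := lt_min (by linarith) (by norm_num)
  have hη1 : η ≤ θ / 36 := min_le_left _ _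
  have hη2 : η ≤ 1 := min_le_right _ _
  set b : ℝ := 1 / 4 - ε with hb
  set c : ℝ := (b + 2) / 3 with hc
  set M : ℝ := Real.exp (K / η) * η ^ (b - 1) with hM
  have hM0 : 0 ≤ M := by positivity
  refine ⟨b, by linarith, by linarith, ((1 - t) / 2 + 9 * M * Real.pi) / (θ / 2), ?_⟩
  intro R f hR hf hi h0 h1
  have hsub : ball (0 : ℂ) 1 ⊆ ball 0 R := ball_subset_ball hR.le
  have hf1 : DifferentiableOn ℂ f (ball 0 1) := hf.mono hsub
  have hi1 : InjOn f (ball 0 1) := hi.mono hsub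
  have hne : ∀ z ∈ ball (0 : ℂ) R, deriv f z ≠ 0 := fun z hz =>
    Crest.Agent.Lib.RMT.deriv_ne_zero_of_injOn isOpen_ball hf hi hz
  have hne1 : ∀ z ∈ ball (0 : ℂ) 1, deriv f z ≠ 0 := fun z hz => hne z (hsub hz)
  have hKf : ∀ z ∈ ball (0 : ℂ) 1,
      (1 - ‖z‖ ^ 2) * ‖deriv (deriv f) z‖ ≤ K * ‖deriv f z‖ := by
    intro z hz
    have h2 := hK0 f hf1 hi1 z hz
    rw [mem_ball_zero_iff] at hz
    have h3 := norm_nonneg z
    have h4 := norm_nonneg (deriv (deriv f) z)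
    have h5 := norm_nonneg (deriv f z)
    have h6 : K0 * ‖deriv f z‖ ≤ max K0 1 * ‖deriv f z‖ :=
      mul_le_mul_of_nonneg_right (le_max_left _ _) h5
    have h7 : (1 - ‖z‖ ^ 2) * ‖deriv (deriv f) z‖ ≤ 2 * ((1 - ‖z‖) * ‖deriv (deriv f) z‖) := by
      have h8 : 0 ≤ (1 - ‖z‖) * ‖deriv (deriv f) z‖ := mul_nonneg (by linarith) h4
      nlinarith
    rw [hKdef]
    linarith
  have hbc : b - 1 = (1 + 2) * (c - 1) := by rw [hc]; ring
  have hc0 : 0 < c := by rw [hc]; linarith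
  have hc7 : 7 / 10 ≤ c := by rw [hc]; linarith
  have hc8 : c ≤ 3 / 4 := by rw [hc]; linarith
  set g : ℂ → ℝ := fun z => ‖deriv f z‖ ^ (-(1 : ℝ)) * (1 - ‖z‖ ^ 2) ^ (b - 1) with hg
  have hgi : IntegrableOn g (ball 0 1) := g_integrable hR hf hne (by linarith) (by linarith)
  have hg0 : ∀ z ∈ ball (0 : ℂ) 1, 0 ≤ g z := by
    intro z hz
    rw [mem_ball_zero_iff] at hz
    have h3 := norm_nonneg z
    have h4 : 0 ≤ 1 - ‖z‖ ^ 2 := by nlinarith
    simp only [hg]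
    positivity
  set G0 : Set ℂ := {z | z ∈ ball (0 : ℂ) 1 ∧
    (1 - ‖z‖ ^ 2) * ‖deriv (deriv f) z‖ < th * ‖deriv f z‖} with hG0
  have hG0m : MeasurableSet G0 := by
    have h2 : Measurable (deriv f) := measurable_deriv f
    have h3 : Measurable (deriv (deriv f)) := measurable_deriv _
    have h4 : Measurable fun z : ℂ => (1 - ‖z‖ ^ 2) * ‖deriv (deriv f) z‖ := by fun_prop
    have h5 : Measurable fun z : ℂ => th * ‖deriv f z‖ := by fun_prop
    exact measurableSet_ball.inter (measurableSet_lt h4 h5)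
  set G : Set ℂ := G0 \ {0} with hG
  have hGm : MeasurableSet G := hG0m.diff (measurableSet_singleton _)
  have hGD : G ⊆ ball (0 : ℂ) 1 := fun z hz => hz.1.1
  obtain ⟨hu, -, hid⟩ := hI R f 1 b c hR hf hne one_pos (by linarith) hbc
  have hPf := hPe f c hf1 hne1 hKf hc7 hc8
  have hdeg := deg_good hD (s := 1) (b := b) (kap := kap) (G := G) hR hf hi hne1 hc0 one_pos hbc
    hGm (fun m hm hm1 hm0 p hp hp0 hJ hMm hj => (hPf m hm1 hm0 hm.1.2).2 p hp hp0 hJ hMm hj)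
  have hid' : ∫ z in ball (0 : ℂ) 1, Wt f 1 b z * Jd f c z =
      4 * c * ∫ z in ball (0 : ℂ) 1, ‖z‖ * g z * (4 * c * ‖z‖ ^ 2 - 3) := by
    rw [hid, one_pow, div_one]
    congr 1
    refine integral_congr_ae (ae_of_all _ fun z => ?_)
    simp only [hg, Real.rpow_one]
    ring
  have hGu : ∀ z ∈ G, Wt f 1 b z * Jd f c z ≤ -(g z / 2) := by
    intro z hz
    have hz0 : z ≠ 0 := hz.2
    have hz1 := hGD hz
    have h2 := (hPf z hz1 hz0 hz.1.2).1
    have h3 := hg0 z hz1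
    have h4 : g z ≤ Wt f 1 b z := by
      have h5 : (1 : ℝ) ≤ ‖z‖ ^ ((1 : ℝ) - 2) :=
        Real.one_le_rpow_of_pos_of_le_one_of_nonpos (norm_pos_iff.2 hz0)
          (mem_ball_zero_iff.1 hz1).le (by norm_num)
      have h6 : Wt f 1 b z = ‖z‖ ^ ((1 : ℝ) - 2) * g z := by
        simp only [Wt, hg]; ring
      rw [h6]
      nlinarith
    nlinarith
  have hball : ∫⁻ z in ball (0 : ℂ) 1, ENNReal.ofReal (g z) =
      ENNReal.ofReal (∫ z in ball (0 : ℂ) 1, g z) :=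
    (ofReal_integral_eq_lintegral_ofReal hgi
      ((ae_restrict_iff' measurableSet_ball).2 (ae_of_all _ hg0))).symm
  have hcov : ∫ z in ball (0 : ℂ) 1, g z ≤ C * (∫ z in G, g z) + C := by
    have h2 := hDe R f b hR hf hne hKf (by linarith) (by linarith)
    have h3 : ∫⁻ z in G0, ENNReal.ofReal (g z) = ENNReal.ofReal (∫ z in G, g z) := by
      rw [ofReal_integral_eq_lintegral_ofReal (hgi.mono_set hGD)
        ((ae_restrict_iff' hGm).2 (ae_of_all _ fun z hz => hg0 z (hGD hz)))]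
      exact setLIntegral_congr (sdiff_null_ae_eq_self (measure_singleton (0 : ℂ))).symm
    have h4 : 0 ≤ ∫ z in G, g z := setIntegral_nonneg hGm fun z hz => hg0 z (hGD hz)
    change ∫⁻ z in ball (0 : ℂ) 1, ENNReal.ofReal (g z) ≤
      ENNReal.ofReal C * ∫⁻ z in G0, ENNReal.ofReal (g z) at h2
    rw [hball, h3, ← ENNReal.ofReal_mul hC.le,
      ENNReal.ofReal_le_ofReal_iff (by positivity)] at h2
    linarith
  have hMb : ∀ z ∈ ball (0 : ℂ) 1, η ≤ 1 - ‖z‖ ^ 2 → g z ≤ M := by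
    intro z hz hzη
    have h2 := Gron.gron K f hf1 hKf hK.le z 0 η hη0 hzη (by simpa using hη2)
    rw [h1, norm_one, zero_sub, norm_neg] at h2
    have h3 : 0 < ‖deriv f z‖ := norm_pos_iff.2 (hne1 z hz)
    have h4 : Real.exp (K * ‖z‖ / η) ≤ Real.exp (K / η) := by
      refine Real.exp_le_exp.2 (div_le_div_of_nonneg_right ?_ hη0.le)
      have := (mem_ball_zero_iff.1 hz).le
      nlinarith
    have h5 : ‖deriv f z‖ ^ (-(1 : ℝ)) ≤ Real.exp (K / η) := by
      rw [Real.rpow_neg_one, inv_le_iff_one_le_mul₀ h3]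
      nlinarith
    have h6 : (1 - ‖z‖ ^ 2) ^ (b - 1) ≤ η ^ (b - 1) :=
      Real.rpow_le_rpow_of_nonpos hη0 hzη (by linarith)
    exact mul_le_mul h5 h6 (Real.rpow_nonneg (by linarith) _) (Real.exp_pos _).le
  have hcore := core hGm hGD hg0 hgi hu hid' ht0.le ht1.le hdeg hGu hC hcov hη0.le hM0 hMb hc0.le
    (by linarith)
  change ∫⁻ z in ball (0 : ℂ) 1, ENNReal.ofReal (g z) ≤ _
  rw [hball]
  refine ENNReal.ofReal_le_ofReal ?_
  rw [le_div_iff₀ (by linarith)]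
  have hZ0 : 0 ≤ ∫ z in ball (0 : ℂ) 1, g z := setIntegral_nonneg measurableSet_ball hg0
  have h7 : θ / 2 ≤ θ - 3 * (3 - 4 * c) - 9 * η := by
    have : 3 * (3 - 4 * c) = 4 * ε := by rw [hc, hb]; ring
    linarith
  have h8 := mul_le_mul_of_nonneg_right h7 hZ0
  linarith

end Crest.Agent.R131.Strict
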